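import Mathlib
import Crest.Prelude.Def_Torus3
import Crest.Agent.R081.SmLift

-- ▼ part R081/ShearMP
section

/-!
# Shears of the three-torus preserve the Haar measure

`T x = x + φ (β x)` with `φ : UnitAddCircle →+ T3` continuous and `β (x + φ s) = β x`.
-/

set_option autoImplicit false

namespace Crest.Agent.R081.Shear

open MeasureTheory Crest.AnalysisR.Torus3
open scoped ContDiff ENNReal

instance instProbUnitAddCircle : IsProbabilityMeasure (volume : Measure UnitAddCircle) :=
  ⟨UnitAddCircle.measure_univ⟩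

instance instProbT3 : IsProbabilityMeasure (volume : Measure T3) :=
  inferInstanceAs (IsProbabilityMeasure (Measure.pi fun _ => (volume : Measure UnitAddCircle)))

/-- General shear lemma on a commutative group with an invariant probability measure. -/
theorem shear_lintegral {X S : Type*} [AddCommGroup X] [MeasurableSpace X] [MeasurableAdd₂ X]
    (μ : Measure X) [IsProbabilityMeasure μ] [μ.IsAddRightInvariant]
    [AddCommGroup S] [MeasurableSpace S] [MeasurableAdd₂ S]
    (ν : Measure S) [IsProbabilityMeasure ν] [ν.IsAddRightInvariant]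
    (φ : S →+ X) (hφ : Measurable φ) (β : X → S) (hβ : Measurable β)
    (hinv : ∀ x s, β (x + φ s) = β x) (f : X → ℝ≥0∞) (hf : Measurable f) :
    ∫⁻ x, f (x + φ (β x)) ∂μ = ∫⁻ x, f x ∂μ := by
  have hT : Measurable fun x => x + φ (β x) := measurable_id.add (hφ.comp hβ)
  -- averaging over translations
  have h1 : ∀ s : S, ∫⁻ x, f (x + φ s + φ (β x)) ∂μ = ∫⁻ x, f (x + φ (β x)) ∂μ := by
    intro s
    have := lintegral_add_right_eq_self (μ := μ) (fun x => f (x + φ (β x))) (φ s)
    rw [← this]
    refine lintegral_congr fun x => ?_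
    rw [hinv]
  have h2 : ∫⁻ x, f (x + φ (β x)) ∂μ = ∫⁻ s, ∫⁻ x, f (x + φ s + φ (β x)) ∂μ ∂ν := by
    simp_rw [h1]
    simp
  have hmeas : Measurable (Function.uncurry fun (s : S) (x : X) => f (x + φ s + φ (β x))) := by
    refine hf.comp ?_
    exact (measurable_snd.add (hφ.comp measurable_fst)).add (hφ.comp (hβ.comp measurable_snd))
  rw [h2, lintegral_lintegral_swap hmeas.aemeasurable]
  have h3 : ∀ x : X, ∫⁻ s, f (x + φ s + φ (β x)) ∂ν = ∫⁻ s, f (x + φ s) ∂ν := by
    intro x
    have := lintegral_add_right_eq_self (μ := ν) (fun s => f (x + φ s)) (β x)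
    rw [← this]
    refine lintegral_congr fun s => ?_
    rw [map_add, add_assoc]
  simp_rw [h3]
  have hmeas2 : Measurable (Function.uncurry fun (x : X) (s : S) => f (x + φ s)) :=
    hf.comp (measurable_fst.add (hφ.comp measurable_snd))
  rw [lintegral_lintegral_swap hmeas2.aemeasurable]
  have h4 : ∀ s : S, ∫⁻ x, f (x + φ s) ∂μ = ∫⁻ x, f x ∂μ :=
    fun s => lintegral_add_right_eq_self (μ := μ) f (φ s)
  simp_rw [h4]
  simp

theorem shear_mp {X S : Type*} [AddCommGroup X] [MeasurableSpace X] [MeasurableAdd₂ X]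
    (μ : Measure X) [IsProbabilityMeasure μ] [μ.IsAddRightInvariant]
    [AddCommGroup S] [MeasurableSpace S] [MeasurableAdd₂ S]
    (ν : Measure S) [IsProbabilityMeasure ν] [ν.IsAddRightInvariant]
    (φ : S →+ X) (hφ : Measurable φ) (β : X → S) (hβ : Measurable β)
    (hinv : ∀ x s, β (x + φ s) = β x) :
    MeasurePreserving (fun x => x + φ (β x)) μ μ := by
  have hT : Measurable fun x => x + φ (β x) := measurable_id.add (hφ.comp hβ)
  refine ⟨hT, ?_⟩
  refine Measure.ext_of_lintegral _ fun f hf => ?_
  rw [lintegral_map hf hT]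
  exact shear_lintegral μ ν φ hφ β hβ hinv f hf

/-- Translations preserve the measure of the three-torus. -/
theorem translate_mp (c : T3) :
    MeasurePreserving (fun x : T3 => x + c) volume volume :=
  measurePreserving_add_right volume c

/-- The one-parameter subgroup of direction `w`. -/
def dir (w : Fin 3 → ℤ) : UnitAddCircle →+ T3 where
  toFun s i := w i • s
  map_zero' := by funext i; simp
  map_add' s t := by funext i; simp [smul_add]

@[simp] theorem dir_apply (w : Fin 3 → ℤ) (s : UnitAddCircle) (i : Fin 3) :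
    dir w s i = w i • s := rfl

theorem continuous_dir (w : Fin 3 → ℤ) : Continuous (dir w) := by
  refine continuous_pi fun i => ?_
  exact (continuous_zsmul (w i))

/-- The standard representative in `[0,1)^3`. -/
noncomputable def rep (t : T3) : Fin 3 → ℝ := fun i => ((AddCircle.equivIco 1 0 (t i)) : ℝ)

theorem proj_rep (t : T3) : proj (rep t) = t := by
  funext i
  simp only [proj, rep]
  exact AddCircle.coe_equivIco

theorem measurable_rep : Measurable rep := by
  refine measurable_pi_lambda _ fun i => ?_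
  have h := (AddCircle.measurableEquivIco (1 : ℝ) 0).measurable
  exact measurable_subtype_coe.comp (h.comp (measurable_pi_apply i))

theorem proj_eq_iff {x y : Fin 3 → ℝ} :
    proj x = proj y ↔ ∃ m : Fin 3 → ℤ, ∀ i, y i = x i + m i := by
  constructor
  · intro h
    have h' : ∀ i, ∃ m : ℤ, y i = x i + m := by
      intro i
      have hi : ((x i : ℝ) : UnitAddCircle) = ((y i : ℝ) : UnitAddCircle) := congrFun h i
      have h2 : ((y i - x i : ℝ) : UnitAddCircle) = 0 := by
        rw [AddCircle.coe_sub, hi, sub_self]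
      rw [AddCircle.coe_eq_zero_iff] at h2
      obtain ⟨n, hn⟩ := h2
      refine ⟨n, ?_⟩
      simp at hn
      linarith
    choose m hm using h'
    exact ⟨m, hm⟩
  · rintro ⟨m, hm⟩
    funext i
    have h0 : (((m i : ℤ) : ℝ) : UnitAddCircle) = 0 := by
      rw [AddCircle.coe_eq_zero_iff]
      exact ⟨m i, by simp⟩
    simp only [proj, hm i, AddCircle.coe_add, h0, add_zero]

theorem coe_int_eq_zero (k : ℤ) : ((k : ℝ) : UnitAddCircle) = 0 := by
  rw [AddCircle.coe_eq_zero_iff]
  exact ⟨k, by simp⟩

/-- Data of a smooth shear: integer direction `w`, amplitude `b : ℝ³ → ℝ`, which is `ℤ³`-periodic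
modulo `1` and invariant in the direction `w`. -/
structure ShearData where
  w : Fin 3 → ℤ
  b : (Fin 3 → ℝ) → ℝ
  smooth : ContDiff ℝ ∞ b
  per : ∀ (m : Fin 3 → ℤ) (x : Fin 3 → ℝ), ∃ k : ℤ, b (fun i => x i + m i) = b x + k
  inv : ∀ (x : Fin 3 → ℝ) (s : ℝ), b (fun i => x i + s * w i) = b x

namespace ShearData

variable (D : ShearData)

/-- The inverse shear. -/
noncomputable def symm : ShearData where
  w := D.w
  b := fun x => - D.b x
  smooth := D.smooth.neg
  per := by
    intro m x
    obtain ⟨k, hk⟩ := D.per m x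
    exact ⟨-k, by rw [hk]; push_cast; ring⟩
  inv := by
    intro x s
    rw [D.inv x s]

/-- The lift of the shear. -/
noncomputable def lift (x : Fin 3 → ℝ) : Fin 3 → ℝ := fun i => x i + D.b x * D.w i

/-- The shear on the torus. -/
noncomputable def map (t : T3) : T3 := t + dir D.w ((D.b (rep t) : ℝ) : UnitAddCircle)

theorem b_rep_proj (x : Fin 3 → ℝ) :
    ((D.b (rep (proj x)) : ℝ) : UnitAddCircle) = ((D.b x : ℝ) : UnitAddCircle) := by
  have h : proj x = proj (rep (proj x)) := (proj_rep _).symm
  obtain ⟨m, hm⟩ := proj_eq_iff.mp h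
  have h2 : rep (proj x) = fun i => x i + m i := funext hm
  obtain ⟨k, hk⟩ := D.per m x
  rw [h2, hk, AddCircle.coe_add, coe_int_eq_zero, add_zero]

theorem map_proj (x : Fin 3 → ℝ) : D.map (proj x) = proj (D.lift x) := by
  rw [map, b_rep_proj]
  funext i
  simp only [Pi.add_apply, dir_apply, proj, lift, AddCircle.coe_add]
  congr 1
  rw [← AddCircle.coe_zsmul]
  congr 1
  simp [mul_comm]

theorem contDiff_lift : ContDiff ℝ ∞ D.lift := by
  refine contDiff_pi.mpr fun i => ?_
  exact (contDiff_apply ℝ ℝ i).add (D.smooth.mul contDiff_const)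


theorem lift_symm_lift (x : Fin 3 → ℝ) : D.symm.lift (D.lift x) = x := by
  have h : D.b (D.lift x) = D.b x := D.inv x (D.b x)
  funext i
  change D.lift x i + -(D.b (D.lift x)) * D.w i = x i
  rw [h]
  simp only [lift]
  ring

theorem lift_lift_symm (x : Fin 3 → ℝ) : D.lift (D.symm.lift x) = x := by
  have h : D.b (D.symm.lift x) = D.b x := D.inv x (-(D.b x))
  funext i
  change D.symm.lift x i + (D.b (D.symm.lift x)) * D.w i = x i
  rw [h]
  change x i + -(D.b x) * D.w i + D.b x * D.w i = x i
  ring

/-- The shear as a bijection of the torus. -/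
noncomputable def perm : Equiv.Perm T3 where
  toFun := D.map
  invFun := D.symm.map
  left_inv t := by
    rw [← proj_rep t, D.map_proj, D.symm.map_proj, D.lift_symm_lift]
  right_inv t := by
    rw [← proj_rep t, D.symm.map_proj, D.map_proj, D.lift_lift_symm]

@[simp] theorem perm_apply (t : T3) : D.perm t = D.map t := rfl

@[simp] theorem perm_symm_apply (t : T3) : D.perm.symm t = D.symm.map t := rfl


theorem measurePreserving : MeasurePreserving D.map volume volume := by
  have hβ : Measurable fun t : T3 => ((D.b (rep t) : ℝ) : UnitAddCircle) :=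
    (AddCircle.measurable_mk').comp (D.smooth.continuous.measurable.comp measurable_rep)
  refine shear_mp (volume : Measure T3) (volume : Measure UnitAddCircle) (dir D.w)
    (continuous_dir D.w).measurable _ hβ ?_
  intro t s
  obtain ⟨r, rfl⟩ := QuotientAddGroup.mk_surjective s
  have h1 : t + dir D.w ((r : ℝ) : UnitAddCircle) = proj (fun i => rep t i + r * D.w i) := by
    conv_lhs => rw [← proj_rep t]
    funext i
    simp only [Pi.add_apply, dir_apply, proj, AddCircle.coe_add]
    congr 1
    rw [← AddCircle.coe_zsmul]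
    congr 1
    simp [mul_comm]
  change ((D.b (rep (t + dir D.w ((r : ℝ) : UnitAddCircle))) : ℝ) : UnitAddCircle) = _
  rw [h1, b_rep_proj, D.inv]

theorem perm_measurePreserving : MeasurePreserving D.perm volume volume := D.measurePreserving


end ShearData

end Crest.Agent.R081.Shear
end

-- ▼ part R081/TwDefs

/-! Row 81, node EXPLICIT STEP: shear words on the 2-torus and measure preserving lifted diffeomorphisms
of the 3-torus.  Coordinates of `E3 = Fin 3 → ℝ`: `(c, y1, y2)`. -/

set_option autoImplicit false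

namespace Crest.Agent.R081.Tw

open scoped ContDiff
open MeasureTheory Crest.AnalysisR.Torus3 Crest.Agent.R081.Sm Crest.Agent.R081.Shear

/-- One shear of the `(y1, y2)` plane.
`dir = false`: `(y1, y2) ↦ (y1 + f y2, y2)`;
`dir = true` (needs the order `q`): `(y1, y2) ↦ (y1, y2 + f (q * y1))`. -/
structure Sh1 where
  dir : Bool
  f : ℝ → ℝ
  smooth : ContDiff ℝ ∞ f
  per : ∀ t, f (t + 1) = f t

/-- the action of one shear on the plane -/
noncomputable def Sh1.act (q : ℕ) (s : Sh1) (y : ℝ × ℝ) : ℝ × ℝ :=
  bif s.dir then (y.1, y.2 + s.f (q * y.1)) else (y.1 + s.f y.2, y.2)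

/-- a shear word; the LAST letter of the list acts first -/
abbrev Word := List Sh1

/-- the area preserving diffeomorphism `A` (commuting with `y1 += 1/q`) given by a word -/
noncomputable def Word.act (q : ℕ) (w : Word) (y : ℝ × ℝ) : ℝ × ℝ :=
  w.foldr (fun s z => s.act q z) y

@[simp] theorem Word.act_nil (q : ℕ) (y : ℝ × ℝ) : Word.act q [] y = y := rfl
@[simp] theorem Word.act_cons (q : ℕ) (s : Sh1) (w : Word) (y : ℝ × ℝ) :
    Word.act q (s :: w) y = s.act q (Word.act q w y) := rfl
theorem Word.act_append (q : ℕ) (w w' : Word) (y : ℝ × ℝ) :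
    Word.act q (w ++ w') y = Word.act q w (Word.act q w' y) := by
  simp [Word.act, List.foldr_append]

/-- the inverse shear -/
def Sh1.neg (s : Sh1) : Sh1 where
  dir := s.dir
  f := fun t => - s.f t
  smooth := s.smooth.neg
  per := fun t => by rw [s.per]

/-- the inverse word -/
def Word.inv (w : Word) : Word := (w.map Sh1.neg).reverse

theorem Sh1.act_neg_act (q : ℕ) (s : Sh1) (y : ℝ × ℝ) : s.neg.act q (s.act q y) = y := by
  cases h : s.dir <;> simp [Sh1.act, Sh1.neg, h]

theorem Sh1.act_act_neg (q : ℕ) (s : Sh1) (y : ℝ × ℝ) : s.act q (s.neg.act q y) = y := by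
  cases h : s.dir <;> simp [Sh1.act, Sh1.neg, h]

theorem Word.inv_cons (s : Sh1) (w : Word) : Word.inv (s :: w) = Word.inv w ++ [s.neg] := by
  simp [Word.inv]

theorem Word.inv_act (q : ℕ) (w : Word) (y : ℝ × ℝ) : Word.act q (Word.inv w) (Word.act q w y) = y := by
  induction w generalizing y with
  | nil => simp [Word.inv]
  | cons s w ih =>
    rw [Word.inv_cons, Word.act_append, Word.act_cons, Word.act_cons, Word.act_nil,
      Sh1.act_neg_act, ih]

theorem Word.act_inv (q : ℕ) (w : Word) (y : ℝ × ℝ) : Word.act q w (Word.act q (Word.inv w) y) = y := by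
  induction w generalizing y with
  | nil => simp [Word.inv]
  | cons s w ih =>
    rw [Word.inv_cons, Word.act_append, Word.act_cons, ih, Word.act_cons, Word.act_nil,
      Sh1.act_act_neg]

theorem per_nat {f : ℝ → ℝ} (h : ∀ t, f (t + 1) = f t) (n : ℕ) (t : ℝ) : f (t + n) = f t := by
  induction n with
  | zero => simp
  | succ n ih => rw [Nat.cast_succ, ← add_assoc, h, ih]

theorem per_int {f : ℝ → ℝ} (h : ∀ t, f (t + 1) = f t) (n : ℤ) (t : ℝ) : f (t + n) = f t := by
  obtain ⟨m, rfl | rfl⟩ := n.eq_nat_or_neg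
  · exact_mod_cast per_nat h m t
  · have := per_nat h m (t + ((-(m:ℤ) : ℤ) : ℝ))
    rw [← this]; congr 1; push_cast; ring

theorem Sh1.act_add_int (q : ℕ) (s : Sh1) (y : ℝ × ℝ) (m n : ℤ) :
    s.act q (y + ((m : ℝ), (n : ℝ))) = s.act q y + ((m : ℝ), (n : ℝ)) := by
  cases h : s.dir
  · simp only [Sh1.act, h, cond_false]
    ext
    · simp only [Prod.fst_add, Prod.snd_add]
      rw [per_int s.per]; ring
    · simp
  · simp only [Sh1.act, h, cond_true]
    ext
    · simp
    · simp only [Prod.fst_add, Prod.snd_add]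
      have : (q : ℝ) * (y.1 + m) = q * y.1 + ((q * m : ℤ) : ℝ) := by push_cast; ring
      rw [this, per_int s.per]; ring

theorem Word.act_add_int (q : ℕ) (w : Word) (y : ℝ × ℝ) (m n : ℤ) :
    Word.act q w (y + ((m : ℝ), (n : ℝ))) = Word.act q w y + ((m : ℝ), (n : ℝ)) := by
  induction w with
  | nil => rfl
  | cons s w ih => rw [Word.act_cons, ih, Sh1.act_add_int, Word.act_cons]

theorem Sh1.act_add_div {q : ℕ} (hq : q ≠ 0) (s : Sh1) (y : ℝ × ℝ) (m : ℤ) :
    s.act q (y + ((m : ℝ) / q, 0)) = s.act q y + ((m : ℝ) / q, 0) := by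
  have hq' : (q : ℝ) ≠ 0 := by exact_mod_cast hq
  cases h : s.dir
  · simp only [Sh1.act, h, cond_false]
    ext
    · simp; ring
    · simp
  · simp only [Sh1.act, h, cond_true]
    ext
    · simp
    · simp only [Prod.fst_add, Prod.snd_add]
      have : (q : ℝ) * (y.1 + (m : ℝ) / q) = q * y.1 + (m : ℝ) := by field_simp
      rw [this, per_int s.per]; ring

theorem Word.act_add_div {q : ℕ} (hq : q ≠ 0) (w : Word) (y : ℝ × ℝ) (m : ℤ) :
    Word.act q w (y + ((m : ℝ) / q, 0)) = Word.act q w y + ((m : ℝ) / q, 0) := by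
  induction w with
  | nil => rfl
  | cons s w ih => rw [Word.act_cons, ih, Sh1.act_add_div hq, Word.act_cons]

theorem Sh1.contDiff_act (q : ℕ) (s : Sh1) : ContDiff ℝ ∞ (Sh1.act q s) := by
  cases h : s.dir
  · have e : Sh1.act q s = fun y => (y.1 + s.f y.2, y.2) := by
      funext y; simp [Sh1.act, h]
    rw [e]
    exact (contDiff_fst.add (s.smooth.comp contDiff_snd)).prodMk contDiff_snd
  · have e : Sh1.act q s = fun y => (y.1, y.2 + s.f (q * y.1)) := by
      funext y; simp [Sh1.act, h]
    rw [e]
    exact contDiff_fst.prodMk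
      (contDiff_snd.add (s.smooth.comp (contDiff_const.mul contDiff_fst)))

theorem Word.contDiff_act (q : ℕ) (w : Word) : ContDiff ℝ ∞ (Word.act q w) := by
  induction w with
  | nil => exact contDiff_id
  | cons s w ih =>
    have : Word.act q (s :: w) = (Sh1.act q s) ∘ (Word.act q w) := rfl
    rw [this]
    exact (s.contDiff_act q).comp ih

end Crest.Agent.R081.Tw
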