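import Crest.Agent.R081.FmIso

/-! # Row 81, route B: the FOURIER LAYER (helper325), part 3: action of twists -/

set_option autoImplicit false

namespace Crest.Agent.R081.Fm

open MeasureTheory Crest.AnalysisR.Torus3 Crest.Agent.R075
open scoped ENNReal ComplexConjugate InnerProductSpace

theorem ek_add (k : ℤ × ℤ) (y w : ℝ × ℝ) : ek k (y + w) = ek k y * ek k w := by
  unfold ek
  rw [← ee_add]
  congr 1
  simp only [Prod.fst_add, Prod.snd_add]
  ring


theorem Q2_surj : Function.Surjective Q2 := by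
  intro z
  obtain ⟨a, ha⟩ := QuotientAddGroup.mk_surjective (z 0)
  obtain ⟨b, hb⟩ := QuotientAddGroup.mk_surjective (z 1)
  refine ⟨(a, b), ?_⟩
  funext i
  fin_cases i
  · exact ha
  · exact hb

theorem Q2_add (y w : ℝ × ℝ) : Q2 (y + w) = Q2 y + Q2 w := by
  funext i
  fin_cases i <;> simp [Q2]

/-- `T` is the twist `(c, y) ↦ (c, y1 + r, y2 + ψ c)` -/
def IsTw (T : T3 → T3) (r : ℝ) (ψ : ℝ → ℝ) : Prop :=
  ∀ (c : ℝ) (y : ℝ × ℝ), T (P3 (c, y)) = P3 (c, (y.1 + r, y.2 + ψ c))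

/-- the frequency -/
def nu (r : ℝ) (ψ : ℝ → ℝ) (x : (ℤ × ℤ) × ℝ) : ℝ := x.1.1 * r + x.1.2 * ψ x.2

theorem IsTw.app_C3 {T : T3 → T3} {r : ℝ} {ψ : ℝ → ℝ} (h : IsTw T r ψ) (c : ℝ) (z : T2) :
    T (C3 (c, z)) = C3 (c, z + Q2 (r, ψ c)) := by
  obtain ⟨y, rfl⟩ := Q2_surj z
  rw [C3_Q2, h, ← Q2_add, C3_Q2]
  rfl

theorem IsTw.symm {T : Equiv.Perm T3} {r : ℝ} {ψ : ℝ → ℝ} (h : IsTw T r ψ) :
    IsTw T.symm (-r) (fun c => -ψ c) := by
  intro c y
  rw [Equiv.symm_apply_eq, h]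
  simp

theorem IsTw.comp {T S : T3 → T3} {r s : ℝ} {ψ χ : ℝ → ℝ} (h : IsTw T r ψ) (h' : IsTw S s χ) :
    IsTw (T ∘ S) (r + s) (fun c => ψ c + χ c) := by
  intro c y
  simp only [Function.comp_apply]
  rw [h', h]
  simp only
  congr 3 <;> ring

theorem IsTw.pow {T : Equiv.Perm T3} {r : ℝ} {ψ : ℝ → ℝ} (h : IsTw T r ψ) (n : ℕ) :
    IsTw (T ^ n : Equiv.Perm T3) (n * r) (fun c => n * ψ c) := by
  induction n with
  | zero => intro c y; simp
  | succ n ih =>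
    intro c y
    rw [pow_succ, Equiv.Perm.mul_apply, h, ih]
    simp only
    congr 3 <;> (push_cast; ring)

theorem IsTw.zpow {T : Equiv.Perm T3} {r : ℝ} {ψ : ℝ → ℝ} (h : IsTw T r ψ) (n : ℤ) :
    IsTw (T ^ n : Equiv.Perm T3) (n * r) (fun c => n * ψ c) := by
  cases n with
  | ofNat n =>
    have := h.pow n
    simpa using this
  | negSucc n =>
    have h1 := (h.pow (n + 1)).symm
    intro c y
    rw [zpow_negSucc]
    have h2 := h1 c y
    change (T ^ (n + 1) : Equiv.Perm T3).symm (P3 (c, y)) = _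
    rw [h2]
    congr 3 <;> (push_cast; ring)

/-- **twists act by multiplication** (no measurability, every `c`) -/
theorem fc_comp_tw {T : T3 → T3} {r : ℝ} {ψ : ℝ → ℝ} (h : IsTw T r ψ) (f : T3 → ℂ) (k : ℤ × ℤ)
    (c : ℝ) : fc (fun x => f (T x)) k c = ee (k.1 * r + k.2 * ψ c) * fc f k c := by
  rw [fc_eq, fc_eq]
  simp only [h.app_C3]
  have h1 := integral_add_right_eq_self (μ := (volume : Measure T2))
    (fun z => UnitAddTorus.mFourier (-kv k) (z - Q2 (r, ψ c)) * f (C3 (c, z))) (Q2 (r, ψ c))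
  simp only [add_sub_cancel_right] at h1
  rw [h1, ← integral_const_mul]
  refine integral_congr_ae (Filter.Eventually.of_forall fun z => ?_)
  simp only
  obtain ⟨y, rfl⟩ := Q2_surj z
  have e1 : Q2 y - Q2 (r, ψ c) = Q2 (y - (r, ψ c)) := by
    rw [sub_eq_iff_eq_add, ← Q2_add, sub_add_cancel]
  rw [e1, ← kv_neg, mFourier_Q2, mFourier_Q2]
  have e2 : y = (y - (r, ψ c)) + (r, ψ c) := by rw [sub_add_cancel]
  have e3 : ek (-k) y = ek (-k) (y - (r, ψ c)) * ek (-k) (r, ψ c) := by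
    conv_lhs => rw [e2]
    rw [ek_add]
  have e4 : ek (-k) (r, ψ c) * ee (k.1 * r + k.2 * ψ c) = 1 := by
    unfold ek
    rw [← ee_add]
    have : (((-k).1 : ℤ) : ℝ) * (r, ψ c).1 + (((-k).2 : ℤ) : ℝ) * (r, ψ c).2 +
        (k.1 * r + k.2 * ψ c) = 0 := by
      simp only [Prod.fst_neg, Prod.snd_neg]
      push_cast
      ring
    rw [this, ee_zero]
  rw [e3]
  calc ek (-k) (y - (r, ψ c)) * f (C3 (c, Q2 y))
      = ek (-k) (y - (r, ψ c)) * f (C3 (c, Q2 y)) *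
        (ek (-k) (r, ψ c) * ee (k.1 * r + k.2 * ψ c)) := by rw [e4, mul_one]
    _ = _ := by ring

theorem fcX_comp_tw {T : T3 → T3} {r : ℝ} {ψ : ℝ → ℝ} (h : IsTw T r ψ) (f : T3 → ℂ)
    (x : (ℤ × ℤ) × ℝ) : fcX (fun x => f (T x)) x = ee (nu r ψ x) * fcX f x :=
  fc_comp_tw h f x.1 x.2

theorem fcX_comp_tw_zpow {T : Equiv.Perm T3} {r : ℝ} {ψ : ℝ → ℝ} (h : IsTw T r ψ) (n : ℤ)
    (f : T3 → ℂ) (x : (ℤ × ℤ) × ℝ) :
    fcX (fun x => f ((T ^ n) x)) x = ee (n * nu r ψ x) * fcX f x := by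
  rw [fcX_comp_tw (h.zpow n) f x]
  congr 2
  simp only [nu]
  ring

/-- a twist with measurable angle preserves volume -/
theorem IsTw.measurePreserving {T : T3 → T3} {r : ℝ} {ψ : ℝ → ℝ} (h : IsTw T r ψ)
    (hT : Measurable T) : MeasurePreserving T (volume : Measure T3) volume := by
  refine ⟨hT, ?_⟩
  ext s hs
  rw [Measure.map_apply hT hs]
  have key : ∀ s : Set T3, MeasurableSet s →
      (volume : Measure T3) s = ∫⁻ c, (volume : Measure T2) {z | C3 (c, z) ∈ s} ∂I01 := by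
    intro s hs
    rw [← mp_C3.measure_preimage hs.nullMeasurableSet,
      Measure.prod_apply (mp_C3.measurable hs)]
    rfl
  rw [key s hs, key _ (hT hs)]
  refine lintegral_congr fun c => ?_
  have : {z | C3 (c, z) ∈ T ⁻¹' s} = (fun z => z + Q2 (r, ψ c)) ⁻¹' {z | C3 (c, z) ∈ s} := by
    ext z
    simp only [Set.mem_preimage, Set.mem_ofPred_eq, h.app_C3]
  rw [this, measure_preimage_add_right]

/-- **correlations** -/
theorem corr {T : Equiv.Perm T3} {r : ℝ} {ψ : ℝ → ℝ} (h : IsTw T r ψ) (n : ℤ)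
    (hn : MeasurePreserving (T ^ n : Equiv.Perm T3) (volume : Measure T3) volume)
    {f g : T3 → ℂ} (hf : MemLp f 2 volume) (hg : MemLp g 2 volume) :
    ∫ x, f ((T ^ n) x) * conj (g x) = ∫ x, ee (n * nu r ψ x) * (fcX f x * conj (fcX g x)) ∂muX := by
  have h1 := parseval (hf.comp_measurePreserving hn) hg
  rw [Function.comp_def] at h1
  rw [← h1]
  refine integral_congr_ae (Filter.Eventually.of_forall fun x => ?_)
  simp only
  rw [fcX_comp_tw_zpow h]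
  ring

end Crest.Agent.R081.Fm
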