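import Crest.Agent.R081.TwLD
import Crest.Agent.R081.TwProf
import Crest.Agent.R081.SmLimit

-- ▼ part R081/TwPlane
section

/-! Row 81, node EXPLICIT STEP: the data of a step, the plane maps `B_c`, `l_{s,c}`, `G_s`. -/

set_option autoImplicit false

namespace Crest.Agent.R081.Tw

open scoped ContDiff
open MeasureTheory Crest.AnalysisR.Torus3 Crest.Agent.R081.Sm Crest.Agent.R081.Shear

/-- the data of one explicit step (everything except `h`) -/
structure Dat where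
  q : ℕ
  q2 : ℕ
  P : ℤ
  w : Word
  F : ℝ → ℝ
  ψ : ℝ → ℝ
  δ : ℝ
  hq : 0 < q
  hq2 : 0 < q2
  hF : ContDiff ℝ ∞ F
  pF : ∀ c, F (c + 1) = F c
  hψ : ContDiff ℝ ∞ ψ
  pψ : ∀ c, ψ (c + 1) = ψ c
  hδ0 : 0 < δ
  hδ1 : δ < 1 / 8
  zψ : ∀ c, |c| ≤ δ / 2 → ψ c = 0

namespace Dat

variable (D : Dat)

/-- `q q''` -/
def N : ℕ := D.q * D.q2

theorem hN : 0 < D.N := Nat.mul_pos D.hq D.hq2

theorem hN0 : (D.N : ℝ) ≠ 0 := by exact_mod_cast D.hN.ne'

theorem hq0 : (D.q : ℝ) ≠ 0 := by exact_mod_cast D.hq.ne'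

theorem N_mul (P : ℤ) : (D.N : ℝ) * ((P : ℝ) / D.q) = ((D.q2 * P : ℤ) : ℝ) := by
  have := D.hq0
  unfold N
  push_cast
  field_simp

/-- the profiles -/
noncomputable def pr : Prof D.δ := prof D.δ D.hδ0 D.hδ1

/-- `β` -/
noncomputable def β : ℝ → ℝ := D.pr.β

theorem β_smooth : ContDiff ℝ ∞ D.β := D.pr.β_smooth

theorem β_per (c : ℝ) : D.β (c + 1) = D.β c := D.pr.β_per c

theorem β_int (m : ℤ) (c : ℝ) : D.β (c + m) = D.β c := per_int D.β_per m c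

theorem β_eq {c : ℝ} {m : ℤ} (h1 : D.δ / 8 ≤ c - m) (h2 : c - m ≤ 1 - D.δ / 8) :
    D.β c = c - m := by
  have h := D.pr.β_eq (c - m) h1 h2
  have h3 := D.β_int m (c - m)
  rw [sub_add_cancel] at h3
  rw [h3]; exact h

theorem F_int (m : ℤ) (c : ℝ) : D.F (c + m) = D.F c := per_int D.pF m c


/-- `B_c` -/
noncomputable def Bf (c : ℝ) (z : ℝ × ℝ) : ℝ × ℝ :=
  Word.act D.q D.w (z.1 - D.β c / D.N, z.2 - D.β c * D.F (D.N * z.1 - c))

/-- `B_c⁻¹` -/
noncomputable def Bi (c : ℝ) (y : ℝ × ℝ) : ℝ × ℝ :=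
  ((Word.act D.q (Word.inv D.w) y).1 + D.β c / D.N,
    (Word.act D.q (Word.inv D.w) y).2 +
      D.β c * D.F (D.N * ((Word.act D.q (Word.inv D.w) y).1 + D.β c / D.N) - c))

theorem Bf_Bi (c : ℝ) (y : ℝ × ℝ) : D.Bf c (D.Bi c y) = y := by
  unfold Bf Bi
  simp only [add_sub_cancel_right]
  rw [Prod.mk.eta, Word.act_inv]

theorem Bi_Bf (c : ℝ) (z : ℝ × ℝ) : D.Bi c (D.Bf c z) = z := by
  unfold Bf Bi
  rw [Word.inv_act]
  simp

theorem Bf_add_int (c : ℝ) (z : ℝ × ℝ) (m n : ℤ) :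
    D.Bf c (z + ((m : ℝ), (n : ℝ))) = D.Bf c z + ((m : ℝ), (n : ℝ)) := by
  unfold Bf
  rw [← Word.act_add_int]
  congr 1
  have e : (D.N : ℝ) * (z + ((m : ℝ), (n : ℝ))).1 - c = D.N * z.1 - c + ((D.N * m : ℤ) : ℝ) := by
    push_cast; simp only [Prod.fst_add]; ring
  rw [e, F_int]
  ext
  · simp only [Prod.fst_add]; ring
  · simp only [Prod.snd_add]; ring

theorem Bf_add_div (c : ℝ) (z : ℝ × ℝ) (P : ℤ) :
    D.Bf c (z + ((P : ℝ) / D.q, 0)) = D.Bf c z + ((P : ℝ) / D.q, 0) := by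
  unfold Bf
  rw [← Word.act_add_div D.hq.ne']
  congr 1
  have e : (D.N : ℝ) * (z + ((P : ℝ) / D.q, (0 : ℝ))).1 - c
      = D.N * z.1 - c + ((D.q2 * P : ℤ) : ℝ) := by
    rw [← D.N_mul P]; simp only [Prod.fst_add]; ring
  rw [e, F_int]
  ext
  · simp only [Prod.fst_add]; ring
  · simp only [Prod.snd_add]; ring

theorem Bf_int (c : ℝ) (z : ℝ × ℝ) (m : ℤ) : D.Bf (c + m) z = D.Bf c z := by
  unfold Bf
  rw [β_int]
  have e : (D.N : ℝ) * z.1 - (c + m) = D.N * z.1 - c + ((-m : ℤ) : ℝ) := by push_cast; ring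
  rw [e, F_int]

theorem Bi_add_int (c : ℝ) (y : ℝ × ℝ) (m n : ℤ) :
    D.Bi c (y + ((m : ℝ), (n : ℝ))) = D.Bi c y + ((m : ℝ), (n : ℝ)) := by
  have h := D.Bf_add_int c (D.Bi c y) m n
  rw [Bf_Bi] at h
  rw [← h, Bi_Bf]

theorem Bi_int (c : ℝ) (y : ℝ × ℝ) (m : ℤ) : D.Bi (c + m) y = D.Bi c y := by
  have h := D.Bf_int c (D.Bi c y) m
  rw [Bf_Bi] at h
  conv_lhs => rw [← h]
  rw [Bi_Bf]

/-- `l_{s,c}` -/
noncomputable def lf (P : ℤ) (s c : ℝ) (z : ℝ × ℝ) : ℝ × ℝ :=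
  (z.1 + (P : ℝ) / D.q + s / D.N, z.2 + s * D.F (D.N * z.1 - c))

theorem lf_zero (P : ℤ) (c : ℝ) (z : ℝ × ℝ) : D.lf P 0 c z = z + ((P : ℝ) / D.q, 0) := by
  unfold lf
  ext <;> simp

theorem lf_add_int (P : ℤ) (s c : ℝ) (z : ℝ × ℝ) (m n : ℤ) :
    D.lf P s c (z + ((m : ℝ), (n : ℝ))) = D.lf P s c z + ((m : ℝ), (n : ℝ)) := by
  unfold lf
  have e : (D.N : ℝ) * (z + ((m : ℝ), (n : ℝ))).1 - c = D.N * z.1 - c + ((D.N * m : ℤ) : ℝ) := by
    push_cast; simp only [Prod.fst_add]; ring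
  rw [e, F_int]
  ext
  · simp only [Prod.fst_add]; ring
  · simp only [Prod.snd_add]; ring

theorem lf_int (P : ℤ) (s c : ℝ) (z : ℝ × ℝ) (m : ℤ) : D.lf P s (c + m) z = D.lf P s c z := by
  unfold lf
  have e : (D.N : ℝ) * z.1 - (c + m) = D.N * z.1 - c + ((-m : ℤ) : ℝ) := by push_cast; ring
  rw [e, F_int]

/-- `G_s(c, y) = B_{c+s} l_{s,c} B_c⁻¹ y` -/
noncomputable def G (P : ℤ) (s c : ℝ) (y : ℝ × ℝ) : ℝ × ℝ := D.Bf (c + s) (D.lf P s c (D.Bi c y))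

theorem G_zero (P : ℤ) (c : ℝ) (y : ℝ × ℝ) : D.G P 0 c y = y + ((P : ℝ) / D.q, 0) := by
  unfold G
  rw [lf_zero, add_zero, Bf_add_div, Bf_Bi]

theorem G_add_int (P : ℤ) (s c : ℝ) (y : ℝ × ℝ) (m n : ℤ) :
    D.G P s c (y + ((m : ℝ), (n : ℝ))) = D.G P s c y + ((m : ℝ), (n : ℝ)) := by
  unfold G
  rw [Bi_add_int, lf_add_int, Bf_add_int]

theorem G_int (P : ℤ) (s c : ℝ) (y : ℝ × ℝ) (m : ℤ) : D.G P s (c + m) y = D.G P s c y := by
  unfold G
  rw [Bi_int, lf_int, show c + m + s = c + s + m by ring, Bf_int]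

/-- away from the integers `G_s(c, ·)` is a translation -/
theorem G_far (P : ℤ) (s c : ℝ) (m : ℤ) (y : ℝ × ℝ) (h1 : D.β c = c - m)
    (h2 : D.β (c + s) = c + s - m) : D.G P s c y = y + ((P : ℝ) / D.q, 0) := by
  have hN := D.hN0
  have h3 : D.G P s c y = Word.act D.q D.w (Word.act D.q (Word.inv D.w) y + ((P : ℝ) / D.q, 0)) := by
    unfold G Bf
    congr 1
    unfold lf Bi
    set v := Word.act D.q (Word.inv D.w) y with hv
    rw [h1, h2]
    have e1 : (D.N : ℝ) * (v.1 + (c - m) / D.N) - c = D.N * v.1 + ((-m : ℤ) : ℝ) := by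
      push_cast; field_simp; ring
    have e2 : (D.N : ℝ) * (v.1 + (c - m) / D.N + (P : ℝ) / D.q + s / D.N) - (c + s)
        = D.N * v.1 + ((D.q2 * P - m : ℤ) : ℝ) := by
      have := D.N_mul P
      push_cast at this ⊢
      have e3 : (D.N : ℝ) * (v.1 + (c - m) / D.N + (P : ℝ) / D.q + s / D.N) - (c + s)
        = D.N * v.1 + (D.N * ((P : ℝ) / D.q)) - m := by
        field_simp; ring
      rw [e3, this]; ring
    simp only [e1, e2, F_int]
    ext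
    · simp only [Prod.fst_add]; field_simp; ring
    · simp only [Prod.snd_add]; ring
  rw [h3, Word.act_add_div D.hq.ne', Word.act_inv]

end Dat

end Crest.Agent.R081.Tw
end

-- ▼ part R081/TwSoft
section

/-! Row 81, explicit step: soft `C^r` closeness of conjugated jointly smooth families of lifts. -/

set_option autoImplicit false

namespace Crest.Agent.R081.TwSoft

open scoped ContDiff Topology
open Crest.AnalysisR.Torus3 Filter Set Crest.Agent.R081.Sm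

section
variable {P E F : Type} [NormedAddCommGroup P] [NormedSpace ℝ P] [NormedAddCommGroup E]
  [NormedSpace ℝ E] [NormedAddCommGroup F] [NormedSpace ℝ F]

theorem iteratedFDeriv_slice {f : P × E → F} (hf : ContDiff ℝ ∞ f) (i : ℕ) (p : P × E) :
    iteratedFDeriv ℝ i (fun x => f (p.1, x)) p.2 =
      (iteratedFDeriv ℝ i f p).compContinuousLinearMap
        (fun _ => ContinuousLinearMap.inr ℝ P E) := by
  set f' : P × E → F := fun y => f (y + (p.1, 0)) with hf'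
  have h1 : ContDiff ℝ ∞ f' := hf.comp (contDiff_id.add contDiff_const)
  have h2 : (fun x => f (p.1, x)) = f' ∘ (ContinuousLinearMap.inr ℝ P E) := by
    ext x; simp [hf']
  rw [h2, ContinuousLinearMap.iteratedFDeriv_comp_right _ h1 _ (by exact_mod_cast le_top)]
  congr 1
  rw [hf', iteratedFDeriv_comp_add_right]
  congr 1
  ext <;> simp

theorem continuous_slice {f : P × E → F} (hf : ContDiff ℝ ∞ f) (i : ℕ) :
    Continuous (fun p : P × E => iteratedFDeriv ℝ i (fun x => f (p.1, x)) p.2) := by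
  have h1 : Continuous (iteratedFDeriv ℝ i f) :=
    hf.continuous_iteratedFDeriv (by exact_mod_cast le_top)
  have h3 : Continuous (fun M : ContinuousMultilinearMap ℝ (fun _ : Fin i => P × E) F =>
      M.compContinuousLinearMap (fun _ : Fin i => ContinuousLinearMap.inr ℝ P E)) :=
    (ContinuousMultilinearMap.compContinuousLinearMapL (𝕜 := ℝ)
      (fun _ : Fin i => ContinuousLinearMap.inr ℝ P E)).continuous
  have h2 := h3.comp h1
  refine h2.congr fun p => ?_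
  rw [iteratedFDeriv_slice hf]
  rfl

end

/-- integer equivariance with the identity linear part -/
def Equi (F : E3 → E3) : Prop := ∀ (k : Fin 3 → ℤ) (x : E3), F (x + zv k) = F x + zv k

theorem Equi.per {F : E3 → E3} (h : Equi F) : Per F := fun k => ⟨k, h k⟩

theorem Equi.comp {F G : E3 → E3} (hF : Equi F) (hG : Equi G) : Equi (fun x => F (G x)) :=
  fun k x => by show F (G (x + zv k)) = _; rw [hG, hF]

theorem Equi.conj (H : LD) {T : E3 → E3} (hT : Equi T) :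
    Equi (fun x => H.F (T (H.H x))) := by
  intro k x
  obtain ⟨m, hm⟩ := H.pH k
  obtain ⟨l, hl⟩ := H.pF m
  have e : zv l = zv k := by
    have h1 := hl (H.H 0)
    rw [← hm 0, H.FH, H.FH] at h1
    simpa using h1.symm
  show H.F (T (H.H (x + zv k))) = H.F (T (H.H x)) + zv k
  rw [hm, hT, hl, e]

theorem exists_floor (x : E3) : ∃ (k : Fin 3 → ℤ) (y : E3), y ∈ Icc (0 : E3) 1 ∧ x = y + zv k := by
  refine ⟨fun i => ⌊x i⌋, fun i => Int.fract (x i), ⟨fun i => ?_, fun i => ?_⟩, ?_⟩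
  · exact Int.fract_nonneg _
  · exact (Int.fract_lt_one _).le
  · ext i
    simp [Int.fract_add_floor]

/-- a periodic function whose slices are bounded on the cube is `Bd` -/
theorem bd_of_cube {r : ℕ} {ε : ℝ} {d : E3 → E3} (hp : ∀ (k : Fin 3 → ℤ) x, d (x + zv k) = d x)
    (h : ∀ i, i ≤ r → ∀ x ∈ Icc (0 : E3) 1, ‖iteratedFDeriv ℝ i d x‖ ≤ ε) : Bd r ε d := by
  intro i hi x
  obtain ⟨k, y, hy, rfl⟩ := exists_floor x
  have e : iteratedFDeriv ℝ i d (y + zv k) = iteratedFDeriv ℝ i d y := by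
    rw [← iteratedFDeriv_comp_add_right]
    congr 1
    ext1 z
    exact hp k z
  rw [e]
  exact h i hi y hy

/-- **soft closeness** -/
theorem soft (r : ℕ) {ε : ℝ} (hε : 0 < ε) (d : ℝ → ℝ → E3 → E3)
    (hd : ContDiff ℝ ∞ (fun p : (ℝ × ℝ) × E3 => d p.1.1 p.1.2 p.2))
    (h0 : ∀ b x, d 0 b x = 0) (hp : ∀ s b (k : Fin 3 → ℤ) x, d s b (x + zv k) = d s b x) :
    ∃ s0 > 0, ∀ s, |s| ≤ s0 → ∀ b ∈ Icc (0 : ℝ) 1, Bd r ε (d s b) := by
  have key : ∀ i, ∀ᶠ s in 𝓝 (0 : ℝ), ∀ q ∈ (Icc (0 : ℝ) 1) ×ˢ (Icc (0 : E3) 1),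
      ‖iteratedFDeriv ℝ i (fun x => d s q.1 x) q.2‖ < ε := by
    intro i
    have hK : IsCompact ((Icc (0 : ℝ) 1) ×ˢ (Icc (0 : E3) 1)) := isCompact_Icc.prod isCompact_Icc
    refine hK.eventually_forall_of_forall_eventually
      (P := fun s q => ‖iteratedFDeriv ℝ i (fun x => d s q.1 x) q.2‖ < ε) ?_
    intro q _
    have hc : Continuous (fun z : ℝ × (ℝ × E3) =>
        ‖iteratedFDeriv ℝ i (fun x => d z.1 z.2.1 x) z.2.2‖) := by
      have h1 := continuous_slice hd i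
      have h2 : Continuous (fun z : ℝ × (ℝ × E3) => (((z.1, z.2.1), z.2.2) : (ℝ × ℝ) × E3)) := by
        fun_prop
      exact (h1.comp h2).norm
    have hz : ‖iteratedFDeriv ℝ i (fun x => d 0 q.1 x) q.2‖ = 0 := by
      have : (fun x => d 0 q.1 x) = (fun _ => (0 : E3)) := funext fun x => h0 _ x
      simp only [this]
      rw [norm_eq_zero]
      have := iteratedFDeriv_fun_zero (𝕜 := ℝ) (E := E3) (F := E3) (n := i)
      exact congrFun this q.2
    have ht := hc.tendsto (0, q)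
    have ht' : Tendsto (fun z : ℝ × (ℝ × E3) =>
        ‖iteratedFDeriv ℝ i (fun x => d z.1 z.2.1 x) z.2.2‖) (𝓝 (0, q)) (𝓝 0) := by
      have e : ‖iteratedFDeriv ℝ i (fun x => d (0, q).1 (0, q).2.1 x) (0, q).2.2‖ = 0 := hz
      rw [e] at ht
      exact ht
    exact ht'.eventually (gt_mem_nhds hε)
  have key2 : ∀ᶠ s in 𝓝 (0 : ℝ), ∀ i ∈ Finset.range (r + 1),
      ∀ q ∈ (Icc (0 : ℝ) 1) ×ˢ (Icc (0 : E3) 1),
      ‖iteratedFDeriv ℝ i (fun x => d s q.1 x) q.2‖ < ε := by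
    rw [Filter.eventually_all_finset]
    exact fun i _ => key i
  obtain ⟨s0, hs0, hs⟩ := Metric.eventually_nhds_iff.1 key2
  refine ⟨s0 / 2, by positivity, fun s hs' b hb => ?_⟩
  refine bd_of_cube (hp s b) fun i hi x hx => ?_
  have h1 : dist s 0 < s0 := by
    rw [Real.dist_eq, sub_zero]
    linarith
  exact (hs h1 i (Finset.mem_range.2 (by omega)) (b, x) ⟨hb, hx⟩).le

/-- **soft closeness of conjugated families** -/
theorem soft_conj (H : LD) (G : ℝ → ℝ → E3 → E3) (R : E3 → E3)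
    (hG : ContDiff ℝ ∞ (fun p : (ℝ × ℝ) × E3 => G p.1.1 p.1.2 p.2)) (hR : ContDiff ℝ ∞ R)
    (h0 : ∀ b x, G 0 b x = R x) (pG : ∀ s b, Equi (G s b)) (pR : Equi R)
    (r : ℕ) {ε : ℝ} (hε : 0 < ε) :
    ∃ s0 > 0, ∀ s, |s| ≤ s0 → ∀ b ∈ Icc (0 : ℝ) 1,
      Bd r ε (fun x => H.F (G s b (H.H x)) - H.F (R (H.H x))) := by
  refine soft r hε (fun s b x => H.F (G s b (H.H x)) - H.F (R (H.H x))) ?_ ?_ ?_
  · have h1 : ContDiff ℝ ∞ (fun p : (ℝ × ℝ) × E3 => (p.1, H.H p.2)) :=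
      contDiff_fst.prodMk (H.hH.comp contDiff_snd)
    have h2 : ContDiff ℝ ∞ (fun p : (ℝ × ℝ) × E3 => H.F (G p.1.1 p.1.2 (H.H p.2))) :=
      H.hF.comp (hG.comp h1)
    exact h2.sub (H.hF.comp (hR.comp (H.hH.comp contDiff_snd)))
  · intro b x
    simp only [h0, sub_self]
  · intro s b k x
    have e1 := Equi.conj H (pG s b) k x
    have e2 := Equi.conj H pR k x
    simp only at e1 e2 ⊢
    rw [e1, e2]
    abel

/-- the same with the uncurried map on `ℝ × ℝ × E3` -/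
theorem soft_conj' (H : LD) (G : ℝ → ℝ → E3 → E3) (R : E3 → E3)
    (hG : ContDiff ℝ ∞ (fun p : ℝ × ℝ × E3 => G p.1 p.2.1 p.2.2)) (hR : ContDiff ℝ ∞ R)
    (h0 : ∀ b x, G 0 b x = R x) (pG : ∀ s b, Equi (G s b)) (pR : Equi R)
    (r : ℕ) {ε : ℝ} (hε : 0 < ε) :
    ∃ s0 > 0, ∀ s, |s| ≤ s0 → ∀ b ∈ Icc (0 : ℝ) 1,
      Bd r ε (fun x => H.F (G s b (H.H x)) - H.F (R (H.H x))) := by
  refine soft_conj H G R ?_ hR h0 pG pR r hε
  have h1 : ContDiff ℝ ∞ (fun p : (ℝ × ℝ) × E3 => ((p.1.1, p.1.2, p.2) : ℝ × ℝ × E3)) :=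
    (contDiff_fst.comp contDiff_fst).prodMk ((contDiff_snd.comp contDiff_fst).prodMk contDiff_snd)
  exact hG.comp h1

/-! ### lifts of the same torus map -/

theorem const_of_int {f : E3 → ℝ} (hf : Continuous f) (h : ∀ x, ∃ n : ℤ, f x = n) :
    ∃ n : ℤ, ∀ x, f x = n := by
  choose k hk using h
  have h1 : Continuous k := by
    rw [Int.isClosedEmbedding_coe_real.isInducing.continuous_iff]
    have : (Int.cast : ℤ → ℝ) ∘ k = f := funext fun x => (hk x).symm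
    rw [this]
    exact hf
  refine ⟨k 0, fun x => ?_⟩
  rw [hk x, PreconnectedSpace.constant (α := E3) inferInstance h1 (x := x) (y := 0)]

theorem lift_unique (A B : LD) (h : A.perm = B.perm) :
    ∃ k : Fin 3 → ℤ, ∀ x, A.F x = B.F x + zv k := by
  have h1 : ∀ i, ∃ n : ℤ, ∀ x, A.F x i - B.F x i = n := by
    intro i
    refine const_of_int ?_ ?_
    · exact ((continuous_apply i).comp A.hF.continuous).sub
        ((continuous_apply i).comp B.hF.continuous)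
    · intro x
      have h2 : proj (A.F x) = proj (B.F x) := by
        rw [← A.perm_proj, ← B.perm_proj, h]
      obtain ⟨m, hm⟩ := (proj_eq_iff _ _).1 h2
      refine ⟨- m i, ?_⟩
      rw [hm]
      simp
  choose k hk using h1
  refine ⟨k, fun x => ?_⟩
  ext i
  have := hk i x
  simp only [Pi.add_apply, zv_apply]
  linarith

/-- change of lift -/
def shift (A : LD) (k : Fin 3 → ℤ) : LD where
  F := fun x => A.F x + zv k
  H := fun x => A.H (x + zv (-k))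
  hF := A.hF.add contDiff_const
  hH := A.hH.comp (contDiff_id.add contDiff_const)
  pF := by
    intro m
    obtain ⟨l, hl⟩ := A.pF m
    exact ⟨l, fun x => by
      show A.F (x + zv m) + zv k = A.F x + zv k + zv l
      rw [hl]; abel⟩
  pH := by
    intro m
    obtain ⟨l, hl⟩ := A.pH m
    exact ⟨l, fun x => by
      show A.H (x + zv m + zv (-k)) = A.H (x + zv (-k)) + zv l
      rw [show x + zv m + zv (-k) = x + zv (-k) + zv m by abel, hl]⟩
  FH := by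
    intro x
    rw [A.FH, zv_neg]; abel
  HF := by
    intro x
    rw [zv_neg, add_neg_cancel_right, A.HF]

theorem shift_perm (A : LD) (k : Fin 3 → ℤ) : (shift A k).perm = A.perm := by
  ext1 y
  obtain ⟨x, rfl⟩ := proj_surj y
  simp [shift, proj_add_zv]

theorem bd_translate {r : ℕ} {ε : ℝ} {d : E3 → E3} (h : Bd r ε d) (v : E3) :
    Bd r ε (fun x => d (x + v)) := by
  intro i hi x
  rw [iteratedFDeriv_comp_add_right]
  exact h i hi _

/-- closeness does not depend on the chosen lift -/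
theorem transfer (T C C' : LD) (h : T.perm = C.perm) {r : ℕ} {ε : ℝ}
    (h1 : Bd r ε (fun x => C'.F x - C.F x)) (h2 : Bd r ε (fun x => C'.H x - C.H x)) :
    ∃ T' : LD, T'.perm = C'.perm ∧ Bd r ε (fun x => T'.F x - T.F x) ∧
      Bd r ε (fun x => T'.H x - T.H x) := by
  obtain ⟨k, hk⟩ := lift_unique T C h
  have hH : ∀ x, T.H x = C.H (x + zv (-k)) := by
    intro x
    have h3 : C.F (T.H x) = x + zv (-k) := by
      have := hk (T.H x)
      rw [T.FH] at this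
      have e : C.F (T.H x) = x - zv k := by rw [eq_sub_iff_add_eq]; exact this.symm
      rw [e, zv_neg]; abel
    rw [← h3, C.HF]
  refine ⟨shift C' k, shift_perm _ _, ?_, ?_⟩
  · have e : (fun x => (shift C' k).F x - T.F x) = fun x => C'.F x - C.F x := by
      ext1 x
      show C'.F x + zv k - T.F x = _
      rw [hk]; abel
    rw [e]; exact h1
  · have e : (fun x => (shift C' k).H x - T.H x) =
        fun x => (fun z => C'.H z - C.H z) (x + zv (-k)) := by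
      ext1 x
      show C'.H (x + zv (-k)) - T.H x = _
      rw [hH]
    rw [e]; exact bd_translate h2 _

end Crest.Agent.R081.TwSoft
end

-- ▼ part R081/TwGam

/-! Row 81, node EXPLICIT STEP: `K L K⁻¹ = Γ_{1/h, B_h}` on the lifts. -/

set_option autoImplicit false

namespace Crest.Agent.R081.Tw

open scoped ContDiff
open MeasureTheory Crest.AnalysisR.Torus3 Crest.Agent.R081.Sm Crest.Agent.R081.Shear

theorem comp_F (A B : LD) (x : E3) : (A.comp B).F x = A.F (B.F x) := rfl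
theorem comp_H (A B : LD) (x : E3) : (A.comp B).H x = B.H (A.H x) := rfl

theorem trLD_F (v : E3) (x : E3) : (trLD v).F x = ![x 0 + v 0, x 1 + v 1, x 2 + v 2] := by
  funext i
  fin_cases i <;> rfl
theorem trLD_H (v : E3) (x : E3) : (trLD v).H x = ![x 0 - v 0, x 1 - v 1, x 2 - v 2] := by
  funext i
  fin_cases i <;> rfl

/-- the twist `(c, y1, y2) ↦ (c, y1 + r, y2 + ψ c)` -/
noncomputable def twLD (r : ℝ) (ψ : ℝ → ℝ) (hψ : ContDiff ℝ ∞ ψ) (pψ : ∀ c, ψ (c + 1) = ψ c) : LD :=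
  (trLD ![0, r, 0]).comp (vLD ψ hψ 0 (fun c => by rw [pψ]; simp))

theorem twLD_F (r : ℝ) (ψ : ℝ → ℝ) (hψ : ContDiff ℝ ∞ ψ) (pψ : ∀ c, ψ (c + 1) = ψ c) (x : E3) :
    (twLD r ψ hψ pψ).F x = ![x 0, x 1 + r, x 2 + ψ (x 0)] := by
  rw [twLD, comp_F, vLD_F, trLD_F]
  funext i
  fin_cases i <;> simp

theorem twLD_H (r : ℝ) (ψ : ℝ → ℝ) (hψ : ContDiff ℝ ∞ ψ) (pψ : ∀ c, ψ (c + 1) = ψ c) (x : E3) :
    (twLD r ψ hψ pψ).H x = ![x 0, x 1 - r, x 2 - ψ (x 0)] := by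
  rw [twLD, comp_H, vLD_H, trLD_H]
  funext i
  fin_cases i <;> simp

theorem mp_twLD (r : ℝ) (ψ : ℝ → ℝ) (hψ : ContDiff ℝ ∞ ψ) (pψ : ∀ c, ψ (c + 1) = ψ c) :
    MP (twLD r ψ hψ pψ) := (mp_trLD _).comp (mp_vLD _ _ _ _)

namespace Dat

variable (D : Dat)

/-- `R_t` -/
noncomputable def R : LD := twLD ((D.P : ℝ) / D.q) D.ψ D.hψ D.pψ

theorem R_F (x : E3) : D.R.F x = ![x 0, x 1 + (D.P : ℝ) / D.q, x 2 + D.ψ (x 0)] := twLD_F _ _ _ _ _
theorem R_H (x : E3) : D.R.H x = ![x 0, x 1 - (D.P : ℝ) / D.q, x 2 - D.ψ (x 0)] := twLD_H _ _ _ _ _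
theorem mp_R : MP D.R := mp_twLD _ _ _ _

/-- `L_{P,s}`: `(c, z) ↦ (c + s, z1 + P/q + s/N, z2 + s F(N z1 - c))` -/
noncomputable def LL (P : ℤ) (s : ℝ) : LD :=
  (trLD ![s, (P : ℝ) / D.q + s / D.N, 0]).comp
    (sh2 (fun c y => s * D.F (D.N * y - c))
      (contDiff_const.mul (D.hF.comp ((contDiff_const.mul contDiff_snd).sub contDiff_fst)))
      (fun m n => ⟨0, fun c y => by
        have e : (D.N : ℝ) * (y + n) - (c + m) = D.N * y - c + ((D.N * n - m : ℤ) : ℝ) := by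
          push_cast; ring
        rw [e, D.F_int]; simp⟩))

theorem LL_F (P : ℤ) (s : ℝ) (x : E3) :
    (D.LL P s).F x = ![x 0 + s, (D.lf P s (x 0) (x 1, x 2)).1, (D.lf P s (x 0) (x 1, x 2)).2] := by
  rw [LL, comp_F, sh2_F, trLD_F]
  funext i
  fin_cases i
  · simp
  · simp [lf]; ring
  · simp [lf]

theorem LL_H (P : ℤ) (s : ℝ) (x : E3) : (D.LL P s).H x = (D.LL (-P) (-s)).F x := by
  rw [LL_F, LL, comp_H, sh2_H, trLD_H]
  have e : (D.N : ℝ) * (x 1 - ((P : ℝ) / D.q + s / D.N)) - (x 0 - s)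
      = D.N * x 1 - x 0 + ((- (D.q2 * P) : ℤ) : ℝ) := by
    have := D.N_mul P
    have hN := D.hN0
    have h2 : (D.N : ℝ) * (x 1 - ((P : ℝ) / D.q + s / D.N)) - (x 0 - s)
      = D.N * x 1 - x 0 - D.N * ((P : ℝ) / D.q) := by field_simp; ring
    rw [h2, this]; push_cast; ring
  have e' : (D.N : ℝ) * (x 1 - ((P : ℝ) / D.q + s / D.N)) - (x 0 - s)
      = D.N * x 1 - x 0 + ((- (D.q2 * P) : ℤ) : ℝ) := e
  funext i
  fin_cases i
  · simp; ring
  · simp [lf]; ring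
  · simp [lf]
    rw [e', D.F_int]; ring


/-- `B` as a lifted diffeomorphism -/
noncomputable def BL : LD :=
  (Word.ld D.q D.w).comp ((sh1 (fun c _ => - (D.β c / D.N))
      ((D.β_smooth.comp contDiff_fst).div_const _).neg
      (fun m n => ⟨0, fun c y => by rw [D.β_int]; simp⟩)).comp
    (sh2 (fun c y => - (D.β c * D.F (D.N * y - c)))
      (((D.β_smooth.comp contDiff_fst).mul
        (D.hF.comp ((contDiff_const.mul contDiff_snd).sub contDiff_fst))).neg)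
      (fun m n => ⟨0, fun c y => by
        have e : (D.N : ℝ) * (y + n) - (c + m) = D.N * y - c + ((D.N * n - m : ℤ) : ℝ) := by
          push_cast; ring
        rw [e, D.F_int, D.β_int]; simp⟩)))

theorem BL_F (x : E3) :
    D.BL.F x = ![x 0, (D.Bf (x 0) (x 1, x 2)).1, (D.Bf (x 0) (x 1, x 2)).2] := by
  rw [BL, comp_F, comp_F, sh2_F, sh1_F, Word.ld_F]
  simp only [Bf, Matrix.cons_val_zero, Matrix.cons_val_one, Matrix.cons_val, ← sub_eq_add_neg]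

theorem BL_H (x : E3) :
    D.BL.H x = ![x 0, (D.Bi (x 0) (x 1, x 2)).1, (D.Bi (x 0) (x 1, x 2)).2] := by
  have h : D.BL.F ![x 0, (D.Bi (x 0) (x 1, x 2)).1, (D.Bi (x 0) (x 1, x 2)).2] = x := by
    rw [BL_F]
    simp only [Matrix.cons_val_zero, Matrix.cons_val_one, Matrix.cons_val]
    rw [Prod.mk.eta, Bf_Bi]
    funext i
    fin_cases i <;> simp
  conv_lhs => rw [← h]
  rw [D.BL.HF]

theorem mp_BL : MP D.BL := (Word.mp_ld _ _).comp ((mp_sh1 _ _ _).comp (mp_sh2 _ _ _))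

/-- `B_h = frac(h Ψ(1))` -/
noncomputable def Bh (h : ℕ) : ℝ := Int.fract ((h : ℝ) * Psi D.ψ 1)

theorem Bh_mem (h : ℕ) : D.Bh h ∈ Set.Icc (0 : ℝ) 1 :=
  ⟨Int.fract_nonneg _, (Int.fract_lt_one _).le⟩

/-- `χ_h` -/
noncomputable def χ (h : ℕ) (c : ℝ) : ℝ := h * Psi D.ψ c - D.Bh h * D.pr.zt c

theorem χ_smooth (h : ℕ) : ContDiff ℝ ∞ (D.χ h) :=
  (contDiff_const.mul (Psi_smooth D.hψ)).sub (contDiff_const.mul D.pr.zt_smooth)

theorem χ_add_int (h : ℕ) (c : ℝ) (m : ℤ) :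
    D.χ h (c + m) = D.χ h c + m * ⌊(h : ℝ) * Psi D.ψ 1⌋ := by
  unfold χ Bh
  rw [Psi_per_int D.hψ.continuous D.pψ, zt_int_of_Icc, Int.fract]
  ring

theorem χ_per (h : ℕ) (c : ℝ) : D.χ h (c + 1) = D.χ h c + ⌊(h : ℝ) * Psi D.ψ 1⌋ := by
  have := D.χ_add_int h c 1
  simpa using this

/-- on the interior of the circle `χ_h = h Ψ - B_h` -/
theorem χ_eq (h : ℕ) {c : ℝ} (h1 : D.δ / 8 ≤ c) (h2 : c ≤ 1 - D.δ / 8) :
    D.χ h c = h * Psi D.ψ c - D.Bh h := by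
  unfold χ
  rw [D.pr.zt_one c h1 h2, mul_one]

/-- near the integers `χ_h + B_h z` is an integer -/
theorem χ_near (h : ℕ) {c : ℝ} {m : ℤ} (hc : |c - m| ≤ 3 * D.δ / 8) :
    D.χ h c + D.Bh h * D.pr.z c = m * ⌊(h : ℝ) * Psi D.ψ 1⌋ := by
  have h0 := D.hδ0
  have e : c = (c - m) + m := by ring
  have hz : D.pr.z c = D.pr.zt (c - m) := by
    rw [← D.pr.z_eq _ hc]
    have := per_int D.pr.z_per m (c - m)
    rw [sub_add_cancel] at this
    exact this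
  have h3 : D.χ h (c - m) = - (D.Bh h * D.pr.zt (c - m)) := by
    unfold χ
    rw [Psi_eq_zero D.zψ (hc.trans (by linarith))]
    ring
  have h4 : D.χ h c = D.χ h (c - m) + m * ⌊(h : ℝ) * Psi D.ψ 1⌋ := by
    rw [← χ_add_int, sub_add_cancel]
  rw [h4, hz, h3]; ring

theorem χ_sub (h : ℕ) (c s σ : ℝ) (hs : (h : ℝ) * s = σ) :
    D.χ h (c + s) = D.χ h c + σ * av D.ψ s c - D.Bh h * (D.pr.zt (c + s) - D.pr.zt c) := by
  unfold χ
  have := Psi_add_sub D.hψ.continuous c s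
  have e : Psi D.ψ (c + s) = Psi D.ψ c + s * av D.ψ s c := by linarith
  rw [e, ← hs]; ring

/-- `K = V_χ ∘ B` -/
noncomputable def K (h : ℕ) : LD := (vLD (D.χ h) (D.χ_smooth h) _ (D.χ_per h)).comp D.BL

theorem K_F (h : ℕ) (x : E3) :
    (D.K h).F x = ![x 0, (D.Bf (x 0) (x 1, x 2)).1, (D.Bf (x 0) (x 1, x 2)).2 + D.χ h (x 0)] := by
  rw [K, comp_F, vLD_F, BL_F]
  simp

theorem K_H (h : ℕ) (x : E3) :
    (D.K h).H x = ![x 0, (D.Bi (x 0) (x 1, x 2 - D.χ h (x 0))).1,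
      (D.Bi (x 0) (x 1, x 2 - D.χ h (x 0))).2] := by
  rw [K, comp_H, vLD_H, BL_H]
  simp

theorem mp_K (h : ℕ) : MP (D.K h) := (mp_vLD _ _ _ _).comp D.mp_BL

/-- the smooth family `Γ_{s,b}` -/
noncomputable def Gam (σ : ℝ) (P : ℤ) (s b : ℝ) (x : E3) : E3 :=
  ![x 0 + s, (D.G P s (x 0) (x 1, x 2 + b * D.pr.z (x 0))).1,
    (D.G P s (x 0) (x 1, x 2 + b * D.pr.z (x 0))).2 +
      (σ * av D.ψ s (x 0) - b * (D.pr.zt (x 0 + s) - D.pr.zt (x 0)) - b * D.pr.z (x 0))]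

theorem K_L_K (h : ℕ) (σ : ℝ) (P : ℤ) (s : ℝ) (hs : (h : ℝ) * s = σ) (hs1 : |s| < D.δ / 16)
    (x : E3) : (D.K h).F ((D.LL P s).F ((D.K h).H x)) = D.Gam σ P s (D.Bh h) x := by
  rw [K_H, LL_F, K_F]
  simp only [Matrix.cons_val_zero, Matrix.cons_val_one, Matrix.cons_val]
  have e1 : D.Bf (x 0 + s) ((D.lf P s (x 0) ((D.Bi (x 0) (x 1, x 2 - D.χ h (x 0))).1,
      (D.Bi (x 0) (x 1, x 2 - D.χ h (x 0))).2)).1, (D.lf P s (x 0)
      ((D.Bi (x 0) (x 1, x 2 - D.χ h (x 0))).1, (D.Bi (x 0) (x 1, x 2 - D.χ h (x 0))).2)).2)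
      = D.G P s (x 0) (x 1, x 2 - D.χ h (x 0)) := rfl
  rw [e1]
  have h0 := D.hδ0
  have hδ1 := D.hδ1
  rw [abs_lt] at hs1
  -- the key identity
  have key : D.G P s (x 0) (x 1, x 2 - D.χ h (x 0)) + (0, D.χ h (x 0 + s)) =
      D.G P s (x 0) (x 1, x 2 + D.Bh h * D.pr.z (x 0)) + (0, σ * av D.ψ s (x 0)
        - D.Bh h * (D.pr.zt (x 0 + s) - D.pr.zt (x 0)) - D.Bh h * D.pr.z (x 0)) := by
    rw [D.χ_sub h (x 0) s σ hs]
    by_cases hc : ∃ m : ℤ, |x 0 - m| ≤ 3 * D.δ / 8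
    · obtain ⟨m, hm⟩ := hc
      have h1 := D.χ_near h hm
      have e2 : ((x 1, x 2 - D.χ h (x 0)) : ℝ × ℝ) = (x 1, x 2 + D.Bh h * D.pr.z (x 0))
          + (((0 : ℤ) : ℝ), ((- (m * ⌊(h : ℝ) * Psi D.ψ 1⌋) : ℤ) : ℝ)) := by
        ext
        · simp
        · simp only [Prod.snd_add]; push_cast; rw [← h1]; ring
      rw [e2, G_add_int]
      have h2 : ((- (m * ⌊(h : ℝ) * Psi D.ψ 1⌋) : ℤ) : ℝ) = - (D.χ h (x 0) + D.Bh h * D.pr.z (x 0)) := by
        rw [h1]; push_cast; ring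
      rw [h2]
      ext
      · simp
      · simp only [Prod.snd_add]; ring
    · push Not at hc
      have h1 := hc ⌊x 0⌋
      have h2 := hc (⌊x 0⌋ + 1)
      have h3 := Int.floor_le (x 0)
      have h4 := Int.lt_floor_add_one (x 0)
      rw [abs_of_nonneg (by linarith)] at h1
      push_cast at h2
      rw [abs_of_nonpos (by linarith)] at h2
      have hb1 : D.β (x 0) = x 0 - (⌊x 0⌋ : ℤ) := D.β_eq (by linarith) (by linarith)
      have hb2 : D.β (x 0 + s) = x 0 + s - (⌊x 0⌋ : ℤ) := D.β_eq (by linarith) (by linarith)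
      rw [D.G_far P s (x 0) _ _ hb1 hb2, D.G_far P s (x 0) _ _ hb1 hb2]
      ext
      · simp
      · simp only [Prod.snd_add]; ring
  unfold Gam
  have k1 := congrArg Prod.fst key
  have k2 := congrArg Prod.snd key
  simp only [Prod.fst_add, Prod.snd_add, add_zero] at k1 k2
  rw [k1, k2]

theorem Gam_zero (σ : ℝ) (P : ℤ) (b : ℝ) (x : E3) :
    D.Gam σ P 0 b x = ![x 0, x 1 + (P : ℝ) / D.q, x 2 + σ * D.ψ (x 0)] := by
  unfold Gam
  rw [G_zero, av_zero]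
  funext i
  fin_cases i
  · simp
  · simp
  · simp

theorem Gam_one (b : ℝ) (x : E3) : D.Gam 1 D.P 0 b x = D.R.F x := by
  rw [Gam_zero, R_F, one_mul]

theorem Gam_neg_one (b : ℝ) (x : E3) : D.Gam (-1) (-D.P) 0 b x = D.R.H x := by
  rw [Gam_zero, R_H]
  funext i
  fin_cases i
  · simp
  · simp; ring
  · simp; ring

theorem av_int (s c : ℝ) (m : ℤ) : av D.ψ s (c + m) = av D.ψ s c :=
  per_int (f := fun c => av D.ψ s c) (fun c => av_per D.pψ s c) m c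

theorem Gam_equi (σ : ℝ) (P : ℤ) (s b : ℝ) : TwSoft.Equi (D.Gam σ P s b) := by
  intro k x
  have hz : D.pr.z ((x + zv k) 0) = D.pr.z (x 0) := per_int D.pr.z_per (k 0) (x 0)
  have hzt : D.pr.zt ((x + zv k) 0) = D.pr.zt (x 0) + k 0 := zt_int_of_Icc D.pr (x 0) (k 0)
  have hzt2 : D.pr.zt ((x + zv k) 0 + s) = D.pr.zt (x 0 + s) + k 0 := by
    rw [← zt_int_of_Icc]; congr 1; simp; ring
  have hav : av D.ψ s ((x + zv k) 0) = av D.ψ s (x 0) := D.av_int s (x 0) (k 0)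
  have hG : D.G P s ((x + zv k) 0) ((x + zv k) 1, (x + zv k) 2 + b * D.pr.z (x 0))
      = D.G P s (x 0) (x 1, x 2 + b * D.pr.z (x 0)) + ((k 1 : ℝ), (k 2 : ℝ)) := by
    rw [← G_add_int]
    have := D.G_int P s (x 0) ((x 1, x 2 + b * D.pr.z (x 0)) + ((k 1 : ℝ), (k 2 : ℝ))) (k 0)
    rw [← this]
    congr 1
    ext
    · simp
    · simp; ring
  unfold Gam
  rw [hz, hzt, hzt2, hav, hG]
  funext i
  fin_cases i
  · simp; ring
  · simp
  · simp; ring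

end Dat

end Crest.Agent.R081.Tw
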