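import Crest.Agent.R081.Ind
import Crest.Agent.R081.StDefs
import Crest.Agent.R081.TwGam

-- ▼ part R081/Ind2
section

/-!
# Row 81: induction and limit, part 2.
-/

set_option autoImplicit false

namespace Crest.Agent.R081.Ind

open MeasureTheory Filter Topology Crest.AnalysisR.Torus3 Crest.Agent.R081.Sm Crest.Agent.R081.Glue
open scoped RealInnerProductSpace ContDiff ENNReal

/-- derivatives of a smooth lift are bounded -/
theorem exists_bd_iter {F : E3 → E3} (hF : ContDiff ℝ ∞ F) (hP : Per F) (i : ℕ) (hi : 1 ≤ i) :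
    ∃ K : ℝ, ∀ x, ‖iteratedFDeriv ℝ i F x‖ ≤ K := by
  have hcont : Continuous fun x => ‖iteratedFDeriv ℝ i F x‖ :=
    (hF.continuous_iteratedFDeriv (by exact_mod_cast le_top)).norm
  have hcomp : IsCompact (Set.Icc (0 : E3) 1) := isCompact_Icc
  obtain ⟨K, hK⟩ := hcomp.exists_bound_of_continuousOn hcont.continuousOn
  refine ⟨K, fun x => ?_⟩
  -- translate x into the unit cube
  let k : Fin 3 → ℤ := fun j => ⌊x j⌋
  have hx : x - zv k ∈ Set.Icc (0 : E3) 1 := by
    constructor
    · intro j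
      simp only [Pi.zero_apply, Pi.sub_apply, zv_apply]
      have := Int.floor_le (x j)
      simp only [k]; linarith
    · intro j
      simp only [Pi.one_apply, Pi.sub_apply, zv_apply]
      have := Int.lt_floor_add_one (x j)
      simp only [k]; linarith
  have h1 := hK _ hx
  rw [norm_norm] at h1
  obtain ⟨m, hm⟩ := hP k
  have h2 : iteratedFDeriv ℝ i F (x - zv k + zv k) = iteratedFDeriv ℝ i F (x - zv k) := by
    have e1 : iteratedFDeriv ℝ i (fun z => F (z + zv k)) (x - zv k) =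
        iteratedFDeriv ℝ i F (x - zv k + zv k) := iteratedFDeriv_comp_add_right i (zv k) _
    rw [← e1]
    have e2 : (fun z => F (z + zv k)) = fun z => F z + zv m := funext hm
    rw [e2]
    have e3 : (fun z => F z + zv m) = F + fun _ => zv m := rfl
    rw [e3, iteratedFDeriv_add_apply (hF.of_le (by exact_mod_cast le_top)).contDiffAt
      contDiff_const.contDiffAt]
    have e4 : iteratedFDeriv ℝ i (fun _ : E3 => (zv m : E3)) (x - zv k) = 0 := by
      have := iteratedFDeriv_const_of_ne (𝕜 := ℝ) (E := E3) (n := i) (by omega) (zv m : E3)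
      rw [this]; rfl
    rw [e4, add_zero]
  rw [sub_add_cancel] at h2
  rw [h2]
  exact h1

/-- the difference of two lifts at bounded distance is bounded in every `C^r` -/
theorem exists_bd_sub {F G : E3 → E3} (hF : ContDiff ℝ ∞ F) (hP : Per F) (hG : ContDiff ℝ ∞ G)
    (hQ : Per G) {C : ℝ} (h0 : Bd 0 C (fun x => F x - G x)) (r : ℕ) :
    ∃ K : ℝ, Bd r K (fun x => F x - G x) := by
  have hex : ∀ i : ℕ, ∃ K : ℝ, ∀ x, ‖iteratedFDeriv ℝ i (fun x => F x - G x) x‖ ≤ K := by
    intro i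
    rcases Nat.eq_zero_or_pos i with rfl | hi
    · exact ⟨C, fun x => h0 0 le_rfl x⟩
    · obtain ⟨K1, h1⟩ := exists_bd_iter hF hP i hi
      obtain ⟨K2, h2⟩ := exists_bd_iter hG hQ i hi
      refine ⟨K1 + K2, fun x => ?_⟩
      have e3 : (fun x => F x - G x) = F - G := rfl
      rw [e3, iteratedFDeriv_sub_apply (hF.of_le (by exact_mod_cast le_top)).contDiffAt
        (hG.of_le (by exact_mod_cast le_top)).contDiffAt]
      exact (norm_sub_le _ _).trans (add_le_add (h1 x) (h2 x))
  choose K hK using hex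
  refine ⟨∑ i ∈ Finset.range (r + 1), |K i|, fun i hi x => ?_⟩
  refine (hK i x).trans ((le_abs_self _).trans ?_)
  exact Finset.single_le_sum (f := fun i => |K i|) (fun _ _ => abs_nonneg _)
    (Finset.mem_range.2 (by omega))

/-- limit of a sequence of lifted diffeomorphisms with `Close n 2^{-n}` steps -/
theorem exists_lim (L : ℕ → LD) (h : ∀ n, Close n ((1 / 2 : ℝ) ^ n) (L n) (L (n + 1))) :
    ∃ A : LD, Conv L A := by
  have hF : ∀ r n, ∃ K : ℝ, Bd r K (fun x => (L (n + 1)).F x - (L n).F x) := fun r n =>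
    exists_bd_sub (L (n + 1)).hF (L (n + 1)).pF (L n).hF (L n).pF ((h n).1.mono (Nat.zero_le _) le_rfl) r
  have hH : ∀ r n, ∃ K : ℝ, Bd r K (fun x => (L (n + 1)).H x - (L n).H x) := fun r n =>
    exists_bd_sub (L (n + 1)).hH (L (n + 1)).pH (L n).hH (L n).pH ((h n).2.mono (Nat.zero_le _) le_rfl) r
  choose KF hKF using hF
  choose KH hKH using hH
  let v : ℕ → ℕ → ℝ := fun r n => if n < r then |KF r n| + |KH r n| else (1 / 2 : ℝ) ^ n
  refine exists_limit L v ?_ ?_ ?_
  · intro r
    have hs : Summable fun n : ℕ => (1 / 2 : ℝ) ^ n := summable_geometric_two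
    refine (summable_nat_add_iff r).1 ?_
    refine ((summable_nat_add_iff r).2 hs).congr fun n => ?_
    simp only [v]
    rw [if_neg (by omega)]
  · intro r n
    simp only [v]
    split_ifs with hn
    · exact (hKF r n).mono le_rfl ((le_abs_self _).trans (le_add_of_nonneg_right (abs_nonneg _)))
    · exact (h n).1.mono (by omega) le_rfl
  · intro r n
    simp only [v]
    split_ifs with hn
    · exact (hKH r n).mono le_rfl ((le_abs_self _).trans (le_add_of_nonneg_left (abs_nonneg _)))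
    · exact (h n).2.mono (by omega) le_rfl

end Crest.Agent.R081.Ind
end

-- ▼ part R081/Ind3
section

/-!
# Row 81: induction and limit, part 3: the one-step proposition implies S0108.
-/

set_option autoImplicit false

namespace Crest.Agent.R081.Ind

open MeasureTheory Filter Topology Crest.AnalysisR.Torus3 Crest.Agent.R081.Sm Crest.Agent.R081.Glue
open scoped RealInnerProductSpace ContDiff ENNReal

theorem secondCountable_HR : SecondCountableTopology HR := by
  have i1 : MeasurableSpace.CountablyGenerated T3 := by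
    unfold T3
    infer_instance
  have i3 : SigmaFinite (volume : Measure T3) := Measure.instSigmaFiniteForallVolume
  have i2 : IsSeparable (volume : Measure T3) := inferInstance
  have i6 : Fact ((2 : ENNReal) ≠ (⊤ : ENNReal)) := ⟨by norm_num⟩
  exact Lp.SecondCountableTopology

/-- a dense sequence of mean zero functions -/
theorem exists_dense : ∃ f : ℕ → HR, (∀ i, ∫ x, f i x = 0) ∧
    ∀ h : HR, ∫ x, h x = 0 → ∀ η : ℝ, 0 < η → ∃ i, ‖h - f i‖ ≤ η := by
  have i0 := secondCountable_HR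
  let Z : Set HR := {h | ∫ x, h x = 0}
  have hne : Nonempty Z := ⟨⟨0, by
    show ∫ x, (0 : HR) x = 0
    rw [integral_congr_ae (Lp.coeFn_zero ℝ 2 (volume : Measure T3))]
    simp⟩⟩
  refine ⟨fun i => (TopologicalSpace.denseSeq Z i : HR), fun i => (TopologicalSpace.denseSeq Z i).2,
    fun h hh η hη => ?_⟩
  have hd := TopologicalSpace.denseRange_denseSeq Z
  obtain ⟨i, hi⟩ := hd.exists_dist_lt (⟨h, hh⟩ : Z) hη
  refine ⟨i, ?_⟩
  rw [Subtype.dist_eq, dist_eq_norm] at hi
  exact hi.le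

theorem integral_eq_zero_of_tendsto {g : ℕ → HR} {G : HR} (h : Tendsto g atTop (𝓝 G))
    (h0 : ∀ n, ∫ x, g n x = 0) : ∫ x, G x = 0 := by
  have hc : Continuous fun f : HR => ∫ x, f x := by
    have h1 : Continuous fun f : Lp ℝ 2 (volume : Measure T3) =>
        (⟪f, Lp.const 2 (volume : Measure T3) (1 : ℝ)⟫ : ℝ) := by fun_prop
    have h2 : (fun f : HR => ∫ x, f x) =
        fun f : Lp ℝ 2 (volume : Measure T3) => (⟪f, Lp.const 2 (volume : Measure T3) (1 : ℝ)⟫ : ℝ) := by
      funext f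
      rw [inner_eq]
      refine integral_congr_ae ?_
      filter_upwards [Lp.coeFn_const 2 (volume : Measure T3) (1 : ℝ)] with x hx
      rw [hx]; simp
    rw [h2]; exact h1
  have h1 : Tendsto (fun n => ∫ x, g n x) atTop (𝓝 (∫ x, G x)) := (hc.tendsto G).comp h
  simp only [h0] at h1
  exact (tendsto_nhds_unique h1 tendsto_const_nhds)

/-- **One-step proposition implies the goal.** -/
theorem goal_of_step {St : Type} (S : St → Sys) (m : ℕ) (D : ℕ → St → HR → ℝ) (s0 : St)
    (hD : ∀ (s : St) (f : HR), ∫ x, f x = 0 → ∀ η : ℝ, 0 < η →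
      ∃ p : ℤ →₀ ℝ, ‖f - pol (S s).A (S s).mp p (S s).g‖ ≤ D 0 s f + η)
    (step : ∀ (s : St) (F : Finset HR), (∀ f ∈ F, ∫ x, f x = 0) → ∀ ε : ℝ, 0 < ε → ∀ r : ℕ,
      ∃ s' : St, Close r ε (S s).A (S s').A ∧ ‖(S s').g - (S s).g‖ ≤ ε ∧
        ∀ f ∈ F, (∀ i < m, D i s' f ≤ D (i + 1) s f + ε) ∧ D m s' f ≤ ε) : Goal := by
  classical
  obtain ⟨f, hf0, hfd⟩ := exists_dense
  let P : Type := ℤ →₀ ℝ
  let e : ℕ → ℝ := fun n => (1 / 2 : ℝ) ^ n
  have he : ∀ n, 0 < e n := fun n => by simp only [e]; positivity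
  -- the relation between successive states
  let R : ℕ → (St × List (ℤ →₀ ℝ)) → (St × List (ℤ →₀ ℝ)) → Prop := fun n s s' =>
    Close n (e n) (S s.1).A (S s'.1).A ∧ ‖(S s'.1).g - (S s.1).g‖ ≤ e n ∧
    (∀ p ∈ s.2, ‖pol (S s'.1).A (S s'.1).mp p (S s'.1).g -
      pol (S s.1).A (S s.1).mp p (S s.1).g‖ ≤ e n) ∧
    (∀ i ≤ n, (∀ j < m, D j s'.1 (f i) ≤ D (j + 1) s.1 (f i) + e n) ∧ D m s'.1 (f i) ≤ e n) ∧
    (∀ p ∈ s.2, p ∈ s'.2) ∧
    (∀ i ≤ n, ∃ p ∈ s'.2, ‖f i - pol (S s'.1).A (S s'.1).mp p (S s'.1).g‖ ≤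
      D 0 s'.1 (f i) + e n)
  have hR : ∀ n s, ∃ s', R n s s' := by
    intro n s
    obtain ⟨δ, hδ, hδ'⟩ := stabList (S s.1).A (S s.1).mp (S s.1).g s.2 (he n)
    obtain ⟨s', h1, h2, h3⟩ := step s.1 ((Finset.range (n + 1)).image f) (by
      intro h hh
      obtain ⟨i, _, rfl⟩ := Finset.mem_image.1 hh
      exact hf0 i) (min δ (e n)) (lt_min hδ (he n)) n
    choose p hp using fun i : ℕ => hD s' (f i) (hf0 i) (e n) (he n)
    refine ⟨(s', s.2 ++ (List.range (n + 1)).map p), h1.mono le_rfl (min_le_right _ _),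
      h2.trans (min_le_right _ _), ?_, ?_, ?_, ?_⟩
    · intro q hq
      exact hδ' (S s').A (S s').mp (S s').g (h1.mono (Nat.zero_le _) (min_le_left _ _))
        (h2.trans (min_le_left _ _)) q hq
    · intro i hi
      have := h3 (f i) (Finset.mem_image.2 ⟨i, Finset.mem_range.2 (by omega), rfl⟩)
      refine ⟨fun j hj => (this.1 j hj).trans ?_, this.2.trans (min_le_right _ _)⟩
      have := min_le_right δ (e n)
      linarith
    · intro q hq
      exact List.mem_append_left _ hq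
    · intro i hi
      refine ⟨p i, List.mem_append_right _ ?_, hp i⟩
      exact List.mem_map.2 ⟨i, List.mem_range.2 (by omega), rfl⟩
  choose nxt hnxt using hR
  let s : ℕ → (St × List (ℤ →₀ ℝ)) := fun n => Nat.rec (s0, []) (fun n s => nxt n s) n
  have hs : ∀ n, R n (s n) (s (n + 1)) := fun n => hnxt n (s n)
  -- abbreviations
  let L : ℕ → LD := fun n => (S (s n).1).A
  have hL : ∀ n, MPr (L n) := fun n => (S (s n).1).mp
  let g : ℕ → HR := fun n => (S (s n).1).g
  obtain ⟨A, hconv⟩ := exists_lim L (fun n => (hs n).1)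
  have hA : MPr A := hconv.measurePreserving hL
  -- tails of the geometric series
  have htail : ∀ n k : ℕ, ∑ i ∈ Finset.range k, e (n + i) ≤ 2 * e n := by
    intro n k
    have h1 : ∑ i ∈ Finset.range k, e (n + i) = e n * ∑ i ∈ Finset.range k, (1 / 2 : ℝ) ^ i := by
      rw [Finset.mul_sum]
      exact Finset.sum_congr rfl fun i _ => pow_add _ _ _
    have h2 : ∑ i ∈ Finset.range k, (1 / 2 : ℝ) ^ i ≤ 2 := sum_geometric_two_le k
    rw [h1]
    nlinarith [he n]
  -- general Cauchy statement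
  have hcauchy : ∀ (u : ℕ → HR) (N : ℕ), (∀ n, N ≤ n → ‖u (n + 1) - u n‖ ≤ e n) → ∀ n, N ≤ n →
      ∀ k, ‖u (n + k) - u n‖ ≤ 2 * e n := by
    intro u N hu n hn k
    refine le_trans ?_ (htail n k)
    induction k with
    | zero => simp
    | succ k ih =>
      rw [Finset.sum_range_succ]
      calc ‖u (n + (k + 1)) - u n‖ = ‖(u (n + k + 1) - u (n + k)) + (u (n + k) - u n)‖ := by
            congr 1; rw [← add_assoc]; abel
        _ ≤ ‖u (n + k + 1) - u (n + k)‖ + ‖u (n + k) - u n‖ := norm_add_le _ _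
        _ ≤ e (n + k) + ∑ i ∈ Finset.range k, e (n + i) :=
            add_le_add (hu (n + k) (by omega)) ih
        _ = _ := by ring
  have he0 : Tendsto e atTop (𝓝 0) :=
    tendsto_pow_atTop_nhds_zero_of_lt_one (by norm_num) (by norm_num)
  have hgc : ∀ n k, ‖g (n + k) - g n‖ ≤ 2 * e n := fun n k =>
    hcauchy g 0 (fun n _ => (hs n).2.1) n (Nat.zero_le _) k
  have hgC : CauchySeq g := by
    refine Metric.cauchySeq_iff'.2 fun ε hε => ?_
    have h1 : Tendsto (fun n => 2 * e n) atTop (𝓝 0) := by simpa using he0.const_mul 2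
    obtain ⟨N, hN⟩ := ((tendsto_order.1 h1).2 ε hε).exists
    refine ⟨N, fun n hn => ?_⟩
    obtain ⟨k, rfl⟩ := Nat.exists_eq_add_of_le hn
    rw [dist_eq_norm]
    exact (hgc N k).trans_lt hN
  obtain ⟨G, hG⟩ := cauchySeq_tendsto_of_complete hgC
  have hgG : ∀ n, ‖G - g n‖ ≤ 2 * e n := by
    intro n
    have h1 : Tendsto (fun k => ‖g (n + k) - g n‖) atTop (𝓝 ‖G - g n‖) := by
      have h2 : Tendsto (fun k => g (n + k)) atTop (𝓝 G) := by
        have := (tendsto_add_atTop_iff_nat (f := g) n).2 hG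
        simpa [add_comm] using this
      exact (h2.sub_const (g n)).norm
    exact le_of_tendsto h1 (Eventually.of_forall fun k => hgc n k)
  -- strong convergence of U_n^k g_n
  have hUg : ∀ k : ℤ, Tendsto (fun n => ((U (L n) (hL n)) ^ k) (g n)) atTop
      (𝓝 (((U A hA) ^ k) G)) := by
    intro k
    have h1 := conv_U hconv hL hA k G
    have h2 : Tendsto (fun n => ((U (L n) (hL n)) ^ k) (g n) - ((U (L n) (hL n)) ^ k) G) atTop
        (𝓝 0) := by
      rw [tendsto_zero_iff_norm_tendsto_zero]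
      refine squeeze_zero (fun n => norm_nonneg _) (g := fun n => 2 * e n) (fun n => ?_)
        (by simpa using he0.const_mul 2)
      rw [← map_sub, norm_U_zpow, norm_sub_rev]
      exact hgG n
    simpa using h2.add h1
  -- inner products
  have hon : ∀ k : ℤ, ⟪((U A hA) ^ k) G, G⟫ = if k = 0 then (1 : ℝ) else 0 := by
    intro k
    have h1 : Tendsto (fun n => ⟪((U (L n) (hL n)) ^ k) (g n), g n⟫) atTop
        (𝓝 ⟪((U A hA) ^ k) G, G⟫) := Filter.Tendsto.inner (𝕜 := ℝ) (hUg k) hG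
    have h2 : ∀ n, ⟪((U (L n) (hL n)) ^ k) (g n), g n⟫ = if k = 0 then (1 : ℝ) else 0 :=
      fun n => (S (s n).1).on k
    simp only [h2] at h1
    exact (tendsto_nhds_unique h1 tendsto_const_nhds).symm ▸ rfl
  -- polynomials
  have hpol : ∀ p : ℤ →₀ ℝ, Tendsto (fun n => pol (L n) (hL n) p (g n)) atTop
      (𝓝 (pol A hA p G)) := by
    intro p
    unfold pol Finsupp.sum
    exact tendsto_finsetSum _ fun k _ => (hUg k).const_smul _
  -- the defects
  have hdef : ∀ i n j : ℕ, i ≤ n → j ≤ m →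
      D (m - j) (s (n + j + 1)).1 (f i) ≤ ∑ l ∈ Finset.range (j + 1), e (n + l) := by
    intro i n j hi
    induction j with
    | zero =>
      intro _
      simpa using ((hs n).2.2.2.1 i hi).2
    | succ j ih =>
      intro hj
      have h1 := ((hs (n + j + 1)).2.2.2.1 i (by omega)).1 (m - (j + 1)) (by omega)
      have h2 : m - (j + 1) + 1 = m - j := by omega
      rw [h2] at h1
      have h3 := ih (by omega)
      rw [Finset.sum_range_succ]
      have h4 : n + (j + 1) + 1 = n + j + 1 + 1 := by omega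
      have h5 : n + (j + 1) = n + j + 1 := by omega
      rw [h4, h5]
      linarith
  -- every f i is close to a polynomial in U applied to G
  have happ : ∀ i : ℕ, ∀ η : ℝ, 0 < η → ∃ p : ℤ →₀ ℝ, ‖f i - pol A hA p G‖ ≤ η := by
    intro i η hη
    have h1 : Tendsto (fun n => 8 * e n) atTop (𝓝 0) := by simpa using he0.const_mul 8
    obtain ⟨N, hN⟩ := ((tendsto_order.1 h1).2 η hη).exists_forall_of_atTop
    set n := max N i with hn
    have hni : i ≤ n := le_max_right _ _
    have hNn := hN n (le_max_left _ _)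
    -- state n + m + 1
    obtain ⟨p, hp, hp2⟩ := (hs (n + m)).2.2.2.2.2 i (by omega)
    have hd := hdef i n m hni le_rfl
    rw [Nat.sub_self] at hd
    have hd2 : D 0 (s (n + m + 1)).1 (f i) ≤ 2 * e n := hd.trans (htail n (m + 1))
    have hen : ∀ k, e (n + k) ≤ e n := by
      intro k
      simp only [e]
      exact pow_le_pow_of_le_one (by norm_num) (by norm_num) (by omega)
    -- membership persists
    have hmem : ∀ k, p ∈ (s (n + m + 1 + k)).2 := by
      intro k
      induction k with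
      | zero => exact hp
      | succ k ih => exact (hs (n + m + 1 + k)).2.2.2.2.1 p ih
    have hstep : ∀ l, n + m + 1 ≤ l →
        ‖pol (L (l + 1)) (hL (l + 1)) p (g (l + 1)) - pol (L l) (hL l) p (g l)‖ ≤ e l := by
      intro l hl
      obtain ⟨k, rfl⟩ := Nat.exists_eq_add_of_le hl
      exact (hs (n + m + 1 + k)).2.2.1 p (hmem k)
    have hc := hcauchy (fun l => pol (L l) (hL l) p (g l)) (n + m + 1) hstep (n + m + 1) le_rfl
    have hlim : ‖pol A hA p G - pol (L (n + m + 1)) (hL (n + m + 1)) p (g (n + m + 1))‖ ≤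
        2 * e (n + m + 1) := by
      have h2 : Tendsto (fun k => pol (L (n + m + 1 + k)) (hL (n + m + 1 + k)) p
          (g (n + m + 1 + k))) atTop (𝓝 (pol A hA p G)) := by
        have := (tendsto_add_atTop_iff_nat (f := fun l => pol (L l) (hL l) p (g l))
          (n + m + 1)).2 (hpol p)
        simpa [add_comm] using this
      exact le_of_tendsto (h2.sub_const _).norm (Eventually.of_forall fun k => hc k)
    refine ⟨p, ?_⟩
    have e1 := hen m
    have e2 := hen (m + 1)
    rw [← add_assoc] at e2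
    calc ‖f i - pol A hA p G‖
        = ‖(f i - pol (L (n + m + 1)) (hL (n + m + 1)) p (g (n + m + 1))) -
            (pol A hA p G - pol (L (n + m + 1)) (hL (n + m + 1)) p (g (n + m + 1)))‖ := by
          congr 1; abel
      _ ≤ ‖f i - pol (L (n + m + 1)) (hL (n + m + 1)) p (g (n + m + 1))‖ + _ := norm_sub_le _ _
      _ ≤ (D 0 (s (n + m + 1)).1 (f i) + e (n + m)) + 2 * e (n + m + 1) := add_le_add hp2 hlim
      _ ≤ 8 * e n := by linarith [he n]
      _ ≤ η := hNn.le
  -- orthonormality for all pairs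
  have honn : ∀ a b : ℤ, ⟪((U A hA) ^ a) G, ((U A hA) ^ b) G⟫ = if a = b then (1 : ℝ) else 0 := by
    intro a b
    have h1 : ((U A hA) ^ a) G = ((U A hA) ^ b) (((U A hA) ^ (a - b)) G) := by
      have h2 : (U A hA) ^ a = (U A hA) ^ b * (U A hA) ^ (a - b) := by
        rw [← zpow_add]
        congr 1; ring
      rw [h2]; rfl
    rw [h1, LinearIsometryEquiv.inner_map_map, hon]
    simp only [sub_eq_zero]
  refine goal_of_koop A.perm A.isSmoothDiffeo hA hA.symm G
    (integral_eq_zero_of_tendsto hG fun n => (S (s n).1).g0) honn ?_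
  intro h hh horth
  have hpolorth : ∀ p : ℤ →₀ ℝ, ⟪pol A hA p G, h⟫ = 0 := by
    intro p
    unfold pol Finsupp.sum
    rw [sum_inner]
    refine Finset.sum_eq_zero fun k _ => ?_
    rw [real_inner_smul_left]
    have := horth k
    rw [show ⟪((U A hA) ^ k) G, h⟫ = 0 from this, mul_zero]
  by_contra hne
  have hpos : 0 < ‖h‖ := norm_pos_iff.2 hne
  obtain ⟨i, hi⟩ := hfd h hh (‖h‖ / 4) (by positivity)
  obtain ⟨p, hp⟩ := happ i (‖h‖ / 4) (by positivity)
  have h1 : ‖h‖ ^ 2 = ⟪h - pol A hA p G, h⟫ := by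
    rw [inner_sub_left, hpolorth, sub_zero, real_inner_self_eq_norm_sq]
  have h2 : ⟪h - pol A hA p G, h⟫ ≤ ‖h - pol A hA p G‖ * ‖h‖ := real_inner_le_norm _ _
  have h3 : ‖h - pol A hA p G‖ ≤ ‖h‖ / 2 := by
    calc ‖h - pol A hA p G‖ = ‖(h - f i) + (f i - pol A hA p G)‖ := by congr 1; abel
      _ ≤ ‖h - f i‖ + ‖f i - pol A hA p G‖ := norm_add_le _ _
      _ ≤ ‖h‖ / 4 + ‖h‖ / 4 := add_le_add hi hp
      _ = ‖h‖ / 2 := by ring
  nlinarith

end Crest.Agent.R081.Ind
end

-- ▼ part R081/G1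

/-! Row 81, route B (architect helper310): node G1, from the concrete stages to the abstract
induction theorem `Ind.goal_of_step`. -/

set_option autoImplicit false

namespace Crest.Agent.R081.G1

open MeasureTheory Crest.AnalysisR.Torus3 Crest.Agent.R075 Crest.Agent.R081.Fm
  Crest.Agent.R081.Sm Crest.Agent.R081.Tw Crest.Agent.R081.St Crest.Agent.R081.Ind
  Crest.Agent.R081.Glue
open scoped RealInnerProductSpace ContDiff ENNReal

/-- (S0) -/
def FlatS0 : Prop := ∀ (s : Stage) (n : ℤ),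
  ∫ x, s.gT ((s.T.perm ^ n) x) * s.gT x = if n = 0 then 1 else 0

/-- mean zero -/
def FlatMean : Prop := ∀ s : Stage, ∫ x, s.gT x = 0

/-- (S1), real form -/
def FlatS1 : Prop := ∀ (s : Stage) (f : T3 → ℝ), MemLp f 2 volume → ∫ x, f x = 0 → ∀ η : ℝ, 0 < η →
  ∃ p : ℤ →₀ ℝ, eLpNorm (fun x => f x - p.sum fun n a => a * s.gT ((s.T.perm ^ n) x)) 2 volume
    ≤ ENNReal.ofReal (s.D0 (fun x => (f x : ℂ)) + η)

theorem mp_R (t : TwD) : MP t.R := by
  have h := mp_twLD ((t.P : ℝ) / t.q) t.psi t.smooth t.per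
  have e : t.R.perm = (twLD ((t.P : ℝ) / t.q) t.psi t.smooth t.per).perm := by
    ext1 y
    obtain ⟨x, rfl⟩ := proj_surj y
    rw [LD.perm_proj, LD.perm_proj, twLD_F]
    rfl
  unfold MP
  rw [e]
  exact h

theorem mpT (s : Stage) : MP s.T := by
  have h : MP (TT s.t s.H) := (s.mpH.comp (mp_R s.t)).comp s.mpH.inv
  unfold MP at h ⊢
  rw [s.hT]
  exact h

theorem gT_lp (s : Stage) : MemLp s.gT 2 volume := by
  have h : MeasurePreserving s.H.perm.symm (volume : Measure T3) volume := MPr.symm s.mpH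
  exact s.g_lp.comp_measurePreserving h

/-- the vector of the stage -/
noncomputable def vec (s : Stage) : HR := (gT_lp s).toLp s.gT

theorem coe_vec (s : Stage) : vec s =ᵐ[volume] s.gT := (gT_lp s).coeFn_toLp

theorem coe_U_vec (s : Stage) (k : ℤ) :
    ((U s.T (mpT s)) ^ k) (vec s) =ᵐ[volume] fun x => s.gT ((s.T.perm ^ k) x) := by
  refine (coeFn_U_zpow s.T (mpT s) k (vec s)).trans ?_
  exact (mp_zpow (mpT s) k).quasiMeasurePreserving.ae_eq_comp (coe_vec s)

noncomputable def sys (h0 : FlatS0) (hm : FlatMean) (s : Stage) : Sys where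
  A := s.T
  mp := mpT s
  g := vec s
  g0 := by rw [integral_congr_ae (coe_vec s)]; exact hm s
  on := by
    intro k
    rw [inner_eq, ← h0 s k]
    refine integral_congr_ae ?_
    filter_upwards [coe_U_vec s k, coe_vec s] with x h1 h2
    rw [h1, h2]

/-- the defects -/
noncomputable def DD (i : ℕ) (s : Stage) (f : HR) : ℝ :=
  match i with
  | 0 => s.D0 (fun x => (f x : ℂ))
  | 1 => s.D1 (fun x => (f x : ℂ))
  | 2 => s.D2 (fun x => (f x : ℂ))
  | _ => s.D3 (fun x => (f x : ℂ))

theorem memLp_coe (f : HR) : MemLp (fun x => (f x : ℂ)) 2 (volume : Measure T3) :=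
  (Lp.memLp f).ofReal

theorem coe_pol (s : Stage) (p : ℤ →₀ ℝ) :
    pol s.T (mpT s) p (vec s) =ᵐ[volume] fun x => p.sum fun n a => a * s.gT ((s.T.perm ^ n) x) := by
  unfold pol Finsupp.sum
  have h1 : ∀ t : Finset ℤ, (∑ k ∈ t, p k • (((U s.T (mpT s)) ^ k) (vec s)) : HR) =ᵐ[volume]
      fun x => ∑ k ∈ t, p k * s.gT ((s.T.perm ^ k) x) := by
    intro t
    classical
    induction t using Finset.induction_on with
    | empty =>
      simp only [Finset.sum_empty]
      exact Lp.coeFn_zero ℝ 2 (volume : Measure T3)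
    | insert a t ha ih =>
      rw [Finset.sum_insert ha]
      refine (Lp.coeFn_add _ _).trans ?_
      filter_upwards [ih, Lp.coeFn_smul (p a) (((U s.T (mpT s)) ^ a) (vec s)), coe_U_vec s a]
        with x h1 h2 h3
      rw [Pi.add_apply, h1, h2, Pi.smul_apply, h3, Finset.sum_insert ha, smul_eq_mul]
  exact h1 _

theorem goal_of_stages (h0 : FlatS0) (hm : FlatMean) (h1 : FlatS1) (hstep : StepStmt)
    (hbase : Nonempty Stage) : Goal := by
  classical
  obtain ⟨s0⟩ := hbase
  refine goal_of_step (sys h0 hm) 3 DD s0 ?_ ?_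
  · intro s f hf η hη
    obtain ⟨p, hp⟩ := h1 s f (Lp.memLp f) hf η hη
    refine ⟨p, ?_⟩
    have e1 : (f - pol s.T (mpT s) p (vec s) : HR) =ᵐ[volume]
        fun x => f x - p.sum fun n a => a * s.gT ((s.T.perm ^ n) x) := by
      refine (Lp.coeFn_sub _ _).trans ?_
      filter_upwards [coe_pol s p] with x hx
      rw [Pi.sub_apply, hx]
    have hnn : 0 ≤ s.D0 (fun x => (f x : ℂ)) + η :=
      add_nonneg (Real.sqrt_nonneg _) hη.le
    show ‖f - pol s.T (mpT s) p (vec s)‖ ≤ s.D0 (fun x => (f x : ℂ)) + η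
    rw [Lp.norm_def, eLpNorm_congr_ae e1]
    exact ENNReal.toReal_le_of_le_ofReal hnn hp
  · intro s F hF ε hε r
    obtain ⟨s', b1, b2, b3, b4⟩ := hstep s (F.image fun f => fun x => ((f x : ℝ) : ℂ)) (by
      intro f hf
      obtain ⟨f', hf', rfl⟩ := Finset.mem_image.1 hf
      refine ⟨memLp_coe f', ?_⟩
      have := hF f' hf'
      have h2 : ∫ x, ((f' x : ℝ) : ℂ) = ((∫ x, f' x : ℝ) : ℂ) := integral_ofReal
      rw [h2, this]; simp) r ε hε
    refine ⟨s', ⟨b1, b2⟩, ?_, ?_⟩
    · show ‖vec s' - vec s‖ ≤ ε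
      have e1 : (vec s' - vec s : HR) =ᵐ[volume] fun x => s'.gT x - s.gT x := by
        refine (Lp.coeFn_sub _ _).trans ?_
        filter_upwards [coe_vec s, coe_vec s'] with x h1 h2
        rw [Pi.sub_apply, h1, h2]
      have e2 : ‖vec s' - vec s‖ ^ 2 = ∫ x, (s'.gT x - s.gT x) ^ 2 := by
        rw [← real_inner_self_eq_norm_sq, inner_eq]
        refine integral_congr_ae ?_
        filter_upwards [e1] with x hx
        rw [hx]; ring
      have e3 : ‖vec s' - vec s‖ ^ 2 ≤ ε ^ 2 := by rw [e2]; exact b3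
      exact abs_le_of_sq_le_sq' e3 hε.le |>.2
    · intro f hf
      obtain ⟨c0, c1, c2, c3⟩ := b4 (fun x => ((f x : ℝ) : ℂ)) (Finset.mem_image.2 ⟨f, hf, rfl⟩)
      refine ⟨?_, c3⟩
      intro i hi
      interval_cases i
      · exact c0
      · exact c1
      · exact c2

end Crest.Agent.R081.G1
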