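import Mathlib

/-!
Row 81 (route B): the step set `S_+`: exact injectivity, range, symmetry, finiteness,
measurability (helper683).
-/

set_option autoImplicit false

namespace Crest.Agent.R081.Ms

open MeasureTheory Set Filter Topology

/-- unfolded frequency of the mode `x = ((k1,k2),c)`. -/
noncomputable def nuM (r : ℝ) (psi : ℝ → ℝ) (x : (ℤ × ℤ) × ℝ) : ℝ :=
  x.1.1 * r + x.1.2 * psi x.2

/-- exact injectivity mod 1. -/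
def InjM {X : Type*} (nu : X → ℝ) (S : Set X) : Prop :=
  ∀ x ∈ S, ∀ y ∈ S, (∃ m : ℤ, nu x - nu y = m) → x = y

/-- a.e. full mod 1. -/
def FullM {X : Type*} (nu : X → ℝ) (S : Set X) : Prop :=
  ∀ᵐ t : ℝ, ∃ x ∈ S, ∃ m : ℤ, nu x - t = m

/-- frequency of the design at `((a,b),c')`. -/
noncomputable def lamE (Q : ℕ) (F : ℝ → ℝ) (x : (ℤ × ℤ) × ℝ) : ℝ :=
  x.1.1 / Q + x.1.2 * F x.2

/-- exact injectivity of a design (mod `Q` in `a`). -/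
def InjE (Q : ℕ) (F : ℝ → ℝ) (E : Set ((ℤ × ℤ) × ℝ)) : Prop :=
  ∀ x ∈ E, ∀ y ∈ E, (∃ m : ℤ, lamE Q F x - lamE Q F y = m) →
    (Q : ℤ) ∣ x.1.1 - y.1.1 ∧ x.1.2 = y.1.2 ∧ x.2 = y.2

/-- the step set. -/
def StepSet (q Q h : ℕ) (Pp : ℤ) (psi F : ℝ → ℝ) (S E : Set ((ℤ × ℤ) × ℝ)) :
    Set ((ℤ × ℤ) × ℝ) :=
  {x | ((x.1.1 * Pp, x.1.2), x.2) ∈ E ∧ ∃ y ∈ S, (q : ℤ) ∣ x.1.1 - y.1.1 ∧
    (h : ℝ) * (y.1.2 * psi y.2) = x.1.1 / ((q : ℝ) * Q) + x.1.2 * F x.2}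

section

variable {q Q h : ℕ} {P Pp : ℤ} {psi F : ℝ → ℝ} {S E : Set ((ℤ × ℤ) × ℝ)}

theorem key_cast (hP : (q : ℤ) * Pp = P * h * Q + 1) :
    (q : ℝ) * Pp = P * h * Q + 1 := by exact_mod_cast hP

/-- `nu_+ = j P / q + tau / h`. -/
theorem nuP_eq (hq : 0 < q) (hQ : 0 < Q) (hh : 0 < h) (hP : (q : ℤ) * Pp = P * h * Q + 1)
    (x : (ℤ × ℤ) × ℝ) :
    nuM ((Pp : ℝ) / ((h : ℝ) * Q)) (fun c => F c / h) x =
      x.1.1 * ((P : ℝ) / q) + (x.1.1 / ((q : ℝ) * Q) + x.1.2 * F x.2) / h := by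
  have hq' : (q : ℝ) ≠ 0 := by exact_mod_cast hq.ne'
  have hQ' : (Q : ℝ) ≠ 0 := by exact_mod_cast hQ.ne'
  have hh' : (h : ℝ) ≠ 0 := by exact_mod_cast hh.ne'
  have hk := key_cast hP
  have e1 : (Pp : ℝ) / ((h : ℝ) * Q) = (P : ℝ) / q + 1 / ((q : ℝ) * Q * h) := by
    field_simp
    linarith
  rw [nuM, e1]
  field_simp
  ring

/-- `h nu_+ = a / Q + b F`, `a = j P_+`. -/
theorem h_nuP (hQ : 0 < Q) (hh : 0 < h) (x : (ℤ × ℤ) × ℝ) :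
    (h : ℝ) * nuM ((Pp : ℝ) / ((h : ℝ) * Q)) (fun c => F c / h) x =
      lamE Q F ((x.1.1 * Pp, x.1.2), x.2) := by
  have hQ' : (Q : ℝ) ≠ 0 := by exact_mod_cast hQ.ne'
  have hh' : (h : ℝ) ≠ 0 := by exact_mod_cast hh.ne'
  simp only [nuM, lamE]
  push_cast
  field_simp

/-- a point of the step set has the frequency of its parent, mod 1. -/
theorem nuP_sub_parent (hq : 0 < q) (hQ : 0 < Q) (hh : 0 < h)
    (hP : (q : ℤ) * Pp = P * h * Q + 1) (x y : (ℤ × ℤ) × ℝ) (hdvd : (q : ℤ) ∣ x.1.1 - y.1.1)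
    (hxy : (h : ℝ) * (y.1.2 * psi y.2) = x.1.1 / ((q : ℝ) * Q) + x.1.2 * F x.2) :
    ∃ m : ℤ, nuM ((Pp : ℝ) / ((h : ℝ) * Q)) (fun c => F c / h) x -
      nuM ((P : ℝ) / q) psi y = m := by
  have hq' : (q : ℝ) ≠ 0 := by exact_mod_cast hq.ne'
  have hh' : (h : ℝ) ≠ 0 := by exact_mod_cast hh.ne'
  obtain ⟨n, hn⟩ := hdvd
  refine ⟨n * P, ?_⟩
  rw [nuP_eq hq hQ hh hP, ← hxy, nuM]
  have hn' : (x.1.1 : ℝ) = y.1.1 + q * n := by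
    have : x.1.1 = y.1.1 + q * n := by linarith
    exact_mod_cast this
  rw [hn']
  push_cast
  field_simp
  ring

theorem stepSet_inj (hq : 0 < q) (hQ : 0 < Q) (hh : 0 < h)
    (hP : (q : ℤ) * Pp = P * h * Q + 1) (hS : InjM (nuM ((P : ℝ) / q) psi) S)
    (hE : InjE Q F E) :
    InjM (nuM ((Pp : ℝ) / ((h : ℝ) * Q)) (fun c => F c / h)) (StepSet q Q h Pp psi F S E) := by
  rintro x ⟨hxE, y, hyS, hyd, hyx⟩ x' ⟨hxE', y', hyS', hyd', hyx'⟩ ⟨m, hm⟩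
  have hq' : (q : ℝ) ≠ 0 := by exact_mod_cast hq.ne'
  have hQ' : (Q : ℝ) ≠ 0 := by exact_mod_cast hQ.ne'
  have h1 : ∃ n : ℤ, lamE Q F ((x.1.1 * Pp, x.1.2), x.2) -
      lamE Q F ((x'.1.1 * Pp, x'.1.2), x'.2) = n := by
    refine ⟨h * m, ?_⟩
    rw [← h_nuP hQ hh, ← h_nuP hQ hh, ← mul_sub, hm]
    push_cast; ring
  obtain ⟨-, hb, hc⟩ := hE _ hxE _ hxE' h1
  simp only at hb hc
  obtain ⟨n, hn⟩ := nuP_sub_parent hq hQ hh hP x y hyd hyx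
  obtain ⟨n', hn'⟩ := nuP_sub_parent hq hQ hh hP x' y' hyd' hyx'
  have hyy : y = y' := by
    refine hS y hyS y' hyS' ⟨m - n + n', ?_⟩
    push_cast
    linarith
  subst hyy
  have h2 : (x.1.1 : ℝ) / ((q : ℝ) * Q) = x'.1.1 / ((q : ℝ) * Q) := by
    have : (x.1.1 : ℝ) / ((q : ℝ) * Q) + x.1.2 * F x.2 =
        x'.1.1 / ((q : ℝ) * Q) + x'.1.2 * F x'.2 := by rw [← hyx, ← hyx']
    rw [hb, hc] at this
    linarith
  have h3 : (x.1.1 : ℝ) = x'.1.1 := by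
    have hne : (q : ℝ) * Q ≠ 0 := mul_ne_zero hq' hQ'
    field_simp at h2
    exact h2
  have h4 : x.1.1 = x'.1.1 := by exact_mod_cast h3
  exact Prod.ext (Prod.ext h4 hb) hc

/-- existence in the step set over a frequency `t` with parent `y` and design point `e`. -/
theorem stepSet_exists (hq : 0 < q) (hQ : 0 < Q) (hh : 0 < h)
    (hP : (q : ℤ) * Pp = P * h * Q + 1)
    (hper : ∀ a a' b c, (Q : ℤ) ∣ a - a' → ((a, b), c) ∈ E → ((a', b), c) ∈ E)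
    (t : ℝ) (y : (ℤ × ℤ) × ℝ) (hy : y ∈ S) (hyt : ∃ m : ℤ, nuM ((P : ℝ) / q) psi y - t = m)
    (e : (ℤ × ℤ) × ℝ) (he : e ∈ E) (het : ∃ m : ℤ, lamE Q F e - h * t = m) :
    ∃ x ∈ StepSet q Q h Pp psi F S E, x.1.2 = e.1.2 ∧ x.2 = e.2 ∧
      (Q : ℤ) ∣ x.1.1 * Pp - e.1.1 ∧
      ∃ m : ℤ, nuM ((Pp : ℝ) / ((h : ℝ) * Q)) (fun c => F c / h) x - t = m := by
  have hq' : (q : ℝ) ≠ 0 := by exact_mod_cast hq.ne'
  have hQ' : (Q : ℝ) ≠ 0 := by exact_mod_cast hQ.ne'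
  have hh' : (h : ℝ) ≠ 0 := by exact_mod_cast hh.ne'
  have hk := key_cast hP
  obtain ⟨m, hm⟩ := hyt
  obtain ⟨n, hn⟩ := het
  -- j = q Q (h k2 psi - b F) is an integer
  set j : ℤ := q * Q * (h * m - n) + e.1.1 * q - h * y.1.1 * P * Q with hj
  have hjeq : (h : ℝ) * (y.1.2 * psi y.2) = j / ((q : ℝ) * Q) + e.1.2 * F e.2 := by
    have h1 : (y.1.2 : ℝ) * psi y.2 = t + m - y.1.1 * ((P : ℝ) / q) := by
      rw [nuM] at hm; linarith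
    have h2 : (e.1.2 : ℝ) * F e.2 = h * t + n - e.1.1 / Q := by
      rw [lamE] at hn; linarith
    rw [h1, h2, hj]
    push_cast
    field_simp
    ring
  have hdq : (q : ℤ) ∣ j - y.1.1 := by
    refine ⟨Q * (h * m - n) + e.1.1 - y.1.1 * Pp, ?_⟩
    have : (P * h * Q : ℤ) = q * Pp - 1 := by linarith
    rw [hj]
    linear_combination (-y.1.1 : ℤ) * this
  have hdQ : (Q : ℤ) ∣ j * Pp - e.1.1 := by
    refine ⟨q * (h * m - n) * Pp - h * y.1.1 * P * Pp + e.1.1 * P * h, ?_⟩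
    rw [hj]
    linear_combination (e.1.1 : ℤ) * hP
  refine ⟨((j, e.1.2), e.2), ⟨?_, y, hy, hdq, hjeq⟩, rfl, rfl, hdQ, ?_⟩
  · refine hper e.1.1 _ _ _ ?_ he
    have := (Int.dvd_neg.mpr hdQ)
    simpa [neg_sub] using this
  · obtain ⟨l, hl⟩ := nuP_sub_parent (psi := psi) (F := F) hq hQ hh hP ((j, e.1.2), e.2) y hdq hjeq
    refine ⟨l + m, ?_⟩
    push_cast
    linarith

theorem stepSet_range (hQ : 0 < Q) (hh : 0 < h)
    (t : ℝ) (x : (ℤ × ℤ) × ℝ) (hx : x ∈ StepSet q Q h Pp psi F S E)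
    (hxt : ∃ m : ℤ, nuM ((Pp : ℝ) / ((h : ℝ) * Q)) (fun c => F c / h) x - t = m) :
    ∃ e ∈ E, ∃ m : ℤ, lamE Q F e - h * t = m := by
  obtain ⟨m, hm⟩ := hxt
  refine ⟨_, hx.1, h * m, ?_⟩
  rw [← h_nuP hQ hh, ← mul_sub, hm]
  push_cast; ring

/-- the range of the step set, a.e. -/
theorem stepSet_ae (hq : 0 < q) (hQ : 0 < Q) (hh : 0 < h)
    (hP : (q : ℤ) * Pp = P * h * Q + 1)
    (hper : ∀ a a' b c, (Q : ℤ) ∣ a - a' → ((a, b), c) ∈ E → ((a', b), c) ∈ E)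
    (hfull : FullM (nuM ((P : ℝ) / q) psi) S) :
    ∀ᵐ t : ℝ, ((∃ x ∈ StepSet q Q h Pp psi F S E,
        ∃ m : ℤ, nuM ((Pp : ℝ) / ((h : ℝ) * Q)) (fun c => F c / h) x - t = m) ↔
      ∃ e ∈ E, ∃ m : ℤ, lamE Q F e - h * t = m) := by
  filter_upwards [hfull] with t ht
  constructor
  · rintro ⟨x, hx, hxt⟩
    exact stepSet_range hQ hh t x hx hxt
  · rintro ⟨e, he, het⟩
    obtain ⟨y, hy, hyt⟩ := ht
    obtain ⟨x, hx, -, -, -, hxt⟩ := stepSet_exists hq hQ hh hP hper t y hy hyt e he het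
    exact ⟨x, hx, hxt⟩

theorem stepSet_full (hq : 0 < q) (hQ : 0 < Q) (hh : 0 < h)
    (hP : (q : ℤ) * Pp = P * h * Q + 1)
    (hper : ∀ a a' b c, (Q : ℤ) ∣ a - a' → ((a, b), c) ∈ E → ((a', b), c) ∈ E)
    (hfull : FullM (nuM ((P : ℝ) / q) psi) S) (hfullE : FullM (lamE Q F) E) :
    FullM (nuM ((Pp : ℝ) / ((h : ℝ) * Q)) (fun c => F c / h)) (StepSet q Q h Pp psi F S E) := by
  have hh' : (h : ℝ) ≠ 0 := by exact_mod_cast hh.ne'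
  have h1 : ∀ᵐ t : ℝ, ∃ e ∈ E, ∃ m : ℤ, lamE Q F e - h * t = m := by
    have hqmp : Measure.QuasiMeasurePreserving (fun t : ℝ => (h : ℝ) * t) volume volume := by
      refine ⟨measurable_const.mul measurable_id, ?_⟩
      rw [Real.map_volume_mul_left hh']
      exact Measure.smul_absolutelyContinuous
    exact hqmp.ae hfullE
  filter_upwards [h1, stepSet_ae (P := P) (psi := psi) (F := F) (S := S) (E := E)
    hq hQ hh hP hper hfull] with t ht h2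
  exact h2.mpr ht

theorem stepSet_symm (hsS : ∀ x ∈ S, ((-x.1.1, -x.1.2), x.2) ∈ S)
    (hsE : ∀ x ∈ E, ((-x.1.1, -x.1.2), x.2) ∈ E) :
    ∀ x ∈ StepSet q Q h Pp psi F S E, ((-x.1.1, -x.1.2), x.2) ∈ StepSet q Q h Pp psi F S E := by
  rintro x ⟨hxE, y, hyS, ⟨n, hn⟩, hyx⟩
  refine ⟨?_, _, hsS y hyS, ⟨-n, ?_⟩, ?_⟩
  · have := hsE _ hxE
    simpa [neg_mul] using this
  · simp only
    linarith
  · simp only
    push_cast
    linear_combination (-1 : ℝ) * hyx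



theorem stepSet_finite (hq : 0 < q) (hQ : 0 < Q) (hfS : {k | ∃ c, ((k, c) : (ℤ × ℤ) × ℝ) ∈ S}.Finite)
    (hfE : {b | ∃ a c, (((a, b), c) : (ℤ × ℤ) × ℝ) ∈ E}.Finite)
    (B : ℝ) (hpsi : ∀ x ∈ S, |psi x.2| ≤ B) (hF : ∀ x ∈ E, |F x.2| ≤ B) :
    {k | ∃ c, ((k, c) : (ℤ × ℤ) × ℝ) ∈ StepSet q Q h Pp psi F S E}.Finite := by
  classical
  have hq' : (0 : ℝ) < q := by exact_mod_cast hq
  have hQ' : (0 : ℝ) < Q := by exact_mod_cast hQ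
  obtain ⟨K, hK⟩ : ∃ K : ℝ, ∀ k ∈ {k : ℤ × ℤ | ∃ c, ((k, c) : (ℤ × ℤ) × ℝ) ∈ S}, |(k.2 : ℝ)| ≤ K := by
    obtain ⟨K, hK⟩ := (hfS.image (fun k : ℤ × ℤ => |(k.2 : ℝ)|)).bddAbove
    exact ⟨K, fun k hk => hK (mem_image_of_mem _ hk)⟩
  obtain ⟨L, hL⟩ : ∃ L : ℝ, ∀ b ∈ {b : ℤ | ∃ a c, (((a, b), c) : (ℤ × ℤ) × ℝ) ∈ E},
      |(b : ℝ)| ≤ L := by
    obtain ⟨L, hL⟩ := (hfE.image (fun b : ℤ => |(b : ℝ)|)).bddAbove
    exact ⟨L, fun b hb => hL (mem_image_of_mem _ hb)⟩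
  set R : ℝ := (q * Q) * (h * (K * B) + L * B) with hR
  have hfin : (Icc (-⌈R⌉) ⌈R⌉ ×ˢ {b : ℤ | ∃ a c, (((a, b), c) : (ℤ × ℤ) × ℝ) ∈ E}).Finite :=
    (finite_Icc _ _).prod hfE
  refine hfin.subset ?_
  rintro ⟨j, b⟩ ⟨c, hxE, y, hyS, -, hyx⟩
  simp only at hxE hyx
  have hb : b ∈ {b : ℤ | ∃ a c, (((a, b), c) : (ℤ × ℤ) × ℝ) ∈ E} := ⟨_, _, hxE⟩
  refine ⟨?_, hb⟩
  have h1 : |(y.1.2 : ℝ) * psi y.2| ≤ K * B := by
    rw [abs_mul]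
    have hB : 0 ≤ B := le_trans (abs_nonneg _) (hpsi y hyS)
    exact mul_le_mul (hK y.1 ⟨y.2, hyS⟩) (hpsi y hyS) (abs_nonneg _)
      (le_trans (abs_nonneg _) (hK y.1 ⟨y.2, hyS⟩))
  have h2 : |(b : ℝ) * F c| ≤ L * B := by
    rw [abs_mul]
    exact mul_le_mul (hL b hb) (hF _ hxE) (abs_nonneg _) (le_trans (abs_nonneg _) (hL b hb))
  have h3 : |(j : ℝ) / ((q : ℝ) * Q)| ≤ h * (K * B) + L * B := by
    have : (j : ℝ) / ((q : ℝ) * Q) = h * (y.1.2 * psi y.2) - b * F c := by rw [hyx]; ring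
    rw [this]
    calc |(h : ℝ) * (y.1.2 * psi y.2) - b * F c|
        ≤ |(h : ℝ) * (y.1.2 * psi y.2)| + |(b : ℝ) * F c| := abs_sub _ _
      _ ≤ h * (K * B) + L * B := by
          rw [abs_mul (h : ℝ), abs_of_nonneg (Nat.cast_nonneg h : (0:ℝ) ≤ h)]
          gcongr
  have h4 : |(j : ℝ)| ≤ R := by
    rw [abs_div, abs_of_pos (mul_pos hq' hQ'), div_le_iff₀ (mul_pos hq' hQ')] at h3
    rw [hR]; linarith
  have h5 := abs_le.mp h4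
  simp only [mem_Icc]
  constructor
  · have : (-(⌈R⌉ : ℝ)) ≤ j := by linarith [Int.le_ceil R]
    exact_mod_cast this
  · have : (j : ℝ) ≤ ⌈R⌉ := by linarith [Int.le_ceil R]
    exact_mod_cast this

theorem stepSet_measurable (hh : 0 < h) (al de : ℝ) (hal : al ≠ 0) (J : Set ℝ)
    (hpsi : ∀ c ∈ J, psi c = al * (c - de)) (hSJ : ∀ x ∈ S, x.2 ∈ J)
    (hS0 : ∀ x ∈ S, x.1.2 ≠ 0) (hmS : MeasurableSet S) (hmE : MeasurableSet E)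
    (hF : Measurable F) : MeasurableSet (StepSet q Q h Pp psi F S E) := by
  have hh' : (h : ℝ) ≠ 0 := by exact_mod_cast hh.ne'
  have heq : StepSet q Q h Pp psi F S E = ⋃ k : ℤ × ℤ,
      ({x | ((x.1.1 * Pp, x.1.2), x.2) ∈ E} ∩ {x | (q : ℤ) ∣ x.1.1 - k.1} ∩
        {x | ((k, de + (x.1.1 / ((q : ℝ) * Q) + x.1.2 * F x.2) / (h * k.2 * al)) :
          (ℤ × ℤ) × ℝ) ∈ S}) := by
    ext x
    simp only [StepSet, mem_ofPred_eq, mem_iUnion, mem_inter_iff]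
    constructor
    · rintro ⟨hxE, y, hyS, hyd, hyx⟩
      refine ⟨y.1, ⟨hxE, hyd⟩, ?_⟩
      have hy0 : (y.1.2 : ℝ) ≠ 0 := by exact_mod_cast hS0 y hyS
      rw [← hyx, hpsi _ (hSJ y hyS)]
      have : de + (h : ℝ) * (y.1.2 * (al * (y.2 - de))) / (h * y.1.2 * al) = y.2 := by
        field_simp
        ring
      rw [this]
      exact hyS
    · rintro ⟨k, ⟨hxE, hd⟩, hm⟩
      refine ⟨hxE, _, hm, hd, ?_⟩
      have hk0 : (k.2 : ℝ) ≠ 0 := by exact_mod_cast hS0 _ hm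
      rw [hpsi _ (hSJ _ hm)]
      simp only
      field_simp
      ring
  rw [heq]
  refine MeasurableSet.iUnion fun k => ?_
  have m1 : Measurable (fun x : (ℤ × ℤ) × ℝ => ((x.1.1 * Pp, x.1.2), x.2)) := by
    fun_prop
  have m2 : Measurable (fun x : (ℤ × ℤ) × ℝ => (x.1.1 : ℝ)) :=
    (measurable_from_top (f := fun n : ℤ => (n : ℝ))).comp (measurable_fst.comp measurable_fst)
  have m3 : Measurable (fun x : (ℤ × ℤ) × ℝ => (x.1.2 : ℝ)) :=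
    (measurable_from_top (f := fun n : ℤ => (n : ℝ))).comp (measurable_snd.comp measurable_fst)
  have m4 : Measurable (fun x : (ℤ × ℤ) × ℝ =>
      ((k, de + (x.1.1 / ((q : ℝ) * Q) + x.1.2 * F x.2) / (h * k.2 * al)) : (ℤ × ℤ) × ℝ)) := by
    refine measurable_const.prodMk ?_
    exact measurable_const.add (((m2.div_const _).add (m3.mul (hF.comp measurable_snd))).div_const _)
  refine (MeasurableSet.inter (m1 hmE) ?_).inter (m4 hmS)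
  exact (measurable_fst.comp measurable_fst) (MeasurableSet.of_discrete
    (s := {n : ℤ | (q : ℤ) ∣ n - k.1}))

end

end Crest.Agent.R081.Ms
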