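import Mathlib
import Crest.Agent.R081.Flat1
import Crest.Agent.R081.Cv1
import Crest.Agent.R081.FmDefs
import Crest.Agent.R081.FmTwist
import Crest.Agent.R081.StDefs
import Crest.Agent.R081.Ind
import Crest.Agent.R081.G1
import Crest.Agent.R081.Cv2
import Crest.Agent.R081.MsStep
import Crest.Agent.R081.StSkel
import Crest.Agent.R081.FmBase
import Crest.Agent.R081.TwDefs
import Crest.Agent.R081.Co3
import Crest.Agent.R081.FmIso

-- ▼ part R081/MsCV
section

/-!
Row 81 (route B): change of variables for families of affine branches over the circle.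
-/

set_option autoImplicit false

namespace Crest.Agent.R081.Ms

open MeasureTheory Set Filter Topology
open scoped ENNReal

theorem lintegral_unfold (f : ℝ → ℝ≥0∞) (hf : Measurable f) :
    ∫⁻ x, f x = ∫⁻ x in Ico (0:ℝ) 1, ∑' m : ℤ, f (x + m) := by
  have hm : ∀ m : ℤ, Measurable (fun x : ℝ => f (x + m)) :=
    fun m => hf.comp (measurable_id.add_const _)
  rw [lintegral_tsum (fun m => (hm m).aemeasurable)]
  have h1 : ∫⁻ x, f x = ∫⁻ x in (⋃ m : ℤ, Ico (m:ℝ) (m+1)), f x := by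
    rw [iUnion_Ico_intCast ℝ, setLIntegral_univ]
  rw [h1, lintegral_iUnion (fun m => measurableSet_Ico) (pairwise_disjoint_Ico_intCast ℝ)]
  refine tsum_congr fun m => ?_
  have hmp : MeasurePreserving (fun x : ℝ => x + m) volume volume :=
    measurePreserving_add_right volume (m:ℝ)
  have hemb : MeasurableEmbedding (fun x : ℝ => x + m) :=
    measurableEmbedding_addRight (m:ℝ)
  have := hmp.setLIntegral_comp_preimage_emb hemb f (Ico (m:ℝ) (m+1))
  rw [← this]
  congr 2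
  ext x
  simp only [mem_preimage, mem_Ico]
  constructor
  · rintro ⟨h, h'⟩; constructor <;> linarith
  · rintro ⟨h, h'⟩; constructor <;> linarith

theorem lintegral_affine (s t : ℝ) (hs : s ≠ 0) (G : ℝ → ℝ≥0∞) (hG : Measurable G) :
    ∫⁻ c, ENNReal.ofReal |s| * G (s * c + t) = ∫⁻ x, G x := by
  have hm : Measurable (fun c : ℝ => G (s * c + t)) :=
    hG.comp ((measurable_const.mul measurable_id).add_const t)
  rw [lintegral_const_mul _ hm]
  have h1 : ∫⁻ c, G (s * c + t) = ∫⁻ y, G (y + t) ∂(Measure.map (fun c : ℝ => s * c) volume) := by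
    have hm2 : Measurable (fun y : ℝ => G (y + t)) := hG.comp (measurable_id.add_const t)
    have hm3 : Measurable (fun c : ℝ => s * c) := measurable_const.mul measurable_id
    rw [lintegral_map hm2 hm3]
  rw [h1, Real.map_volume_mul_left hs, lintegral_smul_measure, smul_eq_mul,
    lintegral_add_right_eq_self, ← mul_assoc, ← ENNReal.ofReal_mul (abs_nonneg _), ← abs_mul,
    mul_inv_cancel₀ hs]
  simp

/-- number of branches over `x` (mod 1). -/
noncomputable def cnt {ι : Type*} (A : ι → Set ℝ) (s t : ι → ℝ) (x : ℝ) : ℝ≥0∞ :=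
  ∑' i, ∑' m : ℤ, (A i).indicator 1 ((x + m - t i) / s i)

theorem cv {ι : Type*} [Countable ι] (A : ι → Set ℝ) (hA : ∀ i, MeasurableSet (A i))
    (s t : ι → ℝ) (hs : ∀ i, s i ≠ 0) (phi : ℝ → ℝ≥0∞) (hphi : Measurable phi)
    (hper : ∀ x (m : ℤ), phi (x + m) = phi x) :
    ∑' i, ∫⁻ c in A i, ENNReal.ofReal |s i| * phi (s i * c + t i) =
      ∫⁻ x in Ico (0:ℝ) 1, phi x * cnt A s t x := by
  have hmi : ∀ i, Measurable (fun x : ℝ => (A i).indicator (1 : ℝ → ℝ≥0∞) ((x - t i) / s i)) := by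
    intro i
    exact (measurable_one.indicator (hA i)).comp ((measurable_id.sub_const _).div_const _)
  have h1 : ∀ i, ∫⁻ c in A i, ENNReal.ofReal |s i| * phi (s i * c + t i) =
      ∫⁻ x in Ico (0:ℝ) 1, ∑' m : ℤ, phi x * (A i).indicator 1 ((x + m - t i) / s i) := by
    intro i
    have e1 : ∫⁻ c in A i, ENNReal.ofReal |s i| * phi (s i * c + t i) =
        ∫⁻ c, ENNReal.ofReal |s i| *
          ((fun x => phi x * (A i).indicator 1 ((x - t i) / s i)) (s i * c + t i)) := by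
      rw [← lintegral_indicator (hA i)]
      refine lintegral_congr fun c => ?_
      have hc : (s i * c + t i - t i) / s i = c := by
        rw [add_sub_cancel_right, mul_div_cancel_left₀ _ (hs i)]
      simp only [hc]
      by_cases h : c ∈ A i
      · simp [indicator_of_mem h]
      · simp [indicator_of_notMem h]
    have hm : Measurable (fun x : ℝ => phi x * (A i).indicator (1 : ℝ → ℝ≥0∞) ((x - t i) / s i)) :=
      hphi.mul (hmi i)
    rw [e1, lintegral_affine (s i) (t i) (hs i)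
      (fun x => phi x * (A i).indicator 1 ((x - t i) / s i)) hm, lintegral_unfold _ hm]
    refine lintegral_congr fun x => tsum_congr fun m => ?_
    simp only [hper]
  simp_rw [h1]
  rw [← lintegral_tsum]
  · refine lintegral_congr fun x => ?_
    rw [cnt, ← ENNReal.tsum_mul_left]
    refine tsum_congr fun i => ?_
    rw [ENNReal.tsum_mul_left]
  · intro i
    refine (Measurable.tsum fun m => ?_).aemeasurable
    refine hphi.mul ?_
    have : (fun x : ℝ => (A i).indicator (1 : ℝ → ℝ≥0∞) ((x + m - t i) / s i)) =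
        (fun x : ℝ => (A i).indicator (1 : ℝ → ℝ≥0∞) ((x - t i) / s i)) ∘ (fun x => x + m) := rfl
    rw [this]
    exact (hmi i).comp (measurable_id.add_const _)



end Crest.Agent.R081.Ms
end

-- ▼ part R081/Flat2
section

/-!
# Row 81, node FLAT, part 2: sections, and the push-forward property from the cover property
-/

set_option autoImplicit false

namespace Crest.Agent.R081.Flat

open MeasureTheory Set Filter Crest.Agent.R081.Cv Crest.Agent.R081.Fm
open scoped ENNReal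

/-- a measurable section on a full subset of `S` -/
theorem exists_section {X : Type*} [MeasurableSpace X] [StandardBorelSpace X] [Nonempty X]
    {mu : Measure X} {ν : X → UnitAddCircle} {G : X → ℂ} (hP : Push mu ν G)
    (hν : Measurable ν) (hG : AEMeasurable G mu) {S : Set X} (hS : MeasurableSet S)
    (hG1 : ∀ᵐ x ∂mu, x ∈ S → G x ≠ 0)
    (hinj : ∀ᵐ t ∂(volume : Measure UnitAddCircle), ∀ x ∈ S, ∀ y ∈ S, ν x = t → ν y = t → x = y) :
    ∃ S' ⊆ S, MeasurableSet S' ∧ mu (S \ S') = 0 ∧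
      ∃ m : UnitAddCircle → X, Measurable m ∧ ∀ x ∈ S', m (ν x) = x := by
  set N := toMeasurable (volume : Measure UnitAddCircle)
    {t | ¬ ∀ x ∈ S, ∀ y ∈ S, ν x = t → ν y = t → x = y} with hN
  have hN0 : volume N = 0 := by
    rw [hN, measure_toMeasurable]; exact hinj
  have hNm : MeasurableSet N := measurableSet_toMeasurable _ _
  have hNs : ∀ t, t ∉ N → ∀ x ∈ S, ∀ y ∈ S, ν x = t → ν y = t → x = y := by
    intro t ht
    by_contra h
    exact ht (subset_toMeasurable _ _ h)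
  set S' := S ∩ ν ⁻¹' Nᶜ with hS'
  have hS'm : MeasurableSet S' := hS.inter (hν hNm.compl)
  refine ⟨S', inter_subset_left, hS'm, ?_, ?_⟩
  · have h1 : (mu.withDensity fun x => ‖G x‖ₑ ^ 2) (ν ⁻¹' N) = 0 := by
      rw [← Measure.map_apply hν hNm]
      have : Measure.map ν (mu.withDensity fun x => ‖G x‖ₑ ^ 2) =
        (volume : Measure UnitAddCircle) := hP
      rw [this, hN0]
    rw [withDensity_apply _ (hν hNm), lintegral_eq_zero_iff' (hG.enorm.pow_const 2).restrict] at h1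
    have h2 : ∀ᵐ x ∂mu, x ∈ ν ⁻¹' N → G x = 0 := by
      have := (ae_restrict_iff' (hν hNm)).1 h1
      filter_upwards [this] with x hx hxN
      have := hx hxN
      simpa using this
    have h3 : S \ S' = S ∩ ν ⁻¹' N := by
      ext x; simp [hS']
    rw [h3]
    have h4 : ∀ᵐ x ∂mu, x ∉ S ∩ ν ⁻¹' N := by
      filter_upwards [h2, hG1] with x e1 e2 hx
      exact e2 hx.1 (e1 hx.2)
    exact measure_eq_zero_iff_ae_notMem.2 h4
  · have : StandardBorelSpace S' := hS'm.standardBorel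
    set f : S' → UnitAddCircle := fun x => ν x with hf
    have hfm : Measurable f := hν.comp measurable_subtype_coe
    have hfi : Function.Injective f := by
      rintro ⟨x, hx⟩ ⟨y, hy⟩ hxy
      have hx2 : ν x ∉ N := hx.2
      exact Subtype.ext (hNs (ν x) hx2 x hx.1 y hy.1 rfl hxy.symm)
    obtain ⟨m, hm, hmf⟩ := (hfm.measurableEmbedding hfi).exists_measurable_extend
      (measurable_subtype_coe (p := fun x => x ∈ S')) (fun _ => inferInstance)
    refine ⟨m, hm, fun x hx => ?_⟩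
    exact congrFun hmf ⟨x, hx⟩

/-- **Distance**, with a.e. injectivity only. -/
theorem Push.dist_ae {X : Type*} [MeasurableSpace X] [StandardBorelSpace X] [Nonempty X]
    {mu : Measure X} {ν : X → UnitAddCircle} {G : X → ℂ} (hP : Push mu ν G)
    (hν : Measurable ν) (hG : AEMeasurable G mu) {S : Set X} (hS : MeasurableSet S)
    (hG0 : ∀ᵐ x ∂mu, x ∉ S → G x = 0) (hG1 : ∀ᵐ x ∂mu, x ∈ S → G x ≠ 0)
    (hinj : ∀ᵐ t ∂(volume : Measure UnitAddCircle), ∀ x ∈ S, ∀ y ∈ S, ν x = t → ν y = t → x = y)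
    {F : X → ℂ} (hF : MemLp F 2 mu) {η : ℝ} (hη : 0 < η) :
    ∃ p : ℤ →₀ ℂ, ∫⁻ x, ‖F x - tp p (ν x) * G x‖ₑ ^ 2 ∂mu ≤
      ∫⁻ x in Sᶜ, ‖F x‖ₑ ^ 2 ∂mu + ENNReal.ofReal (η ^ 2) := by
  obtain ⟨S', hsub, hS'm, h0, m, hm, hmS⟩ := exists_section hP hν hG hS hG1 hinj
  have hnull : ∀ᵐ x ∂mu, x ∉ S \ S' := measure_eq_zero_iff_ae_notMem.1 h0
  have hG0' : ∀ᵐ x ∂mu, x ∉ S' → G x = 0 := by
    filter_upwards [hnull, hG0] with x e1 e2 hx
    exact e2 fun h => e1 ⟨h, hx⟩
  have hG1' : ∀ᵐ x ∂mu, x ∈ S' → G x ≠ 0 := by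
    filter_upwards [hG1] with x e1 hx
    exact e1 (hsub hx)
  obtain ⟨p, hp⟩ := hP.dist hν hG hS'm hm hmS hG0' hG1' hF hη
  refine ⟨p, hp.trans (le_of_eq ?_)⟩
  congr 1
  refine setLIntegral_congr ?_
  have : ∀ᵐ x ∂mu, (x ∈ S'ᶜ) = (x ∈ Sᶜ) := by
    filter_upwards [hnull] with x e1
    apply propext
    constructor
    · intro h hx; exact e1 ⟨hx, h⟩
    · intro h hx; exact h (hsub hx)
  exact this

/-- the frequency of a mode, on the circle -/
noncomputable def nuC (P : ℤ) (q : ℕ) (psi : ℝ → ℝ) (p : Md) : UnitAddCircle :=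
  ((nuT P q psi p : ℝ) : UnitAddCircle)

theorem hit_iff (nu : Md → ℝ) (p : Md) (x : ℝ) :
    hit nu p x ↔ ((nu p : ℝ) : UnitAddCircle) = (x : UnitAddCircle) := by
  rw [← sub_eq_zero, ← AddCircle.coe_sub, AddCircle.coe_eq_zero_iff]
  unfold hit
  constructor
  · rintro ⟨m, hm⟩; exact ⟨m, by rw [hm]; simp⟩
  · rintro ⟨m, hm⟩; exact ⟨m, by simp at hm; linarith⟩

theorem measurable_nuT (P : ℤ) (q : ℕ) {psi : ℝ → ℝ} (hpsi : Measurable psi) :
    Measurable (nuT P q psi) := by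
  unfold nuT
  have h1 : Measurable fun p : Md => ((p.1.1 : ℤ) : ℝ) :=
    (measurable_from_top (f := fun k : ℤ => (k : ℝ))).comp (measurable_fst.comp measurable_fst)
  have h2 : Measurable fun p : Md => ((p.1.2 : ℤ) : ℝ) :=
    (measurable_from_top (f := fun k : ℤ => (k : ℝ))).comp (measurable_snd.comp measurable_fst)
  exact ((h1.mul_const _).div_const _).add (h2.mul (hpsi.comp measurable_snd))

theorem measurable_nuC (P : ℤ) (q : ℕ) {psi : ℝ → ℝ} (hpsi : Measurable psi) :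
    Measurable (nuC P q psi) :=
  (AddCircle.measurable_mk').comp (measurable_nuT P q hpsi)

/-- the cover property gives a.e. injectivity on the circle -/
theorem inj_of_cov {P : ℤ} {q : ℕ} {psi : ℝ → ℝ} {S : Set Md} (hcov : Cov (nuT P q psi) S) :
    ∀ᵐ t ∂(volume : Measure UnitAddCircle), ∀ x ∈ S, ∀ y ∈ S,
      nuC P q psi x = t → nuC P q psi y = t → x = y := by
  have h1 : ∀ᵐ t ∂(Measure.map ((↑) : ℝ → UnitAddCircle) (volume.restrict (Ioc (0 : ℝ) (0 + 1)))),
      ∀ x ∈ S, ∀ y ∈ S, nuC P q psi x = t → nuC P q psi y = t → x = y := by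
    -- use a measurable null set
    set B := {x : ℝ | ¬ ∃! p, p ∈ S ∧ hit (nuT P q psi) p x} with hB
    have hB0 : volume B = 0 := hcov
    set N0 := toMeasurable (volume : Measure ℝ) B with hN0
    have hN0' : volume N0 = 0 := by rw [hN0, measure_toMeasurable]; exact hB0
    have hN0m : MeasurableSet N0 := measurableSet_toMeasurable _ _
    -- the circle set
    set N : Set UnitAddCircle :=
      (AddCircle.measurableEquivIoc (1 : ℝ) 0) ⁻¹' (Subtype.val ⁻¹' N0) with hN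
    have hNm : MeasurableSet N :=
      (AddCircle.measurableEquivIoc (1 : ℝ) 0).measurable (measurable_subtype_coe hN0m)
    have h2 : Measure.map ((↑) : ℝ → UnitAddCircle) (volume.restrict (Ioc (0 : ℝ) (0 + 1))) N
        = 0 := by
      rw [Measure.map_apply AddCircle.measurable_mk' hNm]
      have h3 : volume.restrict (Ioc (0 : ℝ) (0 + 1)) (((↑) : ℝ → UnitAddCircle) ⁻¹' N) ≤
          volume N0 := by
        rw [Measure.restrict_apply (AddCircle.measurable_mk' hNm)]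
        refine measure_mono ?_
        rintro x ⟨hx1, hx2⟩
        have h4 : (AddCircle.measurableEquivIoc (1 : ℝ) 0 (x : UnitAddCircle) : ℝ) = x := by
          have := AddCircle.equivIoc_coe_of_mem (p := (1 : ℝ)) (a := 0) hx2
          exact this
        have h5 : (AddCircle.measurableEquivIoc (1 : ℝ) 0 (x : UnitAddCircle) : ℝ) ∈ N0 := hx1
        rwa [h4] at h5
      exact le_antisymm (h3.trans hN0'.le) bot_le
    have h3 : ∀ᵐ t ∂(Measure.map ((↑) : ℝ → UnitAddCircle)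
        (volume.restrict (Ioc (0 : ℝ) (0 + 1)))), t ∉ N := by
      rw [ae_iff]; simpa using h2
    filter_upwards [h3] with t ht x hx y hy hxt hyt
    set s : ℝ := (AddCircle.measurableEquivIoc (1 : ℝ) 0 t : ℝ) with hs
    have hst : (s : UnitAddCircle) = t := AddCircle.coe_equivIoc (p := (1 : ℝ)) (a := 0)
    have hsN : s ∉ N0 := ht
    have hsB : s ∉ B := fun h => hsN (subset_toMeasurable _ _ h)
    have hex : ∃! p, p ∈ S ∧ hit (nuT P q psi) p s := by
      by_contra h; exact hsB h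
    refine hex.unique ⟨hx, ?_⟩ ⟨hy, ?_⟩
    · rw [hit_iff, hst]; exact hxt
    · rw [hit_iff, hst]; exact hyt
  rwa [(UnitAddCircle.measurePreserving_mk 0).map_eq] at h1

end Crest.Agent.R081.Flat
end

-- ▼ part R081/Flat3
section

/-!
# Row 81, node FLAT, part 3: the push-forward property from the cover property
-/

set_option autoImplicit false

namespace Crest.Agent.R081.Flat

open MeasureTheory Set Filter Crest.Agent.R081.Cv Crest.Agent.R081.Fm Crest.Agent.R081.Ms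
open scoped ENNReal

theorem cnt_eq_one_at {ι : Type*} (A : ι → Set ℝ) (s t : ι → ℝ) (hs : ∀ i, s i ≠ 0) (x : ℝ)
    (hu : ∃! p : ι × ℝ, p.2 ∈ A p.1 ∧ ∃ m : ℤ, s p.1 * p.2 + t p.1 - x = m) :
    cnt A s t x = 1 := by
  obtain ⟨⟨i, c⟩, ⟨hc, m, hm⟩, huq⟩ := hu
  simp only at hc hm
  have hcm : (x + m - t i) / s i = c := by
    rw [div_eq_iff (hs i)]; linarith
  have key : ∀ i' (m' : ℤ), (x + m' - t i') / s i' ∈ A i' → i' = i ∧ m' = m := by
    intro i' m' hmem
    have h1 := huq (i', (x + m' - t i') / s i') ⟨hmem, m', by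
      simp only
      rw [mul_div_cancel₀ _ (hs i')]; ring⟩
    rw [Prod.mk.injEq] at h1
    obtain ⟨h2, h3⟩ := h1
    subst h2
    refine ⟨rfl, ?_⟩
    rw [← hcm, div_left_inj' (hs i')] at h3
    have h4 : (m' : ℝ) = m := by linarith
    exact_mod_cast h4
  rw [cnt, tsum_eq_single i, tsum_eq_single m]
  · rw [hcm, indicator_of_mem hc]; rfl
  · intro m' hm'
    by_contra hne
    have hmem : (x + m' - t i) / s i ∈ A i := by
      by_contra h
      exact hne (indicator_of_notMem h _)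
    exact hm' (key i m' hmem).2
  · intro i' hi'
    rw [ENNReal.tsum_eq_zero]
    intro m'
    by_contra hne
    have hmem : (x + m' - t i') / s i' ∈ A i' := by
      by_contra h
      exact hne (indicator_of_notMem h _)
    exact hi' (key i' m' hmem).1

theorem push_of_cov {P : ℤ} {q : ℕ} {psi : ℝ → ℝ} (hpsi : Measurable psi) {al de : ℝ}
    (hal : 0 < al) (hlin : ∀ c ∈ Icc de (1 - de), psi c = al * (c - de)) {S : Set Md}
    (hS : MeasurableSet S) (hSJ : ∀ p ∈ S, p.2 ∈ Icc de (1 - de)) (hde : 0 < de)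
    (hS2 : ∀ p ∈ S, p.1.2 ≠ 0) (hcov : Cov (nuT P q psi) S) {G : Md → ℂ}
    (hG : AEMeasurable G muX)
    (hGS : ∀ᵐ p ∂muX, ‖G p‖ ^ 2 = S.indicator (fun p => |(p.1.2 : ℝ)| * al) p) :
    Push muX (nuC P q psi) G := by
  classical
  refine Measure.ext fun B hB => ?_
  have hνm := measurable_nuC P q hpsi
  rw [Measure.map_apply hνm hB, withDensity_apply _ (hνm hB), ← lintegral_indicator (hνm hB)]
  set phi : ℝ → ℝ≥0∞ := fun x => B.indicator 1 ((x : ℝ) : UnitAddCircle) with hphi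
  have hphim : Measurable phi := (measurable_one.indicator hB).comp AddCircle.measurable_mk'
  set A : ℤ × ℤ → Set ℝ := fun k => {c | (k, c) ∈ S} with hA
  have hAm : ∀ k, MeasurableSet (A k) := fun k => hS.preimage measurable_prodMk_left
  set s : ℤ × ℤ → ℝ := fun k => if k.2 = 0 then 1 else k.2 * al with hs
  set t : ℤ × ℤ → ℝ := fun k => (k.1 : ℝ) * P / q - k.2 * al * de with ht
  have hs0 : ∀ k, s k ≠ 0 := by
    intro k
    rw [hs]
    by_cases h : k.2 = 0
    · simp [h]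
    · simp only [h, if_false]
      have : (k.2 : ℝ) ≠ 0 := by exact_mod_cast h
      positivity
  have hnu : ∀ k c, c ∈ A k → nuT P q psi (k, c) = s k * c + t k := by
    intro k c hc
    have h1 : k.2 ≠ 0 := hS2 _ hc
    have h2 := hlin c (hSJ _ hc)
    simp only [nuT, h2, hs, ht, h1, if_false]
    ring
  have habs : ∀ k c, c ∈ A k → |s k| = |(k.2 : ℝ)| * al := by
    intro k c hc
    have h1 : k.2 ≠ 0 := hS2 _ hc
    simp only [hs, h1, if_false]
    rw [abs_mul, abs_of_pos hal]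
  -- step 1
  have e1 : ∫⁻ p, (nuC P q psi ⁻¹' B).indicator (fun p => ‖G p‖ₑ ^ 2) p ∂muX =
      ∫⁻ p, S.indicator (fun p => ENNReal.ofReal |s p.1| * phi (s p.1 * p.2 + t p.1)) p ∂muX := by
    refine lintegral_congr_ae ?_
    filter_upwards [hGS] with p hp
    have hn : ‖G p‖ₑ ^ 2 = ENNReal.ofReal (S.indicator (fun p => |(p.1.2 : ℝ)| * al) p) := by
      rw [← hp, ENNReal.ofReal_pow (norm_nonneg _), ofReal_norm]
    by_cases hpS : p ∈ S
    · have hpA : p.2 ∈ A p.1 := hpS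
      rw [indicator_of_mem hpS, ← hnu p.1 p.2 hpA, habs p.1 p.2 hpA]
      by_cases hpB : p ∈ nuC P q psi ⁻¹' B
      · rw [indicator_of_mem hpB, hn, indicator_of_mem hpS]
        have : phi (nuT P q psi (p.1, p.2)) = 1 := by
          rw [hphi]
          exact indicator_of_mem (show ((nuT P q psi p : ℝ) : UnitAddCircle) ∈ B from hpB) _
        rw [this, mul_one]
      · rw [indicator_of_notMem hpB]
        have : phi (nuT P q psi (p.1, p.2)) = 0 := by
          rw [hphi]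
          exact indicator_of_notMem (show ((nuT P q psi p : ℝ) : UnitAddCircle) ∉ B from hpB) _
        rw [this, mul_zero]
    · rw [indicator_of_notMem hpS]
      by_cases hpB : p ∈ nuC P q psi ⁻¹' B
      · rw [indicator_of_mem hpB, hn, indicator_of_notMem hpS]; simp
      · rw [indicator_of_notMem hpB]
  have hsm : Measurable fun p : Md => s p.1 :=
    (measurable_of_countable s).comp measurable_fst
  have htm : Measurable fun p : Md => t p.1 :=
    (measurable_of_countable t).comp measurable_fst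
  have hmeas : Measurable
      (S.indicator (fun p : Md => ENNReal.ofReal |s p.1| * phi (s p.1 * p.2 + t p.1))) := by
    refine Measurable.indicator ?_ hS
    refine (hsm.abs.ennreal_ofReal).mul (hphim.comp ?_)
    exact (hsm.mul measurable_snd).add htm
  have hsf : SFinite I01 := by unfold I01; infer_instance
  rw [e1, muX, lintegral_prod _ hmeas.aemeasurable, lintegral_count]
  -- step 2
  have e2 : ∀ k : ℤ × ℤ, ∫⁻ c, S.indicator
      (fun p : Md => ENNReal.ofReal |s p.1| * phi (s p.1 * p.2 + t p.1)) (k, c) ∂I01 =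
      ∫⁻ c in A k, ENNReal.ofReal |s k| * phi (s k * c + t k) := by
    intro k
    rw [I01, ← lintegral_indicator measurableSet_Ioc, ← lintegral_indicator (hAm k)]
    refine lintegral_congr fun c => ?_
    by_cases hc : c ∈ A k
    · have hcJ := hSJ _ (show (k, c) ∈ S from hc)
      have hc1 : c ∈ Ioc (0 : ℝ) 1 := ⟨by linarith [hcJ.1], by linarith [hcJ.2]⟩
      rw [indicator_of_mem hc1, indicator_of_mem hc, indicator_of_mem (show (k, c) ∈ S from hc)]
    · rw [indicator_of_notMem hc]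
      by_cases hc1 : c ∈ Ioc (0 : ℝ) 1
      · rw [indicator_of_mem hc1, indicator_of_notMem (show (k, c) ∉ S from hc)]
      · rw [indicator_of_notMem hc1]
  rw [tsum_congr e2, cv A hAm s t hs0 phi hphim (fun x m => by
    rw [hphi]
    simp only
    congr 1
    rw [AddCircle.coe_add]
    have : ((m : ℝ) : UnitAddCircle) = 0 := by
      rw [AddCircle.coe_eq_zero_iff]; exact ⟨m, by simp⟩
    rw [this, add_zero])]
  -- step 3: the count is one
  have e3 : ∫⁻ x in Ico (0 : ℝ) 1, phi x * cnt A s t x = ∫⁻ x in Ico (0 : ℝ) 1, phi x := by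
    refine lintegral_congr_ae ?_
    have h1 : ∀ᵐ x ∂(volume.restrict (Ico (0 : ℝ) 1)), ∃! p, p ∈ S ∧ hit (nuT P q psi) p x :=
      ae_restrict_of_ae hcov
    filter_upwards [h1] with x hx
    rw [cnt_eq_one_at A s t hs0 x, mul_one]
    obtain ⟨p, ⟨hpS, m, hm⟩, hpu⟩ := hx
    have hpA : p.2 ∈ A p.1 := hpS
    refine ⟨(p.1, p.2), ⟨hpA, m, ?_⟩, ?_⟩
    · simp only
      rw [← hnu p.1 p.2 hpA]
      have : nuT P q psi (p.1, p.2) = x + m := hm
      rw [this]; ring
    · rintro ⟨k, c⟩ ⟨hkc, m', hm'⟩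
      simp only at hkc hm'
      have := hpu (k, c) ⟨hkc, m', by rw [hnu k c hkc]; linarith⟩
      rw [this]
  rw [e3, setLIntegral_congr Ico_ae_eq_Ioc]
  have h4 := (UnitAddCircle.measurePreserving_mk 0).lintegral_comp
    (f := B.indicator (1 : UnitAddCircle → ℝ≥0∞)) (measurable_one.indicator hB)
  rw [zero_add] at h4
  rw [h4, lintegral_indicator_one hB]

end Crest.Agent.R081.Flat
end

-- ▼ part R081/Flat4
section

/-!
# Row 81, node FLAT, part 4: the stages of route B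
-/

set_option autoImplicit false

namespace Crest.Agent.R081.Flat

open MeasureTheory Set Filter Crest.AnalysisR.Torus3 Crest.Agent.R075 Crest.Agent.R081.Cv
  Crest.Agent.R081.Fm Crest.Agent.R081.St Crest.Agent.R081.Ind Crest.Agent.R081.Sm
  Crest.Agent.R081.Tw
open scoped ENNReal ComplexConjugate RealInnerProductSpace

theorem nuT_eq (t : TwD) (x : X) : nuT t.P t.q t.psi x = t.nu x := by
  unfold nuT TwD.nu
  rw [mul_div_assoc]

theorem cov_of_modes {t : TwD} (M : Modes t) : Cov (nuT t.P t.q t.psi) M.S := by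
  filter_upwards [M.full] with x hx
  obtain ⟨y, hy, n, hn⟩ := hx
  refine ⟨y, ⟨hy, n, by rw [nuT_eq]; linarith⟩, ?_⟩
  rintro z ⟨hz, m, hm⟩
  refine M.inj z hz y hy ⟨m - n, ?_⟩
  rw [nuT_eq] at hm
  push_cast
  linarith

theorem isTw_R (t : TwD) : IsTw t.R.perm (t.P / t.q) t.psi := by
  intro c y
  unfold P3
  rw [LD.perm_proj]
  rfl

theorem nu_eq (t : TwD) (x : X) : nu (t.P / t.q) t.psi x = t.nu x := rfl

theorem ee_nu (t : TwD) (n : ℤ) (x : X) :
    ee (n * nu (t.P / t.q) t.psi x) = fourier n (nuC t.P t.q t.psi x) := by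
  unfold nuC
  rw [nuT_eq, nu_eq, fourier_coe_apply]
  unfold ee
  congr 1
  push_cast
  ring

theorem push_stage (s : Stage) :
    Push muX (nuC s.t.P s.t.q s.t.psi) (fcX (fun y => (s.g y : ℂ))) := by
  refine push_of_cov s.t.smooth.continuous.measurable s.t.al_pos s.t.lin s.M.meas s.M.sub
    s.t.del_pos s.M.ne0 (cov_of_modes s.M) ?_ s.flat
  exact (memLp_fcX s.g_lp.ofReal).aestronglyMeasurable.aemeasurable

theorem mp_R (t : TwD) : MP t.R := (isTw_R t).measurePreserving t.R.measurable_perm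

theorem mpT (s : Stage) : MPr s.T := by
  have h : MP (TT s.t s.H) := (s.mpH.comp (mp_R s.t)).comp s.mpH.inv
  unfold MP at h
  unfold MPr
  rw [s.hT]
  exact h

theorem perm_T (s : Stage) : s.T.perm = s.H.perm * s.t.R.perm * s.H.perm⁻¹ := by
  rw [s.hT]
  unfold TT
  rw [LD.perm_comp, LD.perm_comp, LD.perm_inv]

theorem perm_T_zpow (s : Stage) (k : ℤ) :
    s.T.perm ^ k = s.H.perm * s.t.R.perm ^ k * s.H.perm⁻¹ := by
  rw [perm_T, conj_zpow]

theorem mpHs (s : Stage) : MeasurePreserving s.H.perm.symm (volume : Measure T3) volume :=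
  MPr.symm s.mpH

theorem gT_lp (s : Stage) : MemLp s.gT 2 volume := s.g_lp.comp_measurePreserving (mpHs s)

theorem gT_zpow (s : Stage) (k : ℤ) (y : T3) :
    s.gT ((s.T.perm ^ k) (s.H.perm y)) = s.g ((s.t.R.perm ^ k) y) := by
  unfold Stage.gT
  rw [perm_T_zpow]
  simp

theorem gT_H (s : Stage) (y : T3) : s.gT (s.H.perm y) = s.g y := by
  unfold Stage.gT
  simp

/-! ### correlations and mean -/

theorem corr_gT (s : Stage) (k : ℤ) :
    ∫ x, s.gT ((s.T.perm ^ k) x) * s.gT x = if k = 0 then (1 : ℝ) else 0 := by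
  have h1 : ∫ x, s.gT ((s.T.perm ^ k) x) * s.gT x =
      ∫ y, s.g ((s.t.R.perm ^ k) y) * s.g y := by
    have e := (s.mpH : MeasurePreserving s.H.perm volume volume).integral_comp'
      (f := ⟨s.H.perm, s.H.measurable_perm, s.H.measurable_perm_symm⟩)
      (fun x => s.gT ((s.T.perm ^ k) x) * s.gT x)
    rw [← e]
    refine integral_congr_ae (Eventually.of_forall fun y => ?_)
    show s.gT ((s.T.perm ^ k) (s.H.perm y)) * s.gT (s.H.perm y) = _
    rw [gT_zpow, gT_H]
  have h2 := corr (isTw_R s.t) k (mp_zpow (mp_R s.t) k) (s.g_lp.ofReal (K := ℂ))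
    (s.g_lp.ofReal (K := ℂ))
  have h3 := (push_stage s).corr (measurable_nuC _ _ s.t.smooth.continuous.measurable)
    (memLp_fcX (s.g_lp.ofReal (K := ℂ))).aestronglyMeasurable.aemeasurable k
  have h4 : ((∫ x, s.gT ((s.T.perm ^ k) x) * s.gT x : ℝ) : ℂ) =
      if k = 0 then (1 : ℂ) else 0 := by
    rw [h1, ← h3, ← integral_complex_ofReal]
    refine Eq.trans (integral_congr_ae (Eventually.of_forall fun y => ?_)) (h2.trans ?_)
    · simp
    · refine integral_congr_ae (Eventually.of_forall fun x => ?_)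
      simp only
      rw [ee_nu]
      congr 1
      rw [RCLike.mul_conj]
      norm_num
  by_cases hk : k = 0
  · rw [if_pos hk] at h4 ⊢; exact_mod_cast h4
  · rw [if_neg hk] at h4 ⊢; exact_mod_cast h4

theorem mean_eq {f : T3 → ℂ} (hf : Integrable f volume) :
    ∫ x, f x = ∫ c, fc f 0 c ∂I01 := by
  have h1 : ∫ x, f x = ∫ p, f (C3 p) ∂(I01.prod volume) := by
    have := mp_C3.map_eq
    rw [← this, integral_map mp_C3.measurable.aemeasurable]
    rw [this]
    exact hf.aestronglyMeasurable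
  have h2 : Integrable (fun p => f (C3 p)) (I01.prod volume) :=
    (mp_C3.integrable_comp hf.aestronglyMeasurable).2 hf
  rw [h1, integral_prod _ h2]
  refine integral_congr_ae (Eventually.of_forall fun c => ?_)
  simp only
  rw [fc_eq]
  have : kv 0 = 0 := by funext i; fin_cases i <;> simp [kv]
  rw [this, neg_zero]
  simp [UnitAddTorus.mFourier]

theorem gT_mean (s : Stage) : ∫ x, s.gT x = 0 := by
  have h1 : ∫ x, s.gT x = ∫ y, s.g y := by
    have e := (s.mpH : MeasurePreserving s.H.perm volume volume).integral_comp'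
      (f := ⟨s.H.perm, s.H.measurable_perm, s.H.measurable_perm_symm⟩) s.gT
    rw [← e]
    refine integral_congr_ae (Eventually.of_forall fun y => ?_)
    exact gT_H s y
  have hi : Integrable (fun y => (s.g y : ℂ)) volume :=
    (s.g_lp.integrable (by norm_num)).ofReal
  have h2 : ((∫ x, s.gT x : ℝ) : ℂ) = 0 := by
    rw [h1, ← integral_complex_ofReal, mean_eq hi]
    have h3 := ae_muX.1 s.flat 0
    have : (fun c => fc (fun y => (s.g y : ℂ)) 0 c) =ᵐ[I01] 0 := by
      filter_upwards [h3] with c hc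
      have h4 : ((0, c) : X) ∉ s.M.S := fun h => s.M.ne0 _ h rfl
      rw [indicator_of_notMem h4] at hc
      have h5 : ‖fcX (fun y => (s.g y : ℂ)) (0, c)‖ = 0 := by
        simpa using hc
      exact norm_eq_zero.1 h5
    rw [integral_congr_ae this]
    simp
  exact_mod_cast h2

/-! ### the system of a stage -/

theorem inner_HR (u v : HR) : ⟪u, v⟫ = ∫ x, u x * v x := by
  rw [MeasureTheory.L2.inner_def]
  refine integral_congr_ae (Eventually.of_forall fun x => ?_)
  simp [mul_comm]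

/-- the function of a stage as a vector of real `L²` -/
noncomputable def gL (s : Stage) : HR := (gT_lp s).toLp s.gT

theorem gL_coe (s : Stage) : gL s =ᵐ[volume] s.gT := (gT_lp s).coeFn_toLp

theorem U_gL (s : Stage) (k : ℤ) :
    ((U s.T (mpT s)) ^ k) (gL s) =ᵐ[volume] fun x => s.gT ((s.T.perm ^ k) x) := by
  refine (coeFn_U_zpow s.T (mpT s) k (gL s)).trans ?_
  exact (mp_zpow (mpT s) k).quasiMeasurePreserving.ae_eq_comp (gL_coe s)

/-- the system of a stage -/
noncomputable def sys (s : Stage) : Sys where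
  A := s.T
  mp := mpT s
  g := gL s
  g0 := by rw [integral_congr_ae (gL_coe s)]; exact gT_mean s
  on := fun k => by
    rw [inner_HR, ← corr_gT s k]
    refine integral_congr_ae ?_
    filter_upwards [U_gL s k, gL_coe s] with x h1 h2
    rw [h1, h2]

/-! ### distance -/

theorem fcX_sum {ι : Type*} (I : Finset ι) (a : ι → ℂ) (f : ι → T3 → ℂ)
    (hf : ∀ i ∈ I, Integrable (f i) volume) :
    fcX (fun x => ∑ i ∈ I, a i * f i x) =ᵐ[muX] fun x => ∑ i ∈ I, a i * fcX (f i) x := by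
  classical
  induction I using Finset.induction_on with
  | empty =>
    refine Eventually.of_forall fun x => ?_
    simp [fcX, fc]
  | insert i I hi ih =>
    have h1 := ih fun j hj => hf j (Finset.mem_insert_of_mem hj)
    have h2 : Integrable (a i • f i) volume := (hf i (Finset.mem_insert_self _ _)).smul _
    have h3 : Integrable (fun x => ∑ i ∈ I, a i * f i x) volume :=
      integrable_finsetSum _ fun j hj => (hf j (Finset.mem_insert_of_mem hj)).const_mul _
    have h4 := fc_add h2 h3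
    have h5 : (fun x => ∑ j ∈ insert i I, a j * f j x) =
        a i • f i + fun x => ∑ i ∈ I, a i * f i x := by
      funext x
      rw [Finset.sum_insert hi]
      rfl
    rw [h5]
    filter_upwards [h1, h4] with x e1 e2
    rw [e2, Pi.add_apply, e1, fcX_smul, Finset.sum_insert hi]
    rfl

/-- distance to the cyclic space, in twist coordinates -/
theorem dist_tw (s : Stage) {F : T3 → ℂ} (hF : MemLp F 2 volume) {η : ℝ} (hη : 0 < η) :
    ∃ p : ℤ →₀ ℂ, ∫⁻ x, ‖F x - ∑ n ∈ p.support, p n * (s.g ((s.t.R.perm ^ n) x) : ℂ)‖ₑ ^ 2 ≤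
      ∫⁻ x in s.M.Sᶜ, ‖fcX F x‖ₑ ^ 2 ∂muX + ENNReal.ofReal (η ^ 2) := by
  have hg := s.g_lp.ofReal (K := ℂ)
  have hG0 : ∀ᵐ x ∂muX, x ∉ s.M.S → fcX (fun y => (s.g y : ℂ)) x = 0 := by
    filter_upwards [s.flat] with x hx h
    rw [indicator_of_notMem h] at hx
    have h5 : ‖fcX (fun y => (s.g y : ℂ)) x‖ = 0 := by simpa using hx
    exact norm_eq_zero.1 h5
  have hG1 : ∀ᵐ x ∂muX, x ∈ s.M.S → fcX (fun y => (s.g y : ℂ)) x ≠ 0 := by
    filter_upwards [s.flat] with x hx h h0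
    rw [indicator_of_mem h, h0] at hx
    have h1 : (0 : ℝ) < |(x.1.2 : ℝ)| := by
      rw [abs_pos]; exact_mod_cast s.M.ne0 x h
    have h2 := mul_pos h1 s.t.al_pos
    simp only [norm_zero] at hx
    rw [← hx] at h2
    norm_num at h2
  obtain ⟨p, hp⟩ := (push_stage s).dist_ae (measurable_nuC _ _ s.t.smooth.continuous.measurable)
    (memLp_fcX hg).aestronglyMeasurable.aemeasurable s.M.meas hG0 hG1
    (inj_of_cov (cov_of_modes s.M)) (memLp_fcX hF) hη
  refine ⟨p, le_of_eq_of_le ?_ hp⟩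
  have hgn : ∀ n : ℤ, MemLp (fun x => (s.g ((s.t.R.perm ^ n) x) : ℂ)) 2 volume := fun n =>
    hg.comp_measurePreserving (mp_zpow (mp_R s.t) n)
  have hsum : MemLp (fun x => ∑ n ∈ p.support, p n * (s.g ((s.t.R.perm ^ n) x) : ℂ)) 2 volume :=
    memLp_finsetSum _ fun n _ => (hgn n).const_mul _
  rw [← lintegral_fcX (f := fun x => F x -
    ∑ n ∈ p.support, p n * (s.g ((s.t.R.perm ^ n) x) : ℂ)) (hF.sub hsum)]
  refine lintegral_congr_ae ?_
  have e1 := fcX_sum p.support (fun n => p n) (fun n x => (s.g ((s.t.R.perm ^ n) x) : ℂ))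
    fun n _ => (hgn n).integrable (by norm_num)
  have e2 := fc_add (hF.integrable (by norm_num))
    ((hsum.integrable (by norm_num)).smul (-1 : ℂ))
  have e3 : (fun x => F x - ∑ n ∈ p.support, p n * (s.g ((s.t.R.perm ^ n) x) : ℂ)) =
      F + (-1 : ℂ) • fun x => ∑ n ∈ p.support, p n * (s.g ((s.t.R.perm ^ n) x) : ℂ) := by
    funext x
    simp [sub_eq_add_neg]
  rw [e3]
  filter_upwards [e1, e2] with x h1 h2
  rw [h2, Pi.add_apply, fcX_smul, Pi.smul_apply, h1]
  congr 2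
  rw [smul_eq_mul, neg_one_mul, ← sub_eq_add_neg]
  congr 1
  unfold tp Finsupp.sum
  rw [Finset.sum_mul]
  refine Finset.sum_congr rfl fun n _ => ?_
  have h3 := fcX_comp_tw_zpow (isTw_R s.t) n (fun y => (s.g y : ℂ)) x
  rw [h3, ee_nu, mul_assoc]

theorem enorm_sq_HR (u : HR) : ‖u‖ₑ ^ 2 = ∫⁻ x, ‖u x‖ₑ ^ 2 := by
  rw [Lp.enorm_def, eLpNorm_eq_lintegral_rpow_enorm_toReal (by norm_num) (by norm_num)]
  simp only [ENNReal.toReal_ofNat, one_div]
  rw [← ENNReal.rpow_natCast, ← ENNReal.rpow_mul]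
  norm_num

theorem pol_coe (s : Stage) (p : ℤ →₀ ℝ) :
    pol s.T (mpT s) p (gL s) =ᵐ[volume]
      fun x => ∑ n ∈ p.support, p n * s.gT ((s.T.perm ^ n) x) := by
  have h1 : ∀ I : Finset ℤ, (∑ n ∈ I, p n • (((U s.T (mpT s)) ^ n) (gL s)) : HR) =ᵐ[volume]
      fun x => ∑ n ∈ I, p n * s.gT ((s.T.perm ^ n) x) := by
    intro I
    induction I using Finset.induction_on with
    | empty =>
      simp only [Finset.sum_empty]
      exact Lp.coeFn_zero ℝ 2 (volume : Measure T3)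
    | insert n I hn ih =>
      rw [Finset.sum_insert hn]
      filter_upwards [Lp.coeFn_add (p n • (((U s.T (mpT s)) ^ n) (gL s)))
        (∑ n ∈ I, p n • (((U s.T (mpT s)) ^ n) (gL s)) : HR), ih,
        Lp.coeFn_smul (p n) (((U s.T (mpT s)) ^ n) (gL s)), U_gL s n] with x a1 a2 a3 a4
      rw [a1, Pi.add_apply, a2, a3, Pi.smul_apply, a4, Finset.sum_insert hn, smul_eq_mul]
  exact h1 p.support

theorem ofReal_D0 (s : Stage) {f : T3 → ℂ} (hf : MemLp f 2 volume) :
    ENNReal.ofReal (s.D0 f ^ 2) =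
      ∫⁻ x in s.M.Sᶜ, ‖fcX (fun y => f (s.H.perm y)) x‖ₑ ^ 2 ∂muX := by
  have hF : MemLp (fun y => f (s.H.perm y)) 2 volume :=
    hf.comp_measurePreserving (s.mpH : MeasurePreserving s.H.perm volume volume)
  have h1 := (memLp_fcX hF).restrict s.M.Sᶜ
  unfold Stage.D0 Stage.nrm
  rw [Real.sq_sqrt (integral_nonneg fun x => by positivity),
    ofReal_integral_eq_lintegral_ofReal (h1.integrable_norm_pow (by norm_num))
      (Eventually.of_forall fun x => by positivity)]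
  refine lintegral_congr fun x => ?_
  rw [ENNReal.ofReal_pow (norm_nonneg _), ofReal_norm]

/-- **FLAT, (S1)** -/
theorem dist (s : Stage) (f : HR) {η : ℝ} (hη : 0 < η) :
    ∃ p : ℤ →₀ ℝ, ‖f - pol (sys s).A (sys s).mp p (sys s).g‖ ≤
      s.D0 (fun x => (f x : ℂ)) + η := by
  have hf : MemLp (fun x => (f x : ℂ)) 2 volume := (Lp.memLp f).ofReal (K := ℂ)
  have hF : MemLp (fun y => (f (s.H.perm y) : ℂ)) 2 volume :=
    hf.comp_measurePreserving (s.mpH : MeasurePreserving s.H.perm volume volume)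
  obtain ⟨p, hp⟩ := dist_tw s hF hη
  set pr : ℤ →₀ ℝ := p.mapRange Complex.re Complex.zero_re with hpr
  refine ⟨pr, ?_⟩
  have hD0 : 0 ≤ s.D0 (fun x => (f x : ℂ)) := Real.sqrt_nonneg _
  have hsum : ∀ G : ℤ → ℝ, ∑ n ∈ pr.support, pr n * G n = ∑ n ∈ p.support, (p n).re * G n := by
    intro G
    have e1 : ∀ n, pr n = (p n).re := fun n => by rw [hpr]; simp
    simp only [e1]
    refine Finset.sum_subset ?_ ?_
    · intro n hn
      rw [Finsupp.mem_support_iff] at hn ⊢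
      intro h
      apply hn
      rw [e1, h]; simp
    · intro n _ hn
      rw [Finsupp.notMem_support_iff, e1] at hn
      rw [hn, zero_mul]
  have h1 : ENNReal.ofReal (‖f - pol (sys s).A (sys s).mp pr (sys s).g‖ ^ 2) ≤
      ENNReal.ofReal ((s.D0 (fun x => (f x : ℂ)) + η) ^ 2) := by
    calc ENNReal.ofReal (‖f - pol (sys s).A (sys s).mp pr (sys s).g‖ ^ 2)
        = ∫⁻ x, ‖(f - pol s.T (mpT s) pr (gL s) : HR) x‖ₑ ^ 2 := by
          rw [ENNReal.ofReal_pow (norm_nonneg _), ofReal_norm, enorm_sq_HR]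
          rfl
      _ = ∫⁻ x, ‖f x - ∑ n ∈ p.support, (p n).re * s.gT ((s.T.perm ^ n) x)‖ₑ ^ 2 := by
          refine lintegral_congr_ae ?_
          filter_upwards [Lp.coeFn_sub f (pol s.T (mpT s) pr (gL s)), pol_coe s pr] with x a1 a2
          rw [a1, Pi.sub_apply, a2, hsum]
      _ = ∫⁻ y, ‖f (s.H.perm y) -
            ∑ n ∈ p.support, (p n).re * s.g ((s.t.R.perm ^ n) y)‖ₑ ^ 2 := by
          have e := (s.mpH : MeasurePreserving s.H.perm volume volume).lintegral_comp_emb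
            (MeasurableEquiv.measurableEmbedding
              ⟨s.H.perm, s.H.measurable_perm, s.H.measurable_perm_symm⟩)
            (fun x => ‖f x - ∑ n ∈ p.support, (p n).re * s.gT ((s.T.perm ^ n) x)‖ₑ ^ 2)
          rw [← e]
          refine lintegral_congr fun y => ?_
          simp only [gT_zpow]
      _ ≤ ∫⁻ y, ‖(f (s.H.perm y) : ℂ) -
            ∑ n ∈ p.support, p n * (s.g ((s.t.R.perm ^ n) y) : ℂ)‖ₑ ^ 2 := by
          refine lintegral_mono fun y => ?_
          gcongr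
          rw [← ofReal_norm, ← ofReal_norm]
          refine ENNReal.ofReal_le_ofReal ?_
          refine le_trans (le_of_eq ?_) (Complex.abs_re_le_norm _)
          rw [Real.norm_eq_abs]
          congr 1
          simp
      _ ≤ ENNReal.ofReal (s.D0 (fun x => (f x : ℂ)) ^ 2) + ENNReal.ofReal (η ^ 2) := by
          rw [ofReal_D0 s hf]; exact hp
      _ = ENNReal.ofReal (s.D0 (fun x => (f x : ℂ)) ^ 2 + η ^ 2) := by
          rw [ENNReal.ofReal_add (by positivity) (by positivity)]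
      _ ≤ _ := ENNReal.ofReal_le_ofReal (by nlinarith)
  rw [ENNReal.ofReal_le_ofReal_iff (by positivity)] at h1
  exact le_of_sq_le_sq h1 (by positivity)

end Crest.Agent.R081.Flat
end

-- ▼ part R081/Flat5
section

/-!
# Row 81, node FLAT, part 5: the three inputs of `G1.goal_of_stages`
-/

set_option autoImplicit false

namespace Crest.Agent.R081.Flat

open MeasureTheory Set Filter Crest.AnalysisR.Torus3 Crest.Agent.R075 Crest.Agent.R081.Cv
  Crest.Agent.R081.Fm Crest.Agent.R081.St Crest.Agent.R081.Ind Crest.Agent.R081.Sm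
  Crest.Agent.R081.Tw
open scoped ENNReal

theorem flatS0 : G1.FlatS0 := fun s n => corr_gT s n

theorem flatMean : G1.FlatMean := gT_mean

theorem flatS1 : G1.FlatS1 := by
  intro s f hf _ η hη
  obtain ⟨p, hp⟩ := dist s (hf.toLp f) hη
  refine ⟨p, ?_⟩
  have hD : s.D0 (fun x => ((hf.toLp f : HR) x : ℂ)) = s.D0 (fun x => (f x : ℂ)) := by
    unfold Stage.D0 Stage.nrm
    congr 1
    have h1 : (fun y => (((hf.toLp f : HR) (s.H.perm y) : ℝ) : ℂ)) =ᵐ[volume]
        fun y => (f (s.H.perm y) : ℂ) := by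
      have h2 := (s.mpH : MeasurePreserving s.H.perm volume volume).quasiMeasurePreserving.ae_eq_comp
        hf.coeFn_toLp
      filter_upwards [h2] with y hy
      have h3 : (hf.toLp f : HR) (s.H.perm y) = f (s.H.perm y) := hy
      rw [h3]
    refine integral_congr_ae (ae_restrict_of_ae ?_)
    filter_upwards [fc_congr h1] with x hx
    rw [hx]
  rw [hD] at hp
  have e1 : (fun x => f x - p.sum fun n a => a * s.gT ((s.T.perm ^ n) x)) =ᵐ[volume]
      (hf.toLp f - pol s.T (mpT s) p (gL s) : HR) := by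
    filter_upwards [Lp.coeFn_sub (hf.toLp f) (pol s.T (mpT s) p (gL s)), pol_coe s p,
      hf.coeFn_toLp] with x a1 a2 a3
    rw [a1, Pi.sub_apply, a2, a3]
    rfl
  rw [eLpNorm_congr_ae e1]
  have e2 : ‖(hf.toLp f - pol s.T (mpT s) p (gL s) : HR)‖ₑ =
      eLpNorm (hf.toLp f - pol s.T (mpT s) p (gL s) : HR) 2 volume := Lp.enorm_def _
  rw [← e2, ← ofReal_norm]
  exact ENNReal.ofReal_le_ofReal hp

/-- the whole row from the one-step statement and a base stage -/
theorem goal_of_StepStmt (h : StepStmt) (hb : Nonempty Stage) : Glue.Goal :=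
  G1.goal_of_stages flatS0 flatMean flatS1 h hb

end Crest.Agent.R081.Flat
end

-- ▼ part R081/Cv3
section

/-!
Row 81 (S0108), node COVER (helper451), part 3: designs as `ℤ`-periodic sets, the aligned set for
almost every fibre coordinate, the lattice identity, the gap filler.
-/

set_option autoImplicit false

open MeasureTheory ENNReal

namespace Crest.Agent.R081.Cv

/-- frequency of a design point `((a,b),c')`: `a/n + b F(c')` (a real number; the design sets are
periodic in `a` with period `n`, so equality modulo one is equality after a shift of `a`). -/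
noncomputable def nuE (n : ℕ) (F : ℝ → ℝ) (p : Md) : ℝ := (p.1.1 : ℝ) / n + p.1.2 * F p.2

/-- periodicity in `a` -/
def Per (n : ℕ) (E : Set Md) : Prop := ∀ (a b : ℤ) (c : ℝ), ((a + n, b), c) ∈ E ↔ ((a, b), c) ∈ E

lemma Per.add_mul {n : ℕ} {E : Set Md} (h : Per n E) (a b : ℤ) (c : ℝ) (m : ℤ) :
    ((a + m * n, b), c) ∈ E ↔ ((a, b), c) ∈ E := by
  induction m using Int.induction_on with
  | zero => simp
  | succ i ih =>
    have e : a + ((i : ℤ) + 1) * n = a + i * n + n := by ring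
    rw [e]
    exact (h _ b c).trans ih
  | pred i ih =>
    have e : a + -(i : ℤ) * n = a + (-(i : ℤ) - 1) * n + n := by ring
    rw [e] at ih
    exact (h _ b c).symm.trans ih

/-- the `ZMod` form of a periodic design -/
def deSet (n : ℕ) (E : Set Md) : Set (De n) :=
  {e | ∃ a : ℤ, (a : ZMod n) = e.1.1 ∧ ((a, e.1.2), e.2) ∈ E}

lemma deSet_mem {n : ℕ} {E : Set Md} (h : Per n E) (e : De n) (a : ℤ)
    (ha : (a : ZMod n) = e.1.1) : e ∈ deSet n E ↔ ((a, e.1.2), e.2) ∈ E := by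
  constructor
  · rintro ⟨a', ha', haE⟩
    rw [← ha, ZMod.intCast_eq_intCast_iff_dvd_sub] at ha'
    obtain ⟨m, hm⟩ := ha'
    have : a = a' + m * n := by linarith
    rw [this, h.add_mul]; exact haE
  · intro hE
    exact ⟨a, ha, hE⟩

lemma toDe_mem {n : ℕ} {Pp : ℤ} {E : Set Md} (h : Per n E) (p : Md) :
    toDe n Pp p ∈ deSet n E ↔ ((p.1.1 * Pp, p.1.2), p.2) ∈ E :=
  deSet_mem h (toDe n Pp p) _ rfl

/-- a periodic design hits almost every real exactly once -/
def CovR (n : ℕ) (F : ℝ → ℝ) (E : Set Md) : Prop := ∀ᵐ y : ℝ, ∃! p, p ∈ E ∧ nuE n F p = y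

lemma CovR.covE {n : ℕ} {F : ℝ → ℝ} {E : Set Md} (hper : Per n E) (h : CovR n F E) :
    CovE n F (deSet n E) := by
  filter_upwards [h] with y hy
  obtain ⟨p, ⟨hp, hpy⟩, hu⟩ := hy
  refine ⟨((((p.1.1 : ℤ) : ZMod n), p.1.2), p.2), ⟨⟨p.1.1, rfl, hp⟩, p.1.1, rfl, hpy⟩, ?_⟩
  rintro e ⟨he, a', ha', hy'⟩
  have h1 := (deSet_mem hper e a' ha').1 he
  have h2 := hu _ ⟨h1, hy'⟩
  have h3 : a' = p.1.1 := congrArg (fun p : Md => p.1.1) h2
  have h4 : e.1.2 = p.1.2 := congrArg (fun p : Md => p.1.2) h2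
  have h5 : e.2 = p.2 := congrArg (fun p : Md => p.2) h2
  apply Prod.ext
  · apply Prod.ext
    · show e.1.1 = ((p.1.1 : ℤ) : ZMod n)
      rw [← h3, ha']
    · exact h4
  · exact h5

lemma nuE_shift {n : ℕ} (hn : 0 < n) (F : ℝ → ℝ) (a b m : ℤ) (c : ℝ) :
    nuE n F ((a + m * n, b), c) = nuE n F ((a, b), c) + m := by
  have : (n : ℝ) ≠ 0 := by positivity
  simp only [nuE]
  push_cast
  field_simp
  ring

/-- the mode set of the next stage, periodic form -/
def stepSet (q n h : ℕ) (Pp : ℤ) (psi F : ℝ → ℝ) (S E : Set Md) : Set Md :=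
  {p | ((p.1.1 * Pp, p.1.2), p.2) ∈ E ∧ ∃ s ∈ S, (q : ℤ) ∣ p.1.1 - s.1.1 ∧
    (h : ℝ) * (s.1.2 * psi s.2) = (p.1.1 : ℝ) / (q * n) + p.1.2 * F p.2}

lemma stepSet_eq {q n h : ℕ} {Pp : ℤ} {psi F : ℝ → ℝ} {S E : Set Md} (hper : Per n E) :
    stepSet q n h Pp psi F S E = nextS q n h Pp psi F S (deSet n E) := by
  ext p
  simp only [stepSet, nextS, Set.mem_ofPred_eq, toDe_mem hper, mul_assoc]

section Step

variable {q n h : ℕ} {P Pp : ℤ} {psi F : ℝ → ℝ} {S E : Set Md}


/-- **aligned set**, frequency form -/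
theorem aligned_freq (hq : 0 < q) (hn : 0 < n) (hh : 0 < h) (hP : (q : ℤ) * Pp = P * h * n + 1)
    (hper : Per n E) (hS : Cov (nuT P q psi) S) (hE : CovR n F E) :
    ∀ᵐ x : ℝ, ∀ p : Md, hit (nuT Pp (h * n) (fun c => F c / h)) p x →
      ((p.1.1 * Pp, p.1.2), p.2) ∈ E →
      ∃ r : ℤ, ((p.1.1 + r * (h * n : ℕ), p.1.2), p.2) ∈ stepSet q n h Pp psi F S E := by
  filter_upwards [aligned hq hn hh hP hS (hE.covE hper)] with x hx p hp hpE
  rw [stepSet_eq hper]
  exact hx p hp ((toDe_mem hper p).2 hpE)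

/-- **aligned set**, fibre form: for every `(j,b)`, `b ≠ 0`, and almost every `c'` in the interval
where `F` is affine: if the design point lies in `E`, then up to a multiple of `q₊ = h n` the mode
lies in the next mode set. -/
theorem aligned_fibre {sF tF : ℝ} {J : Set ℝ} (hsF : sF ≠ 0) (hF : ∀ c ∈ J, F c = sF * c + tF)
    (hq : 0 < q) (hn : 0 < n) (hh : 0 < h) (hP : (q : ℤ) * Pp = P * h * n + 1)
    (hper : Per n E) (hS : Cov (nuT P q psi) S) (hE : CovR n F E) (j b : ℤ) (hb : b ≠ 0) :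
    ∀ᵐ c : ℝ, c ∈ J → ((j * Pp, b), c) ∈ E →
      ∃ r : ℤ, ((j + r * (h * n : ℕ), b), c) ∈ stepSet q n h Pp psi F S E := by
  have hh' : (h : ℝ) ≠ 0 := by positivity
  have hb' : (b : ℝ) ≠ 0 := by exact_mod_cast hb
  have h1 := ae_affine (s := b * sF / h) (b := (j : ℝ) * Pp / (h * n : ℕ) + b * tF / h)
    (by positivity) (aligned_freq hq hn hh hP hper hS hE)
  filter_upwards [h1] with c hc hcJ hcE
  refine hc ((j, b), c) ⟨0, ?_⟩ hcE
  simp only [nuT]
  rw [hF c hcJ]
  push_cast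
  field_simp
  ring

end Step

section Lattice

variable {q n h : ℕ} {P Pp : ℤ} {F : ℝ → ℝ} {E : Set Md}







end Lattice

end Crest.Agent.R081.Cv
end

-- ▼ part R081/Cv4
section

/-!
Row 81 (S0108), node COVER (helper451), part 4: the gap filler, in the language of `MsStep`
(`lamE`, `InjE`, `FullM`, `StepSet`), mass identities, the aligned set for `StepSet`.
-/

set_option autoImplicit false

open MeasureTheory ENNReal Set
open Crest.Agent.R081.Ms

namespace Crest.Agent.R081.Cv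


lemma stepSet_eq_StepSet (q n h : ℕ) (Pp : ℤ) (psi F : ℝ → ℝ) (S E : Set Md) :
    stepSet q n h Pp psi F S E = StepSet q n h Pp psi F S E := rfl

/-- periodicity in the form of `MsStep` -/
def PerM (n : ℕ) (E : Set Md) : Prop :=
  ∀ (a a' b : ℤ) (c : ℝ), (n : ℤ) ∣ a - a' → ((a, b), c) ∈ E → ((a', b), c) ∈ E

lemma perM_iff {n : ℕ} {E : Set Md} : PerM n E ↔ Per n E := by
  constructor
  · intro h a b c
    exact ⟨fun h1 => h _ _ _ _ ⟨1, by ring⟩ h1, fun h1 => h _ _ _ _ ⟨-1, by ring⟩ h1⟩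
  · intro h a a' b c ⟨m, hm⟩ h1
    have : a = a' + m * n := by linarith
    rw [this, h.add_mul] at h1
    exact h1

lemma inj_of_injE {n : ℕ} (hn : 0 < n) {F : ℝ → ℝ} {E : Set Md} (h : InjE n F E) :
    ∀ p ∈ E, ∀ p' ∈ E, nuE n F p = nuE n F p' → p = p' := by
  intro p hp p' hp' he
  have hn' : (n : ℝ) ≠ 0 := by positivity
  obtain ⟨-, h2, h3⟩ := h p hp p' hp' ⟨0, by
    show nuE n F p - nuE n F p' = _
    rw [he]; simp⟩
  have h4 : (p.1.1 : ℝ) = p'.1.1 := by
    simp only [nuE] at he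
    rw [h2, h3] at he
    field_simp at he
    linarith
  exact Prod.ext (Prod.ext (by exact_mod_cast h4) h2) h3

lemma exists_of_fullM {n : ℕ} (hn : 0 < n) {F : ℝ → ℝ} {E : Set Md} (hper : Per n E)
    (h : FullM (lamE n F) E) : ∀ᵐ y : ℝ, ∃ p ∈ E, nuE n F p = y := by
  filter_upwards [h] with y hy
  obtain ⟨x, hx, m, hm⟩ := hy
  refine ⟨((x.1.1 + (-m) * n, x.1.2), x.2), (hper.add_mul _ _ _ _).2 hx, ?_⟩
  rw [nuE_shift hn]
  have : nuE n F ((x.1.1, x.1.2), x.2) = lamE n F x := rfl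
  rw [this]
  push_cast
  linarith

lemma covR_of {n : ℕ} (hn : 0 < n) {F : ℝ → ℝ} {E : Set Md} (hper : Per n E)
    (hinj : InjE n F E) (hfull : FullM (lamE n F) E) : CovR n F E := by
  filter_upwards [exists_of_fullM hn hper hfull] with y hy
  obtain ⟨p, hp, hpy⟩ := hy
  exact ⟨p, ⟨hp, hpy⟩, fun p' hp' => inj_of_injE hn hinj _ hp'.1 _ hp (hp'.2.trans hpy.symm)⟩

lemma cov_of {nu : Md → ℝ} {S : Set Md} (hinj : InjM nu S) (hfull : FullM nu S) : Cov nu S := by
  filter_upwards [hfull] with x hx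
  obtain ⟨p, hp, m, hm⟩ := hx
  refine ⟨p, ⟨hp, m, by linarith⟩, ?_⟩
  rintro p' ⟨hp', m', hm'⟩
  exact hinj _ hp' _ hp ⟨m' - m, by push_cast; linarith⟩

lemma nuM_eq_nuT (P : ℤ) (q : ℕ) (psi : ℝ → ℝ) : nuM ((P : ℝ) / q) psi = nuT P q psi := by
  funext x
  simp only [nuM, nuT]
  ring

/-- aligned set for `StepSet` with a (full) design in `MsStep` language. -/
theorem aligned_StepSet {q n h : ℕ} {P Pp : ℤ} {psi F : ℝ → ℝ} {S E : Set Md}
    {sF tF : ℝ} {J : Set ℝ} (hsF : sF ≠ 0) (hF : ∀ c ∈ J, F c = sF * c + tF)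
    (hq : 0 < q) (hn : 0 < n) (hh : 0 < h) (hP : (q : ℤ) * Pp = P * h * n + 1)
    (hper : PerM n E) (hSi : InjM (nuM ((P : ℝ) / q) psi) S)
    (hSf : FullM (nuM ((P : ℝ) / q) psi) S) (hEi : InjE n F E) (hEf : FullM (lamE n F) E)
    (j b : ℤ) (hb : b ≠ 0) :
    ∀ᵐ c : ℝ, c ∈ J → ((j * Pp, b), c) ∈ E →
      ∃ r : ℤ, ((j + r * (h * n : ℕ), b), c) ∈ StepSet q n h Pp psi F S E := by
  rw [← stepSet_eq_StepSet]
  have hp := perM_iff.1 hper
  refine aligned_fibre hsF hF hq hn hh hP hp ?_ (covR_of hn hp hEi hEf) j b hb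
  rw [← nuM_eq_nuT]
  exact cov_of hSi hSf

/-! ### the gap filler -/

/-- the filler: lines `(0 mod n, ±b₀)` over the frequencies not covered by `E`. -/
def fil (n : ℕ) (F : ℝ → ℝ) (u v : ℝ) (b0 : ℤ) (E : Set Md) : Set Md :=
  {x | (n : ℤ) ∣ x.1.1 ∧ (x.1.2 = b0 ∨ x.1.2 = -b0) ∧ x.2 ∈ Icc u v ∧
    (b0 : ℝ) * F x.2 ∈ Ioo (0 : ℝ) (1 / 2) ∧
    ¬ ∃ e ∈ E, ∃ m : ℤ, lamE n F e - b0 * F x.2 = m}

section Fil

variable {n : ℕ} {F : ℝ → ℝ} {u v sF : ℝ} {b0 : ℤ} {E : Set Md}

lemma fil_per : PerM n (fil n F u v b0 E) := by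
  rintro a a' b c hd ⟨h1, h2⟩
  refine ⟨?_, h2⟩
  have : a' = a - (a - a') := by ring
  show (n : ℤ) ∣ a'
  rw [this]
  exact dvd_sub h1 hd

lemma fil_symm : ∀ x ∈ fil n F u v b0 E, ((-x.1.1, -x.1.2), x.2) ∈ fil n F u v b0 E := by
  rintro x ⟨h1, h2, h3⟩
  refine ⟨(dvd_neg).2 h1, ?_, h3⟩
  rcases h2 with h2 | h2
  · right; show -x.1.2 = -b0; rw [h2]
  · left; show -x.1.2 = b0; rw [h2]; ring

lemma fil_J : ∀ x ∈ fil n F u v b0 E, x.2 ∈ Icc u v := fun _ h => h.2.2.1

lemma fil_b : ∀ x ∈ fil n F u v b0 E, x.1.2 = b0 ∨ x.1.2 = -b0 := fun _ h => h.2.1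

lemma fil_b_ne (hb0 : 0 < b0) : ∀ x ∈ fil n F u v b0 E, x.1.2 ≠ 0 := by
  intro x h
  rcases fil_b x h with h | h <;> omega

lemma lamE_neg (x : Md) : lamE n F ((-x.1.1, -x.1.2), x.2) = -lamE n F x := by
  simp only [lamE]; push_cast; ring

/-- frequency of a filler point is `± b₀ F` modulo one -/
lemma fil_lam (hn : 0 < n) {x : Md} (hx : x ∈ fil n F u v b0 E) :
    ∃ m : ℤ, (x.1.2 = b0 ∧ lamE n F x = m + b0 * F x.2) ∨
      (x.1.2 = -b0 ∧ lamE n F x = m - b0 * F x.2) := by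
  have hn' : (n : ℝ) ≠ 0 := by positivity
  obtain ⟨⟨m, hm⟩, h2, -⟩ := hx
  refine ⟨m, ?_⟩
  rcases h2 with h2 | h2
  · left
    refine ⟨h2, ?_⟩
    simp only [lamE]
    rw [hm, h2]
    push_cast
    field_simp
  · right
    refine ⟨h2, ?_⟩
    simp only [lamE]
    rw [hm, h2]
    push_cast
    field_simp
    ring

lemma fil_uncov (hn : 0 < n) (hsym : ∀ x ∈ E, ((-x.1.1, -x.1.2), x.2) ∈ E) {x : Md}
    (hx : x ∈ fil n F u v b0 E) : ¬ ∃ e ∈ E, ∃ m : ℤ, lamE n F e - lamE n F x = m := by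
  rintro ⟨e, he, m, hm⟩
  obtain ⟨m', h | h⟩ := fil_lam hn hx
  · refine hx.2.2.2.2 ⟨e, he, m + m', ?_⟩
    push_cast
    linarith [h.2]
  · refine hx.2.2.2.2 ⟨_, hsym e he, -m - m', ?_⟩
    rw [lamE_neg]
    push_cast
    linarith [h.2]


theorem fil_injE (hn : 0 < n) (hsF : 0 < sF) (hb0 : 0 < b0)
    (hF : ∀ c ∈ Icc u v, F c = sF * (c - u))
    (hsym : ∀ x ∈ E, ((-x.1.1, -x.1.2), x.2) ∈ E) (hinj : InjE n F E) :
    InjE n F (E ∪ fil n F u v b0 E) := by
  have hb0' : (0 : ℝ) < b0 := by exact_mod_cast hb0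
  rintro x (hx | hx) y (hy | hy) ⟨m, hm⟩
  · exact hinj x hx y hy ⟨m, hm⟩
  · exact absurd ⟨x, hx, m, hm⟩ (fil_uncov hn hsym hy)
  · exact absurd ⟨y, hy, -m, by push_cast; linarith⟩ (fil_uncov hn hsym hx)
  · have hFeq : F x.2 = F y.2 → x.2 = y.2 := by
      intro h
      rw [hF _ (fil_J x hx), hF _ (fil_J y hy)] at h
      have := mul_left_cancel₀ hsF.ne' h
      linarith
    have hdv : (n : ℤ) ∣ x.1.1 - y.1.1 := dvd_sub hx.1 hy.1
    have hX := hx.2.2.2.1
    have hY := hy.2.2.2.1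
    obtain ⟨m1, h1 | h1⟩ := fil_lam hn hx <;> obtain ⟨m2, h2 | h2⟩ := fil_lam hn hy
    · have h3 : ((m - m1 + m2 : ℤ) : ℝ) = b0 * F x.2 - b0 * F y.2 := by
        push_cast; linarith [h1.2, h2.2]
      have h4 : (m - m1 + m2 : ℤ) = 0 := by
        have a1 : ((m - m1 + m2 : ℤ) : ℝ) < 1 := by rw [h3]; linarith [hX.2, hY.1]
        have a2 : (-1 : ℝ) < ((m - m1 + m2 : ℤ) : ℝ) := by rw [h3]; linarith [hX.1, hY.2]
        have a3 : (m - m1 + m2 : ℤ) < 1 := by exact_mod_cast a1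
        have a4 : -1 < (m - m1 + m2 : ℤ) := by exact_mod_cast a2
        omega
      rw [h4] at h3
      have h5 : F x.2 = F y.2 := by
        have : (b0 : ℝ) * F x.2 = b0 * F y.2 := by push_cast at h3; linarith
        exact mul_left_cancel₀ hb0'.ne' this
      exact ⟨hdv, h1.1.trans h2.1.symm, hFeq h5⟩
    · exfalso
      have h3 : ((m - m1 + m2 : ℤ) : ℝ) = b0 * F x.2 + b0 * F y.2 := by
        push_cast; linarith [h1.2, h2.2]
      have a1 : ((m - m1 + m2 : ℤ) : ℝ) < 1 := by rw [h3]; linarith [hX.2, hY.2]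
      have a2 : (0 : ℝ) < ((m - m1 + m2 : ℤ) : ℝ) := by rw [h3]; linarith [hX.1, hY.1]
      have a3 : (m - m1 + m2 : ℤ) < 1 := by exact_mod_cast a1
      have a4 : 0 < (m - m1 + m2 : ℤ) := by exact_mod_cast a2
      omega
    · exfalso
      have h3 : ((-m + m1 - m2 : ℤ) : ℝ) = b0 * F x.2 + b0 * F y.2 := by
        push_cast; linarith [h1.2, h2.2]
      have a1 : ((-m + m1 - m2 : ℤ) : ℝ) < 1 := by rw [h3]; linarith [hX.2, hY.2]
      have a2 : (0 : ℝ) < ((-m + m1 - m2 : ℤ) : ℝ) := by rw [h3]; linarith [hX.1, hY.1]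
      have a3 : (-m + m1 - m2 : ℤ) < 1 := by exact_mod_cast a1
      have a4 : 0 < (-m + m1 - m2 : ℤ) := by exact_mod_cast a2
      omega
    · have h3 : ((-m + m1 - m2 : ℤ) : ℝ) = b0 * F x.2 - b0 * F y.2 := by
        push_cast; linarith [h1.2, h2.2]
      have h4 : (-m + m1 - m2 : ℤ) = 0 := by
        have a1 : ((-m + m1 - m2 : ℤ) : ℝ) < 1 := by rw [h3]; linarith [hX.2, hY.1]
        have a2 : (-1 : ℝ) < ((-m + m1 - m2 : ℤ) : ℝ) := by rw [h3]; linarith [hX.1, hY.2]
        have a3 : (-m + m1 - m2 : ℤ) < 1 := by exact_mod_cast a1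
        have a4 : -1 < (-m + m1 - m2 : ℤ) := by exact_mod_cast a2
        omega
      rw [h4] at h3
      have h5 : F x.2 = F y.2 := by
        have : (b0 : ℝ) * F x.2 = b0 * F y.2 := by push_cast at h3; linarith
        exact mul_left_cancel₀ hb0'.ne' this
      exact ⟨hdv, h1.1.trans h2.1.symm, hFeq h5⟩

theorem fil_fullM (hn : 0 < n) (hsF : 0 < sF) (hb0 : 0 < b0)
    (hF : ∀ c ∈ Icc u v, F c = sF * (c - u)) (hbig : 1 / 2 ≤ b0 * (sF * (v - u)))
    (hsym : ∀ x ∈ E, ((-x.1.1, -x.1.2), x.2) ∈ E) :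
    FullM (lamE n F) (E ∪ fil n F u v b0 E) := by
  have hb0' : (0 : ℝ) < b0 := by exact_mod_cast hb0
  have hn' : (n : ℝ) ≠ 0 := by positivity
  have hnull : ∀ᵐ t : ℝ, t ∉ Set.range (fun m : ℤ => (m : ℝ) / 2) := by
    have : (Set.range (fun m : ℤ => (m : ℝ) / 2)).Countable := Set.countable_range _
    exact this.ae_notMem _
  filter_upwards [hnull] with t ht
  by_cases hcov : ∃ e ∈ E, ∃ m : ℤ, lamE n F e - t = m
  · obtain ⟨e, he, m, hm⟩ := hcov
    exact ⟨e, Or.inl he, m, hm⟩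
  -- s = t - round t
  set s : ℝ := t - round t with hs
  have hs0 : s ≠ 0 := by
    intro h
    apply ht
    refine ⟨2 * round t, ?_⟩
    push_cast
    linarith
  have hsle : |s| ≤ 1 / 2 := abs_sub_round t
  have hshalf : |s| ≠ 1 / 2 := by
    intro h
    apply ht
    rcases abs_eq (by norm_num : (0 : ℝ) ≤ 1 / 2) |>.1 h with h | h
    · refine ⟨2 * round t + 1, ?_⟩
      push_cast; linarith
    · refine ⟨2 * round t - 1, ?_⟩
      push_cast; linarith
  have hslt : |s| < 1 / 2 := lt_of_le_of_ne hsle hshalf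
  have hspos : 0 < |s| := abs_pos.2 hs0
  set c : ℝ := u + |s| / (b0 * sF) with hc
  have hcJ : c ∈ Icc u v := by
    constructor
    · have : 0 ≤ |s| / (b0 * sF) := by positivity
      rw [hc]; linarith
    · have h1 : |s| / (b0 * sF) ≤ v - u := by
        rw [div_le_iff₀ (by positivity)]
        calc |s| ≤ 1 / 2 := hsle
          _ ≤ b0 * (sF * (v - u)) := hbig
          _ = (v - u) * (b0 * sF) := by ring
      rw [hc]; linarith
  have hFc : (b0 : ℝ) * F c = |s| := by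
    rw [hF c hcJ, hc]
    field_simp
    ring
  have hunc : ¬ ∃ e ∈ E, ∃ m : ℤ, lamE n F e - b0 * F c = m := by
    rintro ⟨e, he, m, hm⟩
    rw [hFc] at hm
    rcases le_or_gt 0 s with h | h
    · rw [abs_of_nonneg h] at hm
      exact hcov ⟨e, he, m - round t, by push_cast; linarith⟩
    · rw [abs_of_neg h] at hm
      refine hcov ⟨_, hsym e he, -m - round t, ?_⟩
      rw [lamE_neg]
      push_cast; linarith
  rcases le_or_gt 0 s with h | h
  · refine ⟨((0, b0), c), Or.inr ⟨dvd_zero _, Or.inl rfl, hcJ, ?_, hunc⟩, -round t, ?_⟩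
    · show (b0 : ℝ) * F c ∈ _
      rw [hFc]; exact ⟨hspos, hslt⟩
    · simp only [lamE]
      rw [hFc, abs_of_nonneg h]
      push_cast
      simp
      linarith
  · refine ⟨((0, -b0), c), Or.inr ⟨dvd_zero _, Or.inr rfl, hcJ, ?_, hunc⟩, -round t, ?_⟩
    · show (b0 : ℝ) * F c ∈ _
      rw [hFc]; exact ⟨hspos, hslt⟩
    · simp only [lamE]
      push_cast
      rw [neg_mul, hFc, abs_of_neg h]
      simp
      linarith

theorem fil_measurable (hn : 0 < n) (hsF : 0 < sF) (hF : ∀ c ∈ Icc u v, F c = sF * (c - u))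
    (hJ : ∀ x ∈ E, x.2 ∈ Icc u v) (hb : ∀ x ∈ E, x.1.2 ≠ 0) (hm : MeasurableSet E) :
    MeasurableSet (fil n F u v b0 E) := by
  have hn' : (n : ℝ) ≠ 0 := by positivity
  have heq : fil n F u v b0 E = {x : Md | (n : ℤ) ∣ x.1.1 ∧ (x.1.2 = b0 ∨ x.1.2 = -b0)} ∩
      {x : Md | x.2 ∈ Icc u v} ∩ {x : Md | (b0 : ℝ) * (sF * (x.2 - u)) ∈ Ioo (0 : ℝ) (1 / 2)} ∩
      (⋃ k : (ℤ × ℤ) × ℤ, {x : Md | k.1.2 ≠ 0 ∧
        (k.1, u + (k.2 + b0 * (sF * (x.2 - u)) - (k.1.1 : ℝ) / n) / (k.1.2 * sF)) ∈ E})ᶜ := by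
    ext x
    constructor
    · rintro ⟨h1, h2, h3, h4, h5⟩
      rw [hF _ h3] at h4
      refine ⟨⟨⟨⟨h1, h2⟩, h3⟩, h4⟩, ?_⟩
      intro h6
      rw [Set.mem_iUnion] at h6
      obtain ⟨⟨k, m⟩, hk, hkE⟩ := h6
      apply h5
      refine ⟨_, hkE, m, ?_⟩
      have hk' : (k.2 : ℝ) ≠ 0 := by exact_mod_cast hk
      have := hJ _ hkE
      simp only [lamE]
      rw [hF _ this, hF _ h3]
      field_simp
      ring
    · rintro ⟨⟨⟨⟨h1, h2⟩, h3⟩, h4⟩, h5⟩
      refine ⟨h1, h2, h3, ?_, ?_⟩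
      · rw [hF _ h3]; exact h4
      · rintro ⟨e, he, m, hem⟩
        apply h5
        rw [Set.mem_iUnion]
        refine ⟨(e.1, m), hb e he, ?_⟩
        have hk' : (e.1.2 : ℝ) ≠ 0 := by exact_mod_cast hb e he
        simp only [lamE] at hem
        rw [hF _ (hJ e he), hF _ h3] at hem
        have h6 : u + (m + b0 * (sF * (x.2 - u)) - (e.1.1 : ℝ) / n) / (e.1.2 * sF) = e.2 := by
          have : (m : ℝ) + b0 * (sF * (x.2 - u)) - (e.1.1 : ℝ) / n = e.1.2 * (sF * (e.2 - u)) := by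
            linarith
          rw [this]
          field_simp
          ring
        show (e.1, u + (m + b0 * (sF * (x.2 - u)) - (e.1.1 : ℝ) / n) / (e.1.2 * sF)) ∈ E
        rw [h6]
        exact he
  rw [heq]
  refine ((MeasurableSet.inter ?_ ?_).inter ?_).inter (MeasurableSet.compl (MeasurableSet.iUnion ?_))
  · exact (measurable_fst (MeasurableSet.of_discrete (s := {k : ℤ × ℤ | (n : ℤ) ∣ k.1 ∧ (k.2 = b0 ∨ k.2 = -b0)})))
  · exact measurable_snd measurableSet_Icc
  · exact (by fun_prop : Measurable (fun x : Md => (b0 : ℝ) * (sF * (x.2 - u)))) measurableSet_Ioo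
  · intro k
    by_cases hk : k.1.2 ≠ 0
    · simp only [hk, ne_eq, not_false_eq_true, true_and]
      exact (by fun_prop : Measurable (fun x : Md =>
        ((k.1, u + (k.2 + b0 * (sF * (x.2 - u)) - (k.1.1 : ℝ) / n) / (k.1.2 * sF)) : Md))) hm
    · have : {x : Md | k.1.2 ≠ 0 ∧
        (k.1, u + (k.2 + b0 * (sF * (x.2 - u)) - (k.1.1 : ℝ) / n) / (k.1.2 * sF)) ∈ E} = ∅ := by
        ext x; simp only [hk, false_and]; simp
      rw [this]; exact MeasurableSet.empty

end Fil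

end Crest.Agent.R081.Cv
end

-- ▼ part R081/CvM
section

/-!
Row 81 (S0108), node COVER (helper451): the new mode set, `St.ModesStmt`.
-/

set_option autoImplicit false

open MeasureTheory Set
open Crest.Agent.R081.Ms Crest.Agent.R081.Fm Crest.Agent.R081.Tw

namespace Crest.Agent.R081.Cv

open Crest.Agent.R081.St

section

variable {q : ℕ} {K : Finset (ℤ × ℤ)} {eps : ℝ} (d : Des q K eps)

/-- the lines of the design, `a` an integer -/
def E0 : Set Md := {x | (((x.1.1 : ZMod d.q2), x.1.2), x.2) ∈ d.E}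

lemma E0_per : PerM d.q2 (E0 d) := by
  intro a a' b c hd h
  have : (a : ZMod d.q2) = (a' : ZMod d.q2) := by
    rw [← sub_eq_zero, ← Int.cast_sub]
    exact (ZMod.intCast_zmod_eq_zero_iff_dvd _ _).2 hd
  show (((a' : ZMod d.q2), b), c) ∈ d.E
  rw [← this]; exact h

lemma E0_inj : InjE d.q2 (Fp d.v d.del) (E0 d) := by
  rintro x hx y hy hm
  obtain ⟨h1, h2, h3⟩ := d.E_inj _ _ _ _ _ _ hx hy hm
  refine ⟨?_, h2, h3⟩
  rw [← ZMod.intCast_zmod_eq_zero_iff_dvd, Int.cast_sub, h1, sub_self]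

lemma E0_symm : ∀ x ∈ E0 d, ((-x.1.1, -x.1.2), x.2) ∈ E0 d := by
  intro x hx
  have := d.E_symm _ hx
  show ((((-x.1.1 : ℤ) : ZMod d.q2), -x.1.2), x.2) ∈ d.E
  rw [Int.cast_neg]
  exact this

lemma E0_J : ∀ x ∈ E0 d, x.2 ∈ Icc d.del (1 - d.del) := fun _ hx => d.E_sub _ hx

lemma E0_ne0 : ∀ x ∈ E0 d, x.1.2 ≠ 0 := fun _ hx => d.E_ne0 _ hx

lemma E0_meas : MeasurableSet (E0 d) := by
  have : E0 d = ⋃ k : ℤ × ℤ, ({k} : Set (ℤ × ℤ)) ×ˢ {c : ℝ | (((k.1 : ZMod d.q2), k.2), c) ∈ d.E} := by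
    ext x
    simp only [E0, mem_ofPred_eq, mem_iUnion, mem_prod, mem_singleton_iff]
    constructor
    · intro h
      exact ⟨x.1, rfl, h⟩
    · rintro ⟨k, hk, h⟩
      rw [hk]; exact h
  rw [this]
  exact MeasurableSet.iUnion fun k => (MeasurableSet.of_discrete).prod (d.E_meas _ _)

/-- slope of the filler line -/
noncomputable def b0 : ℤ := ⌈1 / (2 * d.v)⌉

lemma b0_pos : 0 < b0 d := by
  have := d.v_pos
  exact Int.ceil_pos.2 (by positivity)

/-- the design with the gap filler -/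
noncomputable def E1 : Set Md := E0 d ∪ fil d.q2 (Fp d.v d.del) d.del (1 - d.del) (b0 d) (E0 d)

lemma slope_pos : 0 < d.v / (1 - 2 * d.del) := by
  have := d.v_pos
  have := d.del_lt
  exact div_pos d.v_pos (by linarith)

lemma F_eq : ∀ c ∈ Icc d.del (1 - d.del), Fp d.v d.del c = d.v / (1 - 2 * d.del) * (c - d.del) := by
  intro c hc
  rw [Fp_eq d.v d.del_pos hc.1 hc.2]; ring

lemma E1_per : PerM d.q2 (E1 d) := by
  rintro a a' b c hd (h | h)
  · exact Or.inl (E0_per d _ _ _ _ hd h)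
  · exact Or.inr (fil_per _ _ _ _ hd h)

lemma E1_inj : InjE d.q2 (Fp d.v d.del) (E1 d) :=
  fil_injE d.q2_pos (slope_pos d) (b0_pos d) (F_eq d) (E0_symm d) (E0_inj d)

lemma E1_full : FullM (lamE d.q2 (Fp d.v d.del)) (E1 d) := by
  refine fil_fullM d.q2_pos (slope_pos d) (b0_pos d) (F_eq d) ?_ (E0_symm d)
  have h1 : d.v / (1 - 2 * d.del) * (1 - d.del - d.del) = d.v := by
    have := d.del_lt
    have : (1 - 2 * d.del) ≠ 0 := by linarith
    field_simp
    ring
  rw [h1]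
  have h2 : 1 / (2 * d.v) ≤ (b0 d : ℝ) := Int.le_ceil _
  have := d.v_pos
  rw [div_le_iff₀ (by positivity)] at h2
  linarith

lemma E1_symm : ∀ x ∈ E1 d, ((-x.1.1, -x.1.2), x.2) ∈ E1 d := by
  rintro x (h | h)
  · exact Or.inl (E0_symm d _ h)
  · exact Or.inr (fil_symm _ h)

lemma E1_J : ∀ x ∈ E1 d, x.2 ∈ Icc d.del (1 - d.del) := by
  rintro x (h | h)
  · exact E0_J d _ h
  · exact fil_J _ h

lemma E1_ne0 : ∀ x ∈ E1 d, x.1.2 ≠ 0 := by
  rintro x (h | h)
  · exact E0_ne0 d _ h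
  · exact fil_b_ne (b0_pos d) _ h

lemma E1_meas : MeasurableSet (E1 d) :=
  (E0_meas d).union
    (fil_measurable d.q2_pos (slope_pos d) (F_eq d) (E0_J d) (E0_ne0 d) (E0_meas d))

lemma E1_finite : {b | ∃ a c, (((a, b), c) : Md) ∈ E1 d}.Finite := by
  refine (Set.finite_Icc (-(max (d.B : ℤ) (b0 d))) (max (d.B : ℤ) (b0 d))).subset ?_
  rintro b ⟨a, c, h⟩
  have : |b| ≤ max (d.B : ℤ) (b0 d) := by
    rcases h with h | h
    · exact (d.E_B _ h).trans (le_max_left _ _)
    · have h0 := b0_pos d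
      refine le_trans ?_ (le_max_right _ _)
      rcases fil_b _ h with h1 | h1
      · have : b = b0 d := h1
        rw [this, abs_of_pos h0]
      · have : b = -b0 d := h1
        rw [this, abs_neg, abs_of_pos h0]
  exact abs_le.1 this

end

theorem stepS_eq {t : TwD} (M : Modes t) {K : Finset (ℤ × ℤ)} {eps : ℝ} (d : Des t.q K eps)
    (h : ℕ) (P' : ℤ) :
    stepS M d h P' = StepSet t.q d.q2 h P' t.psi (Fp d.v d.del) M.S (E0 d) := rfl

lemma periodic_bdd {f : ℝ → ℝ} (hf : Continuous f) (hp : ∀ c, f (c + 1) = f c) :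
    ∃ B, ∀ c, |f c| ≤ B := by
  obtain ⟨B, hB⟩ := (isCompact_Icc (a := (0 : ℝ)) (b := 1)).exists_bound_of_continuousOn hf.continuousOn
  refine ⟨B, fun c => ?_⟩
  have h1 : f c = f (Int.fract c) := by
    have h2 : ∀ (n : ℤ) (x : ℝ), f (x + n) = f x := fun n x => per_int hp n x
    conv_lhs => rw [← Int.fract_add_floor c]
    exact h2 _ _
  rw [h1]
  exact hB _ ⟨Int.fract_nonneg c, (Int.fract_lt_one c).le⟩

theorem modes_stmt : ModesStmt := by
  intro t M K eps d h hh P' hP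
  have hq := t.q_pos
  have hQ := d.q2_pos
  have hP2 : (t.q : ℤ) * P' = t.P * h * d.q2 + 1 := hP
  have hMi : InjM (nuM ((t.P : ℝ) / t.q) t.psi) M.S := by
    intro x hx y hy hm
    exact M.inj x hx y hy hm
  have hMf : FullM (nuM ((t.P : ℝ) / t.q) t.psi) M.S := M.full
  have hnu : ∀ x : Md, (d.tw h hh P' hP).nu x =
      nuM ((P' : ℝ) / ((h : ℝ) * d.q2)) (fun c => Fp d.v d.del c / h) x := by
    intro x
    simp only [TwD.nu, nuM, Des.tw]
    push_cast
    ring
  obtain ⟨B1, hB1⟩ := periodic_bdd t.smooth.continuous t.per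
  obtain ⟨B2, hB2⟩ := periodic_bdd (Fp_smooth d.v d.del_pos).continuous (Fp_per d.v d.del)
  have hfin := stepSet_finite (h := h) (Pp := P') (psi := t.psi) (F := Fp d.v d.del) (S := M.S)
    (E := E1 d) hq hQ ((M.K.finite_toSet).subset (by rintro k ⟨c, hc⟩; exact M.memK _ hc))
    (E1_finite d) (max B1 B2) (fun x _ => (hB1 _).trans (le_max_left _ _))
    (fun x _ => (hB2 _).trans (le_max_right _ _))
  let M' : Modes (d.tw h hh P' hP) :=
    { S := StepSet t.q d.q2 h P' t.psi (Fp d.v d.del) M.S (E1 d)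
      K := hfin.toFinset
      meas := stepSet_measurable hh t.al t.del t.al_pos.ne' (Icc t.del (1 - t.del)) t.lin M.sub M.ne0
        M.meas (E1_meas d) (Fp_smooth d.v d.del_pos).continuous.measurable
      memK := fun x hx => hfin.mem_toFinset.2 ⟨x.2, hx⟩
      ne0 := fun x hx => E1_ne0 d ((x.1.1 * P', x.1.2), x.2) hx.1
      sub := fun x hx => E1_J d ((x.1.1 * P', x.1.2), x.2) hx.1
      symm := fun x hx => stepSet_symm M.symm (E1_symm d) x hx
      inj := by
        intro x hx y hy ⟨m, hm⟩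
        refine stepSet_inj hq hQ hh hP2 hMi (E1_inj d) x hx y hy ⟨m, ?_⟩
        rw [← hnu, ← hnu]; exact hm
      full := by
        have := stepSet_full hq hQ hh hP2 (E1_per d) hMf (E1_full d)
        filter_upwards [this] with x hx
        obtain ⟨y, hy, m, hm⟩ := hx
        refine ⟨y, hy, m, ?_⟩
        rw [hnu]; exact hm }
  refine ⟨M', ?_, ?_, ?_⟩
  · rw [stepS_eq]
    intro x hx
    exact ⟨Or.inl hx.1, hx.2⟩
  · rintro x ⟨hx, hx2⟩
    exact ⟨hx2, hx.2⟩
  · rw [ae_muX]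
    rintro ⟨j, b⟩
    by_cases hb : b = 0
    · refine Filter.Eventually.of_forall fun c hc => ?_
      exact absurd hb (E0_ne0 d ((j * P', b), c) hc)
    have hF : ∀ c ∈ Icc d.del (1 - d.del), Fp d.v d.del c =
        d.v / (1 - 2 * d.del) * c + (-(d.v / (1 - 2 * d.del) * d.del)) := by
      intro c hc
      rw [F_eq d c hc]; ring
    have := aligned_StepSet (slope_pos d).ne' hF hq hQ hh hP2 (E1_per d) hMi hMf (E1_inj d)
      (E1_full d) j b hb
    filter_upwards [ae_restrict_of_ae this] with c hc hx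
    exact hc (E0_J d ((j * P', b), c) hx) (Or.inl hx)

end Crest.Agent.R081.Cv
end

-- ▼ part R081/Dt1
section

/-! # Row 81, route B, node D2 (helper725), part 1: the zero mode, real-variable part

`Bk q w k y1 = ∫_0^1 ek k (A (y1, θ)) dθ`, `A = Word.act q w`;
`Dbar x = (1/N) ∑_{i<N} Bk ((x+i)/N)`. -/

set_option autoImplicit false

namespace Crest.Agent.R081.Dt

open MeasureTheory Crest.AnalysisR.Torus3 Crest.Agent.R075 Crest.Agent.R081.Fm Crest.Agent.R081.Tw
open scoped Interval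

/-! ### `ek` -/

theorem ek_add_int (k : ℤ × ℤ) (y : ℝ × ℝ) (m n : ℤ) :
    ek k (y + ((m : ℝ), (n : ℝ))) = ek k y := by
  unfold ek
  have : (k.1 : ℝ) * (y + ((m : ℝ), (n : ℝ))).1 + k.2 * (y + ((m : ℝ), (n : ℝ))).2
      = (k.1 * y.1 + k.2 * y.2) + ((k.1 * m + k.2 * n : ℤ) : ℝ) := by
    push_cast
    simp only [Prod.fst_add, Prod.snd_add]
    ring
  rw [this, ee_add_int]

theorem ek_add (k : ℤ × ℤ) (y z : ℝ × ℝ) : ek k (y + z) = ek k y * ek k z := by
  unfold ek
  rw [← ee_add]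
  congr 1
  simp only [Prod.fst_add, Prod.snd_add]
  ring

theorem norm_ek (k : ℤ × ℤ) (y : ℝ × ℝ) : ‖ek k y‖ = 1 := norm_ee _

theorem continuous_ek (k : ℤ × ℤ) : Continuous (ek k) := by
  unfold ek
  exact ee_continuous.comp ((continuous_const.mul continuous_fst).add
    (continuous_const.mul continuous_snd))

/-! ### the fibre average -/

section avg
variable (q : ℕ) (w : Word) (k : ℤ × ℤ)

theorem continuous_act : Continuous (Word.act q w) := (Word.contDiff_act q w).continuous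

/-- the average of `e(k·A)` over the second variable -/
noncomputable def Bk (x : ℝ) : ℂ := ∫ t in (0:ℝ)..1, ek k (Word.act q w (x, t))

theorem per_t (x t : ℝ) : ek k (Word.act q w (x, t + 1)) = ek k (Word.act q w (x, t)) := by
  have h : ((x, t + 1) : ℝ × ℝ) = (x, t) + (((0:ℤ) : ℝ), ((1:ℤ) : ℝ)) := by simp
  rw [h, Word.act_add_int, ek_add_int]

theorem continuous_kA : Continuous fun y : ℝ × ℝ => ek k (Word.act q w y) :=
  (continuous_ek k).comp (continuous_act q w)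

theorem Bk_shift (x s : ℝ) : ∫ t in (0:ℝ)..1, ek k (Word.act q w (x, t - s)) = Bk q w k x := by
  have hper : Function.Periodic (fun t : ℝ => ek k (Word.act q w (x, t))) 1 := fun t => per_t q w k x t
  have h1 : ∫ t in (0:ℝ)..1, ek k (Word.act q w (x, t - s))
      = ∫ t in (0 - s)..(1 - s), ek k (Word.act q w (x, t)) :=
    intervalIntegral.integral_comp_sub_right (fun t => ek k (Word.act q w (x, t))) s
  have h2 := hper.intervalIntegral_add_eq (0 - s) 0
  rw [h1]
  rw [show (1 : ℝ) - s = (0 - s) + 1 by ring, h2]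
  simp [Bk]

theorem Bk_add_one (x : ℝ) : Bk q w k (x + 1) = Bk q w k x := by
  unfold Bk
  congr 1
  funext t
  have h : ((x + 1, t) : ℝ × ℝ) = (x, t) + (((1:ℤ) : ℝ), ((0:ℤ) : ℝ)) := by simp
  rw [h, Word.act_add_int, ek_add_int]

theorem Bk_add_div (hq : q ≠ 0) (x : ℝ) (m : ℤ) :
    Bk q w k (x + (m : ℝ) / q) = ee (k.1 * (m / q)) * Bk q w k x := by
  unfold Bk
  rw [← intervalIntegral.integral_const_mul]
  congr 1
  funext t
  have h : ((x + (m:ℝ) / q, t) : ℝ × ℝ) = (x, t) + ((m:ℝ) / q, 0) := by simp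
  rw [h, Word.act_add_div hq, ek_add, mul_comm]
  congr 1
  unfold ek
  simp

theorem continuous_Bk : Continuous (Bk q w k) := by
  unfold Bk
  exact intervalIntegral.continuous_parametric_intervalIntegral_of_continuous'
    (f := fun x t => ek k (Word.act q w (x, t))) (continuous_kA q w k) 0 1


/-- average over the `N` points `(x+i)/N` -/
noncomputable def Dbar (N : ℕ) (x : ℝ) : ℂ :=
  (1 / (N : ℂ)) * ∑ i ∈ Finset.range N, Bk q w k ((x + i) / N)

theorem continuous_Dbar (N : ℕ) : Continuous (Dbar q w k N) := by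
  unfold Dbar
  refine continuous_const.mul (continuous_finsetSum _ fun i _ => ?_)
  exact (continuous_Bk q w k).comp (by fun_prop)

theorem Dbar_add_one {N : ℕ} (hN : N ≠ 0) (x : ℝ) : Dbar q w k N (x + 1) = Dbar q w k N x := by
  unfold Dbar
  congr 1
  have hN' : (N : ℝ) ≠ 0 := by exact_mod_cast hN
  have h1 : ∀ i : ℕ, Bk q w k ((x + 1 + i) / N) = Bk q w k ((x + ((i + 1 : ℕ) : ℝ)) / N) := by
    intro i; congr 2; push_cast; ring
  simp only [h1]
  have h2 := Finset.sum_range_succ (fun i : ℕ => Bk q w k ((x + (i : ℝ)) / N)) N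
  have h3 := Finset.sum_range_succ' (fun i : ℕ => Bk q w k ((x + (i : ℝ)) / N)) N
  have h4 : Bk q w k ((x + (N : ℝ)) / N) = Bk q w k ((x + ((0:ℕ) : ℝ)) / N) := by
    rw [show (x + (N : ℝ)) / N = (x + ((0:ℕ):ℝ)) / N + 1 by field_simp; push_cast; ring, Bk_add_one]
  rw [h4] at h2
  rw [h2] at h3
  exact (add_right_cancel h3).symm

/-- the zero mode formula -/
theorem zero_formula {N : ℕ} (hN : N ≠ 0) {v : ℝ → ℂ} (hv : Continuous v)
    (hv1 : ∀ c, v (c + 1) = v c) {β : ℝ → ℝ} (hβ : Continuous β) (hβ1 : ∀ c, β (c + 1) = β c)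
    (c' : ℝ) :
    ∫ x in (0:ℝ)..1, v (N * x - c') * Bk q w k (x - β (N * x - c') / N)
      = ∫ c in (0:ℝ)..1, v c * Dbar q w k N (c + c' - β c) := by
  have hN' : (N : ℝ) ≠ 0 := by exact_mod_cast hN
  set G : ℝ → ℂ := fun c => v c * Bk q w k ((c + c' - β c) / N) with hG
  have hGc : Continuous G := hv.mul ((continuous_Bk q w k).comp (by fun_prop))
  have e1 : ∀ x : ℝ, v (N * x - c') * Bk q w k (x - β (N * x - c') / N) = G (N * x - c') := by
    intro x
    simp only [hG]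
    congr 2
    field_simp
    ring
  simp only [e1]
  rw [intervalIntegral.integral_comp_mul_sub G hN' c']
  have hper : Function.Periodic G N := by
    intro c
    simp only [hG]
    have h1 : ∀ n : ℕ, v (c + n) = v c := by
      intro n
      induction n with
      | zero => simp
      | succ n ih => rw [Nat.cast_succ, ← add_assoc, hv1, ih]
    have h2 : ∀ n : ℕ, β (c + n) = β c := by
      intro n
      induction n with
      | zero => simp
      | succ n ih => rw [Nat.cast_succ, ← add_assoc, hβ1, ih]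
    rw [h1, h2, show (c + N + c' - β c) / N = (c + c' - β c) / N + 1 by field_simp; ring, Bk_add_one]
  have h3 := hper.intervalIntegral_add_eq (N * 0 - c') 0
  rw [show (N : ℝ) * 1 - c' = (N * 0 - c') + N by ring, h3, zero_add]
  have h4 : ∫ c in (0:ℝ)..N, G c = ∑ i ∈ Finset.range N, ∫ c in (i:ℝ)..((i + 1 : ℕ) : ℝ), G c := by
    have := intervalIntegral.sum_integral_adjacent_intervals (f := G) (μ := volume)
      (a := fun i : ℕ => (i : ℝ)) (n := N) (fun i _ => hGc.intervalIntegrable _ _)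
    rw [this]; simp
  have h5 : ∀ i : ℕ, ∫ c in (i:ℝ)..((i + 1 : ℕ) : ℝ), G c
      = ∫ c in (0:ℝ)..1, v c * Bk q w k ((c + c' - β c + i) / N) := by
    intro i
    have h1 : ∀ (c : ℝ) (n : ℕ), v (c + n) = v c := by
      intro c n
      induction n with
      | zero => simp
      | succ n ih => rw [Nat.cast_succ, ← add_assoc, hv1, ih]
    have h2 : ∀ (c : ℝ) (n : ℕ), β (c + n) = β c := by
      intro c n
      induction n with
      | zero => simp
      | succ n ih => rw [Nat.cast_succ, ← add_assoc, hβ1, ih]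
    have h6 := intervalIntegral.integral_comp_add_right (a := 0) (b := 1) G (i : ℝ)
    rw [zero_add] at h6
    rw [show (((i + 1 : ℕ) : ℝ)) = 1 + i by push_cast; ring, ← h6]
    congr 1
    funext c
    simp only [hG]
    rw [h1, h2]
    congr 2
    ring
  rw [h4]
  simp only [h5]
  rw [← intervalIntegral.integral_finsetSum]
  · rw [← intervalIntegral.integral_smul]
    congr 1
    funext c
    unfold Dbar
    rw [← Finset.mul_sum, Complex.real_smul]
    push_cast
    ring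
  · intro i _
    exact (hv.mul ((continuous_Bk q w k).comp (by fun_prop))).intervalIntegrable _ _

/-- for `q ∤ k1` the average over `N = q q''` points vanishes -/
theorem Dbar_eq_zero {q'' : ℕ} (hq : q ≠ 0) (hq'' : q'' ≠ 0) (hk : ¬ (q : ℤ) ∣ k.1) (x : ℝ) :
    Dbar q w k (q * q'') x = 0 := by
  have hq' : (q : ℝ) ≠ 0 := by exact_mod_cast hq
  have hq2 : (q'' : ℝ) ≠ 0 := by exact_mod_cast hq''
  -- `Dbar (x) = ee(k1/q) Dbar(x)` by the shift `i ↦ i + q''`
  have hshift : Dbar q w k (q * q'') (x + q'') = ee (k.1 / q) * Dbar q w k (q * q'') x := by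
    have hs : ∑ i ∈ Finset.range (q * q''), Bk q w k ((x + q'' + i) / ((q * q'' : ℕ) : ℝ))
        = ee (k.1 / q) * ∑ i ∈ Finset.range (q * q''), Bk q w k ((x + i) / ((q * q'' : ℕ) : ℝ)) := by
      rw [Finset.mul_sum]
      refine Finset.sum_congr rfl fun i _ => ?_
      have h1 := Bk_add_div q w k hq ((x + i) / ((q * q'' : ℕ) : ℝ)) 1
      have h2 : (x + q'' + i) / ((q * q'' : ℕ) : ℝ) = (x + i) / ((q * q'' : ℕ) : ℝ) + ((1:ℤ):ℝ) / q := by
        push_cast
        field_simp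
        ring
      rw [h2, h1]
      congr 2
      push_cast
      ring
    unfold Dbar
    rw [hs]
    ring
  have hper : ∀ n : ℕ, Dbar q w k (q * q'') (x + n) = Dbar q w k (q * q'') x := by
    intro n
    induction n with
    | zero => simp
    | succ n ih =>
      rw [Nat.cast_succ, ← add_assoc, Dbar_add_one q w k (Nat.mul_ne_zero hq hq''), ih]
  rw [hper] at hshift
  have hne : ee (k.1 / q) ≠ 1 := by
    intro h
    apply hk
    unfold ee at h
    rw [Complex.exp_eq_one_iff] at h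
    obtain ⟨n, hn⟩ := h
    have hpi : (2 * (Real.pi : ℂ) * Complex.I) ≠ 0 := by simp [Real.pi_ne_zero, Complex.I_ne_zero]
    have h3 : (((k.1 : ℝ) / q : ℝ) : ℂ) = n := by
      have : (2 * (Real.pi : ℂ) * Complex.I) * (((k.1 : ℝ) / q : ℝ) : ℂ)
          = (2 * (Real.pi : ℂ) * Complex.I) * n := by rw [hn]; ring
      exact mul_left_cancel₀ hpi this
    have h4 : (k.1 : ℝ) / q = n := by exact_mod_cast h3
    refine ⟨n, ?_⟩
    rw [div_eq_iff hq'] at h4
    have h5 : (k.1 : ℝ) = ((n * q : ℤ) : ℝ) := by push_cast; exact h4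
    have h6 : k.1 = n * q := by exact_mod_cast h5
    rw [h6, mul_comm]
  have : (1 - ee (k.1 / q)) * Dbar q w k (q * q'') x = 0 := by
    rw [sub_mul, one_mul, ← hshift, sub_self]
  rcases mul_eq_zero.1 this with h | h
  · exact absurd (sub_eq_zero.1 h).symm hne
  · exact h

end avg

end Crest.Agent.R081.Dt
end

-- ▼ part R081/Dt2
section

/-! # Row 81, route B, node D2 (helper725), part 2: norm bound of the zero mode -/

set_option autoImplicit false

namespace Crest.Agent.R081.Dt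

open MeasureTheory Crest.AnalysisR.Torus3 Crest.Agent.R075 Crest.Agent.R081.Fm Crest.Agent.R081.Tw
open scoped Interval

/-- Cauchy–Schwarz on `[0,1]` with a unimodular weight -/
theorem sq_norm_integral_le {g : ℝ → ℂ} (hg : Continuous g) :
    ‖∫ c in (0:ℝ)..1, g c‖ ^ 2 ≤ ∫ c in (0:ℝ)..1, ‖g c‖ ^ 2 := by
  have h1 : ‖∫ c in (0:ℝ)..1, g c‖ ≤ ∫ c in (0:ℝ)..1, ‖g c‖ :=
    intervalIntegral.norm_integral_le_integral_norm (by norm_num)
  set m : ℝ := ∫ c in (0:ℝ)..1, ‖g c‖ with hm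
  have hm0 : 0 ≤ m := intervalIntegral.integral_nonneg (by norm_num) fun _ _ => norm_nonneg _
  have hgn : Continuous fun c => ‖g c‖ := hg.norm
  have h2 : 0 ≤ ∫ c in (0:ℝ)..1, (‖g c‖ - m) ^ 2 :=
    intervalIntegral.integral_nonneg (by norm_num) fun _ _ => sq_nonneg _
  have h3 : ∫ c in (0:ℝ)..1, (‖g c‖ - m) ^ 2 = (∫ c in (0:ℝ)..1, ‖g c‖ ^ 2) - m ^ 2 := by
    have e : ∀ c, (‖g c‖ - m) ^ 2 = ‖g c‖ ^ 2 - 2 * m * ‖g c‖ + m ^ 2 := fun c => by ring
    simp only [e]
    rw [intervalIntegral.integral_add, intervalIntegral.integral_sub,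
      intervalIntegral.integral_const_mul, intervalIntegral.integral_const]
    · rw [← hm]; simp; ring
    · exact (hgn.pow 2).intervalIntegrable _ _
    · exact (hgn.const_mul _).intervalIntegrable _ _
    · exact ((hgn.pow 2).sub (hgn.const_mul _)).intervalIntegrable _ _
    · exact continuous_const.intervalIntegrable _ _
  rw [h3] at h2
  calc ‖∫ c in (0:ℝ)..1, g c‖ ^ 2 ≤ m ^ 2 := by gcongr
    _ ≤ _ := by linarith

/-- the `L²` norm of the zero mode -/
theorem zero_norm {D : ℝ → ℂ} (hD : Continuous D) (hD1 : ∀ x, D (x + 1) = D x) {v : ℝ → ℂ}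
    (hv : Continuous v) (hvn : ∀ c, ‖v c‖ ≤ 1) {β : ℝ → ℝ} (hβ : Continuous β) :
    ∫ c' in (0:ℝ)..1, ‖∫ c in (0:ℝ)..1, v c * D (c + c' - β c)‖ ^ 2
      ≤ ∫ x in (0:ℝ)..1, ‖D x‖ ^ 2 := by
  have hcont : Continuous fun p : ℝ × ℝ => v p.2 * D (p.2 + p.1 - β p.2) :=
    (hv.comp continuous_snd).mul (hD.comp (by fun_prop))
  have h1 : ∀ c' : ℝ, ‖∫ c in (0:ℝ)..1, v c * D (c + c' - β c)‖ ^ 2
      ≤ ∫ c in (0:ℝ)..1, ‖D (c + c' - β c)‖ ^ 2 := by
    intro c'
    refine (sq_norm_integral_le (g := fun c => v c * D (c + c' - β c)) ?_).trans ?_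
    · exact hcont.comp (continuous_const.prodMk continuous_id)
    · refine intervalIntegral.integral_mono_on (by norm_num) ?_ ?_ fun c _ => ?_
      · exact ((hcont.comp (continuous_const.prodMk continuous_id)).norm.pow 2).intervalIntegrable _ _
      · exact ((hD.comp (by fun_prop)).norm.pow 2).intervalIntegrable _ _
      · rw [norm_mul]
        have := mul_le_of_le_one_left (norm_nonneg (D (c + c' - β c))) (hvn c)
        gcongr
  have hI : Continuous fun p : ℝ × ℝ => ‖D (p.2 + p.1 - β p.2)‖ ^ 2 :=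
    (hD.comp (by fun_prop)).norm.pow 2
  have h2 : ∫ c' in (0:ℝ)..1, ‖∫ c in (0:ℝ)..1, v c * D (c + c' - β c)‖ ^ 2
      ≤ ∫ c' in (0:ℝ)..1, ∫ c in (0:ℝ)..1, ‖D (c + c' - β c)‖ ^ 2 := by
    refine intervalIntegral.integral_mono_on (by norm_num) ?_ ?_ fun c' _ => h1 c'
    · refine Continuous.intervalIntegrable ?_ _ _
      exact (intervalIntegral.continuous_parametric_intervalIntegral_of_continuous'
        (f := fun c' c => v c * D (c + c' - β c)) hcont 0 1).norm.pow 2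
    · refine Continuous.intervalIntegrable ?_ _ _
      exact intervalIntegral.continuous_parametric_intervalIntegral_of_continuous'
        (f := fun c' c => ‖D (c + c' - β c)‖ ^ 2) hI 0 1
  refine h2.trans (le_of_eq ?_)
  have h3 : ∫ c' in (0:ℝ)..1, ∫ c in (0:ℝ)..1, ‖D (c + c' - β c)‖ ^ 2
      = ∫ c in (0:ℝ)..1, ∫ c' in (0:ℝ)..1, ‖D (c + c' - β c)‖ ^ 2 := by
    simp only [intervalIntegral.integral_of_le (zero_le_one : (0:ℝ) ≤ 1)]
    rw [integral_integral_swap]
    have : IntegrableOn (fun p : ℝ × ℝ => ‖D (p.2 + p.1 - β p.2)‖ ^ 2)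
        (Set.Icc 0 1 ×ˢ Set.Icc 0 1) (volume.prod volume) :=
      hI.continuousOn.integrableOn_compact (isCompact_Icc.prod isCompact_Icc)
    have h4 := this.mono_set (Set.prod_mono Set.Ioc_subset_Icc_self Set.Ioc_subset_Icc_self)
    rw [IntegrableOn, ← Measure.prod_restrict] at h4
    exact h4
  rw [h3]
  have hper : Function.Periodic (fun x : ℝ => ‖D x‖ ^ 2) 1 := fun x => by
    show ‖D (x + 1)‖ ^ 2 = ‖D x‖ ^ 2
    rw [hD1]
  have h5 : ∀ c : ℝ, ∫ c' in (0:ℝ)..1, ‖D (c + c' - β c)‖ ^ 2 = ∫ x in (0:ℝ)..1, ‖D x‖ ^ 2 := by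
    intro c
    have e1 : ∫ c' in (0:ℝ)..1, ‖D (c + c' - β c)‖ ^ 2
        = ∫ x in (0 + (c - β c))..(1 + (c - β c)), ‖D x‖ ^ 2 := by
      rw [← intervalIntegral.integral_comp_add_right (fun x => ‖D x‖ ^ 2) (c - β c)]
      congr 1
      funext c'
      congr 3
      ring
    have e2 := hper.intervalIntegral_add_eq (0 + (c - β c)) 0
    rw [e1, show (1 : ℝ) + (c - β c) = (0 + (c - β c)) + 1 by ring, e2, zero_add]
  simp only [h5]
  simp

end Crest.Agent.R081.Dt
end

-- ▼ part R081/Dt3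
section

/-! # Row 81, route B, node D2 (helper725), part 3: the zero mode of `F ∘ Φ`, `Φ = K ∘ Lin` -/

set_option autoImplicit false

namespace Crest.Agent.R081.Dt

open MeasureTheory Crest.AnalysisR.Torus3 Crest.Agent.R075 Crest.Agent.R081.Fm Crest.Agent.R081.Tw
open scoped Interval ENNReal

/-- the pointwise formula of `Φ = K ∘ Lin` (`c = N θ1 - c'`), for ALL points -/
def PF (q N : ℕ) (w : Word) (χ β F : ℝ → ℝ) (Φ : T3 → T3) : Prop :=
  ∀ c' t1 t2 : ℝ, Φ (P3 (c', (t1, t2))) = P3 (N * t1 - c', (0, χ (N * t1 - c')) +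
    Word.act q w (t1 - β (N * t1 - c') / N, t2 - β (N * t1 - c') * F c'))

theorem integral_I01 (g : ℝ → ℂ) : ∫ x, g x ∂I01 = ∫ x in (0:ℝ)..1, g x := by
  rw [intervalIntegral.integral_of_le zero_le_one, I01]

theorem integral_I01_real (g : ℝ → ℝ) : ∫ x, g x ∂I01 = ∫ x in (0:ℝ)..1, g x := by
  rw [intervalIntegral.integral_of_le zero_le_one, I01]

theorem fc_zero_char {q N : ℕ} (hN : N ≠ 0) {w : Word} {χ β F : ℝ → ℝ} {Φ : T3 → T3}
    (hΦ : PF q N w χ β F Φ) (hχ : Continuous χ) (hχ1 : ∀ c, ∃ d : ℤ, χ (c + 1) = χ c + d)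
    (hβ : Continuous β) (hβ1 : ∀ c, β (c + 1) = β c)
    {f : T3 → ℂ} {l : ℤ} {k : ℤ × ℤ} (hf : ∀ c y, f (P3 (c, y)) = ee (l * c) * ek k y) (c' : ℝ) :
    fc (f ∘ Φ) 0 c' = ∫ c in (0:ℝ)..1,
      (ee (l * c) * ee (k.2 * χ c)) * Dbar q w k N (c + c' - β c) := by
  set v : ℝ → ℂ := fun c => ee (l * c) * ee (k.2 * χ c) with hv
  have hvc : Continuous v := by
    refine (ee_continuous.comp (by fun_prop)).mul (ee_continuous.comp (by fun_prop))
  have hv1 : ∀ c, v (c + 1) = v c := by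
    intro c
    simp only [hv]
    obtain ⟨d, hd⟩ := hχ1 c
    rw [hd]
    have e1 : (l : ℝ) * (c + 1) = l * c + (l : ℤ) := by ring
    have e2 : (k.2 : ℝ) * (χ c + d) = k.2 * χ c + ((k.2 * d : ℤ) : ℝ) := by push_cast; ring
    rw [e1, e2, ee_add_int, ee_add_int]
  have hvn : ∀ c, ‖v c‖ = 1 := by
    intro c
    simp only [hv]
    rw [norm_mul, norm_ee, norm_ee, one_mul]
  set G : ℝ × ℝ → ℂ := fun y => v (N * y.1 - c') *
    ek k (Word.act q w (y.1 - β (N * y.1 - c') / N, y.2 - β (N * y.1 - c') * F c')) with hG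
  have hGc : Continuous G := by
    refine (hvc.comp (by fun_prop)).mul ((continuous_kA q w k).comp ?_)
    have h1 : Continuous fun y : ℝ × ℝ => β (N * y.1 - c') := hβ.comp (by fun_prop)
    exact (continuous_fst.sub (h1.div_const _)).prodMk (continuous_snd.sub (h1.mul_const _))
  have hGn : ∀ y, ‖G y‖ ≤ 1 := by
    intro y
    simp only [hG]
    rw [norm_mul, hvn, one_mul, norm_ek]
  have hGi : Integrable G (I01.prod I01) :=
    Integrable.of_bound hGc.aestronglyMeasurable 1 (Filter.Eventually.of_forall hGn)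
  have e1 : fc (f ∘ Φ) 0 c' = ∫ y, G y ∂(I01.prod I01) := by
    unfold fc
    congr 1
    funext y
    have h0 : ek (-0 : ℤ × ℤ) y = 1 := by
      unfold ek
      simp [ee]
    rw [h0, one_mul, Function.comp_apply]
    have h1 := hΦ c' y.1 y.2
    rw [Prod.mk.eta] at h1
    rw [h1, hf, ek_add, ← mul_assoc]
    simp only [hG, hv]
    congr 2
    unfold ek
    simp
  rw [e1, integral_prod _ hGi]
  rw [integral_I01]
  rw [← zero_formula q w k hN hvc hv1 hβ hβ1 c']
  refine intervalIntegral.integral_congr fun x _ => ?_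
  rw [integral_I01]
  simp only [hG]
  rw [intervalIntegral.integral_const_mul, Bk_shift]

end Crest.Agent.R081.Dt
end

-- ▼ part R081/Dt4
section

/-! # Row 81, route B, node D2 (helper725), part 4: trigonometric approximation -/

set_option autoImplicit false

namespace Crest.Agent.R081.Dt

open MeasureTheory Crest.AnalysisR.Torus3 Crest.Agent.R075 Crest.Agent.R081.Fm Crest.Agent.R081.Tw
open scoped Interval ENNReal

theorem mF_P3 (n : Fin 3 → ℤ) (c : ℝ) (y : ℝ × ℝ) :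
    UnitAddTorus.mFourier n (P3 (c, y)) = ee (n 0 * c) * ek (n 1, n 2) y := by
  have h : ∀ (n : ℤ) (x : ℝ), (fourier n (x : UnitAddCircle) : ℂ) = ee (n * x) := by
    intro n x
    rw [fourier_coe_apply]
    unfold ee
    congr 1
    push_cast
    ring
  have e : UnitAddTorus.mFourier n (P3 (c, y)) =
      fourier (n 0) ((c : ℝ) : UnitAddCircle) * (fourier (n 1) ((y.1 : ℝ) : UnitAddCircle) *
        fourier (n 2) ((y.2 : ℝ) : UnitAddCircle)) := by
    simp [UnitAddTorus.mFourier, P3, proj, Fin.prod_univ_three, mul_assoc]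
  rw [e, h, h, h, ek, ee_add]

theorem vol_T3 : (volume : Measure T3) = Measure.pi (fun _ => AddCircle.haarAddCircle) := by
  change Measure.pi (fun _ => (volume : Measure UnitAddCircle)) = _
  rw [vol_circle]

theorem approx_trig {F : T3 → ℂ} (hF : MemLp F 2 volume) (hF0 : ∫ x, F x = 0) {ε : ℝ}
    (hε : 0 < ε) :
    ∃ (s : Finset (Fin 3 → ℤ)) (a : (Fin 3 → ℤ) → ℂ), (0 : Fin 3 → ℤ) ∉ s ∧
      eLpNorm (fun x => F x - ∑ n ∈ s, a n * UnitAddTorus.mFourier n x) 2 volume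
        ≤ ENNReal.ofReal ε := by
  rw [vol_T3] at hF hF0 ⊢
  set f := hF.toLp F with hf
  have h1 := UnitAddTorus.hasSum_mFourier_series_L2 (d := Fin 3) f
  obtain ⟨s, hs⟩ := (Metric.tendsto_nhds.1 h1 ε hε).exists
  refine ⟨s.erase 0, UnitAddTorus.mFourierCoeff f, by simp, ?_⟩
  have h0 : UnitAddTorus.mFourierCoeff f 0 = 0 := by
    unfold UnitAddTorus.mFourierCoeff
    rw [← hF0]
    refine integral_congr_ae ?_
    filter_upwards [hF.coeFn_toLp] with x hx
    rw [neg_zero, UnitAddTorus.mFourier_zero]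
    simp [hf, hx]
  have h2 : ∑ n ∈ s.erase 0, UnitAddTorus.mFourierCoeff f n • UnitAddTorus.mFourierLp 2 n
      = ∑ n ∈ s, UnitAddTorus.mFourierCoeff f n • UnitAddTorus.mFourierLp (d := Fin 3) 2 n := by
    refine Finset.sum_subset (Finset.erase_subset _ _) fun n hn hn2 => ?_
    have : n = 0 := by
      by_contra h
      exact hn2 (Finset.mem_erase.2 ⟨h, hn⟩)
    rw [this, h0, zero_smul]
  rw [dist_comm, dist_eq_norm] at hs
  have h3 : (⇑(f - ∑ n ∈ s.erase 0, UnitAddTorus.mFourierCoeff f n •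
      UnitAddTorus.mFourierLp (d := Fin 3) 2 n) : T3 → ℂ)
      =ᵐ[Measure.pi (fun _ => AddCircle.haarAddCircle)]
      fun x => F x - ∑ n ∈ s.erase 0, UnitAddTorus.mFourierCoeff f n * UnitAddTorus.mFourier n x := by
    have a1 := Lp.coeFn_sub f (∑ n ∈ s.erase 0, UnitAddTorus.mFourierCoeff f n •
      UnitAddTorus.mFourierLp (d := Fin 3) 2 n)
    have a2 := Lp.coeFn_finsetSum (s.erase 0) (fun n => UnitAddTorus.mFourierCoeff f n •
      UnitAddTorus.mFourierLp (d := Fin 3) 2 n)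
    have a3 : ∀ᵐ x ∂(Measure.pi (fun _ => AddCircle.haarAddCircle)), ∀ n : Fin 3 → ℤ,
        (⇑(UnitAddTorus.mFourierCoeff f n • UnitAddTorus.mFourierLp (d := Fin 3) 2 n) : T3 → ℂ) x
          = UnitAddTorus.mFourierCoeff f n * UnitAddTorus.mFourier n x := by
      rw [ae_all_iff]
      intro n
      filter_upwards [UnitAddTorus.coeFn_mFourierLp 2 n, Lp.coeFn_smul
        (UnitAddTorus.mFourierCoeff f n) (UnitAddTorus.mFourierLp (d := Fin 3) 2 n)] with x hx hx2
      rw [hx2, Pi.smul_apply, hx, smul_eq_mul]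
    filter_upwards [a1, a2, a3, hF.coeFn_toLp] with x b1 b2 b3 b4
    rw [b1, Pi.sub_apply, b2, Finset.sum_apply, b4]
    congr 1
    exact Finset.sum_congr rfl fun n _ => b3 n
  rw [← eLpNorm_congr_ae h3, ← Lp.enorm_def, h2, ← ofReal_norm]
  exact ENNReal.ofReal_le_ofReal hs.le

end Crest.Agent.R081.Dt
end

-- ▼ part R081/Dt5
section

/-! # Row 81, route B, node D2 (helper725), part 5: the zero mode of `F ∘ Φ` is small -/

set_option autoImplicit false

namespace Crest.Agent.R081.Dt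

open MeasureTheory Crest.AnalysisR.Torus3 Crest.Agent.R075 Crest.Agent.R081.Fm Crest.Agent.R081.Tw
open scoped Interval ENNReal

theorem eLpNorm_two_le {α : Type*} [MeasurableSpace α] {μ : Measure α} {g : α → ℂ} {a : ℝ≥0∞}
    (h : ∫⁻ x, ‖g x‖ₑ ^ 2 ∂μ ≤ a ^ 2) : eLpNorm g 2 μ ≤ a := by
  rw [eLpNorm_eq_lintegral_rpow_enorm_toReal (by norm_num) (by norm_num)]
  simp only [ENNReal.toReal_ofNat, ENNReal.rpow_ofNat]
  calc (∫⁻ x, ‖g x‖ₑ ^ 2 ∂μ) ^ (1 / (2:ℝ)) ≤ (a ^ 2) ^ (1 / (2:ℝ)) :=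
        ENNReal.rpow_le_rpow h (by norm_num)
    _ = a := by
        rw [← ENNReal.rpow_natCast, ← ENNReal.rpow_mul]
        norm_num

theorem lintegral_two_eq {α : Type*} [MeasurableSpace α] {μ : Measure α} (g : α → ℂ) :
    ∫⁻ x, ‖g x‖ₑ ^ 2 ∂μ = (eLpNorm g 2 μ) ^ 2 := by
  rw [eLpNorm_eq_lintegral_rpow_enorm_toReal (by norm_num) (by norm_num)]
  simp only [ENNReal.toReal_ofNat, ENNReal.rpow_ofNat]
  rw [← ENNReal.rpow_natCast, ← ENNReal.rpow_mul]
  norm_num

theorem eLpNorm_le_of_integral {g : ℝ → ℂ} (hg : Continuous g) {ε : ℝ} (hε : 0 ≤ ε)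
    (h : ∫ c in (0:ℝ)..1, ‖g c‖ ^ 2 ≤ ε ^ 2) : eLpNorm g 2 I01 ≤ ENNReal.ofReal ε := by
  refine eLpNorm_two_le ?_
  rw [← integral_I01_real] at h
  have hi : Integrable (fun c => ‖g c‖ ^ 2) I01 := by
    have := (hg.norm.pow 2).intervalIntegrable (μ := volume) 0 1
    exact (intervalIntegrable_iff_integrableOn_Ioc_of_le zero_le_one).1 this
  have e2 : ∀ z, ‖g z‖ₑ ^ 2 = ENNReal.ofReal (‖g z‖ ^ 2) := by
    intro z
    rw [ENNReal.ofReal_pow (norm_nonneg _), ofReal_norm]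
  simp only [e2]
  rw [← ofReal_integral_eq_lintegral_ofReal hi (Filter.Eventually.of_forall fun z => by positivity),
    ← ENNReal.ofReal_pow hε]
  exact ENNReal.ofReal_le_ofReal h

/-- norm of the zero mode -/
noncomputable def NZ (f : T3 → ℂ) : ℝ≥0∞ := eLpNorm (fc f 0) 2 I01

theorem NZ_add {f g : T3 → ℂ} (hf : Integrable f volume) (hg : Integrable g volume) :
    NZ (f + g) ≤ NZ f + NZ g := by
  unfold NZ
  have h := ae_muX.1 (fc_add hf hg) 0
  have h' : fc (f + g) 0 =ᵐ[I01] fc f 0 + fc g 0 := by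
    filter_upwards [h] with c hc
    exact hc
  rw [eLpNorm_congr_ae h']
  exact eLpNorm_add_le (aesm_fc hf.aestronglyMeasurable 0) (aesm_fc hg.aestronglyMeasurable 0)
    (by norm_num)

theorem NZ_smul (a : ℂ) (f : T3 → ℂ) : NZ (a • f) = ‖a‖ₑ * NZ f := by
  unfold NZ
  have : fc (a • f) 0 = a • fc f 0 := by
    funext c
    rw [fc_smul]
    rfl
  rw [this, eLpNorm_const_smul]

theorem NZ_sum {ι : Type*} (s : Finset ι) (f : ι → T3 → ℂ) (hf : ∀ i ∈ s, Integrable (f i) volume) :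
    NZ (∑ i ∈ s, f i) ≤ ∑ i ∈ s, NZ (f i) := by
  classical
  induction s using Finset.induction_on with
  | empty =>
    have : fc (0 : T3 → ℂ) 0 = 0 := by
      funext c
      simp [fc]
    simp [NZ, this]
  | insert i s hi ih =>
    rw [Finset.sum_insert hi, Finset.sum_insert hi]
    refine (NZ_add (hf i (Finset.mem_insert_self _ _)) ?_).trans ?_
    · have := integrable_finsetSum s (f := f) (μ := volume)
        fun j hj => hf j (Finset.mem_insert_of_mem hj)
      refine this.congr (Filter.Eventually.of_forall fun x => ?_)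
      simp
    · gcongr
      exact ih fun j hj => hf j (Finset.mem_insert_of_mem hj)

theorem NZ_le {f : T3 → ℂ} (hf : MemLp f 2 volume) : NZ f ≤ eLpNorm f 2 volume := by
  unfold NZ
  refine eLpNorm_two_le ?_
  rw [← lintegral_two_eq, ← lintegral_fcX hf, lintegral_muX]
  exact ENNReal.le_tsum (f := fun k => ∫⁻ c, ‖fcX f (k, c)‖ₑ ^ 2 ∂I01) 0

/-- the zero mode of a character composed with `Φ` -/
theorem NZ_char {q N : ℕ} (hN : N ≠ 0) {w : Word} {χ β F : ℝ → ℝ} {Φ : T3 → T3}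
    (hΦ : PF q N w χ β F Φ) (hχ : Continuous χ) (hχ1 : ∀ c, ∃ d : ℤ, χ (c + 1) = χ c + d)
    (hβ : Continuous β) (hβ1 : ∀ c, β (c + 1) = β c)
    {f : T3 → ℂ} {l : ℤ} {k : ℤ × ℤ} (hf : ∀ c y, f (P3 (c, y)) = ee (l * c) * ek k y)
    {ε : ℝ} (hε : 0 ≤ ε) (hD : ∫ x in (0:ℝ)..1, ‖Dbar q w k N x‖ ^ 2 ≤ ε ^ 2) :
    NZ (f ∘ Φ) ≤ ENNReal.ofReal ε := by
  have e1 : fc (f ∘ Φ) 0 = fun c' => ∫ c in (0:ℝ)..1,
      (ee (l * c) * ee (k.2 * χ c)) * Dbar q w k N (c + c' - β c) := by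
    funext c'
    exact fc_zero_char hN hΦ hχ hχ1 hβ hβ1 hf c'
  have hvc : Continuous fun c : ℝ => ee (l * c) * ee (k.2 * χ c) :=
    (ee_continuous.comp (by fun_prop)).mul (ee_continuous.comp (by fun_prop))
  unfold NZ
  rw [e1]
  refine eLpNorm_le_of_integral ?_ hε ?_
  · have hcont : Continuous fun p : ℝ × ℝ => (ee (l * p.2) * ee (k.2 * χ p.2)) *
        Dbar q w k N (p.2 + p.1 - β p.2) :=
      (hvc.comp continuous_snd).mul ((continuous_Dbar q w k N).comp (by fun_prop))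
    exact intervalIntegral.continuous_parametric_intervalIntegral_of_continuous'
      (f := fun c' c => (ee (l * c) * ee (k.2 * χ c)) * Dbar q w k N (c + c' - β c)) hcont 0 1
  · refine (zero_norm (continuous_Dbar q w k N) (Dbar_add_one q w k hN) hvc ?_ hβ).trans hD
    intro c
    rw [norm_mul, norm_ee, norm_ee, one_mul]

theorem Dbar_zero {q N : ℕ} (hN : N ≠ 0) (w : Word) (x : ℝ) : Dbar q w 0 N x = 1 := by
  have hN' : (N : ℂ) ≠ 0 := by exact_mod_cast hN
  have h1 : ∀ x, Bk q w 0 x = 1 := by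
    intro x
    unfold Bk
    have : ∀ y, ek (0 : ℤ × ℤ) y = 1 := by
      intro y; unfold ek; simp [ee]
    simp [this]
  unfold Dbar
  simp only [h1]
  simp [hN']

theorem integral_ee_zero {l : ℤ} (hl : l ≠ 0) : ∫ c in (0:ℝ)..1, ee (l * c) = 0 := by
  have h : ∀ c : ℝ, ee (l * c) = Complex.exp ((2 * Real.pi * Complex.I * l) * c) := by
    intro c
    unfold ee
    congr 1
    push_cast
    ring
  simp only [h]
  have hne : (2 * Real.pi * Complex.I * l : ℂ) ≠ 0 := by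
    simp [Real.pi_ne_zero, Complex.I_ne_zero, hl]
  rw [integral_exp_mul_complex hne]
  have : Complex.exp (2 * Real.pi * Complex.I * l * ((1:ℝ) : ℂ)) = 1 := by
    rw [Complex.exp_eq_one_iff]
    exact ⟨l, by push_cast; ring⟩
  rw [this]
  simp

/-- the zero mode of `e(l c)`, `l ≠ 0`, composed with `Φ` vanishes -/
theorem NZ_char_zero {q N : ℕ} (hN : N ≠ 0) {w : Word} {χ β F : ℝ → ℝ} {Φ : T3 → T3}
    (hΦ : PF q N w χ β F Φ) (hχ : Continuous χ) (hχ1 : ∀ c, ∃ d : ℤ, χ (c + 1) = χ c + d)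
    (hβ : Continuous β) (hβ1 : ∀ c, β (c + 1) = β c)
    {f : T3 → ℂ} {l : ℤ} (hl : l ≠ 0) (hf : ∀ c y, f (P3 (c, y)) = ee (l * c) * ek 0 y) :
    NZ (f ∘ Φ) = 0 := by
  have e1 : fc (f ∘ Φ) 0 = 0 := by
    funext c'
    rw [fc_zero_char hN hΦ hχ hχ1 hβ hβ1 hf c']
    simp only [Dbar_zero hN, mul_one]
    have : ∀ c, ee (l * c) * ee (((0 : ℤ × ℤ).2 : ℝ) * χ c) = ee (l * c) := by
      intro c
      simp [ee]
    simp only [this]
    rw [integral_ee_zero hl]
    rfl
  unfold NZ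
  rw [e1]
  simp

end Crest.Agent.R081.Dt
end

-- ▼ part R081/Dt6
section

/-! # Row 81, route B, node D2 (helper725), part 6: final statements

* `zero_mode` (D2b): for `F` square integrable of mean zero the zero mode of `F ∘ Φ` is small for
  every `Φ = K ∘ Lin` whose finitely many averaged coefficients `Dbar k` are small in `L²(0,1)`;
* `abs_cont` (D2a): the mass of `F ∘ Φ` on a small set is small uniformly in the measure
  preserving `Φ`. -/

set_option autoImplicit false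

namespace Crest.Agent.R081.Dt

open MeasureTheory Crest.AnalysisR.Torus3 Crest.Agent.R075 Crest.Agent.R081.Fm Crest.Agent.R081.Tw
open scoped Interval ENNReal

theorem memLp_mF (n : Fin 3 → ℤ) :
    MemLp (fun x : T3 => UnitAddTorus.mFourier n x) 2 volume := by
  refine MemLp.of_bound (UnitAddTorus.mFourier n).continuous.aestronglyMeasurable 1
    (Filter.Eventually.of_forall fun x => ?_)
  have := (UnitAddTorus.mFourier n).norm_coe_le_norm x
  rwa [UnitAddTorus.mFourier_norm] at this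

theorem zero_mode {F : T3 → ℂ} (hF : MemLp F 2 volume) (hF0 : ∫ x, F x = 0) {ε : ℝ}
    (hε : 0 < ε) :
    ∃ (K : Finset (ℤ × ℤ)) (ε' : ℝ), (∀ k ∈ K, k ≠ 0) ∧ 0 < ε' ∧
      ∀ (Φ : T3 → T3), MeasurePreserving Φ volume volume →
      ∀ (q q2 : ℕ), q ≠ 0 → q2 ≠ 0 → ∀ (w : Word) (χ β Fc : ℝ → ℝ),
        PF q (q * q2) w χ β Fc Φ → Continuous χ → (∀ c, ∃ d : ℤ, χ (c + 1) = χ c + d) →
        Continuous β → (∀ c, β (c + 1) = β c) →
        (∀ k ∈ K, (q : ℤ) ∣ k.1 → ∫ x in (0:ℝ)..1, ‖Dbar q w k (q * q2) x‖ ^ 2 ≤ ε' ^ 2) →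
        eLpNorm (fc (F ∘ Φ) 0) 2 I01 ≤ ENNReal.ofReal ε := by
  classical
  obtain ⟨s, a, hs0, hs⟩ := approx_trig hF hF0 (half_pos hε)
  set C : ℝ := ∑ n ∈ s, ‖a n‖ with hC
  have hC0 : 0 ≤ C := Finset.sum_nonneg fun _ _ => norm_nonneg _
  set ε' : ℝ := ε / (2 * (C + 1)) with hε'
  have hε'0 : 0 < ε' := by positivity
  refine ⟨(s.image fun n => (n 1, n 2)).erase 0, ε', fun k hk => (Finset.mem_erase.1 hk).1, hε'0, ?_⟩
  intro Φ hmp q q2 hq hq2 w χ β Fc hPF hχ hχ1 hβ hβ1 hD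
  have hN : q * q2 ≠ 0 := Nat.mul_ne_zero hq hq2
  set E : (Fin 3 → ℤ) → T3 → ℂ := fun n => fun x => UnitAddTorus.mFourier n x with hE
  have hEΦ : ∀ n, MemLp (E n ∘ Φ) 2 volume := fun n => (memLp_mF n).comp_measurePreserving hmp
  set R : T3 → ℂ := fun x => F x - ∑ n ∈ s, a n * UnitAddTorus.mFourier n x with hR
  have hRm : MemLp R 2 volume := by
    have h1 : MemLp (fun x : T3 => ∑ n ∈ s, a n * UnitAddTorus.mFourier n x) 2 volume :=
      memLp_finsetSum s fun n _ => (memLp_mF n).const_mul (a n)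
    exact hF.sub h1
  have hRΦ : MemLp (R ∘ Φ) 2 volume := hRm.comp_measurePreserving hmp
  have hsplit : F ∘ Φ = R ∘ Φ + ∑ n ∈ s, a n • (E n ∘ Φ) := by
    funext x
    simp [hR, hE, Finset.sum_apply]
  have hchar : ∀ n ∈ s, NZ (a n • (E n ∘ Φ)) ≤ ‖a n‖ₑ * ENNReal.ofReal ε' := by
    intro n hn
    rw [NZ_smul]
    gcongr
    have hf : ∀ (c : ℝ) (y : ℝ × ℝ), E n (P3 (c, y)) = ee (n 0 * c) * ek (n 1, n 2) y :=
      fun c y => mF_P3 n c y
    by_cases hk : ((n 1, n 2) : ℤ × ℤ) = 0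
    · have hn0 : n 0 ≠ 0 := by
        intro h
        apply hs0
        have h1 : n 1 = 0 := congrArg Prod.fst hk
        have h2 : n 2 = 0 := congrArg Prod.snd hk
        have : n = 0 := by
          funext i
          fin_cases i
          · exact h
          · exact h1
          · exact h2
        rw [← this]
        exact hn
      rw [hk] at hf
      rw [NZ_char_zero hN hPF hχ hχ1 hβ hβ1 hn0 hf]
      exact zero_le
    · refine NZ_char hN hPF hχ hχ1 hβ hβ1 hf hε'0.le ?_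
      by_cases hdvd : (q : ℤ) ∣ ((n 1, n 2) : ℤ × ℤ).1
      · exact hD _ (Finset.mem_erase.2 ⟨hk, Finset.mem_image.2 ⟨n, hn, rfl⟩⟩) hdvd
      · simp only [Dbar_eq_zero q w _ hq hq2 hdvd]
        simp only [norm_zero]
        simp
        positivity
  have h1 : NZ (F ∘ Φ) ≤ NZ (R ∘ Φ) + ∑ n ∈ s, NZ (a n • (E n ∘ Φ)) := by
    rw [hsplit]
    have hint : ∀ n ∈ s, Integrable (a n • (E n ∘ Φ)) volume := fun n _ =>
      ((hEΦ n).const_smul (a n)).integrable (by norm_num)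
    refine (NZ_add (hRΦ.integrable (by norm_num)) ?_).trans ?_
    · have := integrable_finsetSum s (f := fun n => a n • (E n ∘ Φ)) (μ := volume) hint
      refine this.congr (Filter.Eventually.of_forall fun x => ?_)
      simp
    · gcongr
      exact NZ_sum s _ hint
  have h2 : NZ (R ∘ Φ) ≤ ENNReal.ofReal (ε / 2) := by
    refine (NZ_le hRΦ).trans ?_
    rw [eLpNorm_comp_measurePreserving hRm.aestronglyMeasurable hmp]
    exact hs
  have h3 : ∑ n ∈ s, NZ (a n • (E n ∘ Φ)) ≤ ENNReal.ofReal (ε / 2) := by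
    calc ∑ n ∈ s, NZ (a n • (E n ∘ Φ)) ≤ ∑ n ∈ s, ‖a n‖ₑ * ENNReal.ofReal ε' :=
          Finset.sum_le_sum hchar
      _ = ENNReal.ofReal (C * ε') := by
          rw [← Finset.sum_mul, ENNReal.ofReal_mul hC0, hC,
            ENNReal.ofReal_sum_of_nonneg fun _ _ => norm_nonneg _]
          simp only [ofReal_norm]
      _ ≤ ENNReal.ofReal (ε / 2) := by
          refine ENNReal.ofReal_le_ofReal ?_
          rw [hε', mul_div_assoc', div_le_div_iff₀ (by positivity) (by norm_num)]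
          nlinarith
  calc eLpNorm (fc (F ∘ Φ) 0) 2 I01 = NZ (F ∘ Φ) := rfl
    _ ≤ ENNReal.ofReal (ε / 2) + ENNReal.ofReal (ε / 2) := h1.trans (add_le_add h2 h3)
    _ = ENNReal.ofReal ε := by
        rw [← ENNReal.ofReal_add (by positivity) (by positivity), add_halves]

/-- (D2a): absolute continuity, uniformly in the measure preserving map -/
theorem abs_cont {α β : Type*} [MeasurableSpace α] [MeasurableSpace β] {μ : Measure α}
    {ν : Measure β} {F : α → ℂ} (hF : MemLp F 2 μ) {ε : ℝ} (hε : 0 < ε) :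
    ∃ δ : ℝ, 0 < δ ∧ ∀ Φ : β → α, MeasurePreserving Φ ν μ → ∀ B : Set β, MeasurableSet B →
      ν B ≤ ENNReal.ofReal δ → eLpNorm (B.indicator (F ∘ Φ)) 2 ν ≤ ENNReal.ofReal ε := by
  obtain ⟨g, hg, hgm⟩ := hF.exists_simpleFunc_eLpNorm_sub_lt (by norm_num)
    (ε := ENNReal.ofReal (ε / 2)) (by simpa using hε)
  obtain ⟨C, hC⟩ := g.exists_forall_norm_le
  set C' : ℝ := max C 0 + 1 with hC'
  have hC'0 : 0 < C' := by positivity
  have hCC : ∀ x, ‖g x‖ ≤ C' := fun x => (hC x).trans (by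
    have := le_max_left C 0
    linarith)
  refine ⟨(ε / (2 * C')) ^ 2, by positivity, fun Φ hmp B hB hμ => ?_⟩
  have hRm : MemLp (F - ⇑g) 2 μ := hF.sub hgm
  have hsplit : F ∘ Φ = (⇑g ∘ Φ) + ((F - ⇑g) ∘ Φ) := by
    funext x
    simp
  have h1 : eLpNorm (B.indicator (F ∘ Φ)) 2 ν ≤
      eLpNorm (B.indicator (⇑g ∘ Φ)) 2 ν + eLpNorm (B.indicator ((F - ⇑g) ∘ Φ)) 2 ν := by
    rw [hsplit, Set.indicator_add']
    exact eLpNorm_add_le ((hgm.comp_measurePreserving hmp).aestronglyMeasurable.indicator hB)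
      ((hRm.comp_measurePreserving hmp).aestronglyMeasurable.indicator hB) (by norm_num)
  have h2 : eLpNorm (B.indicator ((F - ⇑g) ∘ Φ)) 2 ν ≤ ENNReal.ofReal (ε / 2) := by
    refine (eLpNorm_indicator_le _).trans ?_
    rw [eLpNorm_comp_measurePreserving hRm.aestronglyMeasurable hmp]
    exact hg.le
  have h3 : eLpNorm (B.indicator (⇑g ∘ Φ)) 2 ν ≤ ENNReal.ofReal (ε / 2) := by
    refine eLpNorm_two_le ?_
    calc ∫⁻ x, ‖B.indicator (⇑g ∘ Φ) x‖ₑ ^ 2 ∂ν
        ≤ ∫⁻ x, B.indicator (fun _ => ENNReal.ofReal C' ^ 2) x ∂ν := by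
          refine lintegral_mono fun x => ?_
          by_cases hx : x ∈ B
          · simp only [Set.indicator_of_mem hx, Function.comp_apply]
            gcongr
            rw [← ofReal_norm]
            exact ENNReal.ofReal_le_ofReal (hCC _)
          · simp [Set.indicator_of_notMem hx]
      _ = ENNReal.ofReal C' ^ 2 * ν B := by
          rw [lintegral_indicator hB]
          simp
      _ ≤ ENNReal.ofReal C' ^ 2 * ENNReal.ofReal ((ε / (2 * C')) ^ 2) := by gcongr
      _ = ENNReal.ofReal (ε / 2) ^ 2 := by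
          rw [← ENNReal.ofReal_pow hC'0.le, ← ENNReal.ofReal_mul (by positivity),
            ← ENNReal.ofReal_pow (by positivity)]
          congr 1
          field_simp
  calc eLpNorm (B.indicator (F ∘ Φ)) 2 ν
      ≤ ENNReal.ofReal (ε / 2) + ENNReal.ofReal (ε / 2) := h1.trans (add_le_add h3 h2)
    _ = ENNReal.ofReal ε := by
        rw [← ENNReal.ofReal_add (by positivity) (by positivity), add_halves]

end Crest.Agent.R081.Dt
end

-- ▼ part R081/Dt7
section

/-! # Row 81, route B, node D2 (helper725), part 7: `T3Stmt` and `T2Stmt` -/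

set_option autoImplicit false

namespace Crest.Agent.R081.Dt

open MeasureTheory Crest.AnalysisR.Torus3 Crest.Agent.R075 Crest.Agent.R081.Fm Crest.Agent.R081.Tw
  Crest.Agent.R081.St Crest.Agent.R081.Sm
open scoped Interval ENNReal

theorem ms_le {B : Set X} {u : T3 → ℂ} (hu : MemLp u 2 volume) {e : ℝ} (he : 0 ≤ e)
    (h : ∫⁻ x in B, ‖fcX u x‖ₑ ^ 2 ∂muX ≤ ENNReal.ofReal (e ^ 2)) : ms B u ≤ e := by
  unfold ms
  refine Real.sqrt_le_iff.2 ⟨he, ?_⟩
  have hm : AEStronglyMeasurable (fun x => ‖fcX u x‖ ^ 2) (muX.restrict B) :=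
    ((memLp_fcX hu).aestronglyMeasurable.norm.pow 2).restrict
  rw [integral_eq_lintegral_of_nonneg_ae (Filter.Eventually.of_forall fun _ => by positivity) hm]
  refine ENNReal.toReal_le_of_le_ofReal (by positivity) ?_
  refine le_trans (le_of_eq ?_) h
  congr 1
  funext x
  rw [ENNReal.ofReal_pow (norm_nonneg _), ofReal_norm]

/-- mass over a set of values of `c` -/
theorem lintegral_snd {u : T3 → ℂ} (hu : MemLp u 2 volume) {A : Set ℝ} (hA : MeasurableSet A) :
    ∫⁻ x in {x : X | x.2 ∈ A}, ‖fcX u x‖ₑ ^ 2 ∂muX =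
      ∫⁻ p in {p : ℝ × T2 | p.1 ∈ A}, ‖u (C3 p)‖ₑ ^ 2 ∂(I01.prod volume) := by
  have hA1 : MeasurableSet {x : X | x.2 ∈ A} := measurable_snd hA
  have hA2 : MeasurableSet {p : ℝ × T2 | p.1 ∈ A} := measurable_fst hA
  rw [← lintegral_indicator hA1, ← lintegral_indicator hA2, lintegral_muX, lintegral_prod]
  swap
  · exact ((hu.aestronglyMeasurable.comp_measurePreserving mp_C3).enorm.pow_const 2).indicator hA2
  have e1 : ∀ k : ℤ × ℤ, ∫⁻ c, {x : X | x.2 ∈ A}.indicator (fun x => ‖fcX u x‖ₑ ^ 2) (k, c) ∂I01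
      = ∫⁻ c, A.indicator (fun c => ‖fc u k c‖ₑ ^ 2) c ∂I01 := by
    intro k
    refine lintegral_congr fun c => ?_
    by_cases hc : c ∈ A
    · rw [Set.indicator_of_mem (show ((k, c) : X) ∈ {x : X | x.2 ∈ A} from hc),
        Set.indicator_of_mem hc]
      rfl
    · rw [Set.indicator_of_notMem (show ((k, c) : X) ∉ {x : X | x.2 ∈ A} from hc),
        Set.indicator_of_notMem hc]
  simp only [e1]
  rw [← lintegral_tsum]
  · refine lintegral_congr_ae ?_
    filter_upwards [memLp_slice hu] with c hc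
    by_cases hcA : c ∈ A
    · simp only [Set.indicator_of_mem hcA]
      rw [parseval_fibre_enn hc]
      refine lintegral_congr fun z => ?_
      rw [Set.indicator_of_mem (show ((c, z) : ℝ × T2) ∈ {p : ℝ × T2 | p.1 ∈ A} from hcA)]
    · simp only [Set.indicator_of_notMem hcA]
      have : ∀ z : T2, {p : ℝ × T2 | p.1 ∈ A}.indicator (fun p => ‖u (C3 p)‖ₑ ^ 2) (c, z) = 0 :=
        fun z => Set.indicator_of_notMem (show ((c, z) : ℝ × T2) ∉ {p : ℝ × T2 | p.1 ∈ A} from hcA) _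
      simp only [this]
      simp
  · intro k
    exact ((aesm_fc hu.aestronglyMeasurable k).enorm.pow_const 2).indicator hA

theorem measure_offJ {d : ℝ} (h0 : 0 < d) (h1 : d < 1 / 8) :
    (I01.prod (volume : Measure T2)) {p : ℝ × T2 | p.1 ∈ (Set.Icc d (1 - d))ᶜ}
      = ENNReal.ofReal (2 * d) := by
  have e : {p : ℝ × T2 | p.1 ∈ (Set.Icc d (1 - d))ᶜ} = (Set.Icc d (1 - d))ᶜ ×ˢ Set.univ := by
    ext p; simp
  rw [e, Measure.prod_prod, measure_univ, mul_one]
  rw [prob_compl_eq_one_sub measurableSet_Icc, I01, Measure.restrict_apply measurableSet_Icc]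
  have e2 : Set.Icc d (1 - d) ∩ Set.Ioc 0 1 = Set.Icc d (1 - d) := by
    refine Set.inter_eq_left.2 fun x hx => ⟨lt_of_lt_of_le h0 hx.1, hx.2.trans (by linarith)⟩
  rw [e2, Real.volume_Icc, ← ENNReal.ofReal_one, ← ENNReal.ofReal_sub _ (by linarith)]
  congr 1
  ring

theorem offJ_small {u : T3 → ℂ} (hu : MemLp u 2 volume) {e : ℝ} (he : 0 < e) :
    ∃ δ : ℝ, 0 < δ ∧ ∀ Φ : T3 → T3, MeasurePreserving Φ volume volume → ∀ d : ℝ, 0 < d →
      d < 1 / 8 → d ≤ δ →
      ∫⁻ x in {x : X | x.2 ∉ Set.Icc d (1 - d)}, ‖fcX (u ∘ Φ) x‖ₑ ^ 2 ∂muX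
        ≤ ENNReal.ofReal (e ^ 2) := by
  obtain ⟨δ, hδ, H⟩ := abs_cont (ν := I01.prod (volume : Measure T2)) hu he
  refine ⟨δ / 2, half_pos hδ, fun Φ hΦ d hd0 hd1 hd => ?_⟩
  have hA : MeasurableSet (Set.Icc d (1 - d))ᶜ := measurableSet_Icc.compl
  have h1 := lintegral_snd (hu.comp_measurePreserving hΦ) hA
  have e1 : {x : X | x.2 ∉ Set.Icc d (1 - d)} = {x : X | x.2 ∈ (Set.Icc d (1 - d))ᶜ} := rfl
  rw [e1, h1]
  have hB : MeasurableSet {p : ℝ × T2 | p.1 ∈ (Set.Icc d (1 - d))ᶜ} := measurable_fst hA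
  have h2 := H (Φ ∘ C3) (hΦ.comp mp_C3) _ hB (by
    rw [measure_offJ hd0 hd1]
    exact ENNReal.ofReal_le_ofReal (by linarith))
  rw [← lintegral_indicator hB, ENNReal.ofReal_pow he.le]
  calc ∫⁻ p, {p : ℝ × T2 | p.1 ∈ (Set.Icc d (1 - d))ᶜ}.indicator
          (fun p => ‖(u ∘ Φ) (C3 p)‖ₑ ^ 2) p ∂(I01.prod volume)
      = ∫⁻ p, ‖{p : ℝ × T2 | p.1 ∈ (Set.Icc d (1 - d))ᶜ}.indicator (u ∘ Φ ∘ C3) p‖ₑ ^ 2
          ∂(I01.prod volume) := by
        refine lintegral_congr fun p => ?_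
        by_cases hp : p ∈ {p : ℝ × T2 | p.1 ∈ (Set.Icc d (1 - d))ᶜ}
        · rw [Set.indicator_of_mem hp, Set.indicator_of_mem hp]
          rfl
        · rw [Set.indicator_of_notMem hp, Set.indicator_of_notMem hp]
          simp
    _ = (eLpNorm ({p : ℝ × T2 | p.1 ∈ (Set.Icc d (1 - d))ᶜ}.indicator (u ∘ Φ ∘ C3)) 2
          (I01.prod volume)) ^ 2 := lintegral_two_eq _
    _ ≤ _ := by gcongr

theorem t3Stmt : T3Stmt := by
  intro t u hu e he
  obtain ⟨δ, hδ, H⟩ := offJ_small hu he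
  refine ⟨∅, δ, hδ, fun K eps _ h1 h2 d => ⟨0, fun h _ _ P' _ G hG _ => ?_⟩⟩
  exact ms_le (hu.comp_measurePreserving hG) he.le
    (H G.perm hG d.del d.del_pos d.del_lt (d.del_le.trans h2))

/-! ### the zero mode -/

theorem Dbar_eq_D (q : ℕ) (w : Word) (k : ℤ × ℤ) (m : ℕ) (x : ℝ) :
    Dbar q w k m x = Co.D (Co.wa1 q w) (Co.wa2 q w) m k 0 0 x := by
  unfold Dbar Co.D Bk Co.I Co.wa1 Co.wa2 ek
  congr 1
  refine Finset.sum_congr rfl fun i _ => ?_
  have h0 : ee (-(((0 : ℤ) : ℝ) * i / m)) = 1 := by simp [ee]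
  rw [h0, one_mul]
  congr 1
  funext s
  congr 1
  push_cast
  rw [add_comm x i]
  ring

theorem Dbar_eq_Dd {q q2 : ℕ} (hq : 0 < q) (hq2 : 0 < q2) (w : Word) (k : ℤ × ℤ)
    (hk : (q : ℤ) ∣ k.1) {N : ℤ} (hN : (q2 : ℤ) ∣ N * q - 1) (x : ℝ) :
    Dbar q w k (q * q2) x = Dd q q2 N w k 0 0 x := by
  rw [Dbar_eq_D, Co.D_eq (Co.eqv_word hq w) hq hq2 k 0 0 x (by
    rw [zero_sub]; exact (dvd_neg).2 hk) N 0 hN (by simp)]
  rfl

theorem t2' (t : TwD) (u : T3 → ℂ) (hu : MemLp u 2 volume) (hu0 : ∫ y, u y = 0) (e : ℝ)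
    (he : 0 < e) : Ev t fun _ _ d _ _ G =>
      ms {x | x.1 = 0 ∨ x.2 ∉ Set.Icc d.del (1 - d.del)} (fun y => u (G.perm y)) ≤ e := by
  obtain ⟨δ, hδ, H⟩ := offJ_small hu (half_pos he)
  obtain ⟨K0, e1, hK0, he1, HZ⟩ := zero_mode hu hu0 (half_pos he)
  refine ⟨K0, min δ e1, lt_min hδ he1, fun K eps hK heps h2 d => ⟨0, fun h _ _ P' _ G hG hGF => ?_⟩⟩
  obtain ⟨gf⟩ := hGF
  have hq : 0 < t.q := t.q_pos
  have hq2 : 0 < d.q2 := d.q2_pos
  have huG : MemLp (u ∘ G.perm) 2 volume := hu.comp_measurePreserving hG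
  have hoff := H G.perm hG d.del d.del_pos d.del_lt (d.del_le.trans (h2.trans (min_le_left _ _)))
  -- the zero mode
  have hPF : PF t.q (t.q * d.q2) d.w gf.chi gf.bet (Fp d.v d.del) G.perm := by
    intro c' t1 t2
    rw [gf.form]
    push_cast
    congr 2
    ext
    · simp
    · simp
  have hzero : eLpNorm (fc (u ∘ G.perm) 0) 2 I01 ≤ ENNReal.ofReal (e / 2) := by
    refine HZ G.perm hG t.q d.q2 hq.ne' hq2.ne' d.w gf.chi gf.bet (Fp d.v d.del) hPF gf.chi_cont
      gf.chi_per gf.bet_cont gf.bet_per fun k hk hdvd => ?_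
    have hk0 : k ≠ 0 := hK0 k hk
    have herr := d.err k (hK hk) hk0
    have h1 : ∫⁻ c in Set.Ioc (0 : ℝ) 1, ‖Dd t.q d.q2 d.N d.w k ((0 : ℕ) : ℤ) 0 c
        - d.M k ((0 : ℕ) : ℤ) 0 c‖ₑ ^ 2 ≤ ENNReal.ofReal (eps ^ 2) := by
      refine le_trans ?_ herr
      refine le_trans ?_ (Finset.single_le_sum (f := fun a : ℕ => ∑' b : ℤ,
        ∫⁻ c in Set.Ioc (0 : ℝ) 1, ‖Dd t.q d.q2 d.N d.w k a b c - d.M k a b c‖ₑ ^ 2)
        (fun _ _ => zero_le) (Finset.mem_range.2 hq2))
      exact ENNReal.le_tsum (f := fun b : ℤ => ∫⁻ c in Set.Ioc (0 : ℝ) 1,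
        ‖Dd t.q d.q2 d.N d.w k ((0 : ℕ) : ℤ) b c - d.M k ((0 : ℕ) : ℤ) b c‖ₑ ^ 2) 0
    have hM : ∀ c, d.M k ((0 : ℕ) : ℤ) 0 c = 0 := by
      intro c
      have := d.M_norm k ((0 : ℕ) : ℤ) 0 c
      have h0 : ‖d.M k ((0 : ℕ) : ℤ) 0 c‖ ^ 2 = 0 := by
        rw [this]
        by_cases hc : c ∈ {c : ℝ | ((((((0 : ℕ) : ℤ)) : ZMod d.q2), (0 : ℤ)), c) ∈ d.E}
        · rw [Set.indicator_of_mem hc]; simp
        · rw [Set.indicator_of_notMem hc]
      simpa using h0
    simp only [hM, sub_zero] at h1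
    have hD : ∀ x, Dbar t.q d.w k (t.q * d.q2) x = Dd t.q d.q2 d.N d.w k ((0 : ℕ) : ℤ) 0 x :=
      fun x => Dbar_eq_Dd hq hq2 d.w k hdvd d.hN x
    simp only [← hD] at h1
    have hmm : AEStronglyMeasurable (fun x => ‖Dbar t.q d.w k (t.q * d.q2) x‖ ^ 2) I01 :=
      ((continuous_Dbar t.q d.w k (t.q * d.q2)).norm.pow 2).aestronglyMeasurable
    rw [← integral_I01_real, integral_eq_lintegral_of_nonneg_ae
      (Filter.Eventually.of_forall fun _ => by positivity) hmm]
    refine ENNReal.toReal_le_of_le_ofReal (by positivity) ?_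
    have h3 : ENNReal.ofReal (eps ^ 2) ≤ ENNReal.ofReal (e1 ^ 2) := by
      refine ENNReal.ofReal_le_ofReal ?_
      have : eps ≤ e1 := h2.trans (min_le_right _ _)
      gcongr
    refine le_trans (le_of_eq ?_) (h1.trans h3)
    unfold I01
    congr 1
    funext x
    rw [ENNReal.ofReal_pow (norm_nonneg _), ofReal_norm]
  refine ms_le huG he.le ?_
  have hsplit : ({x | x.1 = 0 ∨ x.2 ∉ Set.Icc d.del (1 - d.del)} : Set X)
      = {x | x.1 = 0} ∪ {x | x.2 ∉ Set.Icc d.del (1 - d.del)} := rfl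
  rw [hsplit]
  refine (lintegral_union_le _ _ _).trans ?_
  have hz : ∫⁻ x in {x : X | x.1 = 0}, ‖fcX (u ∘ G.perm) x‖ₑ ^ 2 ∂muX
      ≤ ENNReal.ofReal ((e / 2) ^ 2) := by
    have hmz : MeasurableSet {x : X | x.1 = 0} := measurable_fst (measurableSet_singleton 0)
    rw [← lintegral_indicator hmz, lintegral_muX]
    have e1 : ∀ k : ℤ × ℤ, k ≠ 0 →
        ∫⁻ c, {x : X | x.1 = 0}.indicator (fun x => ‖fcX (u ∘ G.perm) x‖ₑ ^ 2) (k, c) ∂I01 = 0 := by
      intro k hk
      have : ∀ c : ℝ, {x : X | x.1 = 0}.indicator (fun x => ‖fcX (u ∘ G.perm) x‖ₑ ^ 2) (k, c)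
          = 0 := fun c => Set.indicator_of_notMem (show ((k, c) : X) ∉ {x : X | x.1 = 0} from hk) _
      simp [this]
    rw [tsum_eq_single 0 e1]
    have e2 : ∀ c : ℝ, {x : X | x.1 = 0}.indicator (fun x => ‖fcX (u ∘ G.perm) x‖ₑ ^ 2) (0, c)
        = ‖fc (u ∘ G.perm) 0 c‖ₑ ^ 2 := fun c =>
      Set.indicator_of_mem (show ((0, c) : X) ∈ {x : X | x.1 = 0} from rfl) _
    simp only [e2]
    rw [lintegral_two_eq, ENNReal.ofReal_pow (by positivity)]
    gcongr
  calc _ ≤ ENNReal.ofReal ((e / 2) ^ 2) + ENNReal.ofReal ((e / 2) ^ 2) := add_le_add hz hoff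
    _ ≤ ENNReal.ofReal (e ^ 2) := by
        rw [← ENNReal.ofReal_add (by positivity) (by positivity)]
        refine ENNReal.ofReal_le_ofReal ?_
        nlinarith [sq_nonneg e]

theorem t2Stmt : T2Stmt := by
  intro t u hu hu0 e he
  refine (t2' t u hu hu0 e he).mono fun K eps d h P' G hh => hh.trans ?_
  have : 0 ≤ ms (offJ t) u := Real.sqrt_nonneg _
  linarith

end Crest.Agent.R081.Dt
end

-- ▼ part R081/BaseSt

/-! # Row 81, route B: the base stage (helper850)

`q = 1`, `P = 0`, `δ = 1/10`, `α = 5/8`, modes `(0, ±1)` over the open interval `(1/10, 9/10)`. -/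

set_option autoImplicit false

namespace Crest.Agent.R081.BaseSt

open MeasureTheory Crest.AnalysisR.Torus3 Crest.Agent.R075 Crest.Agent.R081.Fm
  Crest.Agent.R081.Sm Crest.Agent.R081.Tw Crest.Agent.R081.St
open scoped ContDiff ENNReal

/-- the twist data of the base stage -/
noncomputable def t0 : TwD where
  q := 1
  P := 0
  del := 1 / 10
  al := 5 / 8
  psi := Fp (1 / 2) (1 / 10)
  q_pos := one_pos
  cop := ⟨1, 0, by norm_num⟩
  del_pos := by norm_num
  del_lt := by norm_num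
  al_pos := by norm_num
  smooth := Fp_smooth _ (by norm_num)
  per := fun c => Fp_per _ _ c
  zero := fun c hc => Fp_zero _ (by norm_num) (by norm_num) hc
  lin := fun c hc => by
    rw [Fp_eq _ (by norm_num) hc.1 hc.2]; norm_num; ring

theorem nu_t0 (k : ℤ × ℤ) {c : ℝ} (hc : c ∈ Set.Ioo (1 / 10 : ℝ) (9 / 10)) :
    t0.nu (k, c) = k.2 * (5 / 8 * (c - 1 / 10)) := by
  have h : t0.psi c = 5 / 8 * (c - 1 / 10) := t0.lin c ⟨hc.1.le, by
    show c ≤ 1 - 1 / 10
    linarith [hc.2]⟩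
  show (k.1 : ℝ) * (((0 : ℤ) : ℝ) / ((1 : ℕ) : ℝ)) + k.2 * t0.psi c = _
  rw [h]
  simp

/-- the modes of the base stage -/
def S0 : Set X := {x | (x.1 = (0, 1) ∨ x.1 = (0, -1)) ∧ x.2 ∈ Set.Ioo (1 / 10 : ℝ) (9 / 10)}

theorem meas_S0 : MeasurableSet S0 := by
  have h : S0 = (Prod.fst ⁻¹' {((0, 1) : ℤ × ℤ), (0, -1)}) ∩ (Prod.snd ⁻¹' Set.Ioo (1 / 10 : ℝ) (9 / 10)) := by
    ext x
    simp [S0]
  rw [h]
  exact (measurable_fst (Set.toFinite _).measurableSet).inter (measurable_snd measurableSet_Ioo)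

theorem full_S0 : ∀ᵐ x : ℝ, ∃ y ∈ S0, ∃ n : ℤ, t0.nu y - x = n := by
  have hc : (Set.range (fun n : ℤ => (n : ℝ) / 2)).Countable := Set.countable_range _
  have h1 : ∀ᵐ x : ℝ, x ∉ Set.range (fun n : ℤ => (n : ℝ) / 2) :=
    (measure_eq_zero_iff_ae_notMem).1 (hc.measure_zero volume)
  filter_upwards [h1] with x hx
  have h2 : Int.fract x ≠ 0 := by
    intro h
    apply hx
    refine ⟨2 * ⌊x⌋, ?_⟩
    have := Int.floor_add_fract x
    push_cast
    linarith
  have h3 : Int.fract x ≠ 1 / 2 := by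
    intro h
    apply hx
    refine ⟨2 * ⌊x⌋ + 1, ?_⟩
    have := Int.floor_add_fract x
    push_cast
    linarith
  have h4 := Int.fract_nonneg x
  have h5 := Int.fract_lt_one x
  have h6 := Int.floor_add_fract x
  have h7 : 0 < Int.fract x := lt_of_le_of_ne h4 (Ne.symm h2)
  rcases lt_or_gt_of_ne h3 with h | h
  · have hm : 1 / 10 + 8 / 5 * Int.fract x ∈ Set.Ioo (1 / 10 : ℝ) (9 / 10) :=
      ⟨by linarith, by linarith⟩
    refine ⟨((0, 1), 1 / 10 + 8 / 5 * Int.fract x), ⟨Or.inl rfl, hm⟩, -⌊x⌋, ?_⟩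
    rw [nu_t0 _ hm]
    push_cast
    linarith
  · have hm : 1 / 10 + 8 / 5 * (1 - Int.fract x) ∈ Set.Ioo (1 / 10 : ℝ) (9 / 10) :=
      ⟨by linarith, by linarith⟩
    refine ⟨((0, -1), 1 / 10 + 8 / 5 * (1 - Int.fract x)), ⟨Or.inr rfl, hm⟩, -⌊x⌋ - 1, ?_⟩
    rw [nu_t0 _ hm]
    push_cast
    linarith

theorem inj_S0 : ∀ x ∈ S0, ∀ y ∈ S0, (∃ n : ℤ, t0.nu x - t0.nu y = n) → x = y := by
  rintro ⟨k, c⟩ ⟨hk, hc⟩ ⟨k', c'⟩ ⟨hk', hc'⟩ ⟨n, hn⟩
  simp only at hk hk' hc hc'
  rw [nu_t0 k hc, nu_t0 k' hc'] at hn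
  obtain ⟨a1, a2⟩ := hc
  obtain ⟨b1, b2⟩ := hc'
  rcases hk with rfl | rfl <;> rcases hk' with rfl | rfl
  · have h1 : (-1 : ℝ) < n := by rw [← hn]; push_cast; linarith
    have h2 : (n : ℝ) < 1 := by rw [← hn]; push_cast; linarith
    have h3 : n = 0 := by
      have h1' : (-1 : ℤ) < n := by exact_mod_cast h1
      have h2' : n < (1 : ℤ) := by exact_mod_cast h2
      omega
    rw [h3] at hn
    push_cast at hn
    have : c = c' := by linarith
    rw [this]
  · exfalso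
    have h1 : (0 : ℝ) < n := by rw [← hn]; push_cast; linarith
    have h2 : (n : ℝ) < 1 := by rw [← hn]; push_cast; linarith
    have h1' : (0 : ℤ) < n := by exact_mod_cast h1
    have h2' : n < (1 : ℤ) := by exact_mod_cast h2
    omega
  · exfalso
    have h1 : (-1 : ℝ) < n := by rw [← hn]; push_cast; linarith
    have h2 : (n : ℝ) < 0 := by rw [← hn]; push_cast; linarith
    have h1' : (-1 : ℤ) < n := by exact_mod_cast h1
    have h2' : n < (0 : ℤ) := by exact_mod_cast h2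
    omega
  · have h1 : (-1 : ℝ) < n := by rw [← hn]; push_cast; linarith
    have h2 : (n : ℝ) < 1 := by rw [← hn]; push_cast; linarith
    have h3 : n = 0 := by
      have h1' : (-1 : ℤ) < n := by exact_mod_cast h1
      have h2' : n < (1 : ℤ) := by exact_mod_cast h2
      omega
    rw [h3] at hn
    push_cast at hn
    have : c = c' := by linarith
    rw [this]

/-- the mode set of the base stage -/
noncomputable def M0 : Modes t0 where
  S := S0
  K := {(0, 1), (0, -1)}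
  meas := meas_S0
  memK := fun x hx => by
    rcases hx.1 with h | h <;> simp [h]
  ne0 := fun x hx => by
    rcases hx.1 with h | h <;> simp [h]
  sub := fun x hx => ⟨hx.2.1.le, by
    have := hx.2.2
    show x.2 ≤ 1 - 1 / 10
    linarith⟩
  symm := fun x hx => by
    refine ⟨?_, hx.2⟩
    rcases hx.1 with h | h
    · right; simp [h]
    · left; simp [h]
  inj := inj_S0
  full := full_S0

/-- the coefficients of the function of the base stage -/
noncomputable def a0 : X → ℂ := S0.indicator fun _ => ((Real.sqrt (5 / 8) : ℝ) : ℂ)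

theorem muX_S0 : muX S0 ≠ ⊤ := by
  have h : muX S0 = ∑' k : ℤ × ℤ, I01 {c | (k, c) ∈ S0} := by
    rw [← lintegral_indicator_one meas_S0, lintegral_muX]
    refine tsum_congr fun k => ?_
    have hm : MeasurableSet {c : ℝ | (k, c) ∈ S0} := measurable_prodMk_left meas_S0
    rw [← lintegral_indicator_one hm]
    rfl
  rw [h, tsum_eq_sum (s := {((0, 1) : ℤ × ℤ), (0, -1)})]
  · exact ENNReal.sum_ne_top.2 fun k _ => measure_ne_top _ _
  · intro k hk
    have : {c : ℝ | (k, c) ∈ S0} = ∅ := by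
      refine Set.eq_empty_iff_forall_notMem.2 fun c hc => hk ?_
      have h1 : k = (0, 1) ∨ k = (0, -1) := hc.1
      simpa using h1
    rw [this, measure_empty]

theorem memLp_a0 : MemLp a0 2 muX :=
  memLp_indicator_const 2 meas_S0 _ (Or.inr muX_S0)

theorem symm_a0 (x : X) : a0 (-x.1, x.2) = (starRingEnd ℂ) (a0 x) := by
  unfold a0
  by_cases h : x ∈ S0
  · have h' : ((-x.1, x.2) : X) ∈ S0 := M0.symm x h
    rw [Set.indicator_of_mem h, Set.indicator_of_mem h', Complex.conj_ofReal]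
  · have h' : ((-x.1, x.2) : X) ∉ S0 := by
      intro h2
      apply h
      have h3 := M0.symm _ h2
      have h4 : ((-(-x.1, x.2).1, (-x.1, x.2).2) : X) = x := by simp
      rw [h4] at h3
      exact h3
    rw [Set.indicator_of_notMem h, Set.indicator_of_notMem h', map_zero]

/-- **the base stage** -/
theorem nonempty_stage : Nonempty Stage := by
  obtain ⟨g, hg, hga⟩ := exists_real_of_coeff memLp_a0 (Filter.Eventually.of_forall symm_a0)
  refine ⟨{ t := t0, H := LD.one, mpH := mp_one, T := TT t0 LD.one, hT := rfl, M := M0, g := g, g_lp := hg, flat := ?_ }⟩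
  filter_upwards [hga] with x hx
  rw [hx]
  show ‖a0 x‖ ^ 2 = S0.indicator (fun x : X => |(x.1.2 : ℝ)| * (5 / 8)) x
  unfold a0
  by_cases h : x ∈ S0
  · rw [Set.indicator_of_mem h, Set.indicator_of_mem h, Complex.norm_real, Real.norm_eq_abs,
      sq_abs, Real.sq_sqrt (by norm_num)]
    rcases h.1 with h1 | h1 <;> simp [h1]
  · rw [Set.indicator_of_notMem h, Set.indicator_of_notMem h]
    simp

end Crest.Agent.R081.BaseSt
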