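import Crest.Agent.R081.FmTwist

/-! # Row 81, route B: the FOURIER LAYER (helper325), part 4: sums over the orbit, means, tails -/

set_option autoImplicit false

namespace Crest.Agent.R081.Fm

open MeasureTheory Crest.AnalysisR.Torus3 Crest.Agent.R075
open scoped ENNReal ComplexConjugate InnerProductSpace

theorem fcX_neg (f : T3 → ℂ) : fcX (fun x => -f x) = fun x => -fcX f x := by
  funext x
  have := fc_smul (-1) f x.1 x.2
  simp only [fcX]
  have e : (fun x => -f x) = (-1 : ℂ) • f := by funext x; simp
  rw [e, this]; ring

theorem fcX_sub {f g : T3 → ℂ} (hf : Integrable f volume) (hg : Integrable g volume) :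
    fcX (fun x => f x - g x) =ᵐ[muX] fun x => fcX f x - fcX g x := by
  have h := fc_add hf (g := fun x => -g x) hg.neg
  have e : (f + fun x => -g x) = fun x => f x - g x := by funext x; simp [sub_eq_add_neg]
  rw [e, fcX_neg] at h
  filter_upwards [h] with x hx
  rw [hx]
  simp [sub_eq_add_neg]

theorem fcX_zero : fcX (fun _ => 0) = fun _ => 0 := by
  funext x
  simp [fcX, fc]


theorem fcX_sum {ι : Type*} (s : Finset ι) (F : ι → T3 → ℂ) (hF : ∀ i ∈ s, Integrable (F i) volume) :
    fcX (fun x => ∑ i ∈ s, F i x) =ᵐ[muX] fun x => ∑ i ∈ s, fcX (F i) x := by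
  classical
  induction s using Finset.induction_on with
  | empty => simp only [Finset.sum_empty]; rw [fcX_zero]
  | insert a s ha ih =>
    have h1 := ih (fun i hi => hF i (Finset.mem_insert_of_mem hi))
    have h2 : Integrable (fun x => ∑ i ∈ s, F i x) volume :=
      integrable_finsetSum s fun i hi => hF i (Finset.mem_insert_of_mem hi)
    have h3 := fc_add (hF a (Finset.mem_insert_self a s)) h2
    have e : (F a + fun x => ∑ i ∈ s, F i x) = fun x => ∑ i ∈ insert a s, F i x := by
      funext x; simp [Finset.sum_insert ha]
    rw [e] at h3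
    filter_upwards [h1, h3] with x e1 e2
    rw [e2, Finset.sum_insert ha, Pi.add_apply, e1]








end Crest.Agent.R081.Fm
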