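import Mathlib
import Crest.Agent.R075.Basic

/-!
# Row 81 (helper195): Parseval in unit shifts / Plancherel on `(0,1]`
-/

set_option autoImplicit false

open MeasureTheory Set Filter Topology

namespace Crest.Agent.R081.FrPars

open Crest.Agent.R075

/-- `u ∈ L²(0,1]` -/
abbrev L2 (u : ℝ → ℂ) : Prop := MemLp u 2 (volume.restrict (Ioc (0:ℝ) 1))

/-- Fourier transform of a function on `(0,1]` -/
noncomputable def Ft (w : ℝ → ℂ) (τ : ℝ) : ℂ := ∫ c in (0:ℝ)..1, w c * ee (-(τ * c))

lemma L2.mul_ee {u : ℝ → ℂ} (hu : L2 u) {g : ℝ → ℝ} (hg : Continuous g) :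
    L2 (fun c => u c * ee (g c)) := by
  have h1 : AEStronglyMeasurable (fun c => ee (g c)) (volume.restrict (Ioc (0:ℝ) 1)) :=
    (ee_continuous.comp hg).aestronglyMeasurable
  refine hu.of_le (hu.1.mul h1) (Filter.Eventually.of_forall fun c => ?_)
  simp

lemma L2.intervalIntegrable {u : ℝ → ℂ} (hu : L2 u) : IntervalIntegrable u volume 0 1 := by
  rw [intervalIntegrable_iff_integrableOn_Ioc_of_le zero_le_one]
  exact hu.integrable one_le_two

lemma fourier_ee (n : ℤ) (x : ℝ) : (fourier (-n) (x : AddCircle ((1:ℝ) - 0)) : ℂ) = ee (-(n * x)) := by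
  rw [fourier_coe_apply]
  unfold ee
  congr 1
  push_cast
  simp
  ring

lemma hasSum_Ft {w : ℝ → ℂ} (hw : L2 w) (τ0 : ℝ) :
    HasSum (fun j : ℤ => ‖Ft w (τ0 + j)‖ ^ 2) (∫ c in (0:ℝ)..1, ‖w c‖ ^ 2) := by
  have h1 : L2 (fun c => w c * ee (-(τ0 * c))) := hw.mul_ee (by fun_prop)
  have h := hasSum_sq_fourierCoeffOn (a := 0) (b := 1) (f := fun c => w c * ee (-(τ0 * c)))
    zero_lt_one h1
  have e1 : ∀ j : ℤ, fourierCoeffOn (zero_lt_one' ℝ) (fun c => w c * ee (-(τ0 * c))) j
      = Ft w (τ0 + j) := by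
    intro j
    rw [fourierCoeffOn_eq_integral]
    unfold Ft
    simp only [sub_zero, div_one, one_smul]
    apply intervalIntegral.integral_congr
    intro c _
    have := fourier_ee j c
    simp only [smul_eq_mul]
    rw [this]
    have : ee (-((τ0 + j) * c)) = ee (-(j * c)) * ee (-(τ0 * c)) := by
      rw [← ee_add]; congr 1; ring
    rw [this]; ring
  have e2 : (∫ c in (0:ℝ)..1, ‖w c * ee (-(τ0 * c))‖ ^ 2) = ∫ c in (0:ℝ)..1, ‖w c‖ ^ 2 := by
    apply intervalIntegral.integral_congr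
    intro c _
    simp
  simp only [sub_zero, inv_one, one_smul, e2] at h
  have h' : (fun j : ℤ => ‖Ft w (τ0 + j)‖ ^ 2) = fun j : ℤ =>
      ‖fourierCoeffOn (zero_lt_one' ℝ) (fun c => w c * ee (-(τ0 * c))) j‖ ^ 2 := by
    funext j
    rw [e1 j]
  rw [h']
  exact h


lemma cont_Ft {w : ℝ → ℂ} (hw : L2 w) : Continuous (Ft w) := by
  unfold Ft
  apply intervalIntegral.continuous_of_dominated_interval (bound := fun c => ‖w c‖)
  · intro τ
    have : L2 (fun c => w c * ee (-(τ * c))) := hw.mul_ee (by fun_prop)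
    rw [uIoc_of_le zero_le_one]
    exact this.1
  · intro τ
    exact Filter.Eventually.of_forall fun c _ => by simp
  · exact hw.intervalIntegrable.norm
  · exact Filter.Eventually.of_forall fun c _ => by
      exact continuous_const.mul (ee_continuous.comp (by fun_prop))



lemma lintegral_sq_eq {w : ℝ → ℂ} (hw : L2 w) :
    ENNReal.ofReal (∫ c in (0:ℝ)..1, ‖w c‖ ^ 2) = ∫⁻ c in Ioc (0:ℝ) 1, ‖w c‖ₑ ^ 2 := by
  rw [intervalIntegral.integral_of_le zero_le_one,
    ofReal_integral_eq_lintegral_ofReal ((memLp_two_iff_integrable_sq_norm hw.1).mp hw)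
      (Filter.Eventually.of_forall fun c => by positivity)]
  congr 1
  funext c
  rw [ENNReal.ofReal_pow (norm_nonneg _), ofReal_norm]












end Crest.Agent.R081.FrPars
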