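import Mathlib

-- ▼ part R081/Tp1
section

/-!
# Row 81 (twists), node TRANSPORT, part 1 (helper230)

Array statements on `(j, b, c') ∈ ℤ × ℤ × ℝ`, everything in `ℝ≥0∞`:
* `tsum_class`: the sum over `j ≡ k1 mod q` is the sum over residues `r mod q2` and shifts by `q*q2`;
* `mass_le`, `mass_eq` (TP1): `∑_{j ≡ k1 (q)} P (j/(q q2) + x) W (j N) = A ∑_{a mod q2} W a`
  whenever `∑_m P (τ + m) = A` for all `τ`;
* `transport` (TP2 + TP3): `|P W - m e|` has mass `≤ A * ε1 + ε2`.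
-/

set_option autoImplicit false

namespace Crest.Agent.R081.Tp

open MeasureTheory
open scoped ENNReal

theorem tsum_mod_eq (q : ℕ) (hq : 0 < q) (k : ℤ) (G : ℤ → ℝ≥0∞) :
    ∑' j : ℤ, (if (q : ℤ) ∣ j - k then G j else 0) = ∑' i : ℤ, G (k + q * i) := by
  have hq' : (q : ℤ) ≠ 0 := by exact_mod_cast hq.ne'
  have hinj : Function.Injective (fun i : ℤ => k + (q : ℤ) * i) := by
    intro a b h
    have h' : (q : ℤ) * a = q * b := by simpa using h
    exact mul_left_cancel₀ hq' h'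
  have hsupp : Function.support (fun j : ℤ => if (q : ℤ) ∣ j - k then G j else 0) ⊆
      Set.range (fun i : ℤ => k + (q : ℤ) * i) := by
    intro j hj
    simp only [Function.mem_support, ne_eq, ite_eq_right_iff, Classical.not_imp] at hj
    obtain ⟨i, hi⟩ := hj.1
    exact ⟨i, by simp only; omega⟩
  rw [← hinj.tsum_eq hsupp]
  refine tsum_congr fun i => ?_
  have : (q : ℤ) ∣ (k + (q : ℤ) * i) - k := ⟨i, by ring⟩
  rw [if_pos this]

theorem tsum_int_split (n : ℕ) (hn : 0 < n) (G : ℤ → ℝ≥0∞) :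
    ∑' i : ℤ, G i = ∑ r ∈ Finset.range n, ∑' m : ℤ, G (r + n * m) := by
  have : NeZero n := ⟨hn.ne'⟩
  rw [← (Int.divModEquiv n).symm.tsum_eq G,
    ENNReal.tsum_prod (f := fun a b => G ((Int.divModEquiv n).symm (a, b))),
    ENNReal.tsum_comm, tsum_fintype, Finset.sum_range]
  refine Finset.sum_congr rfl fun r _ => tsum_congr fun m => ?_
  congr 1
  simp [Int.divModEquiv]
  ring

/-- the sum over `j ≡ k1 mod q` -/
theorem tsum_class (q q2 : ℕ) (hq : 0 < q) (hq2 : 0 < q2) (k1 : ℤ) (G : ℤ → ℝ≥0∞) :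
    ∑' j : ℤ, (if (q : ℤ) ∣ j - k1 then G j else 0) =
      ∑ r ∈ Finset.range q2, ∑' m : ℤ, G (k1 + q * r + (q * q2) * m) := by
  rw [tsum_mod_eq q hq, tsum_int_split q2 hq2]
  refine Finset.sum_congr rfl fun r _ => tsum_congr fun m => ?_
  congr 1
  ring

theorem per_mul {W : ℤ → ℝ≥0∞} {n : ℕ} (hW : ∀ a, W (a + n) = W a) (a m : ℤ) :
    W (a + n * m) = W a := by
  induction m using Int.induction_on with
  | zero => simp
  | succ i ih => rw [← ih, ← hW (a + n * i)]; congr 1; ring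
  | pred i ih => rw [← ih, ← hW (a + n * (-(i : ℤ) - 1))]; congr 1; ring

theorem per_eq {W : ℤ → ℝ≥0∞} {n : ℕ} (hW : ∀ a, W (a + n) = W a) {a b : ℤ}
    (h : (n : ℤ) ∣ a - b) : W a = W b := by
  obtain ⟨m, hm⟩ := h
  have : a = b + n * m := by omega
  rw [this, per_mul hW]

/-- shifting a periodic sum -/
theorem sum_range_shift {n : ℕ} (hn : 0 < n) {W : ℤ → ℝ≥0∞} (hW : ∀ a, W (a + n) = W a) (k : ℤ) :
    ∑ r ∈ Finset.range n, W (k + r) = ∑ r ∈ Finset.range n, W r := by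
  have hn' : (n : ℤ) ≠ 0 := by exact_mod_cast hn.ne'
  have hn0 : (0 : ℤ) < n := by exact_mod_cast hn
  refine Finset.sum_bij (fun r _ => ((k + (r : ℤ)) % n).toNat) ?_ ?_ ?_ ?_
  · intro r _
    rw [Finset.mem_range]
    have h1 := Int.emod_nonneg (k + r) hn'
    have h2 := Int.emod_lt_of_pos (k + r) hn0
    omega
  · intro r hr s hs h
    rw [Finset.mem_range] at hr hs
    have h1 := Int.emod_nonneg (k + r) hn'
    have h3 := Int.emod_nonneg (k + s) hn'
    have h5 : (k + (r : ℤ)) % n = (k + (s : ℤ)) % n := by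
      have : (((k + (r : ℤ)) % n).toNat : ℤ) = (((k + (s : ℤ)) % n).toNat : ℤ) := by
        exact_mod_cast h
      rwa [Int.toNat_of_nonneg h1, Int.toNat_of_nonneg h3] at this
    have h6 : (n : ℤ) ∣ (k + r) - (k + s) := Int.ModEq.dvd (h5.symm : _)
    obtain ⟨t, ht⟩ := h6
    have h7 : (r : ℤ) - s = n * t := by linarith
    have h8 : |(r : ℤ) - s| < n := by
      rw [abs_lt]; constructor <;> omega
    have h9 : t = 0 := by
      by_contra hne
      have : (1 : ℤ) ≤ |t| := Int.one_le_abs hne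
      rw [h7, abs_mul, abs_of_pos hn0] at h8
      nlinarith
    rw [h9, mul_zero] at h7
    omega
  · intro s hs
    rw [Finset.mem_range] at hs
    have h1 := Int.emod_nonneg ((s : ℤ) - k) hn'
    have h2 := Int.emod_lt_of_pos ((s : ℤ) - k) hn0
    refine ⟨(((s : ℤ) - k) % n).toNat, ?_, ?_⟩
    · rw [Finset.mem_range]; omega
    · have h3 : ((((s : ℤ) - k) % n).toNat : ℤ) = ((s : ℤ) - k) % n := Int.toNat_of_nonneg h1
      rw [h3, Int.add_emod_emod]
      have : k + ((s : ℤ) - k) = s := by ring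
      rw [this, Int.emod_eq_of_lt (by omega) (by omega)]
      simp
  · intro r _
    apply per_eq hW
    have h1 := Int.emod_nonneg (k + r) hn'
    rw [Int.toNat_of_nonneg h1]
    exact Int.dvd_self_sub_emod


/-- TP1 (inequality form). -/
theorem mass_le (q q2 : ℕ) (hq : 0 < q) (hq2 : 0 < q2) (N : ℤ) (hN : (q2 : ℤ) ∣ q * N - 1)
    (k1 : ℤ) (P : ℝ → ℝ≥0∞) (A : ℝ≥0∞) (hP : ∀ τ : ℝ, ∑' m : ℤ, P (τ + m) ≤ A)
    (W : ℤ → ℝ≥0∞) (hW : ∀ a, W (a + q2) = W a) (x : ℝ) :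
    ∑' j : ℤ, (if (q : ℤ) ∣ j - k1 then P (j / (q * q2) + x) * W (j * N) else 0) ≤
      A * ∑ a ∈ Finset.range q2, W a := by
  have hq' : (q : ℝ) ≠ 0 := by exact_mod_cast hq.ne'
  have hq2' : (q2 : ℝ) ≠ 0 := by exact_mod_cast hq2.ne'
  rw [tsum_class q q2 hq hq2 k1 (fun j => P (j / (q * q2) + x) * W (j * N)),
    ← sum_range_shift hq2 hW (k1 * N), Finset.mul_sum]
  refine Finset.sum_le_sum fun r _ => ?_
  have hWr : ∀ m : ℤ, W ((k1 + q * r + (q * q2) * m) * N) = W (k1 * N + r) := by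
    intro m
    apply per_eq hW
    obtain ⟨t, ht⟩ := hN
    refine ⟨t * r + q * m * N, ?_⟩
    have : (q : ℤ) * N = 1 + q2 * t := by linarith
    linear_combination (r : ℤ) * this
  simp only [hWr]
  rw [ENNReal.tsum_mul_right]
  gcongr
  refine le_trans (le_of_eq ?_) (hP ((k1 + q * r) / (q * q2) + x))
  refine tsum_congr fun m => ?_
  congr 1
  push_cast
  field_simp
  ring



end Crest.Agent.R081.Tp
end

-- ▼ part R081/Tp2

/-!
# Row 81 (twists), node TRANSPORT, part 2 (helper230): the L² transport `TP-A`, `TP-B`.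

`τ = j/(q q2) + b F c`, `j ≡ k1 mod q`, design cells `c ∈ E (j N) b`.
-/

set_option autoImplicit false

namespace Crest.Agent.R081.Tp

open MeasureTheory
open scoped ENNReal

/-- injectivity of `(a mod q2, b, c) ↦ a/q2 + b F c` modulo 1 on the cells `E a b` -/
def InjE (q2 : ℕ) (F : ℝ → ℝ) (E : ℤ → ℤ → Set ℝ) : Prop :=
  ∀ (a b : ℤ) (c : ℝ) (a' b' : ℤ) (c' : ℝ), c ∈ E a b → c' ∈ E a' b' →
    (∃ n : ℤ, (a : ℝ) / q2 + b * F c = a' / q2 + b' * F c' + n) →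
      (q2 : ℤ) ∣ a - a' ∧ b = b' ∧ c = c'

/-- `τ = j/(q q2) + b F c` is injective on `{j ≡ k1 mod q, c ∈ E (jN) b}` -/
theorem tau_inj {q q2 : ℕ} (hq : 0 < q) (hq2 : 0 < q2) {N : ℤ} (hN : (q2 : ℤ) ∣ q * N - 1)
    {k1 : ℤ} {F : ℝ → ℝ} {E : ℤ → ℤ → Set ℝ} (hE : InjE q2 F E)
    {j b j' b' : ℤ} {c c' : ℝ} (hj : (q : ℤ) ∣ j - k1) (hj' : (q : ℤ) ∣ j' - k1)
    (hc : c ∈ E (j * N) b) (hc' : c' ∈ E (j' * N) b')
    (h : (j : ℝ) / (q * q2) + b * F c = j' / (q * q2) + b' * F c') :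
    j = j' ∧ b = b' ∧ c = c' := by
  have hq' : (q : ℝ) ≠ 0 := by exact_mod_cast hq.ne'
  have hq2' : (q2 : ℝ) ≠ 0 := by exact_mod_cast hq2.ne'
  obtain ⟨t, ht⟩ : (q : ℤ) ∣ j - j' := by
    have := dvd_sub hj hj'
    simpa using this
  obtain ⟨s, hs⟩ := hN
  have h1 : ((j * N : ℤ) : ℝ) / q2 + b * F c = ((j' * N : ℤ) : ℝ) / q2 + b' * F c' + ((t * s : ℤ) : ℝ) := by
    have e1 : (j : ℝ) - j' = q * t := by exact_mod_cast ht
    have e2 : (q : ℝ) * N - 1 = q2 * s := by exact_mod_cast hs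
    have e3 : b * F c - b' * F c' = (j' : ℝ) / (q * q2) - j / (q * q2) := by linarith
    have e4 : b * F c = b' * F c' + ((j' : ℝ) / (q * q2) - j / (q * q2)) := by linarith
    rw [e4]
    push_cast
    field_simp
    have e5 : (j : ℝ) = j' + q * t := by linarith
    have e6 : (q : ℝ) * N = 1 + q2 * s := by linarith
    rw [e5]
    linear_combination (q * t : ℝ) * e6
  obtain ⟨_, hb, hcc⟩ := hE _ _ _ _ _ _ hc hc' ⟨_, h1⟩
  subst hb
  subst hcc
  refine ⟨?_, rfl, rfl⟩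
  have h2 : (j : ℝ) / (q * q2) = j' / (q * q2) := by linarith
  have h3 : (j : ℝ) = j' := by
    field_simp at h2
    exact h2
  exact_mod_cast h3

/-- one affine piece -/
theorem piece (G : ℝ → ℝ≥0∞) (x : ℝ) (b : ℤ) (hb : b ≠ 0) (F : ℝ → ℝ) (vs d : ℝ) (hvs : 0 < vs)
    (Y : Set ℝ) (hY : MeasurableSet Y) (hF : ∀ c ∈ Y, F c = vs * (c - d)) :
    ∫⁻ c in Y, G (x + b * F c) * ENNReal.ofReal (|(b : ℝ)| * vs) =
      ∫⁻ τ in (fun c => x + b * F c) '' Y, G τ := by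
  have hb' : (b : ℝ) ≠ 0 := by exact_mod_cast hb
  have h1 : (fun c => x + b * F c) '' Y = (fun c => x + b * (vs * (c - d))) '' Y := by
    apply Set.image_congr
    intro c hc
    rw [hF c hc]
  rw [h1, lintegral_image_eq_lintegral_abs_deriv_mul hY (f := fun c => x + b * (vs * (c - d)))
    (f' := fun _ => b * vs)]
  · refine setLIntegral_congr_fun hY fun c hc => ?_
    rw [hF c hc, abs_mul, abs_of_pos hvs, mul_comm]
  · intro c _
    have : HasDerivAt (fun c : ℝ => x + b * (vs * (c - d))) (b * (vs * 1)) c :=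
      (((hasDerivAt_id c).sub_const d).const_mul vs).const_mul (b : ℝ) |>.const_add x
    simpa using this.hasDerivWithinAt
  · intro c _ c' _ h
    have h2 : (b : ℝ) * (vs * (c - c')) = 0 := by linarith
    have h3 : vs * (c - c') = 0 := by
      rcases mul_eq_zero.1 h2 with h | h
      · exact absurd h hb'
      · exact h
    rcases mul_eq_zero.1 h3 with h | h
    · exact absurd h hvs.ne'
    · linarith

/-- (TP-B) change of variables with multiplicity one. -/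
theorem tpB (q q2 : ℕ) (hq : 0 < q) (hq2 : 0 < q2) (N : ℤ) (hN : (q2 : ℤ) ∣ q * N - 1)
    (k1 : ℤ) (G : ℝ → ℝ≥0∞) (F : ℝ → ℝ) (vs d : ℝ) (hvs : 0 < vs)
    (E : ℤ → ℤ → Set ℝ) (hEm : ∀ a b, MeasurableSet (E a b)) (hE0 : ∀ a, E a 0 = ∅)
    (hF : ∀ a b, ∀ c ∈ E a b, F c = vs * (c - d)) (hE : InjE q2 F E) :
    ∑' b : ℤ, ∑' j : ℤ, (if (q : ℤ) ∣ j - k1 then
      ∫⁻ c in E (j * N) b, G (j / (q * q2) + b * F c) * ENNReal.ofReal (|(b : ℝ)| * vs) else 0) ≤
      ∫⁻ τ, G τ := by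
  set Y : ℤ × ℤ → Set ℝ := fun p =>
    if (q : ℤ) ∣ p.2 - k1 then (fun c => (p.2 : ℝ) / (q * q2) + p.1 * F c) '' (E (p.2 * N) p.1)
      else ∅ with hYdef
  have hYm : ∀ p, MeasurableSet (Y p) := by
    intro p
    simp only [hYdef]
    split_ifs with h
    · by_cases hb : p.1 = 0
      · rw [hb, hE0]; simp
      · have h1 : (fun c => (p.2 : ℝ) / (q * q2) + p.1 * F c) '' (E (p.2 * N) p.1) =
            (fun c => (p.2 : ℝ) / (q * q2) + p.1 * (vs * (c - d))) '' (E (p.2 * N) p.1) := by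
          apply Set.image_congr
          intro c hc
          rw [hF _ _ c hc]
        rw [h1]
        apply MeasurableSet.image_of_continuousOn_injOn (hEm _ _)
        · fun_prop
        · intro c _ c' _ h
          dsimp only at h
          have hb' : (p.1 : ℝ) ≠ 0 := by exact_mod_cast hb
          have h2 : (p.1 : ℝ) * (vs * (c - c')) = 0 := by linarith
          have h3 : vs * (c - c') = 0 := by
            rcases mul_eq_zero.1 h2 with h | h
            · exact absurd h hb'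
            · exact h
          rcases mul_eq_zero.1 h3 with h | h
          · exact absurd h hvs.ne'
          · linarith
    · exact MeasurableSet.empty
  have hdisj : Pairwise (Function.onFun Disjoint Y) := by
    intro p p' hpp
    rw [Function.onFun, Set.disjoint_left]
    intro τ h h'
    simp only [hYdef] at h h'
    split_ifs at h with h1
    split_ifs at h' with h1'
    · obtain ⟨c, hc, hτ⟩ := h
      obtain ⟨c', hc', hτ'⟩ := h'
      simp only at hτ hτ'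
      obtain ⟨e1, e2, _⟩ := tau_inj hq hq2 hN hE h1 h1' hc hc' (hτ.trans hτ'.symm)
      exact hpp (Prod.ext e2 e1)
    · exact h'.elim
    · exact h.elim
  have hle : ∑' p : ℤ × ℤ, ∫⁻ τ in Y p, G τ ≤ ∫⁻ τ, G τ := by
    rw [← lintegral_iUnion hYm hdisj]
    exact setLIntegral_le_lintegral _ _
  refine le_trans (le_of_eq ?_) hle
  rw [ENNReal.tsum_prod (f := fun b j => ∫⁻ τ in Y (b, j), G τ)]
  refine tsum_congr fun b => tsum_congr fun j => ?_
  simp only [hYdef]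
  by_cases hj : (q : ℤ) ∣ j - k1
  · simp only [hj, if_true]
    by_cases hb : b = 0
    · rw [hb, hE0]; simp
    · exact piece G _ b hb F vs d hvs _ (hEm _ _) (hF _ _)
  · simp [hj]

theorem sq_le (z w x y : ℂ) :
    ‖z * w - x * y‖ₑ ^ 2 ≤ 2 * (‖z‖ₑ ^ 2 * ‖w - y‖ₑ ^ 2 + ‖z - x‖ₑ ^ 2 * ‖y‖ₑ ^ 2) := by
  have h : z * w - x * y = z * (w - y) + (z - x) * y := by ring
  have h1 : ‖z * w - x * y‖ₑ ≤ ‖z * (w - y)‖ₑ + ‖(z - x) * y‖ₑ := by
    rw [h]; exact enorm_add_le _ _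
  calc ‖z * w - x * y‖ₑ ^ 2 ≤ (‖z * (w - y)‖ₑ + ‖(z - x) * y‖ₑ) ^ 2 := by gcongr
    _ ≤ 2 * (‖z * (w - y)‖ₑ ^ 2 + ‖(z - x) * y‖ₑ ^ 2) := by
        have := ENNReal.rpow_add_le_mul_rpow_add_rpow (‖z * (w - y)‖ₑ) (‖(z - x) * y‖ₑ)
          (p := 2) (by norm_num)
        norm_num at this
        simpa using this
    _ = _ := by rw [enorm_mul, enorm_mul, mul_pow, mul_pow]

/-- (TP-A) the `L²` transport. -/
theorem tpA (q q2 : ℕ) (hq : 0 < q) (hq2 : 0 < q2) (N : ℤ) (hN : (q2 : ℤ) ∣ q * N - 1)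
    (k1 : ℤ) (phi psi : ℝ → ℂ) (hphi : Measurable phi) (hpsi : Measurable psi)
    (A e e' : ℝ≥0∞) (hA : ∀ τ : ℝ, ∑' m : ℤ, ‖phi (τ + m)‖ₑ ^ 2 ≤ A)
    (he : ∫⁻ τ, ‖phi τ - psi τ‖ₑ ^ 2 ≤ e)
    (F : ℝ → ℝ) (vs d : ℝ) (hvs : 0 < vs) (hFm : Measurable F)
    (E : ℤ → ℤ → Set ℝ) (hEm : ∀ a b, MeasurableSet (E a b)) (hE0 : ∀ a, E a 0 = ∅)
    (hF : ∀ a b, ∀ c ∈ E a b, F c = vs * (c - d)) (hE : InjE q2 F E)
    (D M : ℤ → ℤ → ℝ → ℂ) (hDp : ∀ a b c, D (a + q2) b c = D a b c)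
    (hMp : ∀ a b c, M (a + q2) b c = M a b c)
    (hDm : ∀ a b, Measurable (D a b)) (hMm : ∀ a b, Measurable (M a b))
    (hM : ∀ a b c, ‖M a b c‖ₑ ^ 2 ≤ (E a b).indicator (fun _ => ENNReal.ofReal (|(b : ℝ)| * vs)) c)
    (hDM : ∫⁻ c in Set.Ioc (0 : ℝ) 1, ∑' b : ℤ, ∑ a ∈ Finset.range q2, ‖D a b c - M a b c‖ₑ ^ 2 ≤ e') :
    ∫⁻ c in Set.Ioc (0 : ℝ) 1, ∑' b : ℤ, ∑' j : ℤ, (if (q : ℤ) ∣ j - k1 then
      ‖phi (j / (q * q2) + b * F c) * D (j * N) b c -
        psi (j / (q * q2) + b * F c) * M (j * N) b c‖ₑ ^ 2 else 0) ≤ 2 * (A * e' + e) := by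
  have key : ∀ c, ∑' b : ℤ, ∑' j : ℤ, (if (q : ℤ) ∣ j - k1 then
      ‖phi (j / (q * q2) + b * F c) * D (j * N) b c -
        psi (j / (q * q2) + b * F c) * M (j * N) b c‖ₑ ^ 2 else 0) ≤
      2 * (A * (∑' b : ℤ, ∑ a ∈ Finset.range q2, ‖D a b c - M a b c‖ₑ ^ 2) +
        ∑' b : ℤ, ∑' j : ℤ, (if (q : ℤ) ∣ j - k1 then
      (E (j * N) b).indicator (fun c => ‖phi (j / (q * q2) + b * F c) - psi (j / (q * q2) + b * F c)‖ₑ ^ 2
        * ENNReal.ofReal (|(b : ℝ)| * vs)) c else 0)) := by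
    intro c
    rw [← ENNReal.tsum_mul_left, ← ENNReal.tsum_add, ← ENNReal.tsum_mul_left]
    refine ENNReal.tsum_le_tsum fun b => ?_
    have h3 := mass_le q q2 hq hq2 N hN k1 (fun τ => ‖phi τ‖ₑ ^ 2) A hA
      (fun a => ‖D a b c - M a b c‖ₑ ^ 2) (fun a => by simp only [hDp, hMp]) (b * F c)
    refine le_trans ?_ (mul_le_mul_right (add_le_add_left h3 _) _)
    rw [← ENNReal.tsum_add, ← ENNReal.tsum_mul_left]
    refine ENNReal.tsum_le_tsum fun j => ?_
    by_cases hj : (q : ℤ) ∣ j - k1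
    · simp only [hj, if_true]
      refine (sq_le _ _ _ _).trans ?_
      gcongr
      refine (mul_le_mul_right (hM (j * N) b c) _).trans (le_of_eq ?_)
      by_cases hc : c ∈ E (j * N) b
      · simp [hc]
      · simp [hc]
    · simp [hj]
  refine (lintegral_mono key).trans ?_
  have hm1 : Measurable fun c => ∑' b : ℤ, ∑ a ∈ Finset.range q2, ‖D a b c - M a b c‖ₑ ^ 2 := by
    refine Measurable.tsum fun b => ?_
    refine Finset.measurable_sum _ fun a _ => ?_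
    exact (((hDm a b).sub (hMm a b)).enorm).pow_const 2
  have hm2 : ∀ b j : ℤ, Measurable fun c => (if (q : ℤ) ∣ j - k1 then
      (E (j * N) b).indicator (fun c => ‖phi (j / (q * q2) + b * F c) - psi (j / (q * q2) + b * F c)‖ₑ ^ 2
        * ENNReal.ofReal (|(b : ℝ)| * vs)) c else 0) := by
    intro b j
    by_cases hj : (q : ℤ) ∣ j - k1
    · simp only [hj, if_true]
      refine Measurable.indicator ?_ (hEm _ _)
      refine Measurable.mul_const ?_ _
      refine Measurable.pow_const ?_ 2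
      refine Measurable.enorm ?_
      exact (hphi.comp (measurable_const.add (hFm.const_mul _))).sub
        (hpsi.comp (measurable_const.add (hFm.const_mul _)))
    · simp [hj]
  have hm3 : Measurable fun c => ∑' b : ℤ, ∑' j : ℤ, (if (q : ℤ) ∣ j - k1 then
      (E (j * N) b).indicator (fun c => ‖phi (j / (q * q2) + b * F c) - psi (j / (q * q2) + b * F c)‖ₑ ^ 2
        * ENNReal.ofReal (|(b : ℝ)| * vs)) c else 0) :=
    Measurable.tsum fun b => Measurable.tsum fun j => hm2 b j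
  have hm4 : Measurable fun c => A * ∑' b : ℤ, ∑ a ∈ Finset.range q2, ‖D a b c - M a b c‖ₑ ^ 2 :=
    hm1.const_mul _
  have hm5 : Measurable fun c => (A * ∑' b : ℤ, ∑ a ∈ Finset.range q2, ‖D a b c - M a b c‖ₑ ^ 2) +
      ∑' b : ℤ, ∑' j : ℤ, (if (q : ℤ) ∣ j - k1 then
      (E (j * N) b).indicator (fun c => ‖phi (j / (q * q2) + b * F c) - psi (j / (q * q2) + b * F c)‖ₑ ^ 2
        * ENNReal.ofReal (|(b : ℝ)| * vs)) c else 0) := hm4.add hm3
  rw [lintegral_const_mul 2 hm5, lintegral_add_left hm4, lintegral_const_mul _ hm1]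
  gcongr
  rw [lintegral_tsum (fun b => (Measurable.tsum fun j => hm2 b j).aemeasurable)]
  refine le_trans ?_ he
  refine le_trans ?_ (tpB q q2 hq hq2 N hN k1 (fun τ => ‖phi τ - psi τ‖ₑ ^ 2) F vs d hvs E hEm hE0 hF hE)
  refine ENNReal.tsum_le_tsum fun b => ?_
  rw [lintegral_tsum (fun j => (hm2 b j).aemeasurable)]
  refine ENNReal.tsum_le_tsum fun j => ?_
  by_cases hj : (q : ℤ) ∣ j - k1
  · simp only [hj, if_true]
    rw [← lintegral_indicator (hEm _ _)]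
    exact setLIntegral_le_lintegral _ _
  · simp [hj]

end Crest.Agent.R081.Tp
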