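import Mathlib
import Crest.Agent.R081.FmDefs
import Crest.Agent.R081.StSkel
import Crest.Agent.R081.FmIso
import Crest.Agent.R081.MsStep

-- ▼ part R081/TrA
section

/-! Row 81, route B, node TRANSITIONS (helper177), part A: the closure argument.

`off B w` is the `L²(muX)` norm of `w` outside `B`.  For a filter `l` of choices (designs, `h`), isometries
`KK i` and target sets `B i`, the vectors `w` with `off (B i) (KK i w) → 0` form a closed submodule; hence
it is enough to treat single modes. -/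

set_option autoImplicit false

namespace Crest.Agent.R081.Tr

open MeasureTheory Filter Crest.Agent.R081.Fm
open scoped ENNReal Topology

/-- mode space -/
abbrev X : Type := (ℤ × ℤ) × ℝ

/-- square integrable arrays -/
abbrev V : Type := Lp ℂ 2 muX

/-- the `L²` mass of `w` outside `B` (a norm, not its square) -/
noncomputable def off (B : Set X) (w : V) : ℝ := (eLpNorm (Bᶜ.indicator w) 2 muX).toReal

theorem memLp_ind {B : Set X} (hB : MeasurableSet B) (w : V) : MemLp (Bᶜ.indicator w) 2 muX :=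
  (Lp.memLp w).indicator hB.compl


theorem off_le_norm (B : Set X) (w : V) : off B w ≤ ‖w‖ := by
  rw [Lp.norm_def]
  exact ENNReal.toReal_mono (Lp.eLpNorm_ne_top w) (eLpNorm_indicator_le _)

theorem off_add_le {B : Set X} (hB : MeasurableSet B) (v w : V) :
    off B (v + w) ≤ off B v + off B w := by
  unfold off
  rw [← ENNReal.toReal_add (memLp_ind hB v).eLpNorm_ne_top (memLp_ind hB w).eLpNorm_ne_top]
  refine ENNReal.toReal_mono (ENNReal.add_ne_top.2
    ⟨(memLp_ind hB v).eLpNorm_ne_top, (memLp_ind hB w).eLpNorm_ne_top⟩) ?_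
  have h : Bᶜ.indicator (v + w : V) =ᵐ[muX] Bᶜ.indicator v + Bᶜ.indicator w := by
    filter_upwards [Lp.coeFn_add v w] with x hx
    by_cases hxB : x ∈ Bᶜ
    · simp only [Set.indicator_of_mem hxB, Pi.add_apply, hx]
    · simp [Set.indicator_of_notMem hxB, Pi.add_apply]
  rw [eLpNorm_congr_ae h]
  exact eLpNorm_add_le (memLp_ind hB v).1 (memLp_ind hB w).1 (by norm_num)

theorem off_smul {B : Set X} (_hB : MeasurableSet B) (a : ℂ) (w : V) :
    off B (a • w) = ‖a‖ * off B w := by
  unfold off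
  have h : Bᶜ.indicator (a • w : V) =ᵐ[muX] a • Bᶜ.indicator w := by
    filter_upwards [Lp.coeFn_smul a w] with x hx
    by_cases hxB : x ∈ Bᶜ
    · simp only [Set.indicator_of_mem hxB, Pi.smul_apply, hx]
    · simp [Set.indicator_of_notMem hxB, Pi.smul_apply]
  rw [eLpNorm_congr_ae h, eLpNorm_const_smul, ENNReal.toReal_mul]
  simp


theorem off_le_add_norm {B : Set X} (hB : MeasurableSet B) (v w : V) :
    off B v ≤ off B w + ‖v - w‖ := by
  have h := off_add_le hB w (v - w)
  have e : w + (v - w) = v := by abel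
  rw [e] at h
  exact h.trans (by gcongr; exact off_le_norm _ _)

theorem off_eq_zero {B : Set X} {w : V} (h : ∀ᵐ x ∂muX, x ∉ B → w x = 0) : off B w = 0 := by
  unfold off
  have : Bᶜ.indicator w =ᵐ[muX] 0 := by
    filter_upwards [h] with x hx
    by_cases hxB : x ∈ B
    · simp [hxB]
    · simp [hxB, hx hxB]
  rw [eLpNorm_congr_ae this]
  simp



/-- restriction of an array to a set -/
noncomputable def res (A : Set X) (hA : MeasurableSet A) (w : V) : V :=
  ((Lp.memLp w).indicator hA).toLp (A.indicator w)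

theorem res_coe (A : Set X) (hA : MeasurableSet A) (w : V) :
    res A hA w =ᵐ[muX] A.indicator w := MemLp.coeFn_toLp _

theorem res_add_compl (A : Set X) (hA : MeasurableSet A) (w : V) :
    res A hA w + res Aᶜ hA.compl w = w := by
  apply Lp.ext
  filter_upwards [Lp.coeFn_add (res A hA w) (res Aᶜ hA.compl w), res_coe A hA w,
    res_coe Aᶜ hA.compl w] with x h1 h2 h3
  rw [h1, Pi.add_apply, h2, h3, ← Pi.add_apply, Set.indicator_self_add_compl]

theorem norm_res_compl (A : Set X) (hA : MeasurableSet A) (w : V) :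
    ‖res Aᶜ hA.compl w‖ = off A w := by
  rw [res, Lp.norm_toLp, off]


/-- the closed submodule of vectors whose images concentrate on the target sets -/
def Good {ι : Type*} (l : Filter ι) (KK : ι → V →ₗᵢ[ℂ] V) (B : ι → Set X)
    (hB : ∀ i, MeasurableSet (B i)) : Submodule ℂ V where
  carrier := {w | ∀ ε : ℝ, 0 < ε → ∀ᶠ i in l, off (B i) (KK i w) ≤ ε}
  add_mem' := by
    intro v w hv hw ε hε
    filter_upwards [hv (ε / 2) (by positivity), hw (ε / 2) (by positivity)] with i h1 h2
    rw [map_add]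
    refine (off_add_le (hB i) _ _).trans ?_
    linarith
  zero_mem' := by
    intro ε hε
    refine Eventually.of_forall fun i => ?_
    rw [map_zero]
    have : off (B i) (0 : V) ≤ ‖(0 : V)‖ := off_le_norm _ _
    rw [norm_zero] at this
    linarith
  smul_mem' := by
    intro a w hw ε hε
    by_cases ha : a = 0
    · subst ha
      refine Eventually.of_forall fun i => ?_
      rw [zero_smul, map_zero]
      have : off (B i) (0 : V) ≤ ‖(0 : V)‖ := off_le_norm _ _
      rw [norm_zero] at this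
      linarith
    · have hpos : 0 < ‖a‖ := norm_pos_iff.2 ha
      filter_upwards [hw (ε / ‖a‖) (by positivity)] with i h1
      rw [map_smul, off_smul (hB i)]
      calc ‖a‖ * off (B i) (KK i w) ≤ ‖a‖ * (ε / ‖a‖) := by gcongr
        _ = ε := by field_simp

section Good

variable {ι : Type*} {l : Filter ι} {KK : ι → V →ₗᵢ[ℂ] V} {B : ι → Set X}
  {hB : ∀ i, MeasurableSet (B i)}


theorem Good_of_close (w : V)
    (h : ∀ ε : ℝ, 0 < ε → ∃ v ∈ Good l KK B hB, ‖w - v‖ ≤ ε) : w ∈ Good l KK B hB := by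
  intro ε hε
  obtain ⟨v, hv, hvw⟩ := h (ε / 2) (by positivity)
  filter_upwards [hv (ε / 2) (by positivity)] with i hi
  refine (off_le_add_norm (hB i) _ (KK i v)).trans ?_
  rw [← map_sub, LinearIsometry.norm_map]
  linarith


end Good

/-- the `k`-th fibre of the mode space -/
def fib (k : ℤ × ℤ) : Set X := {x | x.1 = k}

theorem measurableSet_fib (k : ℤ × ℤ) : MeasurableSet (fib k) :=
  measurable_fst (measurableSet_singleton k)

/-- finite unions of fibres -/
def fibs (K : Finset (ℤ × ℤ)) : Set X := {x | x.1 ∈ K}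

theorem measurableSet_fibs (K : Finset (ℤ × ℤ)) : MeasurableSet (fibs K) :=
  measurable_fst K.measurableSet

/-- truncation: an array is close to its restriction to finitely many modes -/
theorem exists_trunc (w : V) {ε : ℝ} (hε : 0 < ε) :
    ∃ K : Finset (ℤ × ℤ), off (fibs K) w ≤ ε := by
  classical
  -- the finite measure `|w|² muX`
  have hfin : ∫⁻ x, ‖w x‖ₑ ^ (2 : ℝ) ∂muX ≠ ⊤ := by
    have h := Lp.eLpNorm_ne_top w
    rw [eLpNorm_eq_lintegral_rpow_enorm_toReal (by norm_num) (by norm_num)] at h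
    intro htop
    apply h
    rw [ENNReal.toReal_ofNat, htop]
    simp
  set m : Measure X := muX.withDensity (fun x => ‖w x‖ₑ ^ (2 : ℝ)) with hm
  have hmeas : AEMeasurable (fun x => ‖w x‖ₑ ^ (2 : ℝ)) muX :=
    (Lp.aestronglyMeasurable w).enorm.pow_const _
  have hmfin : m Set.univ ≠ ⊤ := by
    rw [hm, withDensity_apply _ MeasurableSet.univ, Measure.restrict_univ]
    exact hfin
  -- exhaustion
  obtain ⟨e, he⟩ : ∃ e : ℕ → ℤ × ℤ, Function.Surjective e := exists_surjective_nat (ℤ × ℤ)
  set Kn : ℕ → Finset (ℤ × ℤ) := fun n => (Finset.range n).image e with hKn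
  have hlim : Tendsto (fun n => m ((fibs (Kn n))ᶜ)) atTop (𝓝 (m (⋂ n, (fibs (Kn n))ᶜ))) := by
    refine tendsto_measure_iInter_atTop (fun n => (measurableSet_fibs _).compl.nullMeasurableSet)
      ?_ ⟨0, ?_⟩
    · intro a b hab x hx hxa
      apply hx
      simp only [fibs, Set.mem_ofPred_eq, hKn, Finset.mem_image, Finset.mem_range] at hxa ⊢
      obtain ⟨j, hj, hje⟩ := hxa
      exact ⟨j, lt_of_lt_of_le hj hab, hje⟩
    · exact ne_top_of_le_ne_top hmfin (measure_mono (Set.subset_univ _))
  have hemp : (⋂ n, (fibs (Kn n))ᶜ) = ∅ := by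
    ext x
    simp only [Set.mem_iInter, Set.mem_compl_iff, Set.mem_empty_iff_false, iff_false, not_forall,
      not_not]
    obtain ⟨j, hj⟩ := he x.1
    refine ⟨j + 1, ?_⟩
    simp only [fibs, Set.mem_ofPred_eq, hKn, Finset.mem_image, Finset.mem_range]
    exact ⟨j, by omega, hj⟩
  rw [hemp, measure_empty] at hlim
  have hε2 : (0 : ℝ≥0∞) < ENNReal.ofReal (ε ^ 2) := by
    rw [ENNReal.ofReal_pos]; positivity
  obtain ⟨n, hn⟩ := ((ENNReal.tendsto_nhds_zero.1 hlim) _ hε2).exists
  refine ⟨Kn n, ?_⟩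
  unfold off
  have h1 : eLpNorm ((fibs (Kn n))ᶜ.indicator w) 2 muX ≤ ENNReal.ofReal ε := by
    rw [eLpNorm_eq_lintegral_rpow_enorm_toReal (by norm_num) (by norm_num)]
    have e2 : ∫⁻ x, ‖((fibs (Kn n))ᶜ.indicator w) x‖ₑ ^ (2 : ℝ≥0∞).toReal ∂muX
        = m ((fibs (Kn n))ᶜ) := by
      rw [hm, withDensity_apply _ (measurableSet_fibs _).compl,
        ← lintegral_indicator (measurableSet_fibs _).compl]
      refine lintegral_congr fun x => ?_
      by_cases hx : x ∈ (fibs (Kn n))ᶜ
      · simp [Set.indicator_of_mem hx]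
      · simp [Set.indicator_of_notMem hx]
    rw [e2]
    calc (m ((fibs (Kn n))ᶜ)) ^ (1 / (2 : ℝ≥0∞).toReal)
        ≤ (ENNReal.ofReal (ε ^ 2)) ^ (1 / (2 : ℝ≥0∞).toReal) := by gcongr
      _ = ENNReal.ofReal ε := by
        rw [ENNReal.ofReal_rpow_of_pos (by positivity)]
        congr 1
        rw [ENNReal.toReal_ofNat, ← Real.sqrt_eq_rpow, Real.sqrt_sq hε.le]
  calc _ ≤ (ENNReal.ofReal ε).toReal := ENNReal.toReal_mono ENNReal.ofReal_ne_top h1
    _ = ε := ENNReal.toReal_ofReal hε.le

end Crest.Agent.R081.Tr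
end

-- ▼ part R081/TrB
section

/-! Row 81, route B, node TRANSITIONS (helper177), part B: from single modes to all vectors. -/

set_option autoImplicit false

namespace Crest.Agent.R081.Tr

open MeasureTheory Filter Crest.Agent.R081.Fm
open scoped ENNReal Topology

/-- `w` vanishes outside `A` -/
def Supp (A : Set X) (w : V) : Prop := ∀ᵐ x ∂muX, x ∉ A → w x = 0


theorem supp_res (A : Set X) (hA : MeasurableSet A) (w : V) : Supp A (res A hA w) := by
  filter_upwards [res_coe A hA w] with x hx hxA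
  rw [hx, Set.indicator_of_notMem hxA]

theorem Supp.res_inter {A B : Set X} (hB : MeasurableSet B) {w : V} (h : Supp A w) :
    Supp (A ∩ B) (res B hB w) := by
  filter_upwards [res_coe B hB w, h] with x hx h1 hxA
  rw [hx]
  by_cases hxB : x ∈ B
  · rw [Set.indicator_of_mem hxB]
    exact h1 fun h2 => hxA ⟨h2, hxB⟩
  · rw [Set.indicator_of_notMem hxB]

/-- `off (fibs K) w` is the distance to the truncation -/
theorem sub_res (A : Set X) (hA : MeasurableSet A) (w : V) : w - res A hA w = res Aᶜ hA.compl w := by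
  have := res_add_compl A hA w
  rw [sub_eq_iff_eq_add']
  exact this.symm

/-- the restriction to finitely many fibres is the sum of the restrictions to the fibres -/
theorem res_fibs (K : Finset (ℤ × ℤ)) (w : V) :
    res (fibs K) (measurableSet_fibs K) w
      = ∑ k ∈ K, res (fib k) (measurableSet_fib k) w := by
  classical
  induction K using Finset.induction_on with
  | empty =>
    rw [Finset.sum_empty]
    apply Lp.ext
    filter_upwards [res_coe (fibs ∅) (measurableSet_fibs ∅) w, Lp.coeFn_zero ℂ 2 muX] with x h1 h2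
    rw [h1, h2]
    simp [fibs]
  | insert k K hk ih =>
    rw [Finset.sum_insert hk, ← ih]
    apply Lp.ext
    filter_upwards [res_coe (fibs (insert k K)) (measurableSet_fibs _) w,
      Lp.coeFn_add (res (fib k) (measurableSet_fib k) w) (res (fibs K) (measurableSet_fibs K) w),
      res_coe (fib k) (measurableSet_fib k) w, res_coe (fibs K) (measurableSet_fibs K) w]
      with x h1 h2 h3 h4
    rw [h1, h2, Pi.add_apply, h3, h4]
    by_cases h : x.1 = k
    · have a1 : x ∈ fibs (insert k K) := by simp [fibs, h]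
      have a2 : x ∈ fib k := h
      have a3 : x ∉ fibs K := by simp [fibs, h, hk]
      simp [Set.indicator_of_mem a1, Set.indicator_of_mem a2, Set.indicator_of_notMem a3]
    · have a2 : x ∉ fib k := h
      by_cases h' : x.1 ∈ K
      · have a1 : x ∈ fibs (insert k K) := by simp [fibs, h']
        have a3 : x ∈ fibs K := h'
        simp [Set.indicator_of_mem a1, Set.indicator_of_notMem a2, Set.indicator_of_mem a3]
      · have a1 : x ∉ fibs (insert k K) := by simp [fibs, h, h']
        have a3 : x ∉ fibs K := h'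
        simp [Set.indicator_of_notMem a1, Set.indicator_of_notMem a2, Set.indicator_of_notMem a3]

section

variable {ι : Type*} {l : Filter ι} {KK : ι → V →ₗᵢ[ℂ] V} {B : ι → Set X}
  {hB : ∀ i, MeasurableSet (B i)}

/-- **Closure argument.** If all single modes supported in `A` are good, all vectors supported in
`A` are. -/
theorem Good_of_modes {A : Set X}
    (h : ∀ k : ℤ × ℤ, ∀ w : V, Supp (A ∩ fib k) w → w ∈ Good l KK B hB)
    (w : V) (hw : Supp A w) : w ∈ Good l KK B hB := by
  refine Good_of_close w fun ε hε => ?_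
  obtain ⟨K, hK⟩ := exists_trunc w hε
  refine ⟨res (fibs K) (measurableSet_fibs K) w, ?_, ?_⟩
  · rw [res_fibs]
    refine Submodule.sum_mem _ fun k _ => h k _ ?_
    exact hw.res_inter (measurableSet_fib k)
  · rw [sub_res _ (measurableSet_fibs K), norm_res_compl _ (measurableSet_fibs K)]
    exact hK


/-- the same with a main part that may depend on the tolerance -/
theorem Good_of_main' (w : V)
    (h : ∀ ε : ℝ, 0 < ε → ∀ᶠ i in l, ∃ m : V, ‖KK i w - m‖ ≤ ε ∧ Supp (B i) m) :
    w ∈ Good l KK B hB := by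
  intro ε hε
  filter_upwards [h ε hε] with i ⟨m, a, b⟩
  refine (off_le_add_norm (hB i) _ m).trans ?_
  rw [off_eq_zero b]
  linarith

/-- **Transition inequality.** The new defect (off the target set) is at most the old defect (off
`A`) plus `ε`. -/
theorem transition {A : Set X} (hA : MeasurableSet A)
    (h : ∀ w : V, Supp A w → w ∈ Good l KK B hB) (u : V) {ε : ℝ} (hε : 0 < ε) :
    ∀ᶠ i in l, off (B i) (KK i u) ≤ off A u + ε := by
  filter_upwards [h _ (supp_res A hA u) ε hε] with i hi
  have h1 : KK i u = KK i (res A hA u) + KK i (res Aᶜ hA.compl u) := by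
    rw [← map_add, res_add_compl]
  rw [h1]
  refine (off_add_le (hB i) _ _).trans ?_
  have h2 : off (B i) (KK i (res Aᶜ hA.compl u)) ≤ off A u := by
    refine (off_le_norm _ _).trans ?_
    rw [LinearIsometry.norm_map, norm_res_compl _ hA]
  linarith


end

end Crest.Agent.R081.Tr
end

-- ▼ part R081/TrC
section

/-! Row 81, route B, node TRANSITIONS (helper177), part C: FLAT REPAIR.

`C` = coefficients of the old generator in the new frame, `m` = its main part, whose modulus is the flat
profile `ρ` or zero.  Then `a = ρ · sgn C` is close to `C`. -/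

set_option autoImplicit false

namespace Crest.Agent.R081.Tr

open MeasureTheory Filter Crest.Agent.R081.Fm
open scoped ENNReal Topology

/-- the phase of a complex number, `1` at zero -/
noncomputable def sg (z : ℂ) : ℂ := if z = 0 then 1 else z / (‖z‖ : ℂ)






theorem eLpNorm_two_sq {α E : Type*} [MeasurableSpace α] {μ : Measure α} [NormedAddCommGroup E]
    (f : α → E) : eLpNorm f 2 μ ^ 2 = ∫⁻ x, ‖f x‖ₑ ^ 2 ∂μ := by
  rw [eLpNorm_eq_lintegral_rpow_enorm_toReal (by norm_num) (by norm_num)]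
  simp only [ENNReal.toReal_ofNat, one_div]
  rw [← ENNReal.rpow_natCast, ← ENNReal.rpow_mul]
  norm_num


end Crest.Agent.R081.Tr
end

-- ▼ part R081/TrD

/-! Row 81, route B, node TRANSITIONS (helper177), part D: the filter of admissible choices, the
isometries on the mode space, measurability of the target sets. -/

set_option autoImplicit false

namespace Crest.Agent.R081.Tr

open MeasureTheory Filter Crest.AnalysisR.Torus3 Crest.Agent.R075 Crest.Agent.R081.Fm
  Crest.Agent.R081.Sm Crest.Agent.R081.Tw Crest.Agent.R081.St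
open scoped ENNReal Topology ContDiff

/-- an admissible choice for the next step -/
structure Ch (t : TwD) where
  K : Finset (ℤ × ℤ)
  eps : ℝ
  d : Des t.q K eps
  h : ℕ
  hh : 0 < h
  P' : ℤ
  hP : t.q * P' = t.P * h * d.q2 + 1
  G : LD
  mp : MP G
  gf : Nonempty (GForm d h G)

/-- the filter of good choices -/
def EvF (t : TwD) : Filter (Ch t) where
  sets := {A | Ev t fun K eps d h P' G => ∀ (hh : 0 < h) (hP : t.q * P' = t.P * h * d.q2 + 1)
    (mp : MP G) (gf : Nonempty (GForm d h G)), (⟨K, eps, d, h, hh, P', hP, G, mp, gf⟩ : Ch t) ∈ A}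
  univ_sets := (Ev.const (t := t) trivial).mono fun _ _ _ _ _ _ _ _ _ _ _ => trivial
  sets_of_superset := by
    intro A B hA hAB
    exact Ev.mono hA fun _ _ _ _ _ _ h hh hP mp gf => hAB (h hh hP mp gf)
  inter_sets := by
    intro A B hA hB
    exact (Ev.and hA hB).mono fun _ _ _ _ _ _ h hh hP mp gf => ⟨h.1 hh hP mp gf, h.2 hh hP mp gf⟩

theorem ev_of_eventually {t : TwD}
    {Q : ∀ (K : Finset (ℤ × ℤ)) (eps : ℝ) (d : Des t.q K eps) (h : ℕ) (P' : ℤ) (G : LD), Prop}
    (hQ : ∀ᶠ c : Ch t in EvF t, Q c.K c.eps c.d c.h c.P' c.G) : Ev t Q := by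
  have h1 : Ev t fun K eps d h P' G => ∀ (hh : 0 < h) (hP : t.q * P' = t.P * h * d.q2 + 1)
    (mp : MP G) (gf : Nonempty (GForm d h G)), Q K eps d h P' G := hQ
  obtain ⟨K0, e0, he0, H⟩ := h1
  refine ⟨K0, e0, he0, fun K eps hK h1 h2 d => ?_⟩
  obtain ⟨h0, H'⟩ := H K eps hK h1 h2 d
  exact ⟨h0, fun h hh hh0 P' hP G mp gf => H' h hh hh0 P' hP G mp gf hh hP mp gf⟩

/-- all parameters are eventually as good as one wants -/
theorem eventually_params (t : TwD) (K0 : Finset (ℤ × ℤ)) {e0 : ℝ} (he0 : 0 < e0) (h0 : ℕ) :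
    ∀ᶠ c : Ch t in EvF t, K0 ⊆ c.K ∧ 0 < c.eps ∧ c.eps ≤ e0 ∧ h0 ≤ c.h := by
  change Ev t fun K eps d h P' G => ∀ (hh : 0 < h) (hP : t.q * P' = t.P * h * d.q2 + 1)
    (mp : MP G) (gf : Nonempty (GForm d h G)), K0 ⊆ K ∧ 0 < eps ∧ eps ≤ e0 ∧ h0 ≤ h
  exact ⟨K0, e0, he0, fun K eps hK h1 h2 d => ⟨h0, fun h hh hh0 P' hP G mp gf _ _ _ _ =>
    ⟨hK, h1, h2, hh0⟩⟩⟩

/-- composition with a measure preserving lifted diffeomorphism on `L²` of the torus -/
noncomputable def cc (A : LD) (hA : MP A) : HT →ₗᵢ[ℂ] HT := Lp.compMeasurePreservingₗᵢ ℂ A.perm hA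

theorem cc_coe (A : LD) (hA : MP A) (f : HT) : cc A hA f =ᵐ[volume] fun y => f (A.perm y) :=
  Lp.coeFn_compMeasurePreserving f hA

theorem cc_toLp (A : LD) (hA : MP A) {f : T3 → ℂ} (hf : MemLp f 2 volume) :
    cc A hA (hf.toLp f) =ᵐ[volume] fun y => f (A.perm y) := by
  refine (cc_coe A hA _).trans ?_
  exact hA.quasiMeasurePreserving.ae_eq_comp hf.coeFn_toLp

/-- the step isometry on the mode space -/
noncomputable def KK {t : TwD} (c : Ch t) : V →ₗᵢ[ℂ] V :=
  Phi.toLinearIsometry.comp ((cc c.G c.mp).comp Phi.symm.toLinearIsometry)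

theorem KK_Phi {t : TwD} (c : Ch t) (f : HT) : KK c (Phi f) = Phi (cc c.G c.mp f) := by
  simp [KK]

theorem KK_toLp {t : TwD} (c : Ch t) {f : T3 → ℂ} (hf : MemLp f 2 volume) :
    (KK c (Phi (hf.toLp f)) : X → ℂ) =ᵐ[muX] fcX (fun y => f (c.G.perm y)) := by
  rw [KK_Phi]
  exact (Phi_coe _).trans (fc_congr (cc_toLp c.G c.mp hf))


/-- `ms` as `off` -/
theorem ms_eq_off {B : Set X} (hB : MeasurableSet B) {u : T3 → ℂ} {w : V}
    (hw : (w : X → ℂ) =ᵐ[muX] fcX u) : ms Bᶜ u = off B w := by
  have hwL : MemLp (Bᶜ.indicator w) 2 muX := memLp_ind hB w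
  have h1 : (eLpNorm (Bᶜ.indicator w) 2 muX).toReal ^ 2 = ∫ x in Bᶜ, ‖fcX u x‖ ^ 2 ∂muX := by
    have h2 : eLpNorm (Bᶜ.indicator w) 2 muX ^ 2 = ∫⁻ x, ‖Bᶜ.indicator w x‖ₑ ^ 2 ∂muX :=
      eLpNorm_two_sq _
    rw [← ENNReal.toReal_pow, h2, ← integral_indicator hB.compl]
    rw [integral_eq_lintegral_of_nonneg_ae]
    · congr 1
      refine lintegral_congr_ae ?_
      filter_upwards [hw] with x hx
      by_cases hxB : x ∈ Bᶜ
      · rw [Set.indicator_of_mem hxB, Set.indicator_of_mem hxB, hx,
          ENNReal.ofReal_pow (norm_nonneg _), ofReal_norm]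
      · rw [Set.indicator_of_notMem hxB, Set.indicator_of_notMem hxB]
        simp
    · exact Eventually.of_forall fun x => Set.indicator_nonneg (fun _ _ => by positivity) _
    · refine AEStronglyMeasurable.indicator ?_ hB.compl
      have h3 : AEStronglyMeasurable (fcX u) muX :=
        (Lp.aestronglyMeasurable w).congr hw
      exact h3.norm.pow 2
  unfold ms off
  rw [← h1, Real.sqrt_sq ENNReal.toReal_nonneg]

/-- measurability on the mode space by fibres -/
theorem measurableSet_of_fibres {B : Set X} (h : ∀ k : ℤ × ℤ, MeasurableSet {c : ℝ | (k, c) ∈ B}) :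
    MeasurableSet B := by
  have : B = ⋃ k : ℤ × ℤ, (fib k ∩ {x : X | (k, x.2) ∈ B}) := by
    ext x
    simp only [Set.mem_iUnion, Set.mem_inter_iff, fib, Set.mem_ofPred_eq]
    constructor
    · intro hx
      exact ⟨x.1, rfl, hx⟩
    · rintro ⟨k, rfl, hx⟩
      exact hx
  rw [this]
  refine MeasurableSet.iUnion fun k => (measurableSet_fib k).inter ?_
  exact measurable_snd (h k)

theorem meas_overE {q : ℕ} {K : Finset (ℤ × ℤ)} {eps : ℝ} (d : Des q K eps) (P' : ℤ) :
    MeasurableSet (overE d P') := by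
  refine measurableSet_of_fibres fun k => ?_
  exact d.E_meas ((k.1 * P' : ℤ) : ZMod d.q2) k.2

theorem meas_Sal {t : TwD} (M : Modes t) : MeasurableSet M.Sal := by
  have : M.Sal = ⋃ r : ℤ, {x : X | (((x.1.1 + r * t.q, x.1.2), x.2) : X) ∈ M.S} := by
    ext x
    simp [Modes.Sal]
  rw [this]
  refine MeasurableSet.iUnion fun r => ?_
  refine measurableSet_of_fibres fun k => ?_
  exact (measurable_prodMk_left (x := ((k.1 + r * t.q, k.2) : ℤ × ℤ))) M.meas

theorem meas_offZ (t : TwD) : MeasurableSet (offZ t) := by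
  refine measurableSet_of_fibres fun k => ?_
  by_cases hk : k = 0
  · subst hk
    simp [offZ]
  · have : {c : ℝ | ((k, c) : X) ∈ offZ t} = (Set.Icc t.del (1 - t.del))ᶜ := by
      ext c
      simp [offZ, hk]
    rw [this]
    exact measurableSet_Icc.compl

theorem measurable_Fp (v : ℝ) {d : ℝ} (hd : 0 < d) : Measurable (Fp v d) :=
  (Fp_smooth v hd).continuous.measurable

theorem stepS_eq {t : TwD} (M : Modes t) {K : Finset (ℤ × ℤ)} {eps : ℝ} (d : Des t.q K eps) (h : ℕ)
    (P' : ℤ) : stepS M d h P' = Ms.StepSet t.q d.q2 h P' t.psi (Fp d.v d.del) M.S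
      {y : X | (((y.1.1 : ZMod d.q2), y.1.2), y.2) ∈ d.E} := rfl

theorem meas_stepS {t : TwD} (M : Modes t) {K : Finset (ℤ × ℤ)} {eps : ℝ} (d : Des t.q K eps)
    {h : ℕ} (hh : 0 < h) (P' : ℤ) : MeasurableSet (stepS M d h P') := by
  rw [stepS_eq]
  refine Ms.stepSet_measurable hh t.al t.del t.al_pos.ne' (Set.Icc t.del (1 - t.del)) t.lin M.sub
    M.ne0 M.meas ?_ (measurable_Fp _ d.del_pos)
  refine measurableSet_of_fibres fun k => ?_
  exact d.E_meas (k.1 : ZMod d.q2) k.2

end Crest.Agent.R081.Tr
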