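import Crest.Agent.R081.TwStmt_Mg
import Crest.Agent.R081.G1
import Crest.Agent.R081.FmSum
import Crest.Agent.R081.BaseSt_Mg
import Mathlib
import Crest.Agent.R081.Tp2
import Crest.Agent.R081.FmDefs
import Crest.Agent.R081.Co2
import Crest.Agent.R081.FrPl
import Crest.Agent.R075.Basic
import Crest.Agent.R081.Co
import Crest.Agent.R081.TrD
import Crest.Agent.R081.StDefs
import Crest.Agent.R081.Co3
import Crest.Agent.R081.FrPars
import Crest.Agent.R081.FmIso
import Crest.Agent.R081.StSkel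
import Crest.Agent.R081.Cv2

-- ▼ part R081/Asm
section

/-! Row 81, route B (architect helper310): the assembly. -/

set_option autoImplicit false

namespace Crest.Agent.R081.Asm

open MeasureTheory Crest.AnalysisR.Torus3 Crest.Agent.R075 Crest.Agent.R081.Fm
  Crest.Agent.R081.Sm Crest.Agent.R081.Tw Crest.Agent.R081.St Crest.Agent.R081.G1

theorem heStmt : HEStmt := by
  intro t K eps d h0
  obtain ⟨h, h1, h2, Pp, h3⟩ := exists_h t.q_pos t.cop.symm d.cop h0
  exact ⟨h, Pp, h2, h1, h3⟩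

theorem hfc (u : T3 → ℂ) (hu : MemLp u 2 volume) : Integrable (fun x => ‖fcX u x‖ ^ 2) muX :=
  (memLp_fcX hu).integrable_norm_pow (by norm_num)


end Crest.Agent.R081.Asm
end

-- ▼ part R081/Asm2
section

/-! Row 81, route B (architect helper310): the assembly, remaining statements. -/

set_option autoImplicit false

namespace Crest.Agent.R081.Asm

open MeasureTheory Crest.AnalysisR.Torus3 Crest.Agent.R081.Fm
  Crest.Agent.R081.Sm Crest.Agent.R081.Tw Crest.Agent.R081.St Crest.Agent.R081.G1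

theorem goal_of' (hD : DesStmt) (h1 : T1Stmt) (h0 : T0Stmt) (hGA : GAStmt) (hGP : GPStmt) :
    Glue.Goal :=
  Flat.goal_of_StepStmt
    (stepStmt hD smoothStmt Cv.modes_stmt Dt.t3Stmt Dt.t2Stmt h1 h0 hGA hGP heStmt hfc)
    BaseSt.nonempty_stage

end Crest.Agent.R081.Asm
end

-- ▼ part R081/Tp3
section

/-!
# Row 81 (twists), node TRANSPORT, part 3 (helper230): (MAIN) on the mode space `muX`.
-/

set_option autoImplicit false

namespace Crest.Agent.R081.Tp

open MeasureTheory Crest.Agent.R075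
open scoped ENNReal

theorem lintegral_muX {G : (ℤ × ℤ) × ℝ → ℝ≥0∞} (hG : Measurable G) :
    ∫⁻ x, G x ∂Fm.muX = ∫⁻ c in Set.Ioc (0 : ℝ) 1, ∑' b : ℤ, ∑' j : ℤ, G ((j, b), c) := by
  have h1 : ∀ c : ℝ, ∑' b : ℤ, ∑' j : ℤ, G ((j, b), c) = ∑' k : ℤ × ℤ, G (k, c) := by
    intro c
    rw [ENNReal.tsum_comm]
    exact (ENNReal.tsum_prod (f := fun j b => G ((j, b), c))).symm
  simp only [h1]
  unfold Fm.muX Fm.I01
  rw [lintegral_prod _ hG.aemeasurable, lintegral_count, lintegral_tsum]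
  intro k
  exact (hG.comp measurable_prodMk_left).aemeasurable

/-- coefficient array of `(u e(k.y)) ∘ K ∘ Lin` (right-hand side of (1.3)) -/
noncomputable def Carr (q q2 : ℕ) (F : ℝ → ℝ) (phi : ℝ → ℂ) (Dj : ℤ → ℤ → ℝ → ℂ)
    (x : (ℤ × ℤ) × ℝ) : ℂ :=
  ee (-(x.1.1 * x.2 / (q * q2))) * (phi (x.1.1 / (q * q2) + x.1.2 * F x.2) * Dj x.1.1 x.1.2 x.2)

/-- the main array `main(k,u)` -/
noncomputable def mainA (q q2 : ℕ) (N k1 : ℤ) (F : ℝ → ℝ) (psi : ℝ → ℂ) (M : ℤ → ℤ → ℝ → ℂ)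
    (x : (ℤ × ℤ) × ℝ) : ℂ :=
  if (q : ℤ) ∣ x.1.1 - k1 then
    ee (-(x.1.1 * x.2 / (q * q2))) *
      (psi (x.1.1 / (q * q2) + x.1.2 * F x.2) * M (x.1.1 * N) x.1.2 x.2) else 0

theorem measurable_Carr {q q2 : ℕ} {F : ℝ → ℝ} (hF : Measurable F) {phi : ℝ → ℂ}
    (hphi : Measurable phi) {Dj : ℤ → ℤ → ℝ → ℂ} (hD : ∀ j b, Measurable (Dj j b)) :
    Measurable (Carr q q2 F phi Dj) := by
  refine measurable_from_prod_countable_right fun k => ?_
  unfold Carr
  simp only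
  refine Measurable.mul ?_ (Measurable.mul ?_ (hD _ _))
  · exact ee_continuous.measurable.comp (by fun_prop)
  · exact hphi.comp (measurable_const.add (hF.const_mul _))

theorem measurable_mainA {q q2 : ℕ} {N k1 : ℤ} {F : ℝ → ℝ} (hF : Measurable F) {psi : ℝ → ℂ}
    (hpsi : Measurable psi) {M : ℤ → ℤ → ℝ → ℂ} (hM : ∀ a b, Measurable (M a b)) :
    Measurable (mainA q q2 N k1 F psi M) := by
  refine measurable_from_prod_countable_right fun k => ?_
  unfold mainA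
  simp only
  by_cases hk : (q : ℤ) ∣ k.1 - k1
  · simp only [hk, if_true]
    refine Measurable.mul ?_ (Measurable.mul ?_ (hM _ _))
    · exact ee_continuous.measurable.comp (by fun_prop)
    · exact hpsi.comp (measurable_const.add (hF.const_mul _))
  · simp [hk]

/-- **(MAIN)**, array form: `∫ |C - main|² ∂muX ≤ 2 (A e' + e)`. -/
theorem main_bound (q q2 : ℕ) (hq : 0 < q) (hq2 : 0 < q2) (N : ℤ) (hN : (q2 : ℤ) ∣ q * N - 1)
    (k1 : ℤ) (phi psi : ℝ → ℂ) (hphi : Measurable phi) (hpsi : Measurable psi)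
    (A e e' : ℝ≥0∞) (hA : ∀ τ : ℝ, ∑' m : ℤ, ‖phi (τ + m)‖ₑ ^ 2 ≤ A)
    (he : ∫⁻ τ, ‖phi τ - psi τ‖ₑ ^ 2 ≤ e)
    (F : ℝ → ℝ) (vs d : ℝ) (hvs : 0 < vs) (hFm : Measurable F)
    (E : ℤ → ℤ → Set ℝ) (hEm : ∀ a b, MeasurableSet (E a b)) (hE0 : ∀ a, E a 0 = ∅)
    (hF : ∀ a b, ∀ c ∈ E a b, F c = vs * (c - d)) (hE : InjE q2 F E)
    (D M : ℤ → ℤ → ℝ → ℂ) (hDp : ∀ a b c, D (a + q2) b c = D a b c)
    (hMp : ∀ a b c, M (a + q2) b c = M a b c)
    (hDm : ∀ a b, Measurable (D a b)) (hMm : ∀ a b, Measurable (M a b))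
    (hM : ∀ a b c, ‖M a b c‖ₑ ^ 2 ≤ (E a b).indicator (fun _ => ENNReal.ofReal (|(b : ℝ)| * vs)) c)
    (hDM : ∫⁻ c in Set.Ioc (0 : ℝ) 1, ∑' b : ℤ, ∑ a ∈ Finset.range q2, ‖D a b c - M a b c‖ₑ ^ 2 ≤ e')
    (Dj : ℤ → ℤ → ℝ → ℂ) (hDj : ∀ j b, Measurable (Dj j b))
    (hDj0 : ∀ j b c, ¬ (q : ℤ) ∣ j - k1 → Dj j b c = 0)
    (hDj1 : ∀ j b c, (q : ℤ) ∣ j - k1 → Dj j b c = D (j * N) b c) :
    ∫⁻ x, ‖Carr q q2 F phi Dj x - mainA q q2 N k1 F psi M x‖ₑ ^ 2 ∂Fm.muX ≤ 2 * (A * e' + e) := by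
  have hm : Measurable fun x => ‖Carr q q2 F phi Dj x - mainA q q2 N k1 F psi M x‖ₑ ^ 2 :=
    ((measurable_Carr hFm hphi hDj).sub (measurable_mainA hFm hpsi hMm)).enorm.pow_const 2
  rw [lintegral_muX hm]
  refine le_trans (le_of_eq ?_) (tpA q q2 hq hq2 N hN k1 phi psi hphi hpsi A e e' hA he F vs d hvs
    hFm E hEm hE0 hF hE D M hDp hMp hDm hMm hM hDM)
  refine lintegral_congr fun c => tsum_congr fun b => tsum_congr fun j => ?_
  unfold Carr mainA
  simp only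
  by_cases hj : (q : ℤ) ∣ j - k1
  · simp only [hj, if_true, hDj1 j b c hj]
    rw [← mul_sub, enorm_mul]
    have : ‖ee (-(j * c / (q * q2)))‖ₑ = 1 := by
      rw [← ofReal_norm, norm_ee]; simp
    rw [this, one_mul]
  · simp [hj, hDj0 j b c hj]


end Crest.Agent.R081.Tp
end

-- ▼ part R081/Fresnel
section

/-!
# Row 81, node FRESNEL (helper326)

`T lam f x = √|lam| ∫ f(c) e(lam (c-x)^2/2) dc` is an isometry of `L² ∩ L¹` and
`T lam f - kap lam • f → 0` in `L²` as `|lam| → ∞`.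
-/

set_option autoImplicit false

open MeasureTheory Filter Topology Complex
open scoped ENNReal FourierTransform SchwartzMap ContDiff

noncomputable section

namespace Crest.Agent.R081.Fr

open Crest.Agent.R075 (ee norm_ee ee_add ee_eq)

/-! ## scaling -/

theorem eLpNorm_comp_mul {H : ℝ → ℂ} {a : ℝ} (ha : a ≠ 0) :
    eLpNorm (fun x => H (a * x)) 2 volume =
      ENNReal.ofReal (|a|⁻¹) ^ (1 / 2 : ℝ) * eLpNorm H 2 volume := by
  have h1 := (Homeomorph.mulLeft₀ a ha).measurableEmbedding.eLpNorm_map_measure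
    (g := H) (p := 2) (μ := volume)
  have h2 : Measure.map (Homeomorph.mulLeft₀ a ha) (volume : Measure ℝ) =
      ENNReal.ofReal |a⁻¹| • volume := Real.map_volume_mul_left ha
  rw [h2] at h1
  have h3 : (H ∘ (Homeomorph.mulLeft₀ a ha)) = fun x => H (a * x) := by
    funext x; rfl
  rw [h3] at h1
  rw [← h1, eLpNorm_smul_measure_of_ne_top (by norm_num), abs_inv, smul_eq_mul]
  congr 2
  norm_num

/-! ## the Fresnel operator -/

def T (lam : ℝ) (f : ℝ → ℂ) (x : ℝ) : ℂ :=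
  (Real.sqrt |lam| : ℂ) * ∫ c, f c * ee (lam * (c - x) ^ 2 / 2)

theorem continuous_ee : Continuous ee := by
  unfold Crest.Agent.R075.ee; fun_prop

theorem T_eq (lam : ℝ) (f : ℝ → ℂ) (x : ℝ) :
    T lam f x = (Real.sqrt |lam| : ℂ) * ee (lam * x ^ 2 / 2) *
      𝓕 (fun c => f c * ee (lam * c ^ 2 / 2)) (lam * x) := by
  unfold T
  rw [mul_assoc]
  congr 1
  rw [Real.fourier_real_eq_integral_exp_smul, ← integral_const_mul]
  refine integral_congr_ae (Eventually.of_forall fun c => ?_)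
  simp only [smul_eq_mul]
  have e1 : cexp (((-2 * Real.pi * c * (lam * x) : ℝ) : ℂ) * I) = ee (-(c * (lam * x))) := by
    rw [ee_eq]; congr 2; push_cast; ring
  rw [e1]
  have e2 : lam * (c - x) ^ 2 / 2 = lam * x ^ 2 / 2 + (-(c * (lam * x)) + lam * c ^ 2 / 2) := by
    ring
  rw [e2, ee_add, ee_add]
  ring

theorem integrable_chirp {f : ℝ → ℂ} (h1 : Integrable f) {p : ℝ → ℝ} (hp : Continuous p) :
    Integrable fun c => f c * ee (p c) := by
  refine h1.mul_bdd (c := 1) ((continuous_ee.comp hp).aestronglyMeasurable)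
    (Eventually.of_forall fun c => by simp)

theorem memLp_chirp {f : ℝ → ℂ} (h2 : MemLp f 2) {p : ℝ → ℝ} (hp : Continuous p) :
    MemLp (fun c => f c * ee (p c)) 2 := by
  refine h2.of_le (h2.aestronglyMeasurable.mul (continuous_ee.comp hp).aestronglyMeasurable)
    (Eventually.of_forall fun c => by simp)

theorem eLpNorm_chirp {f : ℝ → ℂ} {p : ℝ → ℝ} :
    eLpNorm (fun c => f c * ee (p c)) 2 volume = eLpNorm f 2 volume := by
  refine eLpNorm_congr_norm_ae (Eventually.of_forall fun c => by simp)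

theorem continuous_fourier {f : ℝ → ℂ} (h1 : Integrable f) : Continuous (𝓕 f) := by
  simpa using! VectorFourier.fourierIntegral_continuous (V := ℝ) (W := ℝ)
    Real.continuous_fourierChar (L := innerₗ ℝ) continuous_inner h1

theorem continuous_T {lam : ℝ} {f : ℝ → ℂ} (h1 : Integrable f) : Continuous (T lam f) := by
  have e : T lam f = fun x => (Real.sqrt |lam| : ℂ) * ee (lam * x ^ 2 / 2) *
      𝓕 (fun c => f c * ee (lam * c ^ 2 / 2)) (lam * x) := by
    funext x; exact T_eq lam f x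
  rw [e]
  have hp : Continuous fun c : ℝ => lam * c ^ 2 / 2 := by fun_prop
  have h3 := continuous_fourier (integrable_chirp h1 hp)
  exact (continuous_const.mul (continuous_ee.comp hp)).mul
    (h3.comp (continuous_const.mul continuous_id))

theorem eLpNorm_T {lam : ℝ} (hlam : lam ≠ 0) {f : ℝ → ℂ} (h1 : Integrable f) (h2 : MemLp f 2) :
    eLpNorm (T lam f) 2 volume = eLpNorm f 2 volume := by
  have hp : Continuous fun c : ℝ => lam * c ^ 2 / 2 := by fun_prop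
  have e1 : eLpNorm (T lam f) 2 volume =
      eLpNorm ((Real.sqrt |lam| : ℂ) • fun x =>
        𝓕 (fun c => f c * ee (lam * c ^ 2 / 2)) (lam * x)) 2 volume := by
    refine eLpNorm_congr_norm_ae (Eventually.of_forall fun x => ?_)
    rw [T_eq]
    simp
  rw [e1, eLpNorm_const_smul, eLpNorm_comp_mul hlam,
    eLpNorm_fourier (integrable_chirp h1 hp) (memLp_chirp h2 hp), eLpNorm_chirp, ← mul_assoc]
  have e2 : ‖(Real.sqrt |lam| : ℂ)‖ₑ * ENNReal.ofReal (|lam|⁻¹) ^ (1 / 2 : ℝ) = 1 := by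
    have hl : 0 < |lam| := abs_pos.2 hlam
    rw [← ofReal_norm, Complex.norm_real, Real.norm_eq_abs, abs_of_nonneg (Real.sqrt_nonneg _),
      ENNReal.ofReal_rpow_of_nonneg (by positivity) (by norm_num),
      ← ENNReal.ofReal_mul (Real.sqrt_nonneg _), ← Real.sqrt_eq_rpow, ← Real.sqrt_mul hl.le,
      mul_inv_cancel₀ hl.ne', Real.sqrt_one, ENNReal.ofReal_one]
  rw [e2, one_mul]


theorem T_sub {lam : ℝ} {f g : ℝ → ℂ} (hf : Integrable f) (hg : Integrable g) (x : ℝ) :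
    T lam (fun c => f c - g c) x = T lam f x - T lam g x := by
  unfold T
  have hp : Continuous fun c : ℝ => lam * (c - x) ^ 2 / 2 := by fun_prop
  rw [← mul_sub, ← integral_sub (integrable_chirp hf hp) (integrable_chirp hg hp)]
  congr 1
  refine integral_congr_ae (Eventually.of_forall fun c => ?_)
  simp only [sub_mul]

/-! ## the Gaussian identity -/

theorem gauss_shift {b : ℂ} (hb : 0 < b.re) (x : ℝ) :
    𝓕 (fun c : ℝ => cexp (-Real.pi * b * (c - x) ^ 2)) = fun t : ℝ =>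
      1 / b ^ (1 / 2 : ℂ) * (cexp (-Real.pi / b * t ^ 2) * cexp (-2 * Real.pi * I * t * x)) := by
  have hb0 : b ≠ 0 := by
    rintro rfl; simp at hb
  have h := fourier_gaussian_pi' hb (b * x)
  have e1 : (fun c : ℝ => cexp (-Real.pi * b * (c - x) ^ 2)) =
      cexp (-Real.pi * b * x ^ 2) • fun c : ℝ =>
        cexp (-Real.pi * b * c ^ 2 + 2 * Real.pi * (b * x) * c) := by
    funext c
    simp only [Pi.smul_apply, smul_eq_mul]
    rw [← Complex.exp_add]
    congr 1; ring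
  rw [e1]
  have e2 : 𝓕 (cexp (-Real.pi * b * x ^ 2) • fun c : ℝ =>
        cexp (-Real.pi * b * c ^ 2 + 2 * Real.pi * (b * x) * c)) =
      cexp (-Real.pi * b * x ^ 2) • 𝓕 (fun c : ℝ =>
        cexp (-Real.pi * b * c ^ 2 + 2 * Real.pi * (b * x) * c)) := by
    funext t
    simp only [Pi.smul_apply, smul_eq_mul]
    rw [Real.fourier_real_eq_integral_exp_smul, Real.fourier_real_eq_integral_exp_smul,
      ← integral_const_mul]
    refine integral_congr_ae (Eventually.of_forall fun c => ?_)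
    simp only [Pi.smul_apply, smul_eq_mul]
    ring
  rw [e2, h]
  funext t
  simp only [Pi.smul_apply, smul_eq_mul]
  rw [← Complex.exp_add, mul_left_comm, ← Complex.exp_add]
  congr 2
  field_simp
  ring_nf
  rw [I_sq]
  ring

theorem gauss_identity {u : ℝ → ℂ} (hu : Integrable u) {b : ℂ} (hb : 0 < b.re) (x : ℝ) :
    ∫ c : ℝ, 𝓕 u c * cexp (-Real.pi * b * (c - x) ^ 2) =
      1 / b ^ (1 / 2 : ℂ) *
        ∫ t : ℝ, u t * (cexp (-Real.pi / b * t ^ 2) * cexp (-2 * Real.pi * I * t * x)) := by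
  have hint : Integrable (fun c : ℝ => cexp (-Real.pi * b * (c - x) ^ 2)) := by
    have h := (integrable_cexp_neg_mul_sq (b := Real.pi * b)
      (by simp only [Complex.re_ofReal_mul]; positivity)).comp_sub_right x
    refine h.congr (Eventually.of_forall fun c => ?_)
    simp only [neg_mul]
    push_cast
    rfl
  have h := VectorFourier.integral_fourierIntegral_smul_eq_flip (L := innerₗ ℝ)
    (μ := (volume : Measure ℝ)) (ν := (volume : Measure ℝ))
    Real.continuous_fourierChar continuous_inner hu hint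
  have h' : ∫ c : ℝ, 𝓕 u c * cexp (-Real.pi * b * (c - x) ^ 2) =
      ∫ t : ℝ, u t * 𝓕 (fun c : ℝ => cexp (-Real.pi * b * (c - x) ^ 2)) t := by
    simpa using! h
  rw [h', gauss_shift hb, ← integral_const_mul]
  refine integral_congr_ae (Eventually.of_forall fun t => ?_)
  ring

end Crest.Agent.R081.Fr
end
end

-- ▼ part R081/Fresnel2
section

/-!
# Row 81, node FRESNEL, part 2 (helper326): `T lam f - kap lam • f → 0`
-/

set_option autoImplicit false

open MeasureTheory Filter Topology Complex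
open scoped ENNReal FourierTransform SchwartzMap ContDiff

noncomputable section

namespace Crest.Agent.R081.Fr

open Crest.Agent.R075 (ee norm_ee ee_add ee_eq)

/-- the unimodular constant -/
def kap (lam : ℝ) : ℂ := (Real.sqrt |lam| : ℂ) * (1 / (-(I * lam)) ^ (1 / 2 : ℂ))

theorem norm_kap {lam : ℝ} (hlam : lam ≠ 0) : ‖kap lam‖ = 1 := by
  have hl : 0 < |lam| := abs_pos.2 hlam
  have h0 : -(I * (lam : ℂ)) ≠ 0 := by simp [hlam]
  unfold kap
  rw [norm_mul, norm_div, norm_one, Complex.norm_real, Real.norm_eq_abs,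
    abs_of_nonneg (Real.sqrt_nonneg _)]
  have e : ‖(-(I * (lam : ℂ))) ^ (1 / 2 : ℂ)‖ = Real.sqrt |lam| := by
    rw [Complex.norm_cpow_of_ne_zero h0]
    have e1 : ‖-(I * (lam : ℂ))‖ = |lam| := by simp
    have e2 : (1 / 2 : ℂ).im = 0 := by simp
    have e3 : (1 / 2 : ℂ).re = 1 / 2 := by simp
    rw [e1, e2, e3, mul_zero, Real.exp_zero, div_one, Real.sqrt_eq_rpow]
  rw [e, mul_one_div, div_self (Real.sqrt_pos.2 hl).ne']

theorem fresnel_identity {u : ℝ → ℂ} (hu : Integrable u) (hFu : Integrable (𝓕 u)) {lam : ℝ}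
    (hlam : lam ≠ 0) (x : ℝ) :
    ∫ c : ℝ, 𝓕 u c * ee (lam * (c - x) ^ 2 / 2) =
      1 / (-(I * lam)) ^ (1 / 2 : ℂ) *
        ∫ t : ℝ, u t * (ee (-(t ^ 2 / (2 * lam))) * cexp (-2 * Real.pi * I * t * x)) := by
  set b : ℕ → ℂ := fun n => ((1 / ((n : ℝ) + 1) : ℝ) : ℂ) - I * lam with hb
  have hbre : ∀ n, (b n).re = 1 / ((n : ℝ) + 1) := by
    intro n
    simp only [hb, Complex.sub_re, Complex.ofReal_re, Complex.mul_re, I_re, I_im,
      Complex.ofReal_im]
    ring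
  have hbpos : ∀ n, 0 < (b n).re := fun n => by rw [hbre]; positivity
  have hbt : Tendsto b atTop (𝓝 (-(I * lam))) := by
    have h1 : Tendsto (fun n : ℕ => ((1 / ((n : ℝ) + 1) : ℝ) : ℂ)) atTop (𝓝 ((0 : ℝ) : ℂ)) :=
      (Complex.continuous_ofReal.tendsto 0).comp tendsto_one_div_add_atTop_nhds_zero_nat
    have h2 := h1.sub_const (I * (lam : ℂ))
    simpa [hb] using h2
  have h0 : -(I * (lam : ℂ)) ≠ 0 := by simp [hlam]
  have key := fun n => gauss_identity hu (hbpos n) x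
  have L1 : Tendsto (fun n => ∫ c : ℝ, 𝓕 u c * cexp (-Real.pi * b n * (c - x) ^ 2)) atTop
      (𝓝 (∫ c : ℝ, 𝓕 u c * ee (lam * (c - x) ^ 2 / 2))) := by
    refine tendsto_integral_of_dominated_convergence (fun c => ‖𝓕 u c‖) (fun n => ?_) hFu.norm
      (fun n => Eventually.of_forall fun c => ?_) (Eventually.of_forall fun c => ?_)
    · refine hFu.aestronglyMeasurable.mul (Continuous.aestronglyMeasurable ?_)
      fun_prop
    · rw [norm_mul]
      refine mul_le_of_le_one_right (norm_nonneg _) ?_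
      rw [Complex.norm_exp]
      have e : (-(Real.pi : ℂ) * b n * ((c : ℂ) - x) ^ 2).re =
          -(Real.pi * (b n).re * (c - x) ^ 2) := by
        have : (-(Real.pi : ℂ) * b n * ((c : ℂ) - x) ^ 2) =
          ((-(Real.pi * (c - x) ^ 2) : ℝ) : ℂ) * b n := by push_cast; ring
        rw [this, Complex.re_ofReal_mul]; ring
      rw [e]
      refine Real.exp_le_one_iff.2 ?_
      have := hbpos n
      have := Real.pi_pos
      nlinarith [mul_nonneg (mul_nonneg this.le (hbpos n).le) (sq_nonneg (c - x))]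
    · refine Tendsto.const_mul _ ?_
      have e : ee (lam * (c - x) ^ 2 / 2) = cexp (-Real.pi * (-(I * lam)) * (c - x) ^ 2) := by
        rw [ee_eq]; congr 1; push_cast; ring
      rw [e]
      refine (Complex.continuous_exp.tendsto _).comp ?_
      exact (hbt.const_mul _).mul_const _
  have L2 : Tendsto (fun n => 1 / b n ^ (1 / 2 : ℂ) *
        ∫ t : ℝ, u t * (cexp (-Real.pi / b n * t ^ 2) * cexp (-2 * Real.pi * I * t * x))) atTop
      (𝓝 (1 / (-(I * lam)) ^ (1 / 2 : ℂ) *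
        ∫ t : ℝ, u t * (ee (-(t ^ 2 / (2 * lam))) * cexp (-2 * Real.pi * I * t * x)))) := by
    refine Tendsto.mul ?_ ?_
    · refine Tendsto.div tendsto_const_nhds ?_ ?_
      · have hs : -(I * (lam : ℂ)) ∈ Complex.slitPlane := by
          right; simp [hlam]
        exact (continuousAt_cpow_const hs).tendsto.comp hbt
      · rw [Complex.cpow_def_of_ne_zero h0]; exact Complex.exp_ne_zero _
    · refine tendsto_integral_of_dominated_convergence (fun t => ‖u t‖) (fun n => ?_) hu.norm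
        (fun n => Eventually.of_forall fun t => ?_) (Eventually.of_forall fun t => ?_)
      · refine hu.aestronglyMeasurable.mul (Continuous.aestronglyMeasurable ?_)
        fun_prop
      · rw [norm_mul, norm_mul]
        refine mul_le_of_le_one_right (norm_nonneg _) ?_
        have e1 : ‖cexp (-2 * Real.pi * I * t * x)‖ = 1 := by
          have : (-2 * Real.pi * I * t * x : ℂ) = ((-2 * Real.pi * t * x : ℝ) : ℂ) * I := by
            push_cast; ring
          rw [this, Complex.norm_exp_ofReal_mul_I]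
        rw [e1, mul_one, Complex.norm_exp]
        have e : (-(Real.pi : ℂ) / b n * (t : ℂ) ^ 2).re =
            -(Real.pi * t ^ 2 * ((b n)⁻¹).re) := by
          have : (-(Real.pi : ℂ) / b n * (t : ℂ) ^ 2) =
            ((-(Real.pi * t ^ 2) : ℝ) : ℂ) * (b n)⁻¹ := by push_cast; ring
          rw [this, Complex.re_ofReal_mul]; ring
        rw [e]
        refine Real.exp_le_one_iff.2 ?_
        have h3 : 0 ≤ ((b n)⁻¹).re := by
          rw [Complex.inv_re]
          exact div_nonneg (hbpos n).le (Complex.normSq_nonneg _)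
        have := Real.pi_pos
        have h4 : 0 ≤ Real.pi * t ^ 2 * ((b n)⁻¹).re := by positivity
        linarith
      · refine Tendsto.const_mul _ (Tendsto.mul_const _ ?_)
        have e : ee (-(t ^ 2 / (2 * lam))) = cexp (-Real.pi / (-(I * lam)) * t ^ 2) := by
          rw [ee_eq]; congr 1; push_cast
          have hl : (lam : ℂ) ≠ 0 := by exact_mod_cast hlam
          field_simp
          ring_nf
          rw [I_sq]; ring
        rw [e]
        refine (Complex.continuous_exp.tendsto _).comp ?_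
        exact (tendsto_const_nhds.div hbt h0).mul_const _
  have e3 : (fun n => ∫ c : ℝ, 𝓕 u c * cexp (-Real.pi * b n * (c - x) ^ 2)) =
      fun n => 1 / b n ^ (1 / 2 : ℂ) *
        ∫ t : ℝ, u t * (cexp (-Real.pi / b n * t ^ 2) * cexp (-2 * Real.pi * I * t * x)) := by
    funext n; exact key n
  rw [e3] at L1
  exact tendsto_nhds_unique L1 L2

/-- `T lam` on Fourier transforms of Schwartz functions -/
theorem T_fourier {u : ℝ → ℂ} (hu : Integrable u) (hFu : Integrable (𝓕 u)) {lam : ℝ}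
    (hlam : lam ≠ 0) (x : ℝ) :
    T lam (𝓕 u) x - kap lam * 𝓕 u x =
      kap lam * 𝓕 (fun t => u t * (ee (-(t ^ 2 / (2 * lam))) - 1)) x := by
  have h1 : T lam (𝓕 u) x = kap lam * 𝓕 (fun t => u t * ee (-(t ^ 2 / (2 * lam)))) x := by
    unfold T kap
    rw [fresnel_identity hu hFu hlam, ← mul_assoc]
    congr 1
    rw [Real.fourier_real_eq_integral_exp_smul]
    refine integral_congr_ae (Eventually.of_forall fun t => ?_)
    simp only [smul_eq_mul]
    have : (((-2 * Real.pi * t * x : ℝ) : ℂ) * I) = -2 * Real.pi * I * t * x := by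
      push_cast; ring
    rw [this]; ring
  rw [h1, ← mul_sub]
  congr 1
  have hp : Continuous fun t : ℝ => -(t ^ 2 / (2 * lam)) := by fun_prop
  have i1 := integrable_chirp hu hp
  rw [Real.fourier_real_eq_integral_exp_smul, Real.fourier_real_eq_integral_exp_smul,
    Real.fourier_real_eq_integral_exp_smul, ← integral_sub]
  · refine integral_congr_ae (Eventually.of_forall fun t => ?_)
    simp only [smul_eq_mul]
    ring
  · have : Integrable fun v : ℝ => (u v * ee (-(v ^ 2 / (2 * lam)))) * ee (-(v * x)) :=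
      integrable_chirp i1 (by fun_prop)
    refine this.congr (Eventually.of_forall fun v => ?_)
    simp only [smul_eq_mul]
    rw [mul_comm]
    congr 1
    rw [ee_eq]; congr 2; push_cast; ring
  · have : Integrable fun v : ℝ => u v * ee (-(v * x)) := integrable_chirp hu (by fun_prop)
    refine this.congr (Eventually.of_forall fun v => ?_)
    simp only [smul_eq_mul]
    rw [mul_comm]
    congr 1
    rw [ee_eq]; congr 2; push_cast; ring

end Crest.Agent.R081.Fr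
end
end

-- ▼ part R081/Fresnel3
section

/-!
# Row 81, node FRESNEL, part 3 (helper326): limit theorems
-/

set_option autoImplicit false

open MeasureTheory Filter Topology Complex
open scoped ENNReal FourierTransform SchwartzMap ContDiff

noncomputable section

namespace Crest.Agent.R081.Fr

open Crest.Agent.R075 (ee norm_ee ee_add ee_eq)

theorem norm_ee_sub_one_le (x : ℝ) : ‖ee x - 1‖ ≤ 2 * Real.pi * |x| := by
  have h := Real.norm_exp_I_mul_ofReal_sub_one_le (x := 2 * Real.pi * x)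
  have e : ee x = cexp (I * ((2 * Real.pi * x : ℝ) : ℂ)) := by rw [ee_eq, mul_comm]
  rw [e]
  refine h.trans (le_of_eq ?_)
  rw [Real.norm_eq_abs, abs_mul, abs_of_pos (by positivity : (0 : ℝ) < 2 * Real.pi)]

theorem schwartz_dense {f : ℝ → ℂ} (h2 : MemLp f 2) {ε : ℝ} (hε : 0 < ε) :
    ∃ g : 𝓢(ℝ, ℂ), eLpNorm (fun x => f x - g x) 2 volume ≤ ENNReal.ofReal ε := by
  obtain ⟨g, hg⟩ := (SchwartzMap.denseRange_toLpCLM (E := ℝ) (F := ℂ) (p := 2)
    (μ := (volume : Measure ℝ)) ENNReal.ofNat_ne_top).exists_dist_lt (h2.toLp f) hε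
  refine ⟨g, ?_⟩
  have h3 : (SchwartzMap.toLpCLM ℝ (E := ℝ) ℂ 2 (volume : Measure ℝ)) g =
      g.toLp 2 (volume : Measure ℝ) := rfl
  rw [h3, dist_eq_norm] at hg
  have h4 : eLpNorm (fun x => f x - g x) 2 volume =
      ‖h2.toLp f - g.toLp 2 (volume : Measure ℝ)‖ₑ := by
    rw [Lp.enorm_def]
    refine eLpNorm_congr_ae ?_
    filter_upwards [h2.coeFn_toLp, g.coeFn_toLp 2 (volume : Measure ℝ),
      Lp.coeFn_sub (h2.toLp f) (g.toLp 2 (volume : Measure ℝ))] with x hx hy hz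
    rw [hz, Pi.sub_apply, hx, hy]
  rw [h4, ← ofReal_norm]
  exact ENNReal.ofReal_le_ofReal hg.le

theorem memLp_sq_mul (u : 𝓢(ℝ, ℂ)) : MemLp (fun t : ℝ => ((t : ℂ) ^ 2) * u t) 2 := by
  have hg : (fun t : ℝ => (t : ℂ) ^ 2).HasTemperateGrowth := by fun_prop
  have h := (SchwartzMap.smulLeftCLM ℂ (fun t : ℝ => (t : ℂ) ^ 2) u).memLp 2 (volume : Measure ℝ)
  refine h.ae_eq (Eventually.of_forall fun t => ?_)
  simp [SchwartzMap.smulLeftCLM_apply_apply hg]

theorem T_schwartz (g : 𝓢(ℝ, ℂ)) : ∃ M : ℝ, 0 ≤ M ∧ ∀ lam : ℝ, lam ≠ 0 →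
    eLpNorm (fun x => T lam g x - kap lam * g x) 2 volume ≤ ENNReal.ofReal (M / |lam|) := by
  set u : 𝓢(ℝ, ℂ) := 𝓕⁻ g with hu
  have hFu : 𝓕 (u : ℝ → ℂ) = g := by
    rw [← SchwartzMap.fourier_coe, hu, FourierTransform.fourier_fourierInv_eq]
  have hFi : Integrable (𝓕 (u : ℝ → ℂ)) := by rw [hFu]; exact g.integrable
  have hsq := memLp_sq_mul u
  set M := Real.pi * (eLpNorm (fun t : ℝ => ((t : ℂ) ^ 2) * u t) 2 volume).toReal with hM
  refine ⟨M, by positivity, fun lam hlam => ?_⟩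
  have hl : 0 < |lam| := abs_pos.2 hlam
  have hp : Continuous fun t : ℝ => -(t ^ 2 / (2 * lam)) := by fun_prop
  have hbd : ∀ t : ℝ, ‖u t * (ee (-(t ^ 2 / (2 * lam))) - 1)‖ ≤
      Real.pi / |lam| * ‖((t : ℂ) ^ 2) * u t‖ := by
    intro t
    rw [norm_mul, norm_mul]
    have h1 := norm_ee_sub_one_le (-(t ^ 2 / (2 * lam)))
    have h2 : 2 * Real.pi * |(-(t ^ 2 / (2 * lam)))| = Real.pi / |lam| * ‖((t : ℂ) ^ 2)‖ := by
      rw [abs_neg, abs_div, abs_mul, norm_pow, Complex.norm_real, Real.norm_eq_abs, sq_abs,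
        abs_of_nonneg (sq_nonneg t), abs_of_pos (by norm_num : (0 : ℝ) < 2)]
      field_simp
    rw [h2] at h1
    calc ‖u t‖ * ‖ee (-(t ^ 2 / (2 * lam))) - 1‖ ≤ ‖u t‖ * (Real.pi / |lam| * ‖((t : ℂ) ^ 2)‖) :=
          mul_le_mul_of_nonneg_left h1 (norm_nonneg _)
      _ = _ := by ring
  have hmeas : AEStronglyMeasurable (fun t : ℝ => u t * (ee (-(t ^ 2 / (2 * lam))) - 1)) volume :=
    (u.continuous.mul ((continuous_ee.comp hp).sub continuous_const)).aestronglyMeasurable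
  have i1 : Integrable (fun t : ℝ => u t * (ee (-(t ^ 2 / (2 * lam))) - 1)) := by
    refine (u.integrable.norm.const_mul 2).mono' hmeas (Eventually.of_forall fun t => ?_)
    rw [norm_mul, mul_comm]
    refine mul_le_mul_of_nonneg_right ?_ (norm_nonneg _)
    refine (norm_sub_le _ _).trans ?_
    rw [norm_ee, norm_one]; norm_num
  have m2 : MemLp (fun t : ℝ => u t * (ee (-(t ^ 2 / (2 * lam))) - 1)) 2 :=
    hsq.of_le_mul (c := Real.pi / |lam|) hmeas (Eventually.of_forall hbd)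
  have e1 : eLpNorm (fun x => T lam g x - kap lam * g x) 2 volume =
      eLpNorm (𝓕 (fun t : ℝ => u t * (ee (-(t ^ 2 / (2 * lam))) - 1))) 2 volume := by
    refine eLpNorm_congr_norm_ae (Eventually.of_forall fun x => ?_)
    have := T_fourier u.integrable hFi hlam x
    rw [hFu] at this
    rw [this, norm_mul, norm_kap hlam, one_mul]
  rw [e1, eLpNorm_fourier i1 m2]
  refine (eLpNorm_le_mul_eLpNorm_of_ae_le_mul (c := Real.pi / |lam|)
    (Eventually.of_forall hbd) 2).trans ?_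
  rw [hM]
  have hfin : eLpNorm (fun t : ℝ => ((t : ℂ) ^ 2) * u t) 2 volume ≠ ⊤ := hsq.2.ne
  conv_lhs => rw [← ENNReal.ofReal_toReal hfin]
  rw [← ENNReal.ofReal_mul (by positivity)]
  refine ENNReal.ofReal_le_ofReal (le_of_eq ?_)
  ring

/-- (F2') `T lam f - kap lam • f → 0` in `L²` as `|lam| → ∞`, for every `f ∈ L¹ ∩ L²` -/
theorem T_tendsto {f : ℝ → ℂ} (h1 : Integrable f) (h2 : MemLp f 2) {ε : ℝ} (hε : 0 < ε) :
    ∃ Lam : ℝ, 0 < Lam ∧ ∀ lam : ℝ, Lam ≤ |lam| →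
      eLpNorm (fun x => T lam f x - kap lam * f x) 2 volume ≤ ENNReal.ofReal ε := by
  obtain ⟨g, hg⟩ := schwartz_dense h2 (by positivity : 0 < ε / 3)
  obtain ⟨M, hM, hT⟩ := T_schwartz g
  refine ⟨3 * (M + 1) / ε, by positivity, fun lam hlam => ?_⟩
  have hl : 0 < |lam| := lt_of_lt_of_le (by positivity) hlam
  have hl0 : lam ≠ 0 := abs_pos.1 hl
  have hfg1 : Integrable (fun x => f x - g x) := h1.sub g.integrable
  have hfg2 : MemLp (fun x => f x - g x) 2 := h2.sub (g.memLp 2 volume)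
  have e : (fun x => T lam f x - kap lam * f x) =
      (fun x => T lam (fun c => f c - g c) x) + ((fun x => T lam g x - kap lam * g x) -
        (kap lam) • fun x => f x - g x) := by
    funext x
    simp only [Pi.add_apply, Pi.sub_apply, Pi.smul_apply, smul_eq_mul]
    rw [T_sub h1 g.integrable]
    ring
  have mT : AEStronglyMeasurable (T lam (fun c => f c - g c)) volume :=
    (continuous_T hfg1).aestronglyMeasurable
  have mg : AEStronglyMeasurable (fun x => T lam g x - kap lam * g x) volume :=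
    ((continuous_T g.integrable).sub (continuous_const.mul g.continuous)).aestronglyMeasurable
  have mk : AEStronglyMeasurable ((kap lam) • fun x => f x - g x) volume :=
    hfg2.aestronglyMeasurable.const_smul _
  have hsmall : M / |lam| ≤ ε / 3 := by
    rw [div_le_iff₀ hl]
    have := (div_le_iff₀ hε).1 hlam
    nlinarith
  have k1 : ‖kap lam‖ₑ = 1 := by
    rw [← ofReal_norm, norm_kap hl0, ENNReal.ofReal_one]
  calc eLpNorm (fun x => T lam f x - kap lam * f x) 2 volume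
      ≤ eLpNorm (fun x => T lam (fun c => f c - g c) x) 2 volume +
          (eLpNorm (fun x => T lam g x - kap lam * g x) 2 volume +
            eLpNorm ((kap lam) • fun x => f x - g x) 2 volume) := by
        rw [e]
        refine (eLpNorm_add_le mT (mg.sub mk) (by norm_num)).trans ?_
        gcongr
        exact eLpNorm_sub_le mg mk (by norm_num)
    _ ≤ ENNReal.ofReal (ε / 3) + (ENNReal.ofReal (ε / 3) + ENNReal.ofReal (ε / 3)) := by
        gcongr
        · rw [eLpNorm_T hl0 hfg1 hfg2]; exact hg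
        · exact (hT lam hl0).trans (ENNReal.ofReal_le_ofReal hsmall)
        · rw [eLpNorm_const_smul, k1, one_mul]; exact hg
    _ = ENNReal.ofReal ε := by
        rw [← ENNReal.ofReal_add (by positivity) (by positivity),
          ← ENNReal.ofReal_add (by positivity) (by positivity)]
        congr 1; ring

end Crest.Agent.R081.Fr
end
end

-- ▼ part R081/Fresnel4
section

/-!
# Row 81, node FRESNEL, part 4 (helper326): the coefficient integral `phi`, interface (N4)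
-/

set_option autoImplicit false

open MeasureTheory Filter Topology Complex
open scoped ENNReal FourierTransform ContDiff

noncomputable section

namespace Crest.Agent.R081.Fr

open Crest.Agent.R075 (ee norm_ee ee_add ee_eq)

/-- the coefficient integral -/
def phi (lam d : ℝ) (f : ℝ → ℂ) (tau : ℝ) : ℂ := ∫ c, f c * ee (lam * (c - d) ^ 2 / 2 - tau * c)

/-- the unimodular phase of the stationary point `d + tau / lam` -/
def ze (lam d tau : ℝ) : ℂ := ee (-(lam * ((d + tau / lam) ^ 2 - d ^ 2) / 2)) * kap lam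

theorem norm_ze {lam : ℝ} (hlam : lam ≠ 0) (d tau : ℝ) : ‖ze lam d tau‖ = 1 := by
  unfold ze; rw [norm_mul, norm_ee, norm_kap hlam, one_mul]

/-- main term -/
def mainT (lam d : ℝ) (f : ℝ → ℂ) (tau : ℝ) : ℂ :=
  ((Real.sqrt |lam|)⁻¹ : ℝ) * ze lam d tau * f (d + tau / lam)

theorem norm_mainT_sq {lam : ℝ} (hlam : lam ≠ 0) (d : ℝ) (f : ℝ → ℂ) (tau : ℝ) :
    ‖mainT lam d f tau‖ ^ 2 = |lam|⁻¹ * ‖f (d + tau / lam)‖ ^ 2 := by
  unfold mainT
  rw [norm_mul, norm_mul, norm_ze hlam, mul_one, mul_pow, Complex.norm_real, Real.norm_eq_abs,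
    sq_abs, inv_pow, Real.sq_sqrt (abs_nonneg _)]

theorem phi_eq_T {lam : ℝ} (hlam : lam ≠ 0) (d : ℝ) (f : ℝ → ℂ) (tau : ℝ) :
    phi lam d f tau = ((Real.sqrt |lam|)⁻¹ : ℝ) *
      ee (-(lam * ((d + tau / lam) ^ 2 - d ^ 2) / 2)) * T lam f (d + tau / lam) := by
  have hl : 0 < |lam| := abs_pos.2 hlam
  have hs : Real.sqrt |lam| ≠ 0 := (Real.sqrt_pos.2 hl).ne'
  unfold phi T
  have hs' : (((Real.sqrt |lam|)⁻¹ : ℝ) : ℂ) * ((Real.sqrt |lam| : ℝ) : ℂ) = 1 := by
    rw [← Complex.ofReal_mul, inv_mul_cancel₀ hs, Complex.ofReal_one]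
  have e1 : ∀ X Y : ℂ, (((Real.sqrt |lam|)⁻¹ : ℝ) : ℂ) * X * (((Real.sqrt |lam| : ℝ) : ℂ) * Y) =
      X * Y := by
    intro X Y
    calc _ = ((((Real.sqrt |lam|)⁻¹ : ℝ) : ℂ) * ((Real.sqrt |lam| : ℝ) : ℂ)) * (X * Y) := by ring
      _ = _ := by rw [hs', one_mul]
  rw [e1, ← integral_const_mul]
  refine integral_congr_ae (Eventually.of_forall fun c => ?_)
  simp only
  have e2 : lam * (c - d) ^ 2 / 2 - tau * c =
      -(lam * ((d + tau / lam) ^ 2 - d ^ 2) / 2) + lam * (c - (d + tau / lam)) ^ 2 / 2 := by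
    field_simp
    ring
  rw [e2, ee_add]
  ring

theorem phi_sub_mainT {lam : ℝ} (hlam : lam ≠ 0) (d : ℝ) (f : ℝ → ℂ) (tau : ℝ) :
    phi lam d f tau - mainT lam d f tau = ((Real.sqrt |lam|)⁻¹ : ℝ) *
      ee (-(lam * ((d + tau / lam) ^ 2 - d ^ 2) / 2)) *
        (T lam f (d + tau / lam) - kap lam * f (d + tau / lam)) := by
  rw [phi_eq_T hlam]
  unfold mainT ze
  ring

theorem continuous_phi {lam : ℝ} (hlam : lam ≠ 0) (d : ℝ) {f : ℝ → ℂ} (h1 : Integrable f) :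
    Continuous (phi lam d f) := by
  have h : phi lam d f = fun tau => ((Real.sqrt |lam|)⁻¹ : ℝ) *
      ee (-(lam * ((d + tau / lam) ^ 2 - d ^ 2) / 2)) * T lam f (d + tau / lam) := by
    funext tau; exact phi_eq_T hlam d f tau
  rw [h]
  have hT := continuous_T (lam := lam) h1
  have hee := continuous_ee
  fun_prop

/-- change of variables `x = d + tau / lam` -/
theorem eLpNorm_comp_affine {lam : ℝ} (hlam : lam ≠ 0) (d : ℝ) {G : ℝ → ℂ}
    (hG : AEStronglyMeasurable G volume) :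
    eLpNorm (fun tau => ((Real.sqrt |lam|)⁻¹ : ℝ) * G (d + tau / lam)) 2 volume =
      eLpNorm G 2 volume := by
  have hl : 0 < |lam| := abs_pos.2 hlam
  have h0 : (fun tau : ℝ => (((Real.sqrt |lam|)⁻¹ : ℝ) : ℂ) * G (d + tau / lam)) =
      ((((Real.sqrt |lam|)⁻¹ : ℝ) : ℂ) • fun tau : ℝ => G (d + lam⁻¹ * tau)) := by
    funext tau
    simp only [Pi.smul_apply, smul_eq_mul]
    rw [div_eq_inv_mul]
  rw [h0, eLpNorm_const_smul]
  have h1 := eLpNorm_comp_mul (H := fun x => G (d + x)) (inv_ne_zero hlam)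
  rw [h1]
  have h2 : eLpNorm (fun x => G (d + x)) 2 volume = eLpNorm G 2 volume :=
    eLpNorm_comp_measurePreserving hG (measurePreserving_add_left volume d)
  rw [h2, ← mul_assoc]
  have h3 : ‖(((Real.sqrt |lam|)⁻¹ : ℝ) : ℂ)‖ₑ * ENNReal.ofReal |lam⁻¹|⁻¹ ^ (1 / 2 : ℝ) = 1 := by
    rw [← ofReal_norm, Complex.norm_real, Real.norm_eq_abs,
      abs_of_nonneg (inv_nonneg.2 (Real.sqrt_nonneg _)), abs_inv, inv_inv,
      ENNReal.ofReal_rpow_of_pos hl, ← Real.sqrt_eq_rpow, ← ENNReal.ofReal_mul (by positivity),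
      inv_mul_cancel₀ (Real.sqrt_pos.2 hl).ne', ENNReal.ofReal_one]
  rw [h3, one_mul]

theorem eLpNorm_phi {lam : ℝ} (hlam : lam ≠ 0) (d : ℝ) {f : ℝ → ℂ} (h1 : Integrable f)
    (h2 : MemLp f 2) : eLpNorm (phi lam d f) 2 volume = eLpNorm f 2 volume := by
  rw [← eLpNorm_T hlam h1 h2,
    ← eLpNorm_comp_affine hlam d (continuous_T (lam := lam) h1).aestronglyMeasurable]
  refine eLpNorm_congr_norm_ae (Eventually.of_forall fun tau => ?_)
  rw [phi_eq_T hlam, norm_mul, norm_mul, norm_mul, norm_ee, mul_one]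

theorem memLp_phi {lam : ℝ} (hlam : lam ≠ 0) (d : ℝ) {f : ℝ → ℂ} (h1 : Integrable f)
    (h2 : MemLp f 2) : MemLp (phi lam d f) 2 :=
  ⟨(continuous_phi hlam d h1).aestronglyMeasurable, by
    rw [eLpNorm_phi hlam d h1 h2]; exact h2.2⟩

theorem continuous_ze {lam : ℝ} (d : ℝ) : Continuous (ze lam d) := by
  unfold ze
  have hee := continuous_ee
  fun_prop

theorem aesm_comp_affine {lam : ℝ} (hlam : lam ≠ 0) (d : ℝ) {f : ℝ → ℂ}
    (hf : AEStronglyMeasurable f volume) :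
    AEStronglyMeasurable (fun tau : ℝ => f (d + tau / lam)) volume := by
  have q1 : Measure.QuasiMeasurePreserving (fun x : ℝ => lam⁻¹ * x) volume volume := by
    refine ⟨by fun_prop, ?_⟩
    rw [Real.map_volume_mul_left (inv_ne_zero hlam)]
    exact Measure.smul_absolutelyContinuous
  have q2 : Measure.QuasiMeasurePreserving (fun x : ℝ => d + x) volume volume :=
    (measurePreserving_add_left volume d).quasiMeasurePreserving
  have := hf.comp_quasiMeasurePreserving (q2.comp q1)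
  refine this.congr (Eventually.of_forall fun tau => ?_)
  simp only [Function.comp]
  rw [div_eq_inv_mul]

theorem aesm_mainT {lam : ℝ} (hlam : lam ≠ 0) (d : ℝ) {f : ℝ → ℂ}
    (hf : AEStronglyMeasurable f volume) :
    AEStronglyMeasurable (mainT lam d f) volume := by
  unfold mainT
  exact ((continuous_const.mul (continuous_ze d)).aestronglyMeasurable).mul
    (aesm_comp_affine hlam d hf)

theorem eLpNorm_mainT {lam : ℝ} (hlam : lam ≠ 0) (d : ℝ) {f : ℝ → ℂ}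
    (hf : AEStronglyMeasurable f volume) :
    eLpNorm (mainT lam d f) 2 volume = eLpNorm f 2 volume := by
  rw [← eLpNorm_comp_affine hlam d hf]
  refine eLpNorm_congr_norm_ae (Eventually.of_forall fun tau => ?_)
  unfold mainT
  rw [norm_mul, norm_mul, norm_mul, norm_ze hlam, mul_one]

/-- **(N4)** the `L²(dτ)` asymptotics, uniform in `d` -/
theorem phi_L2 {f : ℝ → ℂ} (h1 : Integrable f) (h2 : MemLp f 2) {ε : ℝ} (hε : 0 < ε) :
    ∃ Lam : ℝ, 0 < Lam ∧ ∀ lam : ℝ, Lam ≤ |lam| → ∀ d : ℝ,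
      eLpNorm (fun tau => phi lam d f tau - mainT lam d f tau) 2 volume ≤ ENNReal.ofReal ε := by
  obtain ⟨Lam, hL, H⟩ := T_tendsto h1 h2 hε
  refine ⟨Lam, hL, fun lam hlam d => ?_⟩
  have hl0 : lam ≠ 0 := abs_pos.1 (lt_of_lt_of_le hL hlam)
  refine le_trans (le_of_eq ?_) (H lam hlam)
  have mG : AEStronglyMeasurable (fun x => T lam f x - kap lam * f x) volume :=
    (continuous_T h1).aestronglyMeasurable.sub (aestronglyMeasurable_const.mul h1.1)
  rw [← eLpNorm_comp_affine hl0 d mG]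
  refine eLpNorm_congr_norm_ae (Eventually.of_forall fun tau => ?_)
  rw [phi_sub_mainT hl0, norm_mul, norm_mul, norm_mul, norm_ee, mul_one]

/-! ## real-valued integral forms -/

theorem integral_sq_of_eLpNorm {E : Type*} [NormedAddCommGroup E] {α : Type*} [MeasurableSpace α]
    {μ : Measure α} {g : α → E} (hg : MemLp g 2 μ) :
    ∫ x, ‖g x‖ ^ 2 ∂μ = (eLpNorm g 2 μ).toReal ^ 2 := by
  rw [hg.eLpNorm_eq_integral_rpow_norm (by norm_num) (by norm_num)]
  rw [ENNReal.toReal_ofReal (by positivity)]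
  have h0 : 0 ≤ ∫ x, ‖g x‖ ^ (2 : ENNReal).toReal ∂μ := integral_nonneg fun x => by positivity
  rw [← Real.rpow_natCast, ← Real.rpow_mul h0]
  norm_num

theorem integral_sq_le_of_eLpNorm {E : Type*} [NormedAddCommGroup E] {α : Type*}
    [MeasurableSpace α] {μ : Measure α} {g : α → E} (hg : MemLp g 2 μ) {ε : ℝ} (hε : 0 ≤ ε)
    (h : eLpNorm g 2 μ ≤ ENNReal.ofReal ε) : ∫ x, ‖g x‖ ^ 2 ∂μ ≤ ε ^ 2 := by
  rw [integral_sq_of_eLpNorm hg]
  refine pow_le_pow_left₀ ENNReal.toReal_nonneg ?_ 2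
  exact ENNReal.toReal_le_of_le_ofReal hε h

theorem memLp_mainT {lam : ℝ} (hlam : lam ≠ 0) (d : ℝ) {f : ℝ → ℂ} (h2 : MemLp f 2) :
    MemLp (mainT lam d f) 2 :=
  ⟨aesm_mainT hlam d h2.1, by rw [eLpNorm_mainT hlam d h2.1]; exact h2.2⟩

theorem memLp_phi_sub {lam : ℝ} (hlam : lam ≠ 0) (d : ℝ) {f : ℝ → ℂ} (h1 : Integrable f)
    (h2 : MemLp f 2) : MemLp (fun tau => phi lam d f tau - mainT lam d f tau) 2 :=
  (memLp_phi hlam d h1 h2).sub (memLp_mainT hlam d h2)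


/-- (N4), integral form -/
theorem phi_L2_int {f : ℝ → ℂ} (h1 : Integrable f) (h2 : MemLp f 2) {ε : ℝ} (hε : 0 < ε) :
    ∃ Lam : ℝ, 0 < Lam ∧ ∀ lam : ℝ, Lam ≤ |lam| → ∀ d : ℝ,
      ∫ tau, ‖phi lam d f tau - mainT lam d f tau‖ ^ 2 ≤ ε := by
  obtain ⟨Lam, hL, H⟩ := phi_L2 h1 h2 (Real.sqrt_pos.2 hε)
  refine ⟨Lam, hL, fun lam hlam d => ?_⟩
  have hl0 : lam ≠ 0 := abs_pos.1 (lt_of_lt_of_le hL hlam)
  have := integral_sq_le_of_eLpNorm (memLp_phi_sub hl0 d h1 h2) (Real.sqrt_nonneg _) (H lam hlam d)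
  rwa [Real.sq_sqrt hε.le] at this



end Crest.Agent.R081.Fr
end
end

-- ▼ part R081/Fresnel5
section

/-!
# Row 81, node FRESNEL, part 5 (helper326): Parseval in unit shifts, link with `Co.phi`
-/

set_option autoImplicit false

open MeasureTheory Filter Topology Complex
open scoped ENNReal ContDiff

noncomputable section

namespace Crest.Agent.R081.Fr

open Crest.Agent.R075 (ee norm_ee ee_add ee_eq)

theorem memLp_mul_ee {α : Type*} [MeasurableSpace α] {μ : Measure α} {w : α → ℂ} {p : α → ℝ}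
    (h : MemLp w 2 μ) (hp : AEMeasurable p μ) : MemLp (fun c => w c * ee (p c)) 2 μ := by
  refine h.of_le (h.1.mul ?_) (Eventually.of_forall fun c => by simp)
  exact (continuous_ee.measurable.comp_aemeasurable hp).aestronglyMeasurable

/-- **Parseval in unit shifts** -/
theorem parseval_shift {w : ℝ → ℂ} (h : MemLp w 2 (volume.restrict (Set.Ioc 0 1))) (t0 : ℝ) :
    HasSum (fun m : ℤ => ‖∫ c in (0 : ℝ)..1, w c * ee (-((t0 + m) * c))‖ ^ 2)
      (∫ c in (0 : ℝ)..1, ‖w c‖ ^ 2) := by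
  have h2 : MemLp (fun c => w c * ee (-(t0 * c))) 2 (volume.restrict (Set.Ioc 0 1)) :=
    memLp_mul_ee h (by fun_prop)
  have H := hasSum_sq_fourierCoeffOn (a := 0) (b := 1) zero_lt_one h2
  have e1 : ∀ m : ℤ, fourierCoeffOn (zero_lt_one' ℝ) (fun c => w c * ee (-(t0 * c))) m =
      ∫ c in (0 : ℝ)..1, w c * ee (-((t0 + m) * c)) := by
    intro m
    rw [fourierCoeffOn_eq_integral]
    simp only [sub_zero, div_one, one_smul]
    refine intervalIntegral.integral_congr fun c _ => ?_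
    simp only [smul_eq_mul]
    have e3 : fourier (-m) (c : AddCircle (1 - 0 : ℝ)) = ee (-(m * c)) := by
      rw [fourier_coe_apply, ee_eq]
      congr 1
      push_cast
      ring
    rw [e3]
    have e4 : -((t0 + m) * c) = -(t0 * c) + -(m * c) := by ring
    rw [e4, ee_add]
    ring
  have e2 : ((1 : ℝ) - 0)⁻¹ • ∫ x in (0 : ℝ)..1, ‖w x * ee (-(t0 * x))‖ ^ 2 =
      ∫ c in (0 : ℝ)..1, ‖w c‖ ^ 2 := by
    simp
  rw [e2] at H
  simpa only [e1] using H

/-! ## the coefficient integral of `Co` -/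

open Crest.Agent.R081.Co in
/-- Parseval for `Co.phi`, any measurable phase `χ` -/
theorem hasSum_co_phi {f : ℝ → ℂ} (h : MemLp f 2 (volume.restrict (Set.Ioc 0 1)))
    {χ : ℝ → ℝ} (hχ : Measurable χ) (k2 : ℤ) (t0 : ℝ) :
    HasSum (fun m : ℤ => ‖Co.phi f χ k2 (t0 + m)‖ ^ 2) (∫ c in (0 : ℝ)..1, ‖f c‖ ^ 2) := by
  have h2 : MemLp (fun c => f c * ee (k2 * χ c)) 2 (volume.restrict (Set.Ioc 0 1)) :=
    memLp_mul_ee h (by fun_prop)
  have H := parseval_shift h2 t0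
  have e1 : ∀ m : ℤ, (∫ c in (0 : ℝ)..1, f c * ee (k2 * χ c) * ee (-((t0 + m) * c))) =
      Co.phi f χ k2 (t0 + m) := by
    intro m
    unfold Co.phi
    refine intervalIntegral.integral_congr fun c _ => ?_
    rw [mul_assoc, ← ee_add, ← sub_eq_add_neg]
  have e2 : ∫ c in (0 : ℝ)..1, ‖f c * ee (k2 * χ c)‖ ^ 2 = ∫ c in (0 : ℝ)..1, ‖f c‖ ^ 2 := by
    simp
  rw [e2] at H
  simpa only [e1] using H

/-- the function on `ℝ` attached to a function on `(0,1]` -/
def cut (f : ℝ → ℂ) : ℝ → ℂ := Set.indicator (Set.Ioc 0 1) f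

theorem memLp_cut {f : ℝ → ℂ} (h : MemLp f 2 (volume.restrict (Set.Ioc 0 1))) :
    MemLp (cut f) 2 := (memLp_indicator_iff_restrict measurableSet_Ioc).2 h

theorem integrable_cut {f : ℝ → ℂ} (h : MemLp f 2 (volume.restrict (Set.Ioc 0 1))) :
    Integrable (cut f) :=
  (integrable_indicator_iff measurableSet_Ioc).2 (h.integrable (by norm_num))


/-- `Co.phi` with an exactly quadratic phase on the support of `f` -/
theorem co_phi_eq (f : ℝ → ℂ) (χ : ℝ → ℝ) (k2 : ℤ) (ha C de : ℝ)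
    (hχ : ∀ c ∈ Set.Ioc (0 : ℝ) 1, f c ≠ 0 → χ c = ha * (c - de) ^ 2 / 2 + C) (tau : ℝ) :
    Co.phi f χ k2 tau = ee (k2 * C) * phi (k2 * ha) de (cut f) tau := by
  unfold Co.phi phi cut
  rw [intervalIntegral.integral_of_le zero_le_one, ← integral_indicator measurableSet_Ioc,
    ← integral_const_mul]
  refine integral_congr_ae (Eventually.of_forall fun c => ?_)
  simp only
  by_cases hc : c ∈ Set.Ioc (0 : ℝ) 1
  · rw [Set.indicator_of_mem hc, Set.indicator_of_mem hc]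
    by_cases h0 : f c = 0
    · simp [h0]
    · rw [hχ c hc h0]
      have e : k2 * (ha * (c - de) ^ 2 / 2 + C) - tau * c =
          k2 * C + (k2 * ha * (c - de) ^ 2 / 2 - tau * c) := by ring
      rw [e, ee_add]
      ring
  · rw [Set.indicator_of_notMem hc, Set.indicator_of_notMem hc]
    simp

/-- **(N4) for `Co.phi`**: for `f ∈ L²(0,1)`, `k2 ≠ 0`, `al > 0`: for all `h ≥ h0`, uniformly in
`de`, `C` and in the phase `χ` (quadratic on the support of `f`) -/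
theorem co_phi_L2 {f : ℝ → ℂ} (h2 : MemLp f 2 (volume.restrict (Set.Ioc 0 1))) {k2 : ℤ}
    (hk : k2 ≠ 0) {al : ℝ} (hal : 0 < al) {ε : ℝ} (hε : 0 < ε) :
    ∃ h0 : ℝ, 0 < h0 ∧ ∀ h : ℝ, h0 ≤ h → ∀ (de C : ℝ) (χ : ℝ → ℝ),
      (∀ c ∈ Set.Ioc (0 : ℝ) 1, f c ≠ 0 → χ c = h * al * (c - de) ^ 2 / 2 + C) →
      ∫ tau, ‖Co.phi f χ k2 tau - ee (k2 * C) * mainT (k2 * (h * al)) de (cut f) tau‖ ^ 2 ≤ ε := by
  obtain ⟨Lam, hL, H⟩ := phi_L2_int (integrable_cut h2) (memLp_cut h2) hε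
  refine ⟨Lam / al, by positivity, fun h hh de C χ hχ => ?_⟩
  have hh0 : 0 < h := lt_of_lt_of_le (by positivity) hh
  have hk1 : (1 : ℝ) ≤ |(k2 : ℝ)| := by
    rw [← Int.cast_abs]
    exact_mod_cast Int.one_le_abs hk
  have hlam : Lam ≤ |(k2 : ℝ) * (h * al)| := by
    rw [abs_mul, abs_of_pos (by positivity : 0 < h * al)]
    have := (div_le_iff₀ hal).1 hh
    nlinarith [mul_pos hh0 hal]
  refine le_trans (le_of_eq ?_) (H _ hlam de)
  refine integral_congr_ae (Eventually.of_forall fun tau => ?_)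
  simp only
  rw [co_phi_eq f χ k2 (h * al) C de hχ, ← mul_sub, norm_mul, norm_ee, one_mul]

end Crest.Agent.R081.Fr
end
end

-- ▼ part R081/TrE
section

/-! Row 81, route B, node TRANSITIONS (helper177), part E: single modes, (T1) and (T0). -/

set_option autoImplicit false

namespace Crest.Agent.R081.Tr

open MeasureTheory Filter Crest.AnalysisR.Torus3 Crest.Agent.R075 Crest.Agent.R081.Fm
  Crest.Agent.R081.Sm Crest.Agent.R081.Tw Crest.Agent.R081.St
open scoped ENNReal Topology ContDiff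


/-- **(MAIN)** for one mode, with an arbitrary main function `psi` in place of `phi`: input from
helper27 / helper230.  `u` is measurable, square integrable on `(0,1]` and vanishes off `J`;
`U` is any square integrable function on the torus whose coefficients are `u` on the mode `k` and zero on
the other modes. -/
def MainStmt : Prop :=
  ∀ (t : TwD) (K : Finset (ℤ × ℤ)) (eps : ℝ) (d : Des t.q K eps) (h : ℕ) (G : LD) (_ : MP G)
    (gf : GForm d h G) (k : ℤ × ℤ) (_ : k ∈ K) (_ : k ≠ 0) (u : ℝ → ℂ) (_ : Measurable u)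
    (_ : MemLp u 2 (volume.restrict (Set.Ioc 0 1)))
    (_ : ∀ c, c ∉ Set.Icc t.del (1 - t.del) → u c = 0)
    (U : T3 → ℂ) (_ : MemLp U 2 volume)
    (_ : ∀ᵐ x ∂muX, fcX U x = if x.1 = k then u x.2 else 0)
    (psi : ℝ → ℂ) (_ : Measurable psi),
    ∫⁻ x, ‖fcX (fun y => U (G.perm y)) x
      - Tp.mainA t.q d.q2 d.N k.1 (Fp d.v d.del) psi (d.M k) x‖ₑ ^ 2 ∂muX
      ≤ 2 * ((∫⁻ c in Set.Ioc 0 1, ‖u c‖ₑ ^ 2) * ENNReal.ofReal (eps ^ 2)
        + ∫⁻ τ, ‖Co.phi u gf.chi k.2 τ - psi τ‖ₑ ^ 2)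

/-- `N` and `P'` agree modulo `q''` -/
theorem cast_N_eq {t : TwD} {K : Finset (ℤ × ℤ)} {eps : ℝ} (d : Des t.q K eps) {h : ℕ} {P' : ℤ}
    (hP : t.q * P' = t.P * h * d.q2 + 1) (j : ℤ) :
    ((j * d.N : ℤ) : ZMod d.q2) = ((j * P' : ℤ) : ZMod d.q2) := by
  have h1 : ((d.N * t.q - 1 : ℤ) : ZMod d.q2) = 0 := (ZMod.intCast_zmod_eq_zero_iff_dvd _ _).2 d.hN
  have h2 : ((t.q * P' : ℤ) : ZMod d.q2) = ((t.P * h * d.q2 + 1 : ℤ) : ZMod d.q2) := by rw [hP]
  push_cast at h1 h2 ⊢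
  rw [ZMod.natCast_self, mul_zero, zero_add] at h2
  have h3 : (d.N : ZMod d.q2) = (P' : ZMod d.q2) := by
    have h4 : (d.N : ZMod d.q2) * t.q = 1 := by linear_combination h1
    calc (d.N : ZMod d.q2) = d.N * (t.q * P') := by rw [h2, mul_one]
      _ = (d.N * t.q) * P' := by ring
      _ = P' := by rw [h4, one_mul]
  rw [h3]

/-- support of the main array, part 1 -/
theorem mainA_ne {t : TwD} {K : Finset (ℤ × ℤ)} {eps : ℝ} (d : Des t.q K eps) {h : ℕ} {P' : ℤ}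
    (hP : t.q * P' = t.P * h * d.q2 + 1) {k : ℤ × ℤ} {psi : ℝ → ℂ} {x : X}
    (hx : Tp.mainA t.q d.q2 d.N k.1 (Fp d.v d.del) psi (d.M k) x ≠ 0) :
    x ∈ overE d P' ∧ (t.q : ℤ) ∣ x.1.1 - k.1 ∧
      psi (x.1.1 / (t.q * d.q2) + x.1.2 * Fp d.v d.del x.2) ≠ 0 := by
  unfold Tp.mainA at hx
  split_ifs at hx with hd
  · have h1 := right_ne_zero_of_mul hx
    have h2 := left_ne_zero_of_mul h1
    have h3 := right_ne_zero_of_mul h1
    refine ⟨?_, hd, h2⟩
    have h4 := d.M_norm k (x.1.1 * d.N) x.1.2 x.2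
    have h5 : x.2 ∈ {c : ℝ | ((((x.1.1 * d.N : ℤ) : ZMod d.q2), x.1.2), c) ∈ d.E} := by
      by_contra hne
      rw [Set.indicator_of_notMem hne] at h4
      have : ‖d.M k (x.1.1 * d.N) x.1.2 x.2‖ = 0 := by simpa using h4
      exact h3 (norm_eq_zero.1 this)
    have h6 : ((((x.1.1 * d.N : ℤ) : ZMod d.q2), x.1.2), x.2) ∈ d.E := h5
    rw [cast_N_eq d hP] at h6
    exact h6
  · exact absurd rfl hx

theorem meas_sec {w : V} (k : ℤ × ℤ) {A : Set X} (hA : MeasurableSet A) :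
    Measurable fun c : ℝ => A.indicator (w : X → ℂ) (k, c) := by
  have h1 : Measurable (A.indicator (w : X → ℂ)) :=
    (Lp.stronglyMeasurable w).measurable.indicator hA
  exact h1.comp measurable_prodMk_left

/-- the section of a square integrable array is square integrable -/
theorem lintegral_sec_le (f : X → ℂ) (hf : Measurable f) (k : ℤ × ℤ) :
    ∫⁻ c in Set.Ioc (0 : ℝ) 1, ‖f (k, c)‖ₑ ^ 2 ≤ ∫⁻ x, ‖f x‖ₑ ^ 2 ∂muX := by
  have h1 : Measurable fun x => ‖f x‖ₑ ^ 2 := hf.enorm.pow_const 2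
  rw [Tp.lintegral_muX h1]
  refine lintegral_mono fun c => ?_
  calc ‖f (k, c)‖ₑ ^ 2 = ‖f ((k.1, k.2), c)‖ₑ ^ 2 := rfl
    _ ≤ ∑' j : ℤ, ‖f ((j, k.2), c)‖ₑ ^ 2 := ENNReal.le_tsum k.1
    _ ≤ _ := ENNReal.le_tsum (f := fun b : ℤ => ∑' j : ℤ, ‖f ((j, b), c)‖ₑ ^ 2) k.2

end Crest.Agent.R081.Tr
end

-- ▼ part R081/TrF
section

/-! Row 81, route B, node TRANSITIONS (helper177), part F: (T1) and (T0) from (MAIN). -/

set_option autoImplicit false

namespace Crest.Agent.R081.Tr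

open MeasureTheory Filter Crest.AnalysisR.Torus3 Crest.Agent.R075 Crest.Agent.R081.Fm
  Crest.Agent.R081.Sm Crest.Agent.R081.Tw Crest.Agent.R081.St
open scoped ENNReal Topology ContDiff

theorem continuous_coPhi {f : ℝ → ℂ} (hf : IntervalIntegrable f volume 0 1) {χ : ℝ → ℝ}
    (hχ : Continuous χ) (k2 : ℤ) : Continuous (Co.phi f χ k2) := by
  have hee : Continuous ee := by unfold ee; fun_prop
  unfold Co.phi
  refine intervalIntegral.continuous_of_dominated_interval (bound := fun c => ‖f c‖) ?_ ?_ ?_ ?_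
  · intro τ
    refine hf.def'.aestronglyMeasurable.mul ?_
    exact (hee.comp (by fun_prop)).aestronglyMeasurable
  · intro τ
    refine Eventually.of_forall fun c _ => ?_
    rw [norm_mul, norm_ee, mul_one]
  · exact hf.norm
  · refine Eventually.of_forall fun c _ => ?_
    exact continuous_const.mul (hee.comp (by fun_prop))

section single

variable {t : TwD}

/-- a vector supported on one fibre inside `A` -/
theorem ae_eq_of_supp {A : Set X} {k : ℤ × ℤ} {w : V} (hw : Supp (A ∩ fib k) w) :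
    ∀ᵐ x ∂muX, (w : X → ℂ) x = if x.1 = k then A.indicator (w : X → ℂ) (k, x.2) else 0 := by
  filter_upwards [hw] with x hx
  by_cases hk : x.1 = k
  · rw [if_pos hk]
    have e : ((k, x.2) : X) = x := by rw [← hk]
    rw [e]
    by_cases hA : x ∈ A
    · rw [Set.indicator_of_mem hA]
    · rw [Set.indicator_of_notMem hA]
      exact hx fun h => hA h.1
  · rw [if_neg hk]
    exact hx fun h => hk h.2

theorem enorm_sq_V (w : V) : ‖w‖ₑ ^ 2 = ∫⁻ x, ‖w x‖ₑ ^ 2 ∂muX := enorm_sq_Lp w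

theorem lintegral_sec_V {A : Set X} (hA : MeasurableSet A) (k : ℤ × ℤ) (w : V) :
    ∫⁻ c in Set.Ioc (0 : ℝ) 1, ‖A.indicator (w : X → ℂ) (k, c)‖ₑ ^ 2 ≤ ‖w‖ₑ ^ 2 := by
  have hm : Measurable (A.indicator (w : X → ℂ)) :=
    (Lp.stronglyMeasurable w).measurable.indicator hA
  refine (lintegral_sec_le _ hm k).trans ?_
  rw [enorm_sq_V]
  refine lintegral_mono fun x => ?_
  simp only
  gcongr
  exact enorm_indicator_le_enorm_self _ _

theorem memLp_sec_V {A : Set X} (hA : MeasurableSet A) (k : ℤ × ℤ) (w : V) :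
    MemLp (fun c => A.indicator (w : X → ℂ) (k, c)) 2 (volume.restrict (Set.Ioc 0 1)) := by
  refine ⟨(meas_sec k hA).aestronglyMeasurable, ?_⟩
  have h1 : eLpNorm (fun c => A.indicator (w : X → ℂ) (k, c)) 2 (volume.restrict (Set.Ioc 0 1)) ^ 2
      ≤ ‖w‖ₑ ^ 2 := by
    rw [eLpNorm_two_sq]
    exact lintegral_sec_V hA k w
  by_contra htop
  rw [not_lt, top_le_iff] at htop
  rw [htop] at h1
  have h2 : ‖w‖ₑ ^ 2 = ⊤ := by simpa using h1
  have h3 : ‖w‖ₑ ≠ ⊤ := enorm_ne_top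
  exact (ENNReal.pow_ne_top h3) h2

theorem measurable_mainA' {K : Finset (ℤ × ℤ)} {eps : ℝ} (d : Des t.q K eps) (k : ℤ × ℤ)
    {psi : ℝ → ℂ} (hpsi : Measurable psi) :
    Measurable (Tp.mainA t.q d.q2 d.N k.1 (Fp d.v d.del) psi (d.M k)) :=
  Tp.measurable_mainA (measurable_Fp _ d.del_pos) hpsi (d.M_meas k)

/-- the single mode estimate in `V` -/
theorem single_main (hM : MainStmt) (c : Ch t) (gf : GForm c.d c.h c.G) {k : ℤ × ℤ} (hk : k ∈ c.K)
    (hk0 : k ≠ 0) {A : Set X} (hA : MeasurableSet A)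
    (hAJ : ∀ x ∈ A, x.2 ∈ Set.Icc t.del (1 - t.del)) (w : V) (hw : Supp (A ∩ fib k) w)
    (psi : ℝ → ℂ) (hpsi : Measurable psi) {B : ℝ≥0∞} (hB : B ≠ ⊤)
    (hphi : ∫⁻ τ, ‖Co.phi (fun c => A.indicator (w : X → ℂ) (k, c)) gf.chi k.2 τ - psi τ‖ₑ ^ 2 ≤ B) :
    ∃ m : V, ((m : X → ℂ) =ᵐ[muX] Tp.mainA t.q c.d.q2 c.d.N k.1 (Fp c.d.v c.d.del) psi (c.d.M k)) ∧
      ‖KK c w - m‖ₑ ^ 2 ≤ 2 * (‖w‖ₑ ^ 2 * ENNReal.ofReal (c.eps ^ 2) + B) := by
  set U : HT := Phi.symm w with hU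
  have hUw : Phi U = w := by rw [hU, LinearIsometryEquiv.apply_symm_apply]
  have hUL : MemLp (U : T3 → ℂ) 2 volume := Lp.memLp U
  have hfc : ∀ᵐ x ∂muX, fcX (U : T3 → ℂ) x
      = if x.1 = k then A.indicator (w : X → ℂ) (k, x.2) else 0 := by
    have h1 : (Phi U : X → ℂ) =ᵐ[muX] fcX U := Phi_coe U
    rw [hUw] at h1
    filter_upwards [h1, ae_eq_of_supp hw] with x e1 e2
    rw [← e1, e2]
  have hmain := hM t c.K c.eps c.d c.h c.G c.mp gf k hk hk0
    (fun c => A.indicator (w : X → ℂ) (k, c)) (meas_sec k hA) (memLp_sec_V hA k w)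
    (fun y hy => Set.indicator_of_notMem (fun h => hy (hAJ _ h)) _) U hUL hfc psi hpsi
  have hKK : (KK c w : X → ℂ) =ᵐ[muX] fcX (fun y => U (c.G.perm y)) := by
    have h1 := KK_Phi c U
    rw [hUw] at h1
    rw [h1]
    exact (Phi_coe _).trans (fc_congr (cc_coe c.G c.mp U))
  set mf := Tp.mainA t.q c.d.q2 c.d.N k.1 (Fp c.d.v c.d.del) psi (c.d.M k) with hmf
  have hmfm : Measurable mf := measurable_mainA' c.d k hpsi
  have hbound : ∫⁻ x, ‖(KK c w : X → ℂ) x - mf x‖ₑ ^ 2 ∂muX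
      ≤ 2 * (‖w‖ₑ ^ 2 * ENNReal.ofReal (c.eps ^ 2) + B) := by
    calc ∫⁻ x, ‖(KK c w : X → ℂ) x - mf x‖ₑ ^ 2 ∂muX
        = ∫⁻ x, ‖fcX (fun y => U (c.G.perm y)) x - mf x‖ₑ ^ 2 ∂muX := by
          refine lintegral_congr_ae ?_
          filter_upwards [hKK] with x hx
          rw [hx]
      _ ≤ _ := hmain
      _ ≤ _ := by
          gcongr
          exact lintegral_sec_V hA k w
  have hfin : 2 * (‖w‖ₑ ^ 2 * ENNReal.ofReal (c.eps ^ 2) + B) ≠ ⊤ := by
    refine ENNReal.mul_ne_top (by norm_num) (ENNReal.add_ne_top.2 ⟨?_, hB⟩)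
    exact ENNReal.mul_ne_top (ENNReal.pow_ne_top enorm_ne_top) ENNReal.ofReal_ne_top
  have hdL : MemLp (fun x => (KK c w : X → ℂ) x - mf x) 2 muX := by
    refine ⟨(Lp.aestronglyMeasurable _).sub hmfm.aestronglyMeasurable, ?_⟩
    by_contra htop
    rw [not_lt, top_le_iff] at htop
    have h1 := eLpNorm_two_sq (μ := muX) (fun x => (KK c w : X → ℂ) x - mf x)
    rw [htop] at h1
    have h2 : (⊤ : ℝ≥0∞) ≤ 2 * (‖w‖ₑ ^ 2 * ENNReal.ofReal (c.eps ^ 2) + B) := by
      refine le_trans ?_ hbound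
      rw [← h1]
      simp
    exact hfin (top_le_iff.1 h2)
  have hmL : MemLp mf 2 muX := by
    have h1 : mf = fun x => (KK c w : X → ℂ) x - ((KK c w : X → ℂ) x - mf x) := by
      funext x; ring
    rw [h1]
    exact (Lp.memLp _).sub hdL
  refine ⟨hmL.toLp mf, hmL.coeFn_toLp, ?_⟩
  rw [enorm_sq_V]
  refine le_trans (le_of_eq ?_) hbound
  refine lintegral_congr_ae ?_
  filter_upwards [Lp.coeFn_sub (KK c w) (hmL.toLp mf), hmL.coeFn_toLp] with x e1 e2
  rw [e1, Pi.sub_apply, e2]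

end single

end Crest.Agent.R081.Tr
end

-- ▼ part R081/TrG
section

/-! Row 81, route B, node TRANSITIONS (helper177), part G: the literal (T1) and (T0) from (MAIN). -/

set_option autoImplicit false

namespace Crest.Agent.R081.Tr

open MeasureTheory Filter Crest.AnalysisR.Torus3 Crest.Agent.R075 Crest.Agent.R081.Fm
  Crest.Agent.R081.Sm Crest.Agent.R081.Tw Crest.Agent.R081.St
open scoped ENNReal Topology ContDiff

theorem norm_le_of_enorm_sq {v : V} {ε : ℝ} (hε : 0 ≤ ε) (h : ‖v‖ₑ ^ 2 ≤ ENNReal.ofReal (ε ^ 2)) :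
    ‖v‖ ≤ ε := by
  rw [← ofReal_norm, ← ENNReal.ofReal_pow (norm_nonneg _),
    ENNReal.ofReal_le_ofReal_iff (by positivity)] at h
  exact (pow_le_pow_iff_left₀ (norm_nonneg _) hε two_ne_zero).1 h

theorem two_mul_bound {w : V} {eps B ε : ℝ} (hB0 : 0 ≤ B)
    (h : 2 * (‖w‖ ^ 2 * eps ^ 2 + B) ≤ ε ^ 2) :
    2 * (‖w‖ₑ ^ 2 * ENNReal.ofReal (eps ^ 2) + ENNReal.ofReal B) ≤ ENNReal.ofReal (ε ^ 2) := by
  have h1 : ‖w‖ₑ ^ 2 * ENNReal.ofReal (eps ^ 2) + ENNReal.ofReal B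
      = ENNReal.ofReal (‖w‖ ^ 2 * eps ^ 2 + B) := by
    rw [← ofReal_norm, ← ENNReal.ofReal_pow (norm_nonneg _),
      ← ENNReal.ofReal_mul (by positivity), ← ENNReal.ofReal_add (by positivity) hB0]
  rw [h1]
  have h2 : 2 * ENNReal.ofReal (‖w‖ ^ 2 * eps ^ 2 + B)
      = ENNReal.ofReal (2 * (‖w‖ ^ 2 * eps ^ 2 + B)) := by
    rw [ENNReal.ofReal_mul (by norm_num)]
    simp
  rw [h2]
  exact ENNReal.ofReal_le_ofReal h

theorem supp_main {t : TwD} {K : Finset (ℤ × ℤ)} {eps : ℝ} (d : Des t.q K eps) {k : ℤ × ℤ}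
    {psi : ℝ → ℂ} {m : V}
    (hm : (m : X → ℂ) =ᵐ[muX] Tp.mainA t.q d.q2 d.N k.1 (Fp d.v d.del) psi (d.M k)) {B : Set X}
    (h : ∀ x, Tp.mainA t.q d.q2 d.N k.1 (Fp d.v d.del) psi (d.M k) x ≠ 0 → x ∈ B) : Supp B m := by
  filter_upwards [hm] with x hx hxB
  rw [hx]
  by_contra hne
  exact hxB (h x hne)

theorem zero_of_supp_empty {A : Set X} (hA : A = ∅) {w : V} (hw : Supp A w) : w = 0 := by
  apply Lp.ext
  filter_upwards [hw, Lp.coeFn_zero ℂ 2 muX] with x h1 h2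
  rw [h2]
  exact h1 (by simp [hA])

section T1

variable {t : TwD}

/-- the target sets of (T1) -/
def B1 (t : TwD) (c : Ch t) : Set X := overE c.d c.P'

theorem good1 (hM : MainStmt) (k : ℤ × ℤ) (w : V) (hw : Supp ((offZ t)ᶜ ∩ fib k) w) :
    w ∈ Good (EvF t) (fun c => KK c) (B1 t) (fun c => meas_overE c.d c.P') := by
  by_cases hk0 : k = 0
  · have he : (offZ t)ᶜ ∩ fib k = ∅ := by
      ext x
      simp only [Set.mem_inter_iff, Set.mem_compl_iff, Set.mem_empty_iff_false, iff_false, not_and]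
      intro h1 h2
      apply h1
      left
      have : x.1 = k := h2
      rw [this, hk0]
    rw [zero_of_supp_empty he hw]
    exact Submodule.zero_mem _
  refine Good_of_main' w fun ε hε => ?_
  set e0 : ℝ := ε / (2 * (‖w‖ + 1)) with he0
  have hw1 : 0 < ‖w‖ + 1 := by positivity
  have he0p : 0 < e0 := by positivity
  filter_upwards [eventually_params t {k} he0p 0] with c hc
  obtain ⟨h1, h2, h3, -⟩ := hc
  have hkK : k ∈ c.K := h1 (Finset.mem_singleton_self k)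
  obtain ⟨gf⟩ := c.gf
  set u : ℝ → ℂ := fun y => (offZ t)ᶜ.indicator (w : X → ℂ) (k, y) with hu
  have huL := memLp_sec_V (meas_offZ t).compl k w
  have hui : IntervalIntegrable u volume 0 1 := by
    rw [intervalIntegrable_iff_integrableOn_Ioc_of_le zero_le_one]
    exact huL.integrable (by norm_num)
  obtain ⟨m, hm, hmb⟩ := single_main hM c gf hkK hk0 (meas_offZ t).compl
    (fun x hx => by
      by_contra hne
      exact hx (Or.inr hne)) w hw (Co.phi u gf.chi k.2)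
    (continuous_coPhi hui gf.chi_cont k.2).measurable (B := ENNReal.ofReal 0)
    (by simp) (by simp [hu])
  refine ⟨m, ?_, ?_⟩
  · refine norm_le_of_enorm_sq hε.le (hmb.trans (two_mul_bound le_rfl ?_))
    have h5 : ‖w‖ * c.eps ≤ ε / 2 := by
      calc ‖w‖ * c.eps ≤ (‖w‖ + 1) * e0 := mul_le_mul (by linarith) h3 h2.le hw1.le
        _ = ε / 2 := by rw [he0]; field_simp
    have h6 : 0 ≤ ‖w‖ * c.eps := by positivity
    nlinarith
  · exact supp_main c.d hm fun x hx => (mainA_ne c.d c.hP hx).1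

end T1

/-- **(T1)** -/
theorem t1Stmt (hM : MainStmt) : T1Stmt := by
  intro t u hu e he
  set w : V := Phi (hu.toLp u) with hwd
  have hwu : (w : X → ℂ) =ᵐ[muX] fcX u := Phi_toLp hu
  have h1 := transition (KK := fun c : Ch t => KK c) (B := B1 t)
    (hB := fun c => meas_overE c.d c.P') (l := EvF t) (meas_offZ t).compl
    (fun w' hw' => Good_of_modes (fun k w'' hw'' => good1 hM k w'' hw'') w' hw') w he
  refine ev_of_eventually (h1.mono fun c hc => ?_)
  have e1 : ms (overE c.d c.P')ᶜ (fun y => u (c.G.perm y)) = off (B1 t c) (KK c w) :=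
    ms_eq_off (meas_overE c.d c.P') (KK_toLp c hu)
  have e2 : ms (offZ t) u = off (offZ t)ᶜ w := by
    have := ms_eq_off (meas_offZ t).compl hwu
    rwa [compl_compl] at this
  rw [e1, e2]
  exact hc

section T0

variable {t : TwD}

def B0 (M : Modes t) (c : Ch t) : Set X := stepS M c.d c.h c.P'

theorem Sal_J (M : Modes t) : ∀ x ∈ M.Sal, x.2 ∈ Set.Icc t.del (1 - t.del) := by
  rintro x ⟨r, hr⟩
  exact M.sub (((x.1.1 + r * t.q, x.1.2), x.2) : X) hr

theorem Sal_ne0 (M : Modes t) : ∀ x ∈ M.Sal, x.1.2 ≠ 0 := by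
  rintro x ⟨r, hr⟩
  exact M.ne0 (((x.1.1 + r * t.q, x.1.2), x.2) : X) hr


/-- the main phase function of a mode -/
noncomputable def psiM (t : TwD) (h : ℕ) (chi0 : ℝ) (k2 : ℤ) (u : ℝ → ℂ) (τ : ℝ) : ℂ :=
  ee (k2 * chi0) * Fr.mainT (k2 * (h * t.al)) t.del (Fr.cut u) τ

theorem measurable_psiM (t : TwD) (h : ℕ) (chi0 : ℝ) (k2 : ℤ) {u : ℝ → ℂ} (hu : Measurable u) :
    Measurable (psiM t h chi0 k2 u) := by
  unfold psiM Fr.mainT Fr.cut
  refine measurable_const.mul ((measurable_const.mul (Fr.continuous_ze _).measurable).mul ?_)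
  exact (hu.indicator measurableSet_Ioc).comp (by fun_prop)

theorem psiM_ne {t : TwD} {h : ℕ} {chi0 : ℝ} {k2 : ℤ} {u : ℝ → ℂ} {τ : ℝ}
    (hx : psiM t h chi0 k2 u τ ≠ 0) : u (t.del + τ / (k2 * (h * t.al))) ≠ 0 := by
  intro h0
  apply hx
  unfold psiM Fr.mainT Fr.cut
  by_cases hc : t.del + τ / (k2 * (h * t.al)) ∈ Set.Ioc (0 : ℝ) 1
  · rw [Set.indicator_of_mem hc, h0, mul_zero, mul_zero]
  · rw [Set.indicator_of_notMem hc, mul_zero, mul_zero]

/-- Fresnel: the main phase function is close to the exact one -/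
theorem fresnel_bound (t : TwD) {u : ℝ → ℂ}
    (hu2 : MemLp u 2 (volume.restrict (Set.Ioc 0 1)))
    (huJ : ∀ c, c ∉ Set.Icc t.del (1 - t.del) → u c = 0) {k2 : ℤ} (hk : k2 ≠ 0) {δ : ℝ} (hδ : 0 < δ) :
    ∃ h0 : ℕ, ∀ h : ℕ, h0 ≤ h → ∀ (chi : ℝ → ℝ) (chi0 : ℝ),
      (∀ c ∈ Set.Icc t.del (1 - t.del), chi c = chi0 + h * t.al * (c - t.del) ^ 2 / 2) →
      ∫⁻ τ, ‖Co.phi u chi k2 τ - psiM t h chi0 k2 u τ‖ₑ ^ 2 ≤ ENNReal.ofReal (δ ^ 2) := by
  obtain ⟨Lam, hL, H⟩ := Fr.phi_L2 (Fr.integrable_cut hu2) (Fr.memLp_cut hu2) hδ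
  refine ⟨⌈Lam / t.al⌉₊, fun h hh chi chi0 hchi => ?_⟩
  have hal := t.al_pos
  have h1 : Lam / t.al ≤ h := (Nat.le_ceil _).trans (by exact_mod_cast hh)
  have h2 : Lam ≤ h * t.al := (div_le_iff₀ hal).1 h1
  have hk1 : (1 : ℝ) ≤ |(k2 : ℝ)| := by
    rw [← Int.cast_abs]
    exact_mod_cast Int.one_le_abs hk
  have hh0 : (0 : ℝ) ≤ h * t.al := by positivity
  have hlam : Lam ≤ |(k2 : ℝ) * (h * t.al)| := by
    rw [abs_mul, abs_of_nonneg hh0]
    nlinarith
  have h3 := H _ hlam t.del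
  have h4 : ∫⁻ τ, ‖Co.phi u chi k2 τ - psiM t h chi0 k2 u τ‖ₑ ^ 2
      = eLpNorm (fun tau => Fr.phi (k2 * (h * t.al)) t.del (Fr.cut u) tau
        - Fr.mainT (k2 * (h * t.al)) t.del (Fr.cut u) tau) 2 volume ^ 2 := by
    rw [eLpNorm_two_sq]
    refine lintegral_congr fun τ => ?_
    rw [Fr.co_phi_eq u chi k2 (h * t.al) chi0 t.del (fun c _ hc => by
      have hcJ : c ∈ Set.Icc t.del (1 - t.del) := by
        by_contra hne
        exact hc (huJ c hne)
      rw [hchi c hcJ]; ring) τ]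
    unfold psiM
    rw [← mul_sub, enorm_mul]
    have : ‖ee ((k2 : ℝ) * chi0)‖ₑ = 1 := by
      rw [← ofReal_norm, norm_ee]; simp
    rw [this, one_mul]
  rw [h4, ENNReal.ofReal_pow hδ.le]
  gcongr

/-- support of the main array, part 2 -/
theorem main_stepS (M : Modes t) {K : Finset (ℤ × ℤ)} {eps : ℝ} (d : Des t.q K eps) {h : ℕ}
    (hh : 0 < h) {P' : ℤ} (hP : t.q * P' = t.P * h * d.q2 + 1) {k : ℤ × ℤ} (hk : k.2 ≠ 0)
    {u : ℝ → ℂ} (hu : ∀ c, u c ≠ 0 → ((k, c) : X) ∈ M.Sal) {chi0 : ℝ} {x : X}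
    (hx : Tp.mainA t.q d.q2 d.N k.1 (Fp d.v d.del) (psiM t h chi0 k.2 u) (d.M k) x ≠ 0) :
    x ∈ stepS M d h P' := by
  obtain ⟨h1, h2, h3⟩ := mainA_ne d hP hx
  have h4 := hu _ (psiM_ne h3)
  obtain ⟨r, hr⟩ := h4
  refine ⟨h1, _, hr, ?_, ?_⟩
  · obtain ⟨n, hn⟩ := h2
    refine ⟨n - r, ?_⟩
    simp only
    linear_combination hn
  · have hJ := M.sub _ hr
    simp only at hJ ⊢
    rw [t.lin _ hJ]
    have hk' : (k.2 : ℝ) ≠ 0 := by exact_mod_cast hk
    have hh' : (h : ℝ) ≠ 0 := by exact_mod_cast hh.ne'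
    have hal := t.al_pos.ne'
    rw [add_sub_cancel_left]
    field_simp

theorem good0 (hM : MainStmt) (M : Modes t) (k : ℤ × ℤ) (w : V) (hw : Supp (M.Sal ∩ fib k) w) :
    w ∈ Good (EvF t) (fun c => KK c) (B0 M) (fun c => meas_stepS M c.d c.hh c.P') := by
  by_cases hk2 : k.2 = 0
  · have he : M.Sal ∩ fib k = ∅ := by
      ext x
      simp only [Set.mem_inter_iff, Set.mem_empty_iff_false, iff_false, not_and]
      intro h1 h2
      have : x.1 = k := h2
      exact Sal_ne0 M x h1 (by rw [this, hk2])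
    rw [zero_of_supp_empty he hw]
    exact Submodule.zero_mem _
  have hk0 : k ≠ 0 := fun h => hk2 (by rw [h]; rfl)
  refine Good_of_main' w fun ε hε => ?_
  set e0 : ℝ := ε / (2 * (‖w‖ + 1)) with he0
  have hw1 : 0 < ‖w‖ + 1 := by positivity
  have he0p : 0 < e0 := by positivity
  set u : ℝ → ℂ := fun y => M.Sal.indicator (w : X → ℂ) (k, y) with hu
  have huL : MemLp u 2 (volume.restrict (Set.Ioc 0 1)) := memLp_sec_V (meas_Sal M) k w
  have huJ : ∀ c, c ∉ Set.Icc t.del (1 - t.del) → u c = 0 := fun c hc =>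
    Set.indicator_of_notMem (fun h => hc (Sal_J M _ h)) _
  obtain ⟨h0, hF⟩ := fresnel_bound t huL huJ hk2 (δ := ε / 2) (by positivity)
  filter_upwards [eventually_params t {k} he0p h0] with c hc
  obtain ⟨h1, h2, h3, h4⟩ := hc
  have hkK : k ∈ c.K := h1 (Finset.mem_singleton_self k)
  obtain ⟨gf⟩ := c.gf
  obtain ⟨m, hm, hmb⟩ := single_main hM c gf hkK hk0 (meas_Sal M) (Sal_J M) w hw
    (psiM t c.h gf.chi0 k.2 u) (measurable_psiM t c.h gf.chi0 k.2 (meas_sec k (meas_Sal M)))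
    ENNReal.ofReal_ne_top (hF c.h h4 gf.chi gf.chi0 gf.chi_J)
  refine ⟨m, ?_, ?_⟩
  · refine norm_le_of_enorm_sq hε.le (hmb.trans (two_mul_bound (by positivity) ?_))
    have h5 : ‖w‖ * c.eps ≤ ε / 2 := by
      calc ‖w‖ * c.eps ≤ (‖w‖ + 1) * e0 := mul_le_mul (by linarith) h3 h2.le hw1.le
        _ = ε / 2 := by rw [he0]; field_simp
    have h6 : 0 ≤ ‖w‖ * c.eps := by positivity
    nlinarith
  · refine supp_main c.d hm fun x hx => main_stepS M c.d c.hh c.hP hk2 (fun y hy => ?_) hx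
    by_contra hne
    exact hy (Set.indicator_of_notMem hne _)

end T0

/-- **(T0)** -/
theorem t0Stmt (hM : MainStmt) : T0Stmt := by
  intro t M u hu e he
  set w : V := Phi (hu.toLp u) with hwd
  have hwu : (w : X → ℂ) =ᵐ[muX] fcX u := Phi_toLp hu
  have h1 := transition (KK := fun c : Ch t => KK c) (B := B0 M)
    (hB := fun c => meas_stepS M c.d c.hh c.P') (l := EvF t) (meas_Sal M)
    (fun w' hw' => Good_of_modes (fun k w'' hw'' => good0 hM M k w'' hw'') w' hw') w he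
  refine ev_of_eventually (h1.mono fun c hc => ?_)
  have e1 : ms (stepS M c.d c.h c.P')ᶜ (fun y => u (c.G.perm y)) = off (B0 M c) (KK c w) :=
    ms_eq_off (meas_stepS M c.d c.hh c.P') (KK_toLp c hu)
  have e2 : ms M.Salᶜ u = off M.Sal w := ms_eq_off (meas_Sal M) hwu
  rw [e1, e2]
  exact hc

end Crest.Agent.R081.Tr
end

-- ▼ part R081/Mn1
section

/-! Row 81, route B, node MAIN, part 1 (helper27): the link between the coefficient formula (1.3)
(`Co.coef_formula`) and the Fourier coefficients `Fm.fc` of `w ∘ (K ∘ Lin)` on the three-torus. -/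

set_option autoImplicit false

namespace Crest.Agent.R081.Mn

open MeasureTheory Set Crest.AnalysisR.Torus3 Crest.Agent.R075 Crest.Agent.R081.Fm
  Crest.Agent.R081.Co

/-- pointwise description of `Φ = K ∘ Lin` (`m = q * q''`). -/
structure KL (m : ℕ) (J : Set ℝ) (a1 a2 : ℝ → ℝ → ℝ) (F χ : ℝ → ℝ) (Φ : T3 → T3) : Prop where
  inJ : ∀ c' θ1 θ2 : ℝ, Int.fract (m * θ1 - c') ∈ J →
    Φ (P3 (c', (θ1, θ2))) = P3 (Int.fract (m * θ1 - c'),
      (a1 (θ1 - Int.fract (m * θ1 - c') / m) (θ2 - Int.fract (m * θ1 - c') * F c'),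
       χ (Int.fract (m * θ1 - c'))
        + a2 (θ1 - Int.fract (m * θ1 - c') / m) (θ2 - Int.fract (m * θ1 - c') * F c')))
  outJ : ∀ c' θ1 θ2 : ℝ, Int.fract (m * θ1 - c') ∉ J →
    ∃ y : ℝ × ℝ, Φ (P3 (c', (θ1, θ2))) = P3 (Int.fract (m * θ1 - c'), y)

/-- the function `G` of `coef_formula` for a single mode `u(c) e(k.y)` -/
noncomputable def GG (m : ℕ) (a1 a2 : ℝ → ℝ → ℝ) (F χ : ℝ → ℝ) (u : ℝ → ℂ) (k : ℤ × ℤ)
    (c z1 z2 : ℝ) : ℂ :=
  u (Int.fract c) * ee (k.1 * a1 (z1 - Int.fract c / m) (z2 - Int.fract c * F (m * z1 - c))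
    + k.2 * (χ (Int.fract c) + a2 (z1 - Int.fract c / m) (z2 - Int.fract c * F (m * z1 - c))))

variable {q : ℕ} {a1 a2 : ℝ → ℝ → ℝ}

theorem GG_add_one (m : ℕ) (F χ : ℝ → ℝ) (hF : Function.Periodic F 1) (u : ℝ → ℂ) (k : ℤ × ℤ)
    (c z1 z2 : ℝ) : GG m a1 a2 F χ u k (c + 1) z1 z2 = GG m a1 a2 F χ u k c z1 z2 := by
  have h1 : Int.fract (c + 1) = Int.fract c := by
    have := Int.fract_add_intCast c 1
    simpa using this
  have h2 : F (m * z1 - (c + 1)) = F (m * z1 - c) := by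
    have := hF (m * z1 - (c + 1))
    rw [← this]; congr 1; ring
  unfold GG
  rw [h1, h2]

theorem GG_add_one' (h : Eqv q a1 a2) (hq : 0 < q) (m : ℕ) (F χ : ℝ → ℝ)
    (hF : Function.Periodic F 1) (u : ℝ → ℂ) (k : ℤ × ℤ)
    (c z1 z2 : ℝ) : GG m a1 a2 F χ u k c (z1 + 1) z2 = GG m a1 a2 F χ u k c z1 z2 := by
  have h2 : F (m * (z1 + 1) - c) = F (m * z1 - c) := by
    have := hF.nat_mul m (m * z1 - c)
    rw [mul_one] at this
    rw [← this]; congr 1; ring
  have h3 : z1 + 1 - Int.fract c / m = (z1 - Int.fract c / m) + 1 := by ring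
  unfold GG
  rw [h2, h3, (h.per_one hq _ _).1, (h.per_one hq _ _).2]
  congr 1
  have : ∀ x y : ℝ, (k.1 : ℝ) * (x + 1) + y = (k.1 * x + y) + ((k.1 : ℤ) : ℝ) := by
    intro x y; ring
  rw [this, ee_add_int]

theorem GG_eq {m : ℕ} {J : Set ℝ} {F χ : ℝ → ℝ} {Φ : T3 → T3} (hK : KL m J a1 a2 F χ Φ)
    {u : ℝ → ℂ} (hu : ∀ c, c ∉ J → u c = 0) {k : ℤ × ℤ} {w : T3 → ℂ}
    (hw : ∀ (c : ℝ) (y : ℝ × ℝ), 0 ≤ c → c < 1 → w (P3 (c, y)) = u c * ek k y)
    (c' θ1 θ2 : ℝ) : w (Φ (P3 (c', (θ1, θ2)))) = GG m a1 a2 F χ u k (m * θ1 - c') θ1 θ2 := by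
  have e1 : (m : ℝ) * θ1 - (m * θ1 - c') = c' := by ring
  unfold GG
  rw [e1]
  by_cases hJ : Int.fract (m * θ1 - c') ∈ J
  · rw [hK.inJ c' θ1 θ2 hJ, hw _ _ (Int.fract_nonneg _) (Int.fract_lt_one _)]
    rfl
  · obtain ⟨y, hy⟩ := hK.outJ c' θ1 θ2 hJ
    rw [hy, hw _ _ (Int.fract_nonneg _) (Int.fract_lt_one _), hu _ hJ, zero_mul, zero_mul]

/-- integrability of `u (fract (m x - c'))` on `(0,1]` -/
theorem integrable_fract {u : ℝ → ℂ} (hui : IntervalIntegrable u volume 0 1) {m : ℕ} (hm : 0 < m)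
    (c' : ℝ) : Integrable (fun x : ℝ => u (Int.fract (m * x - c'))) I01 := by
  have hg : IntervalIntegrable (fun x : ℝ => u (Int.fract x)) volume 0 1 := by
    refine hui.congr_ae ?_
    rw [Filter.EventuallyEq, ae_restrict_iff' measurableSet_uIoc]
    have h1 : ∀ᵐ c ∂(volume : Measure ℝ), c ≠ 1 := by
      simp [ae_iff, measure_singleton]
    filter_upwards [h1] with c hc hc2
    rw [Set.uIoc_of_le zero_le_one] at hc2
    rw [Int.fract_eq_self.2 ⟨hc2.1.le, lt_of_le_of_ne hc2.2 hc⟩]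
  have hp : Function.Periodic (fun x : ℝ => u (Int.fract x)) 1 := by
    intro x
    have : Int.fract (x + 1) = Int.fract x := by
      have := Int.fract_add_intCast x 1
      simpa using this
    simp only [this]
  have hm0 : (m : ℝ) ≠ 0 := by positivity
  have h2 : IntervalIntegrable (fun x : ℝ => u (Int.fract x)) volume (0 - c') (m - c') :=
    hp.intervalIntegrable₀ one_ne_zero hg _ _
  have h3 := (h2.comp_sub_right c').comp_mul_left (c := (m : ℝ))
  have e1 : (fun x : ℝ => u (Int.fract (m * x - c')))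
      = (fun x : ℝ => (fun x : ℝ => (fun x : ℝ => u (Int.fract x)) (x - c')) (m * x)) := rfl
  have e2 : (0 - c' + c') / (m : ℝ) = 0 := by simp
  have e3 : ((m : ℝ) - c' + c') / (m : ℝ) = 1 := by field_simp; ring
  rw [e2, e3] at h3
  rw [intervalIntegrable_iff_integrableOn_Ioc_of_le zero_le_one] at h3
  exact h3

/-- **the link**: the Fourier coefficients of `w ∘ K ∘ Lin` for a single mode `w = u(c) e(k.y)` -/
theorem fc_comp (h : Eqv q a1 a2) (hq : 0 < q) {m : ℕ} (hm : 0 < m)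
    (ha1 : Measurable (fun p : ℝ × ℝ => a1 p.1 p.2)) (ha2 : Measurable (fun p : ℝ × ℝ => a2 p.1 p.2))
    {J : Set ℝ} {F χ : ℝ → ℝ} (hF : Function.Periodic F 1) (hFm : Measurable F)
    (hχ : Measurable χ) {Φ : T3 → T3} (hK : KL m J a1 a2 F χ Φ)
    {u : ℝ → ℂ} (hum : Measurable u) (hui : IntervalIntegrable u volume 0 1)
    (hu : ∀ c, c ∉ J → u c = 0) {k : ℤ × ℤ} {w : T3 → ℂ}
    (hw : ∀ (c : ℝ) (y : ℝ × ℝ), 0 ≤ c → c < 1 → w (P3 (c, y)) = u c * ek k y)
    (j b : ℤ) (c' : ℝ) :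
    fc (fun t => w (Φ t)) (j, b) c'
      = ee (-(j * c' / m)) * (Co.phi u χ k.2 (j / m + b * F c') * D a1 a2 m k j b c') := by
  have hmain := coef_formula h m hm {k} (fun _ => u) (fun _ _ => hui) F χ hF hχ
    (GG m a1 a2 F χ u k) (GG_add_one m F χ hF u k) (GG_add_one' h hq m F χ hF u k)
    (by
      intro c hc0 hc1 z1 z2
      rw [Finset.sum_singleton]
      unfold GG
      rw [Int.fract_eq_self.2 ⟨hc0, hc1⟩]) j b c'
  rw [Finset.sum_singleton] at hmain
  rw [← hmain]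
  unfold fc
  have e1 : (fun y : ℝ × ℝ => ek (-(j, b)) y * w (Φ (P3 (c', y))))
      = fun y : ℝ × ℝ => GG m a1 a2 F χ u k (m * y.1 - c') y.1 y.2 * ee (-(j * y.1 + b * y.2)) := by
    funext y
    have := GG_eq hK hu hw c' y.1 y.2
    rw [show ((y.1, y.2) : ℝ × ℝ) = y from rfl] at this
    rw [this, mul_comm]
    congr 1
    unfold ek
    congr 1
    simp only [Prod.neg_mk]
    push_cast
    ring
  rw [e1]
  have hmeas : Measurable (fun y : ℝ × ℝ =>
      GG m a1 a2 F χ u k (m * y.1 - c') y.1 y.2 * ee (-(j * y.1 + b * y.2))) := by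
    unfold GG
    have hfr : Measurable (fun y : ℝ × ℝ => Int.fract ((m : ℝ) * y.1 - c')) :=
      measurable_fract.comp (by fun_prop)
    have hz1 : Measurable (fun y : ℝ × ℝ => y.1 - Int.fract ((m : ℝ) * y.1 - c') / m) :=
      measurable_fst.sub (hfr.div_const _)
    have hz2 : Measurable (fun y : ℝ × ℝ => y.2 - Int.fract ((m : ℝ) * y.1 - c')
        * F (m * y.1 - (m * y.1 - c'))) :=
      measurable_snd.sub (hfr.mul (hFm.comp (by fun_prop)))
    refine ((hum.comp hfr).mul (ee_continuous.measurable.comp ?_)).mul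
      (ee_continuous.measurable.comp (by fun_prop))
    exact ((ha1.comp (hz1.prodMk hz2)).const_mul _).add
      (((hχ.comp hfr).add (ha2.comp (hz1.prodMk hz2))).const_mul _)
  have hint : Integrable (fun y : ℝ × ℝ =>
      GG m a1 a2 F χ u k (m * y.1 - c') y.1 y.2 * ee (-(j * y.1 + b * y.2))) (I01.prod I01) := by
    haveI : IsFiniteMeasure I01 := by unfold I01; infer_instance
    have h1 : Integrable (fun y : ℝ × ℝ => u (Int.fract (m * y.1 - c'))) (I01.prod I01) :=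
      (integrable_fract hui hm c').comp_fst I01
    refine h1.mono hmeas.aestronglyMeasurable (Filter.Eventually.of_forall fun y => ?_)
    unfold GG
    rw [norm_mul, norm_mul, norm_ee, norm_ee, mul_one, mul_one]
  haveI : IsFiniteMeasure I01 := by unfold I01; infer_instance
  rw [integral_prod _ hint]
  rw [intervalIntegral.integral_of_le zero_le_one]
  unfold I01
  refine integral_congr_ae (Filter.Eventually.of_forall fun x => ?_)
  simp only
  rw [intervalIntegral.integral_of_le zero_le_one]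

end Crest.Agent.R081.Mn
end

-- ▼ part R081/Mn2
section

/-! Row 81, route B, node MAIN (helper27): the coefficients of `(u(c) e(k·y)) ∘ K ∘ Lin` are close in
`L²(muX)` to the explicit array `mainA`. -/

set_option autoImplicit false

namespace Crest.Agent.R081.Mn

open MeasureTheory Set Crest.AnalysisR.Torus3 Crest.Agent.R075 Crest.Agent.R081.Fm
  Crest.Agent.R081.Co Crest.Agent.R081.St Crest.Agent.R081.Tw
open scoped ENNReal

theorem P3_add (c y1 y2 : ℝ) (l m n : ℤ) : P3 (c + l, (y1 + m, y2 + n)) = P3 (c, (y1, y2)) := by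
  unfold P3
  rw [← Sm.proj_add_zv ![c, y1, y2] ![l, m, n]]
  congr 1
  funext i
  fin_cases i <;> simp

variable {t : TwD} {K : Finset (ℤ × ℤ)} {eps : ℝ}

theorem chi_add_int {f : ℝ → ℝ} (hf : ∀ c, ∃ n : ℤ, f (c + 1) = f c + n) (c : ℝ) (l : ℤ) :
    ∃ n : ℤ, f (c + l) = f c + n := by
  induction l using Int.induction_on with
  | zero => exact ⟨0, by simp⟩
  | succ l ih =>
    obtain ⟨n, hn⟩ := ih
    obtain ⟨n', hn'⟩ := hf (c + ((l : ℤ) : ℝ))
    refine ⟨n + n', ?_⟩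
    have : c + (((l : ℤ) + 1 : ℤ) : ℝ) = c + (l : ℤ) + 1 := by push_cast; ring
    rw [this, hn', hn]
    push_cast
    ring
  | pred l ih =>
    obtain ⟨n, hn⟩ := ih
    obtain ⟨n', hn'⟩ := hf (c + ((-(l : ℤ) - 1 : ℤ) : ℝ))
    refine ⟨n - n', ?_⟩
    have : c + ((-(l : ℤ) - 1 : ℤ) : ℝ) + 1 = c + ((-(l : ℤ) : ℤ) : ℝ) := by push_cast; ring
    rw [this, hn] at hn'
    push_cast at hn' ⊢
    linarith

/-- `GForm` gives the pointwise description `KL` -/
theorem kl_of_gform (d : Des t.q K eps) {h : ℕ} {G : Sm.LD} (gf : GForm d h G) :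
    KL (t.q * d.q2) (Icc t.del (1 - t.del)) (wa1 t.q d.w) (wa2 t.q d.w) (Fp d.v d.del) gf.chi
      G.perm := by
  have key : ∀ c' θ1 θ2 : ℝ, ∃ y : ℝ × ℝ, G.perm (P3 (c', (θ1, θ2)))
      = P3 (Int.fract (((t.q * d.q2 : ℕ) : ℝ) * θ1 - c'), y) ∧
      (Int.fract (((t.q * d.q2 : ℕ) : ℝ) * θ1 - c') ∈ Icc t.del (1 - t.del) →
        y = (wa1 t.q d.w (θ1 - Int.fract (((t.q * d.q2 : ℕ) : ℝ) * θ1 - c') / ((t.q * d.q2 : ℕ) : ℝ))
              (θ2 - Int.fract (((t.q * d.q2 : ℕ) : ℝ) * θ1 - c') * Fp d.v d.del c'),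
            gf.chi (Int.fract (((t.q * d.q2 : ℕ) : ℝ) * θ1 - c')) +
             wa2 t.q d.w (θ1 - Int.fract (((t.q * d.q2 : ℕ) : ℝ) * θ1 - c') / ((t.q * d.q2 : ℕ) : ℝ))
              (θ2 - Int.fract (((t.q * d.q2 : ℕ) : ℝ) * θ1 - c') * Fp d.v d.del c'))) := by
    intro c' θ1 θ2
    have hcast : ((t.q * d.q2 : ℕ) : ℝ) = (t.q * d.q2 : ℝ) := by push_cast; ring
    rw [hcast]
    set c : ℝ := (t.q * d.q2 : ℝ) * θ1 - c' with hc
    set c0 : ℝ := Int.fract c with hc0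
    have hcc : c = c0 + (⌊c⌋ : ℝ) := (Int.fract_add_floor c).symm
    obtain ⟨n, hn⟩ := chi_add_int gf.chi_per c0 ⌊c⌋
    rw [← hcc] at hn
    have hb : gf.bet c = gf.bet c0 := by
      rw [hcc]
      exact per_int gf.bet_per ⌊c⌋ c0
    set Aw := Word.act t.q d.w (θ1 - gf.bet c / (t.q * d.q2), θ2 - gf.bet c * Fp d.v d.del c') with hAw
    refine ⟨(Aw.1, gf.chi c0 + Aw.2), ?_, ?_⟩
    · rw [gf.form c' θ1 θ2, ← hc, ← hAw, hn]
      have e1 : gf.chi c0 + (n : ℝ) + Aw.2 = gf.chi c0 + Aw.2 + (n : ℝ) := by ring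
      rw [e1]
      have := P3_add c0 Aw.1 (gf.chi c0 + Aw.2) ⌊c⌋ 0 n
      rw [← hcc] at this
      simpa using this
    · intro hJ
      have hbJ : gf.bet c = c0 := by rw [hb]; exact gf.bet_J c0 hJ
      rw [hAw, hbJ]
      rfl
  refine ⟨fun c' θ1 θ2 hJ => ?_, fun c' θ1 θ2 _ => ?_⟩
  · obtain ⟨y, h1, h2⟩ := key c' θ1 θ2
    rw [h1, h2 hJ]
  · obtain ⟨y, h1, _⟩ := key c' θ1 θ2
    exact ⟨y, h1⟩

theorem em_P3 {k : ℤ × ℤ} {u : ℝ → ℂ} {c : ℝ} (hc : c ∈ Set.Ioc (0:ℝ) 1) (y : ℝ × ℝ) :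
    em k u (P3 (c, y)) = u c * ek k y := by
  rw [← C3_Q2, em_C3 hc, mFourier_Q2]

theorem em_P3_zero {k : ℤ × ℤ} {u : ℝ → ℂ} (y : ℝ × ℝ) :
    em k u (P3 (0, y)) = u 1 * ek k y := by
  have h1 : P3 ((0:ℝ), y) = P3 (1, y) := by
    have := P3_add 0 y.1 y.2 1 0 0
    simpa using this.symm
  rw [h1]
  exact em_P3 (by simp) y

/-- the values of a single mode supported in `J` -/
theorem em_hw {δ : ℝ} (hδ : 0 < δ) {k : ℤ × ℤ} {u : ℝ → ℂ} (hu : ∀ c, c ∉ Icc δ (1 - δ) → u c = 0)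
    (c : ℝ) (y : ℝ × ℝ) (h0 : 0 ≤ c) (h1 : c < 1) : em k u (P3 (c, y)) = u c * ek k y := by
  rcases h0.eq_or_lt with h | h
  · subst h
    rw [em_P3_zero, hu 0 (fun h => by linarith [h.1]), hu 1 (fun h => by linarith [h.2])]
  · exact em_P3 ⟨h, h1.le⟩ y

theorem measurable_Fp (v : ℝ) {δ : ℝ} (hδ : 0 < δ) : Measurable (Fp v δ) :=
  (Fp_smooth v hδ).continuous.measurable

/-- the coefficients of `(u e(k·y)) ∘ G` -/
theorem fcX_em (d : Des t.q K eps) {h : ℕ} {G : Sm.LD} (gf : GForm d h G) (k : ℤ × ℤ) {u : ℝ → ℂ}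
    (hum : Measurable u) (hu2 : MemLp u 2 I01) (huJ : ∀ c, c ∉ Icc t.del (1 - t.del) → u c = 0)
    (x : (ℤ × ℤ) × ℝ) :
    fcX (fun y => em k u (G.perm y)) x
      = Tp.Carr t.q d.q2 (Fp d.v d.del) (Co.phi u gf.chi k.2)
          (fun j b c => Co.D (wa1 t.q d.w) (wa2 t.q d.w) (t.q * d.q2) k j b c) x := by
  have hm : 0 < t.q * d.q2 := Nat.mul_pos t.q_pos d.q2_pos
  have hui : IntervalIntegrable u volume 0 1 := by
    rw [intervalIntegrable_iff_integrableOn_Ioc_of_le zero_le_one]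
    haveI : IsFiniteMeasure (volume.restrict (Set.Ioc (0:ℝ) 1)) := by infer_instance
    exact hu2.integrable one_le_two
  have := fc_comp (eqv_word t.q_pos d.w) t.q_pos hm (continuous_wa1 t.q d.w).measurable
    (continuous_wa2 t.q d.w).measurable (J := Icc t.del (1 - t.del))
    (F := Fp d.v d.del) (χ := gf.chi) (fun c => Fp_per d.v d.del c) (measurable_Fp d.v d.del_pos)
    gf.chi_cont.measurable (kl_of_gform d gf) hum hui huJ (k := k) (w := em k u)
    (em_hw t.del_pos huJ) x.1.1 x.1.2 x.2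
  unfold fcX
  rw [show (x.1 : ℤ × ℤ) = (x.1.1, x.1.2) from rfl, this]
  unfold Tp.Carr
  push_cast
  rfl

/-- the lines as a family of sets -/
def Eab (d : Des t.q K eps) (a b : ℤ) : Set ℝ := {c : ℝ | (((a : ZMod d.q2), b), c) ∈ d.E}

theorem injE (d : Des t.q K eps) : Tp.InjE d.q2 (Fp d.v d.del) (Eab d) := by
  intro a b c a' b' c' hc hc' hn
  obtain ⟨n, hn⟩ := hn
  obtain ⟨h1, h2, h3⟩ := d.E_inj a b a' b' c c' hc hc' ⟨n, by linarith⟩
  refine ⟨?_, h2, h3⟩
  exact (ZMod.intCast_eq_intCast_iff_dvd_sub _ _ _).1 h1.symm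

theorem enorm_sq_eq (z : ℂ) : ‖z‖ₑ ^ 2 = ENNReal.ofReal (‖z‖ ^ 2) := by
  rw [ENNReal.ofReal_pow (norm_nonneg _), ofReal_norm]

theorem continuous_co_phi {u : ℝ → ℂ} (hu2 : MemLp u 2 I01) {χ : ℝ → ℝ} (hχ : Continuous χ) (k2 : ℤ) :
    Continuous (Co.phi u χ k2) := by
  have e1 : Co.phi u χ k2 = FrPars.Ft (fun c => u c * ee (k2 * χ c)) := by
    funext τ
    unfold Co.phi FrPars.Ft
    refine intervalIntegral.integral_congr fun c _ => ?_
    show _ = _ * _ * _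
    rw [mul_assoc, ← ee_add]
    rfl
  rw [e1]
  exact FrPars.cont_Ft (FrPars.L2.mul_ee (g := fun c => k2 * χ c) hu2 (continuous_const.mul hχ))

/-- Parseval in unit shifts -/
theorem tsum_co_phi {u : ℝ → ℂ} (hu2 : MemLp u 2 I01) {χ : ℝ → ℝ} (hχ : Continuous χ) (k2 : ℤ) (τ : ℝ) :
    ∑' m : ℤ, ‖Co.phi u χ k2 (τ + m)‖ₑ ^ 2 = ∫⁻ c, ‖u c‖ₑ ^ 2 ∂I01 := by
  have h1 := Fr.hasSum_co_phi hu2 hχ.measurable k2 τ
  have h2 : ∑' m : ℤ, ‖Co.phi u χ k2 (τ + m)‖ₑ ^ 2
      = ENNReal.ofReal (∫ c in (0 : ℝ)..1, ‖u c‖ ^ 2) := by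
    rw [← h1.tsum_eq, ENNReal.ofReal_tsum_of_nonneg (fun m => by positivity) h1.summable]
    exact tsum_congr fun m => enorm_sq_eq _
  rw [h2, FrPars.lintegral_sq_eq hu2]
  rfl

theorem Dd_eq_DD (q q2 : ℕ) (N : ℤ) (w : Word) (k : ℤ × ℤ) (a b : ℤ) (c : ℝ) :
    Dd q q2 N w k a b c = DD (wa1 q w) (wa2 q w) q q2 N k a b c := rfl

theorem Dd_per (d : Des t.q K eps) (k : ℤ × ℤ) (a b : ℤ) (c : ℝ) :
    Dd t.q d.q2 d.N d.w k (a + d.q2) b c = Dd t.q d.q2 d.N d.w k a b c := by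
  rw [Dd_eq_DD, Dd_eq_DD, DD_add_q2 d.q2_pos]

theorem D_eq_Dd (d : Des t.q K eps) (k : ℤ × ℤ) (j b : ℤ) (c : ℝ) (hj : (t.q : ℤ) ∣ j - k.1) :
    Co.D (wa1 t.q d.w) (wa2 t.q d.w) (t.q * d.q2) k j b c = Dd t.q d.q2 d.N d.w k (j * d.N) b c := by
  rw [Dd_eq_DD]
  exact D_eq_DD (eqv_word t.q_pos d.w) t.q_pos d.q2_pos k j b c hj d.N (j * d.N) d.hN (by simp)

theorem D_eq_zero' (d : Des t.q K eps) (k : ℤ × ℤ) (j b : ℤ) (c : ℝ) (hj : ¬ (t.q : ℤ) ∣ j - k.1) :
    Co.D (wa1 t.q d.w) (wa2 t.q d.w) (t.q * d.q2) k j b c = 0 :=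
  D_eq_zero (eqv_word t.q_pos d.w) t.q_pos d.q2_pos k j b c hj

theorem M_enorm (d : Des t.q K eps) (k : ℤ × ℤ) (a b : ℤ) (c : ℝ) :
    ‖d.M k a b c‖ₑ ^ 2
      = (Eab d a b).indicator (fun _ => ENNReal.ofReal (|(b : ℝ)| * (d.v / (1 - 2 * d.del)))) c := by
  rw [enorm_sq_eq, d.M_norm k a b c]
  unfold Eab
  by_cases hc : c ∈ {c : ℝ | (((a : ZMod d.q2), b), c) ∈ d.E}
  · rw [Set.indicator_of_mem hc, Set.indicator_of_mem hc]
  · rw [Set.indicator_of_notMem hc, Set.indicator_of_notMem hc, ENNReal.ofReal_zero]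

theorem Eab_zero (d : Des t.q K eps) (a : ℤ) : Eab d a 0 = ∅ := by
  ext c
  simp only [Set.mem_empty_iff_false, iff_false]
  exact fun hc => d.E_ne0 _ hc rfl

theorem Fp_Eab (d : Des t.q K eps) (a b : ℤ) (c : ℝ) (hc : c ∈ Eab d a b) :
    Fp d.v d.del c = d.v / (1 - 2 * d.del) * (c - d.del) := by
  have h1 := d.E_sub _ hc
  rw [Fp_eq d.v d.del_pos h1.1 h1.2]; ring

theorem vs_pos (d : Des t.q K eps) : 0 < d.v / (1 - 2 * d.del) := by
  have := d.del_lt
  have := d.v_pos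
  have h1 : (0 : ℝ) < 1 - 2 * d.del := by linarith
  positivity

theorem measurable_Dd (d : Des t.q K eps) (k : ℤ × ℤ) (a b : ℤ) :
    Measurable (Dd t.q d.q2 d.N d.w k a b) :=
  (continuous_DD (q := t.q) (q2 := d.q2) (continuous_wa1 t.q d.w) (continuous_wa2 t.q d.w)
      d.N k a b).measurable

theorem des_err (d : Des t.q K eps) {k : ℤ × ℤ} (hk : k ∈ K) (hk0 : k ≠ 0) :
    ∫⁻ c in Set.Ioc (0 : ℝ) 1, ∑' b : ℤ, ∑ a ∈ Finset.range d.q2,
      ‖Dd t.q d.q2 d.N d.w k a b c - d.M k a b c‖ₑ ^ 2 ≤ ENNReal.ofReal (eps ^ 2) := by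
  have hmeas : ∀ a b : ℤ, Measurable fun c => ‖Dd t.q d.q2 d.N d.w k a b c - d.M k a b c‖ₑ ^ 2 :=
    fun a b => ((measurable_Dd d k a b).sub (d.M_meas k a b)).enorm.pow_const 2
  refine le_trans (le_of_eq ?_) (d.err k hk hk0)
  rw [lintegral_tsum (f := fun (b : ℤ) (c : ℝ) => ∑ a ∈ Finset.range d.q2,
      ‖Dd t.q d.q2 d.N d.w k a b c - d.M k a b c‖ₑ ^ 2)
    (fun b => (Finset.measurable_sum (f := fun (a : ℕ) (c : ℝ) =>
      ‖Dd t.q d.q2 d.N d.w k a b c - d.M k a b c‖ₑ ^ 2) (Finset.range d.q2)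
      (fun a _ => hmeas a b)).aemeasurable)]
  have e1 : ∀ b : ℤ, ∫⁻ c in Set.Ioc (0 : ℝ) 1, ∑ a ∈ Finset.range d.q2,
      ‖Dd t.q d.q2 d.N d.w k a b c - d.M k a b c‖ₑ ^ 2
      = ∑ a ∈ Finset.range d.q2, ∫⁻ c in Set.Ioc (0 : ℝ) 1,
          ‖Dd t.q d.q2 d.N d.w k a b c - d.M k a b c‖ₑ ^ 2 := fun b =>
    lintegral_finsetSum (f := fun (a : ℕ) (c : ℝ) =>
      ‖Dd t.q d.q2 d.N d.w k a b c - d.M k a b c‖ₑ ^ 2) _ fun a _ => hmeas a b
  simp only [e1]
  exact Summable.tsum_finsetSum (fun a _ => ENNReal.summable)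

/-- **(MAIN)**, general form: `psi` any `L²` approximation of `Co.phi`. -/
theorem main_gen (d : Des t.q K eps) {h : ℕ} {G : Sm.LD} (gf : GForm d h G) {k : ℤ × ℤ}
    (hk : k ∈ K) (hk0 : k ≠ 0) {u : ℝ → ℂ}
    (hum : Measurable u) (hu2 : MemLp u 2 I01) (huJ : ∀ c, c ∉ Icc t.del (1 - t.del) → u c = 0)
    (psi : ℝ → ℂ) (hpsi : Measurable psi) (e : ℝ≥0∞)
    (he : ∫⁻ τ, ‖Co.phi u gf.chi k.2 τ - psi τ‖ₑ ^ 2 ≤ e) :
    ∫⁻ x, ‖fcX (fun y => em k u (G.perm y)) x
        - Tp.mainA t.q d.q2 d.N k.1 (Fp d.v d.del) psi (d.M k) x‖ₑ ^ 2 ∂muX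
      ≤ 2 * ((∫⁻ c, ‖u c‖ₑ ^ 2 ∂I01) * ENNReal.ofReal (eps ^ 2) + e) := by
  have hN : (d.q2 : ℤ) ∣ t.q * d.N - 1 := by
    have := d.hN
    rwa [mul_comm] at this
  have hmain := Tp.main_bound t.q d.q2 t.q_pos d.q2_pos d.N hN k.1 (Co.phi u gf.chi k.2) psi
    (continuous_co_phi hu2 gf.chi_cont k.2).measurable hpsi (∫⁻ c, ‖u c‖ₑ ^ 2 ∂I01) e
    (ENNReal.ofReal (eps ^ 2)) (fun τ => (tsum_co_phi hu2 gf.chi_cont k.2 τ).le) he
    (Fp d.v d.del) (d.v / (1 - 2 * d.del)) d.del (vs_pos d) (measurable_Fp d.v d.del_pos)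
    (Eab d) (fun a b => d.E_meas a b) (Eab_zero d) (Fp_Eab d) (injE d)
    (Dd t.q d.q2 d.N d.w k) (d.M k) (Dd_per d k) (fun a b c => d.M_per k a b c)
    (measurable_Dd d k) (d.M_meas k) (fun a b c => (M_enorm d k a b c).le) (des_err d hk hk0)
    (fun j b c => Co.D (wa1 t.q d.w) (wa2 t.q d.w) (t.q * d.q2) k j b c)
    (fun j b => (continuous_D (continuous_wa1 t.q d.w) (continuous_wa2 t.q d.w) _ k j b).measurable)
    (D_eq_zero' d k) (D_eq_Dd d k)
  refine le_trans (le_of_eq ?_) hmain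
  refine lintegral_congr fun x => ?_
  rw [fcX_em d gf k hum hu2 huJ x]


/-- the stationary phase form of `Co.phi` -/
noncomputable def psiT (u : ℝ → ℂ) (k2 : ℤ) (h : ℕ) (al del C : ℝ) (τ : ℝ) : ℂ :=
  ee (k2 * C) * Fr.mainT (k2 * (h * al)) del (Fr.cut u) τ

theorem measurable_psiT {u : ℝ → ℂ} (hum : Measurable u) (k2 : ℤ) (h : ℕ) (al del C : ℝ) :
    Measurable (psiT u k2 h al del C) := by
  unfold psiT Fr.mainT
  have h1 : Measurable (Fr.cut u) := hum.indicator measurableSet_Ioc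
  refine Measurable.mul measurable_const (Measurable.mul (Measurable.mul measurable_const ?_) ?_)
  · exact (Fr.continuous_ze del).measurable
  · exact h1.comp (by fun_prop)

/-- **(MAIN2)**: stationary phase form; `k.2 ≠ 0`, all large `h`. -/
theorem main2 (d : Des t.q K eps) {k : ℤ × ℤ} (hk : k ∈ K) (hk2 : k.2 ≠ 0) {u : ℝ → ℂ}
    (hum : Measurable u) (hu2 : MemLp u 2 I01) (huJ : ∀ c, c ∉ Icc t.del (1 - t.del) → u c = 0)
    {ε : ℝ} (hε : 0 < ε) :
    ∃ h0 : ℕ, 0 < h0 ∧ ∀ h : ℕ, h0 ≤ h → ∀ (G : Sm.LD) (gf : GForm d h G),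
      ∫⁻ x, ‖fcX (fun y => em k u (G.perm y)) x
        - Tp.mainA t.q d.q2 d.N k.1 (Fp d.v d.del) (psiT u k.2 h t.al t.del gf.chi0) (d.M k) x‖ₑ ^ 2
          ∂muX
      ≤ 2 * ((∫⁻ c, ‖u c‖ₑ ^ 2 ∂I01) * ENNReal.ofReal (eps ^ 2) + ENNReal.ofReal ε) := by
  obtain ⟨h0, hh0, H⟩ := Fr.co_phi_L2 hu2 hk2 t.al_pos hε
  have hk0 : k ≠ 0 := fun h => hk2 (by rw [h]; rfl)
  refine ⟨⌈h0⌉₊ + 1, Nat.succ_pos _, fun h hh G gf => ?_⟩
  have hhr : h0 ≤ (h : ℝ) := by
    have h1 := Nat.le_ceil h0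
    have h2 : ((⌈h0⌉₊ + 1 : ℕ) : ℝ) ≤ h := by exact_mod_cast hh
    push_cast at h2
    linarith
  have hh1 : (0 : ℝ) < h := lt_of_lt_of_le hh0 hhr
  refine main_gen d gf hk hk0 hum hu2 huJ _ (measurable_psiT hum _ _ _ _ _) _ ?_
  have hχ : ∀ c ∈ Set.Ioc (0 : ℝ) 1, u c ≠ 0 →
      gf.chi c = h * t.al * (c - t.del) ^ 2 / 2 + gf.chi0 := by
    intro c _ hc
    have hcJ : c ∈ Icc t.del (1 - t.del) := by
      by_contra hcJ
      exact hc (huJ c hcJ)
    rw [gf.chi_J c hcJ]; ring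
  have h1 := H h hhr t.del gf.chi0 gf.chi hχ
  have hlam : (k.2 : ℝ) * (h * t.al) ≠ 0 := by
    have h2 : (k.2 : ℝ) ≠ 0 := by exact_mod_cast hk2
    have h3 := t.al_pos
    positivity
  have hmem : MemLp (fun τ => Co.phi u gf.chi k.2 τ - psiT u k.2 h t.al t.del gf.chi0 τ) 2 volume := by
    have e1 : (fun τ => Co.phi u gf.chi k.2 τ - psiT u k.2 h t.al t.del gf.chi0 τ)
        = fun τ => ee (k.2 * gf.chi0) *
          (Fr.phi (k.2 * (h * t.al)) t.del (Fr.cut u) τ - Fr.mainT (k.2 * (h * t.al)) t.del (Fr.cut u) τ) := by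
      funext τ
      rw [Fr.co_phi_eq u gf.chi k.2 (h * t.al) gf.chi0 t.del hχ τ]
      unfold psiT
      ring
    rw [e1]
    exact (Fr.memLp_phi_sub hlam t.del (Fr.integrable_cut hu2) (Fr.memLp_cut hu2)).const_mul _
  have h2 : ∫⁻ τ, ‖Co.phi u gf.chi k.2 τ - psiT u k.2 h t.al t.del gf.chi0 τ‖ₑ ^ 2
      = ENNReal.ofReal (∫ τ, ‖Co.phi u gf.chi k.2 τ - psiT u k.2 h t.al t.del gf.chi0 τ‖ ^ 2) := by
    rw [ofReal_integral_eq_lintegral_ofReal]
    · exact lintegral_congr fun τ => enorm_sq_eq _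
    · exact (memLp_two_iff_integrable_sq_norm hmem.1).1 hmem
    · exact Filter.Eventually.of_forall fun τ => by positivity
  rw [h2]
  exact ENNReal.ofReal_le_ofReal h1

end Crest.Agent.R081.Mn
end

-- ▼ part R081/TrH
section

/-! Row 81, route B, node TRANSITIONS (helper177), part H: the literal (T1) and (T0). -/

set_option autoImplicit false

namespace Crest.Agent.R081.Tr

open MeasureTheory Filter Crest.AnalysisR.Torus3 Crest.Agent.R075 Crest.Agent.R081.Fm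
  Crest.Agent.R081.Sm Crest.Agent.R081.Tw Crest.Agent.R081.St
open scoped ENNReal Topology ContDiff

theorem mainStmt : MainStmt := by
  intro t K eps d h G hG gf k hk hk0 u hum hu2 huJ U hU hfc psi hpsi
  have hu2' : MemLp u 2 I01 := hu2
  have hem : MemLp (em k u) 2 volume := by
    refine ⟨aesm_em k hum.aestronglyMeasurable, ?_⟩
    have h1 : eLpNorm (em k u) 2 volume ^ 2 = eLpNorm u 2 I01 ^ 2 := by
      rw [eLpNorm_two_sq, eLpNorm_two_sq]
      exact lintegral_em k hum.aestronglyMeasurable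
    by_contra htop
    rw [not_lt, top_le_iff] at htop
    rw [htop] at h1
    have h2 : eLpNorm u 2 I01 ^ 2 ≠ ⊤ := ENNReal.pow_ne_top hu2'.2.ne
    exact h2 (by rw [← h1]; simp)
  have hfe : fcX (em k u) =ᵐ[muX] fcX U := by
    have h4 : ∀ᵐ x ∂muX, fcX (em k u) x = if x.1 = k then u x.2 else 0 := by
      refine ae_muX.2 fun m => ?_
      filter_upwards [fc_em k m u] with c hc
      simpa [fcX] using hc
    filter_upwards [h4, hfc] with x e1 e2
    rw [e1, e2]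
  have hUe : em k u =ᵐ[volume] U := ae_eq_of_fcX hem hU hfe
  have hUG : fcX (fun y => em k u (G.perm y)) =ᵐ[muX] fcX (fun y => U (G.perm y)) :=
    fc_congr (hG.quasiMeasurePreserving.ae_eq_comp hUe)
  have hmain := Mn.main_gen d gf hk hk0 hum hu2' huJ psi hpsi
    (∫⁻ τ, ‖Co.phi u gf.chi k.2 τ - psi τ‖ₑ ^ 2) le_rfl
  refine le_trans (le_of_eq ?_) hmain
  refine lintegral_congr_ae ?_
  filter_upwards [hUG] with x hx
  rw [hx]

theorem T1 : T1Stmt := t1Stmt mainStmt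

theorem T0 : T0Stmt := t0Stmt mainStmt

end Crest.Agent.R081.Tr
end

-- ▼ part R081/Gp23
section

/-! # Row 81, route B: the new function `g₊` of the step (`GPStmt`, insurance copy, helper23) -/

set_option autoImplicit false

namespace Crest.Agent.R081.Gp

open MeasureTheory Crest.AnalysisR.Torus3 Crest.Agent.R075 Crest.Agent.R081.Fm
  Crest.Agent.R081.Sm Crest.Agent.R081.Tw Crest.Agent.R081.St
open scoped ENNReal

theorem nuT_eq (t : TwD) (p : X) : Cv.nuT t.P t.q t.psi p = t.nu p := by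
  unfold Cv.nuT TwD.nu; ring

theorem modes_cov {t : TwD} (M : Modes t) : Cv.Cov (Cv.nuT t.P t.q t.psi) M.S := by
  filter_upwards [M.full] with x hx
  obtain ⟨y, hy, n, hn⟩ := hx
  refine ⟨y, ⟨hy, n, by rw [nuT_eq]; linarith⟩, ?_⟩
  rintro z ⟨hz, m, hm⟩
  rw [nuT_eq] at hm
  exact M.inj z hz y hy ⟨m - n, by push_cast; linarith⟩

theorem modes_aff {t : TwD} (M : Modes t) : Cv.Aff t.al t.del t.psi M.S where
  al_pos := t.al_pos
  k2 := M.ne0
  psi_eq := fun p hp => t.lin _ (M.sub p hp)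
  meas := fun _ => measurable_prodMk_left M.meas

/-- the total mass of a mode set is one -/
theorem modes_mass {t : TwD} (M : Modes t) :
    ∫⁻ x, M.S.indicator (fun x : X => ENNReal.ofReal (|(x.1.2 : ℝ)| * t.al)) x ∂muX = 1 := by
  rw [Fm.lintegral_muX, ← Cv.cv4_total (modes_cov M) (modes_aff M)]
  congr 1
  funext k
  have e1 : ∀ c : ℝ, M.S.indicator (fun x : X => ENNReal.ofReal (|(x.1.2 : ℝ)| * t.al)) (k, c)
      = (Cv.slice M.S k).indicator (fun _ => ENNReal.ofReal (|(k.2 : ℝ)| * t.al)) c := by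
    intro c
    by_cases h : (k, c) ∈ M.S
    · rw [Set.indicator_of_mem h, Set.indicator_of_mem (show c ∈ Cv.slice M.S k from h)]
    · rw [Set.indicator_of_notMem h, Set.indicator_of_notMem (show c ∉ Cv.slice M.S k from h)]
  simp only [e1]
  have hm : MeasurableSet (Cv.slice M.S k) := (modes_aff M).meas k
  rw [lintegral_indicator hm, lintegral_const]
  congr 1
  rw [Measure.restrict_apply MeasurableSet.univ, Set.univ_inter, I01, Measure.restrict_apply hm]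
  congr 1
  refine Set.inter_eq_left.2 fun c hc => ?_
  have := M.sub _ hc
  have h1 := t.del_pos
  exact ⟨lt_of_lt_of_le h1 this.1, this.2.trans (by linarith)⟩

/-- squares of norms and `enorm` -/
theorem enorm_sq (z : ℂ) : ‖z‖ₑ ^ 2 = ENNReal.ofReal (‖z‖ ^ 2) := by
  rw [ENNReal.ofReal_pow (norm_nonneg _), ofReal_norm]

/-- an array with the exact modulus of the mode set has mass one -/
theorem flat_mass {t : TwD} (M : Modes t) {a : X → ℂ}
    (ha : ∀ᵐ x ∂muX, ‖a x‖ ^ 2 = M.S.indicator (fun x => |(x.1.2 : ℝ)| * t.al) x) :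
    ∫⁻ x, ‖a x‖ₑ ^ 2 ∂muX = 1 := by
  rw [← modes_mass M]
  refine lintegral_congr_ae ?_
  filter_upwards [ha] with x hx
  rw [enorm_sq, hx]
  by_cases h : x ∈ M.S
  · rw [Set.indicator_of_mem h, Set.indicator_of_mem h]
  · rw [Set.indicator_of_notMem h, Set.indicator_of_notMem h, ENNReal.ofReal_zero]

theorem flat_memLp {t : TwD} (M : Modes t) {a : X → ℂ} (hm : AEStronglyMeasurable a muX)
    (ha : ∀ᵐ x ∂muX, ‖a x‖ ^ 2 = M.S.indicator (fun x => |(x.1.2 : ℝ)| * t.al) x) :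
    MemLp a 2 muX := by
  refine memLp_two_iff.2 ⟨hm, ?_⟩
  rw [flat_mass M ha]
  exact ENNReal.one_lt_top

theorem flat_integral {t : TwD} (M : Modes t) {a : X → ℂ} (hm : AEStronglyMeasurable a muX)
    (ha : ∀ᵐ x ∂muX, ‖a x‖ ^ 2 = M.S.indicator (fun x => |(x.1.2 : ℝ)| * t.al) x) :
    ∫ x, ‖a x‖ ^ 2 ∂muX = 1 := by
  have h1 := integral_eq_lintegral_of_nonneg_ae (μ := muX) (f := fun x => ‖a x‖ ^ 2)
    (Filter.Eventually.of_forall fun x => by positivity) (hm.norm.pow 2)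
  have := flat_mass M ha
  simp only [enorm_sq] at this
  rw [h1, this, ENNReal.toReal_one]

theorem modes_symm_iff {t : TwD} (M : Modes t) (x : X) : ((-x.1, x.2) : X) ∈ M.S ↔ x ∈ M.S := by
  constructor
  · intro h
    have := M.symm _ h
    simpa using this
  · exact M.symm x

/-- **core**: a real function whose array is close to a flat symmetric array on a part `B` of a mode
set is close to a real function with the flat modulus on the whole mode set -/
theorem gp_core {t' : TwD} (M' : Modes t') {u : T3 → ℝ} (hu : MemLp u 2 volume)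
    (hu1 : ∫ x, ‖fcX (fun y => (u y : ℂ)) x‖ ^ 2 ∂muX = 1) {B : Set X} (hsub : B ⊆ M'.S) {a : X → ℂ}
    (hma : Measurable a)
    (ha : ∀ᵐ x ∂muX, ‖a x‖ ^ 2 = B.indicator (fun x => |(x.1.2 : ℝ)| * t'.al) x)
    (hasym : ∀ᵐ x ∂muX, a (-x.1, x.2) = (starRingEnd ℂ) (a x)) {e e1 : ℝ} (he1p : 0 < e1)
    (he11 : e1 ≤ 1) (he18 : e1 ≤ e ^ 2 / 8)
    (hdist : (∫ x, ‖fcX (fun y => (u y : ℂ)) x - a x‖ ^ 2 ∂muX) ≤ e1 ^ 2) :
    ∃ g' : T3 → ℝ, MemLp g' 2 volume ∧
      (∀ᵐ x ∂muX, ‖fcX (fun y => (g' y : ℂ)) x‖ ^ 2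
        = M'.S.indicator (fun x => |(x.1.2 : ℝ)| * t'.al) x) ∧
      (∫ y, (g' y - u y) ^ 2) ≤ e ^ 2 := by
  -- the support of `a`
  set A : Set X := {x | a x ≠ 0} with hA
  have hAm : MeasurableSet A := hma (measurableSet_singleton 0).compl
  set ro : X → ℝ := fun x => |(x.1.2 : ℝ)| * t'.al with hro
  have hro0 : ∀ x, 0 ≤ ro x := fun x => mul_nonneg (abs_nonneg _) t'.al_pos.le
  have hrop : ∀ x ∈ M'.S, 0 < ro x := fun x hx => by
    have h1 : (x.1.2 : ℝ) ≠ 0 := by exact_mod_cast M'.ne0 x hx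
    exact mul_pos (abs_pos.2 h1) t'.al_pos
  have hrom : Measurable ro := by
    have : Measurable (fun x : X => (x.1.2 : ℝ)) :=
      (measurable_from_top (f := fun n : ℤ => (n : ℝ))).comp (measurable_snd.comp measurable_fst)
    exact (continuous_abs.measurable.comp this).mul_const _
  have hAS : ∀ᵐ x ∂muX, (x ∈ A → x ∈ M'.S ∧ ‖a x‖ ^ 2 = ro x) := by
    filter_upwards [ha] with x hx hxA
    by_cases hxs : x ∈ B
    · rw [Set.indicator_of_mem hxs] at hx
      exact ⟨hsub hxs, hx⟩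
    · rw [Set.indicator_of_notMem hxs] at hx
      exact absurd (norm_eq_zero.1 (pow_eq_zero_iff (two_ne_zero) |>.1 hx)) hxA
  -- the completed array
  set b : X → ℂ := fun x => (M'.S \ A).indicator (fun x => ((Real.sqrt (ro x) : ℝ) : ℂ)) x with hb
  have hbm : Measurable b :=
    (Complex.measurable_ofReal.comp (hrom.sqrt)).indicator (M'.meas.diff hAm)
  set a' : X → ℂ := fun x => a x + b x with ha'
  have ha'm : Measurable a' := hma.add hbm
  have hflat : ∀ᵐ x ∂muX, ‖a' x‖ ^ 2 = M'.S.indicator (fun x => |(x.1.2 : ℝ)| * t'.al) x := by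
    filter_upwards [hAS] with x hx
    by_cases hxA : x ∈ A
    · obtain ⟨h1, h2⟩ := hx hxA
      have hb0 : b x = 0 := Set.indicator_of_notMem (fun h => h.2 hxA) _
      rw [Set.indicator_of_mem h1]
      simp only [ha', hb0, add_zero]
      exact h2
    · have ha0 : a x = 0 := by by_contra hh; exact hxA hh
      by_cases hxM : x ∈ M'.S
      · have hb1 : b x = ((Real.sqrt (ro x) : ℝ) : ℂ) := Set.indicator_of_mem (show x ∈ M'.S \ A from ⟨hxM, hxA⟩) _
        rw [Set.indicator_of_mem hxM]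
        simp only [ha', hb1, ha0, zero_add]
        rw [Complex.norm_real, Real.norm_eq_abs, sq_abs, Real.sq_sqrt (hro0 x)]
      · have hb1 : b x = 0 := Set.indicator_of_notMem (fun h => hxM h.1) _
        rw [Set.indicator_of_notMem hxM]
        simp [ha', hb1, ha0]
  have hsymm : ∀ᵐ x ∂muX, a' (-x.1, x.2) = (starRingEnd ℂ) (a' x) := by
    filter_upwards [hasym] with x hx
    have hA' : ((-x.1, x.2) : X) ∈ A ↔ x ∈ A := by
      simp only [hA, Set.mem_ofPred_eq, ne_eq, hx, map_eq_zero]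
    have hro' : ro (-x.1, x.2) = ro x := by simp [hro]
    have hb' : b (-x.1, x.2) = (starRingEnd ℂ) (b x) := by
      by_cases hxM : x ∈ M'.S \ A
      · have h1 : ((-x.1, x.2) : X) ∈ M'.S \ A :=
          ⟨(modes_symm_iff M' x).2 hxM.1, fun h => hxM.2 (hA'.1 h)⟩
        simp only [hb]
        rw [Set.indicator_of_mem h1, Set.indicator_of_mem hxM, hro', Complex.conj_ofReal]
      · have h1 : ((-x.1, x.2) : X) ∉ M'.S \ A :=
          fun h => hxM ⟨(modes_symm_iff M' x).1 h.1, fun h' => h.2 (hA'.2 h')⟩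
        simp only [hb]
        rw [Set.indicator_of_notMem h1, Set.indicator_of_notMem hxM, map_zero]
    simp only [ha', hx, hb', map_add]
  have ha'L : MemLp a' 2 muX := flat_memLp M' ha'm.aestronglyMeasurable hflat
  obtain ⟨g', hg', hfg⟩ := exists_real_of_coeff ha'L hsymm
  refine ⟨g', hg', ?_, ?_⟩
  · filter_upwards [hfg, hflat] with x h1 h2
    rw [h1, h2]
  -- the distance
  have hgGc : MemLp (fun y => (u y : ℂ)) 2 volume := hu.ofReal
  have hg'c : MemLp (fun y => (g' y : ℂ)) 2 volume := hg'.ofReal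
  set C : X → ℂ := fcX (fun y => (u y : ℂ)) with hC
  have hCL : MemLp C 2 muX := memLp_fcX hgGc
  have haL : MemLp a 2 muX := by
    refine ha'L.mono hma.aestronglyMeasurable ?_
    filter_upwards [hAS] with x hx
    by_cases hxA : x ∈ A
    · have hb0 : b x = 0 := Set.indicator_of_notMem (fun h => h.2 hxA) _
      simp [ha', hb0]
    · have ha0 : a x = 0 := by by_contra hh; exact hxA hh
      rw [ha0, norm_zero]; exact norm_nonneg _
  have e2 : ∫ y, (g' y - u y) ^ 2 = ∫ x, ‖a' x - C x‖ ^ 2 ∂muX := by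
    have h1 : ∫ y, (g' y - u y) ^ 2
        = ∫ y, ‖(fun y => (g' y : ℂ) - (u y : ℂ)) y‖ ^ 2 := by
      congr 1
      funext y
      simp only
      rw [← Complex.ofReal_sub, Complex.norm_real, Real.norm_eq_abs, sq_abs]
    have hs2 : MemLp (fun y => (g' y : ℂ) - (u y : ℂ)) 2 volume := hg'c.sub hgGc
    rw [h1, ← parseval_norm hs2]
    refine integral_congr_ae ?_
    filter_upwards [fcX_sub (hg'c.integrable (by norm_num)) (hgGc.integrable (by norm_num)), hfg]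
      with x h2 h3
    rw [h2, h3]
  rw [e2]
  have I1 : ∫ x, ‖a' x‖ ^ 2 ∂muX = 1 := flat_integral M' ha'm.aestronglyMeasurable hflat
  have I2 : ∫ x, ‖C x‖ ^ 2 ∂muX = 1 := hu1
  have J0 : Integrable (fun x => ‖a x‖ ^ 2) muX := haL.integrable_norm_pow (by norm_num)
  have J1 : Integrable (fun x => ‖a' x‖ ^ 2) muX := ha'L.integrable_norm_pow (by norm_num)
  have J2 : Integrable (fun x => ‖C x‖ ^ 2) muX := hCL.integrable_norm_pow (by norm_num)
  have J3 : Integrable (fun x => ‖C x - a x‖ ^ 2) muX :=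
    (hCL.sub haL).integrable_norm_pow (by norm_num)
  have J4 : Integrable (fun x => ‖a' x - C x‖ ^ 2) muX :=
    (ha'L.sub hCL).integrable_norm_pow (by norm_num)
  have hd1 : ∫ x, ‖C x - a x‖ ^ 2 ∂muX ≤ e1 ^ 2 := hdist
  -- mass of `a`
  have k1 : 1 ≤ (1 + e1) * ∫ x, ‖a x‖ ^ 2 ∂muX + (1 + 1 / e1) * ∫ x, ‖C x - a x‖ ^ 2 ∂muX := by
    refine I2.symm.le.trans ?_
    rw [← integral_const_mul, ← integral_const_mul,
      ← integral_add (J0.const_mul _) (J3.const_mul _)]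
    refine integral_mono J2 ((J0.const_mul _).add (J3.const_mul _)) fun x => ?_
    simp only
    have h1 : ‖C x‖ ≤ ‖a x‖ + ‖C x - a x‖ := by
      have := norm_add_le (a x) (C x - a x)
      simpa using this
    have h2 : ‖C x‖ ^ 2 ≤ (‖a x‖ + ‖C x - a x‖) ^ 2 :=
      pow_le_pow_left₀ (norm_nonneg _) h1 2
    refine h2.trans ?_
    have h3 : (1 + e1) * ‖a x‖ ^ 2 + (1 + 1 / e1) * ‖C x - a x‖ ^ 2 - (‖a x‖ + ‖C x - a x‖) ^ 2
        = (e1 * ‖a x‖ - ‖C x - a x‖) ^ 2 / e1 := by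
      field_simp
      ring
    have h4 : 0 ≤ (e1 * ‖a x‖ - ‖C x - a x‖) ^ 2 / e1 := by positivity
    linarith
  have k2 : 1 - ∫ x, ‖a x‖ ^ 2 ∂muX ≤ 2 * e1 + e1 ^ 2 := by
    have h1 : (1 + 1 / e1) * ∫ x, ‖C x - a x‖ ^ 2 ∂muX ≤ (1 + 1 / e1) * e1 ^ 2 := by gcongr
    have h2 : (1 + 1 / e1) * e1 ^ 2 = e1 ^ 2 + e1 := by field_simp
    have h3 : 0 ≤ ∫ x, ‖a x‖ ^ 2 ∂muX := integral_nonneg fun x => by positivity
    have h4 : ∫ x, ‖a x‖ ^ 2 ∂muX ≤ 1 := by
      refine le_trans ?_ I1.le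
      refine integral_mono_ae J0 J1 ?_
      filter_upwards with x
      by_cases hxA : x ∈ A
      · have hb0 : b x = 0 := Set.indicator_of_notMem (fun h => h.2 hxA) _
        simp [ha', hb0]
      · have ha0 : a x = 0 := by by_contra hh; exact hxA hh

        simp [ha0]
    nlinarith
  -- final estimate
  have k3 : ∫ x, ‖a' x - C x‖ ^ 2 ∂muX ≤
      2 * ∫ x, ‖C x - a x‖ ^ 2 ∂muX + 2 * (∫ x, ‖a' x‖ ^ 2 ∂muX - ∫ x, ‖a x‖ ^ 2 ∂muX) := by
    have J5 : Integrable (fun x => ‖a' x‖ ^ 2 - ‖a x‖ ^ 2) muX := J1.sub J0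
    rw [← integral_sub J1 J0, ← integral_const_mul, ← integral_const_mul,
      ← integral_add (J3.const_mul _) (J5.const_mul _)]
    refine integral_mono J4 ((J3.const_mul _).add (J5.const_mul _)) fun x => ?_
    simp only
    have h1 : ‖a' x‖ ^ 2 - ‖a x‖ ^ 2 = ‖b x‖ ^ 2 := by
      by_cases hxA : x ∈ A
      · have hb0 : b x = 0 := Set.indicator_of_notMem (fun h => h.2 hxA) _
        simp [ha', hb0]
      · have ha0 : a x = 0 := by by_contra hh; exact hxA hh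
        simp [ha', ha0]
    rw [h1]
    have h2 : ‖a' x - C x‖ ≤ ‖C x - a x‖ + ‖b x‖ := by
      have h3 : a' x - C x = b x - (C x - a x) := by simp only [ha']; ring
      rw [h3, add_comm]
      exact norm_sub_le _ _
    have h3 : ‖a' x - C x‖ ^ 2 ≤ (‖C x - a x‖ + ‖b x‖) ^ 2 :=
      pow_le_pow_left₀ (norm_nonneg _) h2 2
    nlinarith [sq_nonneg (‖C x - a x‖ - ‖b x‖)]
  rw [I1] at k3
  nlinarith [he1p, he11, he18, k2, k3, hd1]

theorem gp : GPStmt := by
  intro s e he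
  refine ⟨min 1 (e ^ 2 / 8), by positivity, ?_⟩
  intro K eps d h hh P' hP G hG M' hsub _ a hma ha hasym hdist
  have hgG : MemLp (fun y => s.g (G.perm y)) 2 volume := s.g_lp.comp_measurePreserving hG
  have hgGc : MemLp (fun y => (s.g (G.perm y) : ℂ)) 2 volume := hgG.ofReal
  refine gp_core M' hgG ?_ hsub hma ha hasym (by positivity) (min_le_left _ _) (min_le_right _ _)
    hdist
  rw [parseval_norm hgGc]
  have h3 : ∫ y, ‖(s.g (G.perm y) : ℂ)‖ ^ 2 = ∫ y, ‖(s.g y : ℂ)‖ ^ 2 := by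
    have := hG.integral_comp' (f := ⟨G.perm, G.measurable_perm, G.measurable_perm_symm⟩)
      (fun y => ‖(s.g y : ℂ)‖ ^ 2)
    exact this
  have h4 : MemLp (fun y => (s.g y : ℂ)) 2 volume := s.g_lp.ofReal
  rw [h3, ← parseval_norm h4]
  exact flat_integral s.M (memLp_fcX h4).aestronglyMeasurable s.flat

end Crest.Agent.R081.Gp
end

-- ▼ part R081/Asm3
section

/-! Row 81, route B (architect helper310): the assembly, remaining statements. -/

set_option autoImplicit false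

namespace Crest.Agent.R081.Asm

open Crest.Agent.R081.St

theorem goal_of'' (hD : DesStmt) (hGA : GAStmt) : Glue.Goal :=
  goal_of' hD Tr.T1 Tr.T0 hGA Gp.gp

end Crest.Agent.R081.Asm
end

-- ▼ part R081/Tp4
section

/-!
# Row 81 (twists), node TRANSPORT, part 4 (helper230): (MAIN) for the frozen `St.Des`.
-/

set_option autoImplicit false

namespace Crest.Agent.R081.Tp

open MeasureTheory Crest.Agent.R075 Crest.Agent.R081.Tw
open scoped ENNReal


variable {q : ℕ} {K : Finset (ℤ × ℤ)} {eps : ℝ} (d : St.Des q K eps)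








theorem measurable_Fp : Measurable (Fp d.v d.del) := (Fp_smooth d.v d.del_pos).continuous.measurable












/-! ### exact support, modulus and symmetry of the main array -/

/-- (T1)/(T0) exact support of the main array -/
theorem mainA_ne_zero {k : ℤ × ℤ} {psi : ℝ → ℂ} {x : (ℤ × ℤ) × ℝ}
    (h : mainA q d.q2 d.N k.1 (Fp d.v d.del) psi (d.M k) x ≠ 0) :
    (q : ℤ) ∣ x.1.1 - k.1 ∧ ((((x.1.1 * d.N : ℤ) : ZMod d.q2), x.1.2), x.2) ∈ d.E ∧
      psi (x.1.1 / (q * d.q2) + x.1.2 * Fp d.v d.del x.2) ≠ 0 := by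
  unfold mainA at h
  by_cases hj : (q : ℤ) ∣ x.1.1 - k.1
  · rw [if_pos hj] at h
    have h1 := right_ne_zero_of_mul h
    refine ⟨hj, ?_, left_ne_zero_of_mul h1⟩
    have h2 := right_ne_zero_of_mul h1
    by_contra hE
    apply h2
    have h3 := d.M_norm k (x.1.1 * d.N) x.1.2 x.2
    rw [Set.indicator_of_notMem (show x.2 ∉ {c : ℝ | ((((x.1.1 * d.N : ℤ) : ZMod d.q2), x.1.2), c) ∈ d.E} from hE)] at h3
    simpa using h3
  · rw [if_neg hj] at h
    exact absurd rfl h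

/-- exact modulus of the main array -/
theorem norm_mainA_sq {k : ℤ × ℤ} {psi : ℝ → ℂ} {x : (ℤ × ℤ) × ℝ} (hj : (q : ℤ) ∣ x.1.1 - k.1)
    (hE : ((((x.1.1 * d.N : ℤ) : ZMod d.q2), x.1.2), x.2) ∈ d.E) :
    ‖mainA q d.q2 d.N k.1 (Fp d.v d.del) psi (d.M k) x‖ ^ 2 =
      ‖psi (x.1.1 / (q * d.q2) + x.1.2 * Fp d.v d.del x.2)‖ ^ 2 *
        (|(x.1.2 : ℝ)| * (d.v / (1 - 2 * d.del))) := by
  unfold mainA
  rw [if_pos hj, norm_mul, norm_ee, one_mul, norm_mul, mul_pow, d.M_norm,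
    Set.indicator_of_mem (show x.2 ∈ {c : ℝ | ((((x.1.1 * d.N : ℤ) : ZMod d.q2), x.1.2), c) ∈ d.E} from hE)]

/-- conjugation symmetry of the main array -/
theorem mainA_neg {k : ℤ × ℤ} {psi psi' : ℝ → ℂ} (hpsi : ∀ τ, psi' (-τ) = (starRingEnd ℂ) (psi τ))
    (x : (ℤ × ℤ) × ℝ) :
    mainA q d.q2 d.N (-k).1 (Fp d.v d.del) psi' (d.M (-k)) (-x.1, x.2) =
      (starRingEnd ℂ) (mainA q d.q2 d.N k.1 (Fp d.v d.del) psi (d.M k) x) := by
  unfold mainA
  have hiff : ((q : ℤ) ∣ (-x.1).1 - (-k).1) ↔ ((q : ℤ) ∣ x.1.1 - k.1) := by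
    have : (-x.1).1 - (-k).1 = -(x.1.1 - k.1) := by simp; ring
    rw [this, dvd_neg]
  by_cases hj : (q : ℤ) ∣ x.1.1 - k.1
  · simp only [hiff, hj, if_true, map_mul, ee_conj]
    have e1 : -(((-x.1).1 : ℤ) * x.2 / (q * d.q2) : ℝ) = -(-((x.1.1 : ℝ) * x.2 / (q * d.q2))) := by
      simp only [Prod.fst_neg]; push_cast; ring
    have e2 : ((((-x.1).1 : ℤ) : ℝ) / (q * d.q2) + (((-x.1).2 : ℤ) : ℝ) * Fp d.v d.del x.2) =
        -((x.1.1 : ℝ) / (q * d.q2) + x.1.2 * Fp d.v d.del x.2) := by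
      simp only [Prod.fst_neg, Prod.snd_neg]; push_cast; ring
    have e3 : (-x.1).1 * d.N = -(x.1.1 * d.N) := by simp
    have e4 : (-x.1).2 = -x.1.2 := by simp
    rw [e1, e2, hpsi, e3, e4, d.M_symm]
  · simp only [hiff, hj, if_false, map_zero]

end Crest.Agent.R081.Tp
end

-- ▼ part R081/Ga
section

/-! # Row 81, route B, node (GA) (helper27): the coefficients of `g ∘ G` are close to an exactly flat,
symmetric array on `stepS` -/

set_option autoImplicit false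

namespace Crest.Agent.R081.Ga

open MeasureTheory Set Crest.AnalysisR.Torus3 Crest.Agent.R075 Crest.Agent.R081.Fm
  Crest.Agent.R081.Sm Crest.Agent.R081.St Crest.Agent.R081.Tw Crest.Agent.R081.Mn
open scoped ENNReal ComplexConjugate

/-! ### part A: an exact version of the coefficients of `g` -/

section exact

variable (s : Stage)

/-- the generator as a complex function -/
noncomputable def gC (y : T3) : ℂ := (s.g y : ℂ)

theorem memLp_gC : MemLp (gC s) 2 volume := s.g_lp.ofReal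

/-- a measurable representative of the coefficient -/
noncomputable def rep (k : ℤ × ℤ) : ℝ → ℂ := (aesm_fc (memLp_gC s).aestronglyMeasurable k).mk _

theorem measurable_rep (k : ℤ × ℤ) : Measurable (rep s k) :=
  (aesm_fc (memLp_gC s).aestronglyMeasurable k).stronglyMeasurable_mk.measurable

theorem rep_ae (k : ℤ × ℤ) : fc (gC s) k =ᵐ[I01] rep s k :=
  (aesm_fc (memLp_gC s).aestronglyMeasurable k).ae_eq_mk

/-- the section of the mode set -/
def Sk (k : ℤ × ℤ) : Set ℝ := {c | ((k, c) : X) ∈ s.M.S}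

theorem measurableSet_Sk (k : ℤ × ℤ) : MeasurableSet (Sk s k) :=
  s.M.meas.preimage measurable_prodMk_left

theorem Sk_neg (k : ℤ × ℤ) : Sk s (-k) = Sk s k := by
  ext c
  constructor
  · intro h
    have := s.M.symm _ h
    simpa [Sk] using this
  · intro h
    have := s.M.symm _ h
    simpa [Sk] using this

/-- the points where the representative is exactly flat and symmetric -/
def good (k : ℤ × ℤ) : Set ℝ :=
  {c | c ∈ Sk s k ∧ ‖rep s k c‖ ^ 2 = |(k.2 : ℝ)| * s.t.al ∧ rep s (-k) c = conj (rep s k c)}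

theorem measurableSet_good (k : ℤ × ℤ) : MeasurableSet (good s k) := by
  have h1 : MeasurableSet {c : ℝ | ‖rep s k c‖ ^ 2 = |(k.2 : ℝ)| * s.t.al} :=
    measurableSet_eq_fun ((measurable_rep s k).norm.pow_const 2) measurable_const
  have h2 : MeasurableSet {c : ℝ | rep s (-k) c = conj (rep s k c)} :=
    measurableSet_eq_fun (measurable_rep s (-k))
      (Complex.continuous_conj.measurable.comp (measurable_rep s k))
  exact (measurableSet_Sk s k).inter (h1.inter h2)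

theorem good_neg (k : ℤ × ℤ) : good s (-k) = good s k := by
  ext c
  unfold good
  simp only [Set.mem_ofPred_eq, Sk_neg, neg_neg, Prod.snd_neg, Int.cast_neg, abs_neg]
  constructor
  · rintro ⟨h1, h2, h3⟩
    have h4 : rep s (-k) c = conj (rep s k c) := by rw [h3, Complex.conj_conj]
    refine ⟨h1, ?_, h4⟩
    rw [h3, RCLike.norm_conj, h2]
  · rintro ⟨h1, h2, h3⟩
    refine ⟨h1, ?_, ?_⟩
    · rw [h3, RCLike.norm_conj, h2]
    · rw [h3, Complex.conj_conj]

open Classical in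
/-- the exact version of the coefficient -/
noncomputable def uu (k : ℤ × ℤ) (c : ℝ) : ℂ :=
  if c ∈ good s k then rep s k c else if c ∈ Sk s k then ((Real.sqrt (|(k.2 : ℝ)| * s.t.al) : ℝ) : ℂ)
    else 0

theorem measurable_uu (k : ℤ × ℤ) : Measurable (uu s k) := by
  unfold uu
  exact Measurable.ite (measurableSet_good s k) (measurable_rep s k)
    (Measurable.ite (measurableSet_Sk s k) measurable_const measurable_const)

theorem uu_neg (k : ℤ × ℤ) (c : ℝ) : uu s (-k) c = conj (uu s k c) := by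
  unfold uu
  rw [good_neg, Sk_neg]
  by_cases h1 : c ∈ good s k
  · rw [if_pos h1, if_pos h1]
    exact h1.2.2
  · rw [if_neg h1, if_neg h1]
    by_cases h2 : c ∈ Sk s k
    · rw [if_pos h2, if_pos h2, Complex.conj_ofReal]
      simp
    · rw [if_neg h2, if_neg h2, map_zero]

theorem norm_uu_sq (k : ℤ × ℤ) {c : ℝ} (hc : c ∈ Sk s k) :
    ‖uu s k c‖ ^ 2 = |(k.2 : ℝ)| * s.t.al := by
  unfold uu
  have h0 : 0 ≤ |(k.2 : ℝ)| * s.t.al := mul_nonneg (abs_nonneg _) s.t.al_pos.le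
  by_cases h1 : c ∈ good s k
  · rw [if_pos h1]
    exact h1.2.1
  · rw [if_neg h1, if_pos hc, Complex.norm_real, Real.norm_eq_abs, sq_abs, Real.sq_sqrt h0]

theorem uu_zero (k : ℤ × ℤ) {c : ℝ} (hc : c ∉ Sk s k) : uu s k c = 0 := by
  unfold uu
  rw [if_neg (fun h => hc h.1), if_neg hc]

theorem uu_J (k : ℤ × ℤ) (c : ℝ) (hc : c ∉ Icc s.t.del (1 - s.t.del)) : uu s k c = 0 :=
  uu_zero s k fun h => hc (s.M.sub _ h)

theorem norm_uu_le (k : ℤ × ℤ) (c : ℝ) : ‖uu s k c‖ ≤ Real.sqrt (|(k.2 : ℝ)| * s.t.al) := by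
  by_cases hc : c ∈ Sk s k
  · rw [← norm_uu_sq s k hc, Real.sqrt_sq (norm_nonneg _)]
  · rw [uu_zero s k hc, norm_zero]
    exact Real.sqrt_nonneg _

theorem memLp_uu (k : ℤ × ℤ) : MemLp (uu s k) 2 I01 :=
  MemLp.of_bound (measurable_uu s k).aestronglyMeasurable _
    (Filter.Eventually.of_forall fun c => norm_uu_le s k c)

theorem fc_gC_neg (k : ℤ × ℤ) (c : ℝ) : fc (gC s) (-k) c = conj (fc (gC s) k c) := by
  have h := fc_conj (gC s) k c
  have h2 : (fun x => conj (gC s x)) = gC s := by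
    funext x
    unfold gC
    exact Complex.conj_ofReal _
  rw [h2] at h
  rw [h, Complex.conj_conj]

theorem fc_eq_uu (k : ℤ × ℤ) : ∀ᵐ c ∂I01, fc (gC s) k c = uu s k c := by
  have h1 := ae_muX.1 s.flat k
  filter_upwards [h1, rep_ae s k, rep_ae s (-k)] with c e1 e2 e3
  have e1' : ‖fc (gC s) k c‖ ^ 2
      = s.M.S.indicator (fun x => |(x.1.2 : ℝ)| * s.t.al) ((k, c) : X) := e1
  by_cases hc : c ∈ Sk s k
  · have hc' : ((k, c) : X) ∈ s.M.S := hc
    rw [Set.indicator_of_mem hc'] at e1'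
    have hg : c ∈ good s k := by
      refine ⟨hc, ?_, ?_⟩
      · rw [← e2, e1']
      · rw [← e2, ← e3, fc_gC_neg]
    unfold uu
    rw [if_pos hg, e2]
  · have hc' : ((k, c) : X) ∉ s.M.S := hc
    rw [Set.indicator_of_notMem hc'] at e1'
    rw [uu_zero s k hc]
    simpa using e1'

/-- the finite set of the vectors `k` that occur -/
noncomputable def KS : Finset (ℤ × ℤ) :=
  (s.M.K ∪ s.M.K.image Neg.neg).filter fun k => k.2 ≠ 0

theorem mem_KS {k : ℤ × ℤ} : k ∈ KS s ↔ (k ∈ s.M.K ∨ -k ∈ s.M.K) ∧ k.2 ≠ 0 := by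
  unfold KS
  rw [Finset.mem_filter, Finset.mem_union, Finset.mem_image]
  have : (∃ a ∈ s.M.K, -a = k) ↔ -k ∈ s.M.K := by
    constructor
    · rintro ⟨a, ha, rfl⟩
      rwa [neg_neg]
    · intro h
      exact ⟨-k, h, neg_neg k⟩
  rw [this]

theorem mem_KS_of_S {x : X} (hx : x ∈ s.M.S) : x.1 ∈ KS s :=
  (mem_KS s).2 ⟨Or.inl (s.M.memK x hx), s.M.ne0 x hx⟩

theorem neg_mem_KS {k : ℤ × ℤ} (hk : k ∈ KS s) : -k ∈ KS s := by
  rw [mem_KS] at hk ⊢
  refine ⟨?_, ?_⟩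
  · rw [neg_neg]
    exact hk.1.symm
  · simpa using hk.2

theorem gC_ae : gC s =ᵐ[volume] fun y => ∑ k ∈ KS s, em k (uu s k) y := by
  refine ae_eq_of_fcX (memLp_gC s) (memLp_finsetSum _ fun k _ => memLp_em k (memLp_uu s k)) ?_
  refine Filter.EventuallyEq.trans ?_ (fcX_sum (KS s) (fun k => em k (uu s k))
    fun k _ => (memLp_em k (memLp_uu s k)).integrable (by norm_num)).symm
  refine ae_muX.2 fun m => ?_
  have h1 : ∀ᵐ c ∂I01, ∀ k ∈ KS s, fc (em k (uu s k)) m c = if m = k then uu s k c else 0 := by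
    rw [Filter.eventually_all_finset]
    exact fun k _ => fc_em k m (uu s k)
  filter_upwards [h1, fc_eq_uu s m] with c e1 e2
  show fc (gC s) m c = ∑ k ∈ KS s, fc (em k (uu s k)) m c
  rw [Finset.sum_congr rfl e1, e2, Finset.sum_ite_eq]
  split_ifs with hm
  · rfl
  · refine uu_zero s m fun h => hm ?_
    exact mem_KS_of_S s (x := (m, c)) h

end exact

/-! ### part B: the array -/

section array

theorem kap_neg (lam : ℝ) : Fr.kap (-lam) = conj (Fr.kap lam) := by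
  unfold Fr.kap
  rw [map_mul, map_div₀, map_one, abs_neg, Complex.conj_ofReal]
  have h1 : (-(Complex.I * ((-lam : ℝ) : ℂ))) = conj (-(Complex.I * (lam : ℂ))) := by
    rw [map_neg, map_mul, Complex.conj_I, Complex.conj_ofReal]
    push_cast
    ring
  have h2 : (-(Complex.I * (lam : ℂ))).arg ≠ Real.pi := by
    intro h
    have := (Complex.arg_eq_pi_iff.1 h).1
    simp at this
  have h3 : conj (1 / 2 : ℂ) = 1 / 2 := by
    have : (1 / 2 : ℂ) = ((1 / 2 : ℝ) : ℂ) := by push_cast; rfl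
    rw [this, Complex.conj_ofReal]
  have h4 := Complex.cpow_conj (-(Complex.I * (lam : ℂ))) (1 / 2) h2
  rw [h3] at h4
  rw [h1, h4, Complex.conj_conj]

theorem ze_neg (lam d tau : ℝ) : Fr.ze (-lam) d (-tau) = conj (Fr.ze lam d tau) := by
  unfold Fr.ze
  rw [map_mul, kap_neg, ee_conj, neg_div_neg_eq]
  congr 2
  ring

variable (s : Stage) {K : Finset (ℤ × ℤ)} {eps : ℝ} (d : Des s.t.q K eps) (h : ℕ) (C : ℝ)

theorem cut_uu_neg (k : ℤ × ℤ) (c : ℝ) : Fr.cut (uu s (-k)) c = conj (Fr.cut (uu s k) c) := by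
  unfold Fr.cut
  by_cases hc : c ∈ Set.Ioc (0 : ℝ) 1
  · rw [Set.indicator_of_mem hc, Set.indicator_of_mem hc, uu_neg]
  · rw [Set.indicator_of_notMem hc, Set.indicator_of_notMem hc, map_zero]

theorem psiT_neg (k : ℤ × ℤ) (τ : ℝ) :
    psiT (uu s (-k)) (-k).2 h s.t.al s.t.del C (-τ) = conj (psiT (uu s k) k.2 h s.t.al s.t.del C τ) := by
  unfold psiT Fr.mainT
  have e1 : (((-k).2 : ℤ) : ℝ) * (h * s.t.al) = -((k.2 : ℝ) * (h * s.t.al)) := by
    rw [Prod.snd_neg]; push_cast; ring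
  have e2 : (((-k).2 : ℤ) : ℝ) * C = -((k.2 : ℝ) * C) := by
    rw [Prod.snd_neg]; push_cast; ring
  rw [e1, e2, abs_neg, ze_neg, neg_div_neg_eq, cut_uu_neg, map_mul, map_mul, map_mul, ee_conj,
    Complex.conj_ofReal]

/-- the term of `k` -/
noncomputable def term (k : ℤ × ℤ) (x : X) : ℂ :=
  Tp.mainA s.t.q d.q2 d.N k.1 (Fp d.v d.del) (psiT (uu s k) k.2 h s.t.al s.t.del C) (d.M k) x

/-- the array -/
noncomputable def arr (x : X) : ℂ := ∑ k ∈ KS s, term s d h C k x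

theorem measurable_term (k : ℤ × ℤ) : Measurable (term s d h C k) :=
  Tp.measurable_mainA (Mn.measurable_Fp d.v d.del_pos) (measurable_psiT (measurable_uu s k) _ _ _ _ _)
    (d.M_meas k)

theorem measurable_arr : Measurable (arr s d h C) := by
  unfold arr
  exact Finset.measurable_sum _ fun k _ => measurable_term s d h C k

theorem term_neg (k : ℤ × ℤ) (x : X) :
    term s d h C (-k) (-x.1, x.2) = conj (term s d h C k x) :=
  Tp.mainA_neg d (psiT_neg s h C k) x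

theorem arr_neg (x : X) : arr s d h C (-x.1, x.2) = conj (arr s d h C x) := by
  unfold arr
  rw [map_sum]
  refine Finset.sum_nbij' (fun k => -k) (fun k => -k) (fun k hk => neg_mem_KS s hk)
    (fun k hk => neg_mem_KS s hk) (fun k _ => neg_neg k) (fun k _ => neg_neg k) fun k _ => ?_
  rw [← term_neg, neg_neg]

/-- frequency variable of a mode of the next stage -/
noncomputable def tau (x : X) : ℝ := (x.1.1 : ℝ) / (s.t.q * d.q2) + x.1.2 * Fp d.v d.del x.2

theorem psiT_ne {k : ℤ × ℤ} (hh : 0 < h) (hk2 : k.2 ≠ 0) {τ : ℝ}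
    (hne : psiT (uu s k) k.2 h s.t.al s.t.del C τ ≠ 0) :
    ∃ y ∈ s.M.S, y.1 = k ∧ (h : ℝ) * (y.1.2 * s.t.psi y.2) = τ := by
  unfold psiT Fr.mainT at hne
  have h1 := right_ne_zero_of_mul (right_ne_zero_of_mul hne)
  unfold Fr.cut at h1
  have h2 := Set.mem_of_indicator_ne_zero h1
  rw [Set.indicator_of_mem h2] at h1
  set c : ℝ := s.t.del + τ / (k.2 * (h * s.t.al)) with hc
  have h3 : c ∈ Sk s k := by
    by_contra h3
    exact h1 (uu_zero s k h3)
  have h4 : ((k, c) : X) ∈ s.M.S := h3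
  refine ⟨(k, c), h4, rfl, ?_⟩
  have h5 := s.t.lin c (s.M.sub _ h4)
  show (h : ℝ) * ((k.2 : ℝ) * s.t.psi c) = τ
  rw [h5, hc]
  have hh' : (h : ℝ) ≠ 0 := by positivity
  have hk' : (k.2 : ℝ) ≠ 0 := by exact_mod_cast hk2
  have hal := s.t.al_pos.ne'
  field_simp
  ring

theorem psiT_sq (hh : 0 < h) {y : X} (hy : y ∈ s.M.S) :
    ‖psiT (uu s y.1) y.1.2 h s.t.al s.t.del C (h * (y.1.2 * s.t.psi y.2))‖ ^ 2 = 1 / h := by
  have hh' : (h : ℝ) ≠ 0 := by positivity
  have hh0 : (0 : ℝ) < h := by positivity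
  have hk2 := s.M.ne0 y hy
  have hk' : (y.1.2 : ℝ) ≠ 0 := by exact_mod_cast hk2
  have hal := s.t.al_pos
  have hlam : (y.1.2 : ℝ) * (h * s.t.al) ≠ 0 := mul_ne_zero hk' (mul_ne_zero hh' hal.ne')
  have hJ := s.M.sub y hy
  have hdel := s.t.del_pos
  unfold psiT
  rw [norm_mul, norm_ee, one_mul, Fr.norm_mainT_sq hlam]
  have e1 : s.t.del + (h : ℝ) * (y.1.2 * s.t.psi y.2) / (y.1.2 * (h * s.t.al)) = y.2 := by
    rw [s.t.lin y.2 hJ]
    field_simp
    ring
  rw [e1]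
  have h2 : y.2 ∈ Set.Ioc (0 : ℝ) 1 := ⟨by linarith [hJ.1], by linarith [hJ.2]⟩
  unfold Fr.cut
  rw [Set.indicator_of_mem h2, norm_uu_sq s y.1 (c := y.2) hy, abs_mul, abs_mul,
    abs_of_pos hh0, abs_of_pos hal]
  have hka : |(y.1.2 : ℝ)| ≠ 0 := abs_ne_zero.2 hk'
  field_simp

theorem toDe_eq {P' : ℤ} (hP : s.t.q * P' = s.t.P * h * d.q2 + 1) (x : X) :
    Cv.toDe d.q2 P' x = ((((x.1.1 * d.N : ℤ) : ZMod d.q2), x.1.2), x.2) := by
  have h1 : ((s.t.q : ZMod d.q2)) * (P' : ZMod d.q2) = 1 := by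
    have := congrArg (fun z : ℤ => (z : ZMod d.q2)) hP
    push_cast at this
    simpa using this
  have h2 : (d.N : ZMod d.q2) * (s.t.q : ZMod d.q2) = 1 := by
    have := (ZMod.intCast_zmod_eq_zero_iff_dvd (d.N * s.t.q - 1) d.q2).2 d.hN
    push_cast at this
    linear_combination this
  have h3 : (P' : ZMod d.q2) = (d.N : ZMod d.q2) := by
    calc (P' : ZMod d.q2) = ((d.N : ZMod d.q2) * (s.t.q : ZMod d.q2)) * P' := by rw [h2, one_mul]
      _ = (d.N : ZMod d.q2) * ((s.t.q : ZMod d.q2) * P') := by ring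
      _ = _ := by rw [h1, mul_one]
  unfold Cv.toDe
  simp only
  push_cast
  rw [h3]

theorem term_ne (hh : 0 < h) {P' : ℤ} (hP : s.t.q * P' = s.t.P * h * d.q2 + 1) {k : ℤ × ℤ}
    (hk : k ∈ KS s) {x : X} (hne : term s d h C k x ≠ 0) :
    x ∈ overE d P' ∧ ∃ y ∈ s.M.S, y.1 = k ∧ (s.t.q : ℤ) ∣ x.1.1 - y.1.1 ∧
      (h : ℝ) * (y.1.2 * s.t.psi y.2) = tau s d x := by
  obtain ⟨h1, h2, h3⟩ := Tp.mainA_ne_zero d hne
  obtain ⟨y, hy, hyk, hyt⟩ := psiT_ne s h C hh ((mem_KS s).1 hk).2 h3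
  refine ⟨?_, y, hy, hyk, ?_, hyt⟩
  · show Cv.toDe d.q2 P' x ∈ d.E
    rw [toDe_eq s d h hP]
    exact h2
  · rw [hyk]
    exact h1

/-- at most one vector `k` -/
theorem uniq (hh : 0 < h) {x y y' : X} (hy : y ∈ s.M.S) (hy' : y' ∈ s.M.S)
    (h1 : (s.t.q : ℤ) ∣ x.1.1 - y.1.1) (h1' : (s.t.q : ℤ) ∣ x.1.1 - y'.1.1)
    (h2 : (h : ℝ) * (y.1.2 * s.t.psi y.2) = tau s d x)
    (h2' : (h : ℝ) * (y'.1.2 * s.t.psi y'.2) = tau s d x) : y = y' := by
  refine s.M.inj y hy y' hy' ?_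
  obtain ⟨m, hm⟩ := h1
  obtain ⟨m', hm'⟩ := h1'
  have hh' : (h : ℝ) ≠ 0 := by positivity
  have hq : (s.t.q : ℝ) ≠ 0 := by
    have := s.t.q_pos
    positivity
  have e1 : (y.1.2 : ℝ) * s.t.psi y.2 = y'.1.2 * s.t.psi y'.2 :=
    mul_left_cancel₀ hh' (h2.trans h2'.symm)
  refine ⟨(m' - m) * s.t.P, ?_⟩
  unfold TwD.nu
  have e2 : (y.1.1 : ℝ) = x.1.1 - s.t.q * m := by
    have : y.1.1 = x.1.1 - s.t.q * m := by omega
    rw [this]; push_cast; ring
  have e3 : (y'.1.1 : ℝ) = x.1.1 - s.t.q * m' := by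
    have : y'.1.1 = x.1.1 - s.t.q * m' := by omega
    rw [this]; push_cast; ring
  rw [e1, e2, e3]
  push_cast
  field_simp
  ring

theorem norm_arr_sq (hh : 0 < h) {P' : ℤ} (hP : s.t.q * P' = s.t.P * h * d.q2 + 1) (x : X) :
    ‖arr s d h C x‖ ^ 2 = (stepS s.M d h P').indicator
      (fun x => |(x.1.2 : ℝ)| * (d.v / (1 - 2 * d.del) / h)) x := by
  by_cases hx : x ∈ stepS s.M d h P'
  · rw [Set.indicator_of_mem hx]
    obtain ⟨hE, y, hy, hq, ht⟩ := hx
    have hE' : ((((x.1.1 * d.N : ℤ) : ZMod d.q2), x.1.2), x.2) ∈ d.E := by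
      rw [← toDe_eq s d h hP]
      exact hE
    have h1 : arr s d h C x = term s d h C y.1 x := by
      unfold arr
      refine Finset.sum_eq_single_of_mem y.1 (mem_KS_of_S s hy) fun k hk hne => ?_
      by_contra hne0
      obtain ⟨_, y', hy', hyk, hq', ht'⟩ := term_ne s d h C hh hP hk hne0
      have := uniq s d h hh hy hy' hq hq' ht ht'
      exact hne (by rw [← hyk, ← this])
    rw [h1]
    unfold term
    rw [Tp.norm_mainA_sq d hq hE', ← ht, psiT_sq s h C hh hy]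
    ring
  · rw [Set.indicator_of_notMem hx]
    have h1 : arr s d h C x = 0 := by
      unfold arr
      refine Finset.sum_eq_zero fun k hk => ?_
      by_contra hne0
      obtain ⟨hE, y, hy, _, hq', ht'⟩ := term_ne s d h C hh hP hk hne0
      exact hx ⟨hE, y, hy, hq', ht'⟩
    rw [h1]
    simp

end array

/-! ### part C: the error -/

theorem enorm_sum_sq_le {ι : Type*} (A : Finset ι) (z : ι → ℂ) :
    ‖∑ i ∈ A, z i‖ₑ ^ 2 ≤ (A.card : ℝ≥0∞) * ∑ i ∈ A, ‖z i‖ₑ ^ 2 := by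
  have h1 : ‖∑ i ∈ A, z i‖ ^ 2 ≤ (A.card : ℝ) * ∑ i ∈ A, ‖z i‖ ^ 2 := by
    calc ‖∑ i ∈ A, z i‖ ^ 2 ≤ (∑ i ∈ A, ‖z i‖) ^ 2 :=
          pow_le_pow_left₀ (norm_nonneg _) (norm_sum_le _ _) 2
      _ ≤ (A.card : ℝ) * ∑ i ∈ A, ‖z i‖ ^ 2 := sq_sum_le_card_mul_sum_sq
  calc ‖∑ i ∈ A, z i‖ₑ ^ 2 = ENNReal.ofReal (‖∑ i ∈ A, z i‖ ^ 2) := enorm_sq_eq _
    _ ≤ ENNReal.ofReal ((A.card : ℝ) * ∑ i ∈ A, ‖z i‖ ^ 2) := ENNReal.ofReal_le_ofReal h1
    _ = (A.card : ℝ≥0∞) * ∑ i ∈ A, ‖z i‖ₑ ^ 2 := by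
        rw [ENNReal.ofReal_mul (by positivity), ENNReal.ofReal_natCast,
          ENNReal.ofReal_sum_of_nonneg fun i _ => by positivity]
        congr 1
        exact Finset.sum_congr rfl fun i _ => (enorm_sq_eq _).symm

theorem integral_sq_le {F : X → ℂ} (hF : AEStronglyMeasurable F muX) {B : ℝ} (hB : 0 ≤ B)
    (h : ∫⁻ x, ‖F x‖ₑ ^ 2 ∂muX ≤ ENNReal.ofReal B) : ∫ x, ‖F x‖ ^ 2 ∂muX ≤ B := by
  have hm : AEStronglyMeasurable (fun x => ‖F x‖ ^ 2) muX := hF.norm.pow 2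
  rw [integral_eq_lintegral_of_nonneg_ae (Filter.Eventually.of_forall fun x => by positivity) hm]
  refine ENNReal.toReal_le_of_le_ofReal hB ?_
  refine le_trans (le_of_eq ?_) h
  exact lintegral_congr fun x => (enorm_sq_eq _).symm

theorem gaStmt : GAStmt := by
  intro s e he
  set n : ℝ := ((KS s).card : ℝ) with hn
  have hn0 : 0 ≤ n := by positivity
  -- the masses
  set A : ℝ := ∑ k ∈ KS s, ∫ c, ‖uu s k c‖ ^ 2 ∂I01 with hA
  have hA0 : 0 ≤ A := Finset.sum_nonneg fun k _ => integral_nonneg fun c => by positivity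
  -- the errors
  set ε : ℝ := e ^ 2 / (4 * (n + 1) ^ 2) with hε
  have hεpos : 0 < ε := by positivity
  set eps0 : ℝ := e / Real.sqrt (4 * (n + 1) * (A + 1)) with heps0
  have hs0 : 0 < 4 * (n + 1) * (A + 1) := by positivity
  have heps0pos : 0 < eps0 := div_pos he (Real.sqrt_pos.2 hs0)
  refine ⟨KS s, eps0, heps0pos, fun K eps hK heps hle d => ?_⟩
  have hmain : ∀ k : ℤ × ℤ, ∃ h0 : ℕ, k ∈ KS s → 0 < h0 ∧ ∀ h : ℕ, h0 ≤ h → ∀ (G : LD) (gf : GForm d h G),
      ∫⁻ x, ‖fcX (fun y => em k (uu s k) (G.perm y)) x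
        - Tp.mainA s.t.q d.q2 d.N k.1 (Fp d.v d.del)
          (psiT (uu s k) k.2 h s.t.al s.t.del gf.chi0) (d.M k) x‖ₑ ^ 2 ∂muX
      ≤ 2 * ((∫⁻ c, ‖uu s k c‖ₑ ^ 2 ∂I01) * ENNReal.ofReal (eps ^ 2) + ENNReal.ofReal ε) := by
    intro k
    by_cases hk : k ∈ KS s
    · obtain ⟨h0, h1, h2⟩ := main2 d (hK hk) ((mem_KS s).1 hk).2 (measurable_uu s k) (memLp_uu s k)
        (uu_J s k) hεpos
      exact ⟨h0, fun _ => ⟨h1, h2⟩⟩
    · exact ⟨0, fun h => absurd h hk⟩
  choose h0 hh0 using hmain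
  refine ⟨(KS s).sup h0, fun h hh hh1 P' hP G hG hG' => ?_⟩
  obtain ⟨gf⟩ := hG'
  refine ⟨arr s d h gf.chi0, measurable_arr s d h gf.chi0,
    Filter.Eventually.of_forall fun x => norm_arr_sq s d h gf.chi0 hh hP x,
    Filter.Eventually.of_forall fun x => arr_neg s d h gf.chi0 x, ?_⟩
  have hMP : MeasurePreserving G.perm (volume : Measure T3) volume := hG
  have hgG : MemLp (fun y => gC s (G.perm y)) 2 volume :=
    (memLp_gC s).comp_measurePreserving hMP
  have hemG : ∀ k, MemLp (fun y => em k (uu s k) (G.perm y)) 2 volume := fun k =>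
    (memLp_em k (memLp_uu s k)).comp_measurePreserving hMP
  have h1 : (fun y => gC s (G.perm y)) =ᵐ[volume]
      fun y => ∑ k ∈ KS s, em k (uu s k) (G.perm y) :=
    hMP.quasiMeasurePreserving.ae_eq_comp (gC_ae s)
  have h2 : fcX (fun y => gC s (G.perm y)) =ᵐ[muX]
      fun x => ∑ k ∈ KS s, fcX (fun y => em k (uu s k) (G.perm y)) x :=
    (fc_congr h1).trans (fcX_sum (KS s) (fun k y => em k (uu s k) (G.perm y))
      fun k _ => (hemG k).integrable (by norm_num))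
  have hFm : AEStronglyMeasurable
      (fun x => fcX (fun y => gC s (G.perm y)) x - arr s d h gf.chi0 x) muX :=
    (memLp_fcX hgG).aestronglyMeasurable.sub (measurable_arr s d h gf.chi0).aestronglyMeasurable
  refine integral_sq_le hFm (by positivity) ?_
  have h3 : ∀ᵐ x ∂muX, ‖fcX (fun y => gC s (G.perm y)) x - arr s d h gf.chi0 x‖ₑ ^ 2
      ≤ ((KS s).card : ℝ≥0∞) * ∑ k ∈ KS s,
        ‖fcX (fun y => em k (uu s k) (G.perm y)) x - term s d h gf.chi0 k x‖ₑ ^ 2 := by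
    filter_upwards [h2] with x hx
    rw [hx]
    unfold arr
    rw [← Finset.sum_sub_distrib]
    exact enorm_sum_sq_le _ _
  have hmeas : ∀ k, AEMeasurable (fun x =>
      ‖fcX (fun y => em k (uu s k) (G.perm y)) x - term s d h gf.chi0 k x‖ₑ ^ 2) muX := fun k =>
    ((memLp_fcX (hemG k)).aestronglyMeasurable.sub
      (measurable_term s d h gf.chi0 k).aestronglyMeasurable).enorm.pow_const 2
  calc ∫⁻ x, ‖fcX (fun y => gC s (G.perm y)) x - arr s d h gf.chi0 x‖ₑ ^ 2 ∂muX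
      ≤ ∫⁻ x, ((KS s).card : ℝ≥0∞) * ∑ k ∈ KS s,
        ‖fcX (fun y => em k (uu s k) (G.perm y)) x - term s d h gf.chi0 k x‖ₑ ^ 2 ∂muX :=
        lintegral_mono_ae h3
    _ = ((KS s).card : ℝ≥0∞) * ∑ k ∈ KS s, ∫⁻ x,
        ‖fcX (fun y => em k (uu s k) (G.perm y)) x - term s d h gf.chi0 k x‖ₑ ^ 2 ∂muX := by
        rw [lintegral_const_mul' _ _ (ENNReal.natCast_ne_top _), lintegral_finsetSum' _ fun k _ => hmeas k]
    _ ≤ ((KS s).card : ℝ≥0∞) * ∑ k ∈ KS s,
        ENNReal.ofReal (2 * ((∫ c, ‖uu s k c‖ ^ 2 ∂I01) * eps ^ 2 + ε)) := by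
        gcongr with k hk
        refine ((hh0 k hk).2 h ((Finset.le_sup hk).trans hh1) G gf).trans (le_of_eq ?_)
        have e1 : ∫⁻ c, ‖uu s k c‖ₑ ^ 2 ∂I01 = ENNReal.ofReal (∫ c, ‖uu s k c‖ ^ 2 ∂I01) := by
          rw [ofReal_integral_eq_lintegral_ofReal ((memLp_uu s k).integrable_norm_pow (by norm_num))
            (Filter.Eventually.of_forall fun c => by positivity)]
          exact lintegral_congr fun c => enorm_sq_eq _
        have e0 : 0 ≤ ∫ c, ‖uu s k c‖ ^ 2 ∂I01 := integral_nonneg fun c => by positivity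
        rw [e1, ← ENNReal.ofReal_mul e0, ← ENNReal.ofReal_add (by positivity) hεpos.le,
          ENNReal.ofReal_mul (by norm_num)]
        norm_num
    _ = ENNReal.ofReal (n * ∑ k ∈ KS s, (2 * ((∫ c, ‖uu s k c‖ ^ 2 ∂I01) * eps ^ 2 + ε))) := by
        rw [ENNReal.ofReal_mul hn0, hn, ENNReal.ofReal_natCast, ENNReal.ofReal_sum_of_nonneg]
        intro k _
        have e0 : 0 ≤ ∫ c, ‖uu s k c‖ ^ 2 ∂I01 := integral_nonneg fun c => by positivity
        positivity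
    _ ≤ ENNReal.ofReal (e ^ 2) := by
        refine ENNReal.ofReal_le_ofReal ?_
        have e1 : ∑ k ∈ KS s, (2 * ((∫ c, ‖uu s k c‖ ^ 2 ∂I01) * eps ^ 2 + ε))
            = 2 * (A * eps ^ 2 + n * ε) := by
          rw [← Finset.mul_sum, Finset.sum_add_distrib, ← Finset.sum_mul, Finset.sum_const,
            nsmul_eq_mul]
        rw [e1]
        have e2 : eps ^ 2 ≤ e ^ 2 / (4 * (n + 1) * (A + 1)) := by
          calc eps ^ 2 ≤ eps0 ^ 2 := pow_le_pow_left₀ heps.le hle 2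
            _ = e ^ 2 / (4 * (n + 1) * (A + 1)) := by
                rw [heps0, div_pow, Real.sq_sqrt hs0.le]
        have e3 : n * (2 * (A * eps ^ 2)) ≤ e ^ 2 / 2 := by
          calc n * (2 * (A * eps ^ 2)) ≤ n * (2 * (A * (e ^ 2 / (4 * (n + 1) * (A + 1))))) := by
                gcongr
            _ = (e ^ 2 / 2) * ((n / (n + 1)) * (A / (A + 1))) := by
                field_simp
                ring
            _ ≤ (e ^ 2 / 2) * (1 * 1) := by
                gcongr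
                · exact (div_le_one (by positivity)).2 (by linarith)
                · exact (div_le_one (by positivity)).2 (by linarith)
            _ = e ^ 2 / 2 := by ring
        have e4 : n * (2 * (n * ε)) ≤ e ^ 2 / 2 := by
          calc n * (2 * (n * ε)) = (e ^ 2 / 2) * ((n / (n + 1)) * (n / (n + 1))) := by
                rw [hε]
                field_simp
                ring
            _ ≤ (e ^ 2 / 2) * (1 * 1) := by
                have : n / (n + 1) ≤ 1 := (div_le_one (by positivity)).2 (by linarith)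
                gcongr
            _ = e ^ 2 / 2 := by ring
        calc n * (2 * (A * eps ^ 2 + n * ε)) = n * (2 * (A * eps ^ 2)) + n * (2 * (n * ε)) := by ring
          _ ≤ e ^ 2 / 2 + e ^ 2 / 2 := add_le_add e3 e4
          _ = e ^ 2 := by ring

end Crest.Agent.R081.Ga
end

-- ▼ part R081/Asm4

/-! Row 81, route B (architect helper310): the assembly; only the design statement is left. -/

set_option autoImplicit false

namespace Crest.Agent.R081.Asm

open Crest.Agent.R081.St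

theorem goal_of_des (hD : DesStmt) : Glue.Goal := goal_of'' hD Ga.gaStmt

end Crest.Agent.R081.Asm
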