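import Crest.Agent.R075.Basic

/-! Row 81, route B (architect helper310): FROZEN INTERFACE between the LABEL design
(producers 342 / 472 / 287 / 269) and the GLUE to the plane (762 / 846). -/

set_option autoImplicit false

namespace Crest.Agent.R081.B

open MeasureTheory Crest.Agent.R075

/-- label values: `e(k1 s1 / M1 + k2 s2 / M2)` -/
noncomputable def Ek (M1 M2 : ℕ) (k : ℤ × ℤ) (s : ZMod M1 × ZMod M2) : ℂ :=
  ee (k.1 * (s.1.val : ℝ) / M1 + k.2 * (s.2.val : ℝ) / M2)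

/-- the Fourier coefficient of a label function on `ℤ/n × ℝ/ℤ` -/
noncomputable def Dlab {Y : Type} (n : ℕ) (lab : ℤ → ℝ → Y) (Ef : Y → ℂ) (a b : ℤ) : ℂ :=
  (1 / (n : ℂ)) * ∑ i ∈ Finset.range n, ∫ t in (0:ℝ)..1, Ef (lab i t) * ee (-(a * i / n) - b * t)

/-- **output of the label design** for the label set `ZMod M1 × ZMod M2`, the finite set `K` of modes
and the accuracy `eps`.  `lab c i θ` (`c ∈ [0,1)`, `i ∈ ℤ` mod `n`, `θ ∈ ℝ` mod 1) is the label,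
`E` the set of lines `(a, b, c)`, `n = q''`. -/
structure LabelOut (q M1 M2 : ℕ) [NeZero M1] [NeZero M2] (K : Finset (ℤ × ℤ)) (eps : ℝ) where
  /-- `q''` -/
  n : ℕ
  n_pos : 0 < n
  cop : Nat.Coprime q n
  de : ℝ
  de_pos : 0 < de
  de_lt : de < 1 / 8
  de_le : de ≤ eps
  /-- total increment of `F` -/
  v : ℝ
  v_pos : 0 < v
  v_ge : 1 ≤ v * n
  lab : ℝ → ℤ → ℝ → ZMod M1 × ZMod M2
  lab_meas : ∀ (i : ℤ) (s : ZMod M1 × ZMod M2), MeasurableSet {p : ℝ × ℝ | lab p.1 i p.2 = s}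
  lab_per : ∀ c i t, lab c (i + n) t = lab c i t
  lab_per1 : ∀ c i t, lab c i (t + 1) = lab c i t
  /-- near equidistribution of the labels -/
  dist : ∑ s : ZMod M1 × ZMod M2,
    |(1 / (n : ℝ)) * ∑ i ∈ Finset.range n,
        (volume {p : ℝ × ℝ | p ∈ Set.Ico (0:ℝ) 1 ×ˢ Set.Ico (0:ℝ) 1 ∧ lab p.1 i p.2 = s}).toReal
      - 1 / (M1 * M2)| ≤ eps
  /-- the lines: `E a b` is the set of `c ∈ J₊ = [de, 1-de]` -/
  E : ℤ → ℤ → Set ℝ
  E_meas : ∀ a b, MeasurableSet (E a b)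
  E_sub : ∀ a b, E a b ⊆ Set.Icc de (1 - de)
  E_per : ∀ a b, E (a + n) b = E a b
  E_symm : ∀ a b, E (-a) (-b) = E a b
  E_zero : ∀ a, E a 0 = ∅
  /-- finitely many `b` -/
  bm : ℕ
  E_fin : ∀ a b : ℤ, (bm : ℤ) < |b| → E a b = ∅
  /-- exact injectivity of `a/n + b F(c)` modulo one, `F c = v (c - de)/(1 - 2 de)` -/
  inj : ∀ (a b : ℤ) (c : ℝ) (a' b' : ℤ) (c' : ℝ) (m : ℤ), c ∈ E a b → c' ∈ E a' b' →
    (a : ℝ) / n + b * (v * (c - de) / (1 - 2 * de))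
      = (a' : ℝ) / n + b' * (v * (c' - de) / (1 - 2 * de)) + m →
    ((n : ℤ) ∣ a - a') ∧ b = b' ∧ c = c'
  /-- total mass `≥ 1 - eps` -/
  cover : 1 - eps ≤ ∑ a ∈ Finset.range n, ∑ b ∈ Finset.Icc (-(bm:ℤ)) bm,
    |(b : ℝ)| * (v / (1 - 2 * de)) * (volume (E a b)).toReal
  /-- the masses are flat on the lines (one finite sum over `|b| ≤ bm` and the tail via Parseval) -/
  flat : ∀ k ∈ K, ∑ a ∈ Finset.range n, ∑ b ∈ Finset.Icc (-(bm:ℤ)) bm,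
    ∫ c in (0:ℝ)..1, |‖Dlab n (lab c) (Ek M1 M2 k) a b‖ ^ 2
      - |(b : ℝ)| * (v / (1 - 2 * de)) * (E a b).indicator 1 c| ≤ eps


end Crest.Agent.R081.B
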