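import Crest.Agent.R081.DlC3
import Crest.Agent.R081.StDefs
import Crest.Agent.R075.Basic
import Crest.Agent.R075.ThmF2
import Crest.Agent.R081.FrPars
import Crest.Agent.R081.DlDefs

-- ▼ part R081/DgArc
section

/-!
# Row 81, route B: from a label design to the arcs and main coefficients of `St.Des` (c-side)
-/

set_option autoImplicit false

namespace Crest.Agent.R081.DgA

open MeasureTheory Set Crest.Agent.R075 Crest.Agent.R081.Dl Crest.Agent.R081.Tw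

/-- the normalised parameter. -/
noncomputable def sc (del c : ℝ) : ℝ := (c - del) / (1 - 2 * del)

variable {q : ℕ} {Λ : Type} [Fintype Λ] {Fam : Set (Λ → ℂ)} {eps : ℝ}
  (D : LabelDesign q Λ Fam eps) (del : ℝ)

/-- the piece of `c`. -/
noncomputable def pcl (c : ℝ) : ℕ := ⌊(D.P : ℝ) * sc del c⌋₊

/-- trimmed piece. -/
def J (p : ℕ) : Set ℝ := {c | (p:ℝ) + D.eta < D.P * sc del c ∧ D.P * sc del c < p + 1 - D.eta}

/-- the lines of `St.Des`. -/
def EC : Set (Cv.De D.qq) :=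
  {x | ∃ p : ℕ, D.line p ((x.1.1.val : ℕ) : ℤ) x.1.2 ∧ x.2 ∈ J D del p}

lemma continuous_sc : Continuous (sc del) := by unfold sc; fun_prop

lemma isOpen_J (p : ℕ) : IsOpen (J D del p) := by
  have h := continuous_sc del
  exact (isOpen_lt continuous_const (continuous_const.mul h)).inter
    (isOpen_lt (continuous_const.mul h) continuous_const)

lemma measurableSet_J (p : ℕ) : MeasurableSet (J D del p) := (isOpen_J D del p).measurableSet

variable {D del}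

lemma pcl_of_mem {p : ℕ} {c : ℝ} (hc : c ∈ J D del p) : pcl D del c = p := by
  have h0 := D.eta_pos
  obtain ⟨h1, h2⟩ := hc
  have h3 : (0:ℝ) ≤ p := Nat.cast_nonneg p
  unfold pcl
  rw [Nat.floor_eq_iff (by linarith)]
  constructor <;> linarith

lemma J_unique {p p' : ℕ} {c : ℝ} (hc : c ∈ J D del p) (hc' : c ∈ J D del p') : p = p' := by
  rw [← pcl_of_mem hc, pcl_of_mem hc']

lemma line_add_mul (p : ℕ) (a b k : ℤ) : D.line p (a + k * D.qq) b ↔ D.line p a b := by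
  have hper : Function.Periodic (fun a : ℤ => D.line p a b) (D.qq : ℤ) :=
    fun a => propext (D.line_per p a b)
  have := hper.int_mul k a
  simpa using this

lemma line_val (p : ℕ) (a b : ℤ) :
    D.line p ((((a : ZMod D.qq)).val : ℕ) : ℤ) b ↔ D.line p a b := by
  have : NeZero D.qq := ⟨D.qq_pos.ne'⟩
  rw [ZMod.val_intCast]
  have h : a % (D.qq : ℤ) = a + (-(a / D.qq)) * D.qq := by
    have := Int.emod_add_mul_ediv a D.qq
    linarith
  rw [h, line_add_mul]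

lemma mem_EC {a b : ℤ} {c : ℝ} :
    (((a : ZMod D.qq), b), c) ∈ EC D del ↔ ∃ p, D.line p a b ∧ c ∈ J D del p := by
  refine exists_congr fun p => and_congr ?_ Iff.rfl
  exact line_val p a b

lemma mem_EC_iff {a b : ℤ} {p : ℕ} {c : ℝ} (hc : c ∈ J D del p) :
    (((a : ZMod D.qq), b), c) ∈ EC D del ↔ D.line p a b := by
  rw [mem_EC]
  constructor
  · rintro ⟨p', h, hc'⟩
    rwa [J_unique hc hc']
  · intro h; exact ⟨p, h, hc⟩

theorem EC_meas (a : ZMod D.qq) (b : ℤ) : MeasurableSet {c : ℝ | ((a, b), c) ∈ EC D del} := by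
  have : {c : ℝ | ((a, b), c) ∈ EC D del}
      = ⋃ p : ℕ, ({c | D.line p ((a.val : ℕ) : ℤ) b} ∩ J D del p) := by
    ext c
    rw [Set.mem_iUnion]
    rfl
  rw [this]
  refine MeasurableSet.iUnion fun p => MeasurableSet.inter ?_ (measurableSet_J D del p)
  by_cases h : D.line p ((a.val : ℕ) : ℤ) b
  · simp [h]
  · simp [h]

theorem EC_ne0 (x : Cv.De D.qq) (hx : x ∈ EC D del) : x.1.2 ≠ 0 := by
  obtain ⟨p, hl, -⟩ := hx; exact D.line_ne _ _ _ hl

theorem EC_B (x : Cv.De D.qq) (hx : x ∈ EC D del) : |x.1.2| ≤ D.B.toNat := by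
  obtain ⟨p, hl, -⟩ := hx
  exact le_trans (D.line_B _ _ _ hl) (Int.self_le_toNat _)

lemma sc_bounds (hd1 : del < 1 / 2) {p : ℕ} (hp : p < D.P) {c : ℝ} (hc : c ∈ J D del p) :
    0 < sc del c ∧ sc del c < 1 ∧ del < c ∧ c < 1 - del := by
  obtain ⟨h1, h2⟩ := hc
  have h0 := D.eta_pos
  have hP : (0:ℝ) < D.P := by exact_mod_cast D.P_pos
  have hp' : (p:ℝ) + 1 ≤ D.P := by exact_mod_cast hp
  have hp0 : (0:ℝ) ≤ p := Nat.cast_nonneg p
  have h3 : 0 < sc del c := by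
    by_contra hcon
    have : D.P * sc del c ≤ 0 := mul_nonpos_of_nonneg_of_nonpos hP.le (not_lt.1 hcon)
    linarith
  have h4 : sc del c < 1 := by
    by_contra hcon
    have : (D.P:ℝ) * 1 ≤ D.P * sc del c := mul_le_mul_of_nonneg_left (not_lt.1 hcon) hP.le
    linarith
  have hd : 0 < 1 - 2 * del := by linarith
  refine ⟨h3, h4, ?_, ?_⟩
  · unfold sc at h3
    have := (div_pos_iff_of_pos_right hd).1 h3
    linarith
  · unfold sc at h4
    rw [div_lt_one hd] at h4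
    linarith

theorem EC_sub (hd1 : del < 1 / 2) (x : Cv.De D.qq) (hx : x ∈ EC D del) :
    x.2 ∈ Set.Icc del (1 - del) := by
  obtain ⟨p, hl, hc⟩ := hx
  obtain ⟨-, -, h1, h2⟩ := sc_bounds hd1 (D.line_lt _ _ _ hl) hc
  exact ⟨h1.le, h2.le⟩

theorem EC_symm (x : Cv.De D.qq) (hx : x ∈ EC D del) : ((-x.1.1, -x.1.2), x.2) ∈ EC D del := by
  have : NeZero D.qq := ⟨D.qq_pos.ne'⟩
  obtain ⟨p, hl, hc⟩ := hx
  have e : -x.1.1 = ((-((x.1.1.val : ℕ) : ℤ) : ℤ) : ZMod D.qq) := by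
    push_cast
    rw [ZMod.natCast_zmod_val]
  rw [e, mem_EC]
  exact ⟨p, (D.line_symm _ _ _).2 hl, hc⟩

theorem EC_inj (hd0 : 0 < del) (hd1 : del < 1 / 2) (a b a' b' : ℤ) (c c' : ℝ)
    (hx : (((a : ZMod D.qq), b), c) ∈ EC D del) (hx' : (((a' : ZMod D.qq), b'), c') ∈ EC D del)
    (h : ∃ n : ℤ, ((a : ℝ) / D.qq + b * Fp D.v del c) - ((a' : ℝ) / D.qq + b' * Fp D.v del c') = n) :
    (a : ZMod D.qq) = a' ∧ b = b' ∧ c = c' := by
  rw [mem_EC] at hx hx'
  obtain ⟨p, hl, hc⟩ := hx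
  obtain ⟨p', hl', hc'⟩ := hx'
  obtain ⟨n, hn⟩ := h
  have hP : (0:ℝ) < D.P := by exact_mod_cast D.P_pos
  have hd : 0 < 1 - 2 * del := by linarith
  obtain ⟨-, -, h1, h2⟩ := sc_bounds hd1 (D.line_lt _ _ _ hl) hc
  obtain ⟨-, -, h1', h2'⟩ := sc_bounds hd1 (D.line_lt _ _ _ hl') hc'
  rw [Fp_eq _ hd0 h1.le h2.le, Fp_eq _ hd0 h1'.le h2'.le] at hn
  have e : ∀ (b : ℤ) (p : ℕ) (c : ℝ), (b:ℝ) * (D.v * (c - del) / (1 - 2 * del))
      = b * D.v * (((p:ℝ) + (D.P * sc del c - p)) / D.P) := by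
    intro b p c; unfold sc; field_simp; ring
  rw [e b p c, e b' p' c'] at hn
  obtain ⟨g1, g2⟩ := hc
  obtain ⟨g1', g2'⟩ := hc'
  obtain ⟨r1, r2, r3, r4⟩ := D.inj p p' a b a' b' hl hl' (D.P * sc del c - p)
    (D.P * sc del c' - p') (by linarith) (by linarith) (by linarith) (by linarith) n (by linarith)
  refine ⟨?_, r2, ?_⟩
  · rw [eq_comm]
    exact (ZMod.intCast_eq_intCast_iff_dvd_sub a' a D.qq).2 (by simpa using r4)
  · subst r1
    have h3 : (D.P : ℝ) * sc del c = D.P * sc del c' := by linarith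
    have h4 := mul_left_cancel₀ hP.ne' h3
    unfold sc at h4
    rw [div_left_inj' hd.ne'] at h4
    linarith

variable (D del)

/-- slope in the variable `c`. -/
noncomputable def vs : ℝ := D.v / (1 - 2 * del)

/-- main coefficients. -/
noncomputable def MC (E : Λ → ℂ) (a b : ℤ) (c : ℝ) : ℂ :=
  ∑ p ∈ Finset.range D.P, (J D del p).indicator
    (fun _ => mainC (vs D del) D.line D.ll D.amp E p a b) c

variable {D del}

lemma MC_of_mem (E : Λ → ℂ) (a b : ℤ) {p : ℕ} (hp : p < D.P) {c : ℝ} (hc : c ∈ J D del p) :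
    MC D del E a b c = mainC (vs D del) D.line D.ll D.amp E p a b := by
  unfold MC
  rw [Finset.sum_eq_single_of_mem p (Finset.mem_range.2 hp)]
  · rw [Set.indicator_of_mem hc]
  · intro p' _ hne
    rw [Set.indicator_of_notMem]
    intro hc'
    exact hne (J_unique hc' hc)

lemma MC_of_notMem (E : Λ → ℂ) (a b : ℤ) {c : ℝ} (hc : ∀ p < D.P, c ∉ J D del p) :
    MC D del E a b c = 0 := by
  unfold MC
  refine Finset.sum_eq_zero fun p hp => ?_
  rw [Set.indicator_of_notMem (hc p (Finset.mem_range.1 hp))]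

theorem MC_meas (E : Λ → ℂ) (a b : ℤ) : Measurable (MC D del E a b) := by
  unfold MC
  exact Finset.measurable_sum _ fun p _ => measurable_const.indicator (measurableSet_J D del p)

lemma mainC_per (w : ℝ) (E : Λ → ℂ) (p : ℕ) (a b : ℤ) :
    mainC w D.line D.ll D.amp E p (a + D.qq) b = mainC w D.line D.ll D.amp E p a b := by
  classical
  unfold mainC
  rw [D.ll_per, D.amp_per]
  by_cases h : D.line p a b
  · rw [if_pos h, if_pos ((D.line_per _ _ _).2 h)]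
  · rw [if_neg h, if_neg (fun h' => h ((D.line_per _ _ _).1 h'))]

theorem MC_per (E : Λ → ℂ) (a b : ℤ) (c : ℝ) :
    MC D del E (a + D.qq) b c = MC D del E a b c := by
  unfold MC
  simp only [mainC_per]

lemma mainC_norm {w : ℝ} (hw : 0 ≤ w) {E : Λ → ℂ} (hE : ∀ n, ‖E n‖ = 1) (p : ℕ) (a b : ℤ) [Decidable (D.line p a b)] :
    ‖mainC w D.line D.ll D.amp E p a b‖ ^ 2 = if D.line p a b then |(b:ℝ)| * w else 0 := by
  unfold mainC
  by_cases h : D.line p a b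
  · rw [if_pos h, if_pos h, norm_mul, norm_mul, hE, D.amp_norm, mul_one, mul_one,
      Complex.norm_real, Real.norm_of_nonneg (Real.sqrt_nonneg _), Real.sq_sqrt (by positivity)]
  · rw [if_neg h, if_neg h, norm_zero]; norm_num

lemma mainC_symm {w : ℝ} {E E' : Λ → ℂ} (hE : ∀ n, E' n = (starRingEnd ℂ) (E n)) (p : ℕ) (a b : ℤ) :
    mainC w D.line D.ll D.amp E' p (-a) (-b)
      = (starRingEnd ℂ) (mainC w D.line D.ll D.amp E p a b) := by
  classical
  unfold mainC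
  rw [D.ll_symm, D.amp_symm, hE]
  by_cases h : D.line p a b
  · rw [if_pos h, if_pos ((D.line_symm _ _ _).2 h)]
    simp
  · rw [if_neg h, if_neg (fun h' => h ((D.line_symm _ _ _).1 h'))]
    simp

lemma vs_pos (hd1 : del < 1 / 2) : 0 < vs D del := div_pos D.v_pos (by linarith)

theorem MC_norm (hd1 : del < 1 / 2) {E : Λ → ℂ} (hE : ∀ n, ‖E n‖ = 1) (a b : ℤ) (c : ℝ) :
    ‖MC D del E a b c‖ ^ 2
      = Set.indicator {c : ℝ | (((a : ZMod D.qq), b), c) ∈ EC D del}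
          (fun _ => |(b : ℝ)| * (D.v / (1 - 2 * del))) c := by
  classical
  by_cases h : ∃ p < D.P, c ∈ J D del p
  · obtain ⟨p, hp, hc⟩ := h
    rw [MC_of_mem E a b hp hc, mainC_norm (vs_pos hd1).le hE]
    by_cases hl : D.line p a b
    · rw [if_pos hl, Set.indicator_of_mem]
      · rfl
      · exact (mem_EC_iff hc).2 hl
    · rw [if_neg hl, Set.indicator_of_notMem]
      intro hcon
      exact hl ((mem_EC_iff hc).1 hcon)
  · push Not at h
    rw [MC_of_notMem E a b h, Set.indicator_of_notMem]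
    · simp
    · intro hcon
      obtain ⟨p, hl, hc⟩ := mem_EC.1 hcon
      exact h p (D.line_lt _ _ _ hl) hc

theorem MC_symm {E E' : Λ → ℂ} (hE : ∀ n, E' n = (starRingEnd ℂ) (E n)) (a b : ℤ) (c : ℝ) :
    MC D del E' (-a) (-b) c = (starRingEnd ℂ) (MC D del E a b c) := by
  unfold MC
  rw [map_sum]
  refine Finset.sum_congr rfl fun p _ => ?_
  by_cases hc : c ∈ J D del p
  · rw [Set.indicator_of_mem hc, Set.indicator_of_mem hc, mainC_symm hE]
  · rw [Set.indicator_of_notMem hc, Set.indicator_of_notMem hc, map_zero]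

end Crest.Agent.R081.DgA
end

-- ▼ part R081/DlPars
section

/-!
# Row 81, route B: Parseval on `ℤ/n × 𝕋`
-/

set_option autoImplicit false

namespace Crest.Agent.R081.DlPars

open Finset MeasureTheory Crest.Agent.R075

lemma sum_ee_div {n : ℕ} (hn : 0 < n) (m : ℤ) :
    ∑ a ∈ range n, ee (m * (a / n)) = if (n : ℤ) ∣ m then (n : ℂ) else 0 := by
  rw [← ThmF.sum_ee_root n hn m]
  refine sum_congr rfl fun a _ => ?_
  rw [ee_eq]; rfl

/-- Plancherel on `ℤ/n`. -/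
theorem plancherel_zmod {n : ℕ} (hn : 0 < n) (g : ℕ → ℂ) :
    ∑ a ∈ range n, ‖(1 / (n : ℂ)) * ∑ i ∈ range n, g i * ee (-((a : ℝ) * i / n))‖ ^ 2 =
      (1 / (n : ℝ)) * ∑ i ∈ range n, ‖g i‖ ^ 2 := by
  have hn0 : (n : ℂ) ≠ 0 := by exact_mod_cast hn.ne'
  have key : ((∑ a ∈ range n, ‖(1 / (n : ℂ)) * ∑ i ∈ range n, g i * ee (-((a : ℝ) * i / n))‖ ^ 2 : ℝ) : ℂ)
      = (((1 / (n : ℝ)) * ∑ i ∈ range n, ‖g i‖ ^ 2 : ℝ) : ℂ) := by
    push_cast
    have e1 : ∀ a ∈ range n, ((‖(1 / (n : ℂ)) * ∑ i ∈ range n, g i * ee (-((a : ℝ) * i / n))‖ : ℂ)) ^ 2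
        = (1 / (n : ℂ)) ^ 2 * ∑ i ∈ range n, ∑ j ∈ range n, (g i * (starRingEnd ℂ) (g j)) *
            ee (((j : ℤ) - (i : ℤ) : ℤ) * ((a : ℝ) / n)) := by
      intro a _
      rw [← Complex.mul_conj', map_mul, map_sum]
      have e2 : (starRingEnd ℂ) (1 / (n : ℂ)) = 1 / (n : ℂ) := by simp
      rw [e2]
      have e3 : (1 / (n : ℂ) * ∑ i ∈ range n, g i * ee (-((a : ℝ) * i / n))) *
          (1 / (n : ℂ) * ∑ i ∈ range n, (starRingEnd ℂ) (g i * ee (-((a : ℝ) * i / n)))) =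
          (1 / (n : ℂ)) ^ 2 * ((∑ i ∈ range n, g i * ee (-((a : ℝ) * i / n))) *
            ∑ i ∈ range n, (starRingEnd ℂ) (g i * ee (-((a : ℝ) * i / n)))) := by ring
      rw [e3, sum_mul_sum]
      congr 1
      refine sum_congr rfl fun i _ => sum_congr rfl fun j _ => ?_
      rw [map_mul, ee_conj]
      have e4 : ee (((j : ℤ) - (i : ℤ) : ℤ) * ((a : ℝ) / n)) =
          ee (-((a : ℝ) * i / n)) * ee (-(-((a : ℝ) * j / n))) := by
        rw [← ee_add]; congr 1; push_cast; ring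
      rw [e4]; ring
    rw [sum_congr rfl e1, ← mul_sum, sum_comm]
    have e5 : ∀ i ∈ range n, ∑ a ∈ range n, ∑ j ∈ range n, (g i * (starRingEnd ℂ) (g j)) *
            ee (((j : ℤ) - (i : ℤ) : ℤ) * ((a : ℝ) / n)) = (n : ℂ) * (‖g i‖ : ℂ) ^ 2 := by
      intro i hi
      rw [sum_comm]
      have e6 : ∀ j ∈ range n, ∑ a ∈ range n, (g i * (starRingEnd ℂ) (g j)) *
            ee (((j : ℤ) - (i : ℤ) : ℤ) * ((a : ℝ) / n)) =
            if j = i then (n : ℂ) * (‖g i‖ : ℂ) ^ 2 else 0 := by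
        intro j hj
        rw [← mul_sum, sum_ee_div hn]
        by_cases h : j = i
        · subst h
          rw [if_pos rfl, if_pos (by simp), ← Complex.mul_conj']
          ring
        · rw [if_neg h, if_neg, mul_zero]
          rintro ⟨k, hk⟩
          have h1 := mem_range.1 hi
          have h2 := mem_range.1 hj
          have h3 : k = 0 := by
            have a1 : (n : ℤ) * k < n := by omega
            have a2 : -(n : ℤ) < n * k := by omega
            have a3 : (0 : ℤ) < n := by omega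
            have a4 : k < 1 := by
              by_contra hc
              push Not at hc
              nlinarith
            have a5 : -1 < k := by
              by_contra hc
              push Not at hc
              nlinarith
            omega
          rw [h3] at hk
          omega
      rw [sum_congr rfl e6, sum_ite_eq' (range n) i, if_pos hi]
    rw [sum_congr rfl e5, ← mul_sum]
    field_simp
  exact_mod_cast key

/-- the coefficient array -/
noncomputable def DD (n : ℕ) (f : ℤ → ℝ → ℂ) (a b : ℤ) : ℂ :=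
  (1 / (n : ℂ)) * ∑ i ∈ range n, ∫ θ in (0:ℝ)..1, f i θ * ee (-(a * i / n + b * θ))

lemma L2_of_bdd {f : ℝ → ℂ} (hf : Measurable f) {C : ℝ} (hC : ∀ θ, ‖f θ‖ ≤ C) : FrPars.L2 f := by
  refine MemLp.of_bound hf.aestronglyMeasurable C (Filter.Eventually.of_forall hC)

/-- the function of `θ` for a given `a` -/
noncomputable def Fa (n : ℕ) (f : ℤ → ℝ → ℂ) (a : ℤ) (θ : ℝ) : ℂ :=
  (1 / (n : ℂ)) * ∑ i ∈ range n, f i θ * ee (-((a : ℝ) * i / n))

lemma Fa_meas {n : ℕ} {f : ℤ → ℝ → ℂ} (hf : ∀ i, Measurable (f i)) (a : ℤ) :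
    Measurable (Fa n f a) := by
  unfold Fa
  refine Measurable.const_mul ?_ _
  exact Finset.measurable_sum _ fun i _ => (hf i).mul_const _

lemma Fa_bdd {n : ℕ} {f : ℤ → ℝ → ℂ} {C : ℝ} (hC : ∀ i θ, ‖f i θ‖ ≤ C) (a : ℤ) (θ : ℝ) :
    ‖Fa n f a θ‖ ≤ C := by
  have hC0 : 0 ≤ C := (norm_nonneg _).trans (hC 0 0)
  unfold Fa
  rcases Nat.eq_zero_or_pos n with h | h
  · subst h; simpa using hC0
  rw [norm_mul, norm_div, norm_one, Complex.norm_natCast]
  have h1 : ‖∑ i ∈ range n, f i θ * ee (-((a : ℝ) * i / n))‖ ≤ n * C := by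
    refine (norm_sum_le _ _).trans ?_
    refine (sum_le_card_nsmul _ _ C fun i _ => ?_).trans (by simp)
    rw [norm_mul, norm_ee, mul_one]
    exact hC _ _
  have hn : (0 : ℝ) < n := by exact_mod_cast h
  calc 1 / (n : ℝ) * ‖∑ i ∈ range n, f i θ * ee (-((a : ℝ) * i / n))‖ ≤ 1 / (n : ℝ) * (n * C) := by
        gcongr
    _ = C := by field_simp

lemma DD_eq {n : ℕ} {f : ℤ → ℝ → ℂ} (hf : ∀ i, Measurable (f i)) {C : ℝ}
    (hC : ∀ i θ, ‖f i θ‖ ≤ C) (a b : ℤ) : DD n f a b = FrPars.Ft (Fa n f a) (0 + b) := by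
  unfold DD FrPars.Ft
  have e1 : ∀ θ : ℝ, Fa n f a θ * ee (-((0 + (b : ℝ)) * θ)) =
      (1 / (n : ℂ)) * ∑ i ∈ range n, f i θ * ee (-(a * i / n + b * θ)) := by
    intro θ
    unfold Fa
    rw [mul_assoc, sum_mul]
    congr 1
    refine sum_congr rfl fun i _ => ?_
    rw [mul_assoc, ← ee_add]
    congr 2
    ring
  simp_rw [e1]
  rw [intervalIntegral.integral_const_mul, intervalIntegral.integral_finsetSum]
  intro i _
  have h1 : FrPars.L2 (fun θ => f i θ * ee (-(a * i / n + b * θ))) :=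
    (L2_of_bdd (hf i) (hC i)).mul_ee (by fun_prop)
  exact h1.intervalIntegrable

lemma norm_sq_intInt {f : ℝ → ℂ} (hf : Measurable f) {C : ℝ} (hC : ∀ θ, ‖f θ‖ ≤ C) :
    IntervalIntegrable (fun θ => ‖f θ‖ ^ 2) volume 0 1 := by
  rw [intervalIntegrable_iff_integrableOn_Ioc_of_le zero_le_one]
  refine Integrable.of_bound (C := C ^ 2) ?_ ?_
  · exact (hf.norm.pow_const 2).aestronglyMeasurable
  · refine Filter.Eventually.of_forall fun θ => ?_
    rw [Real.norm_eq_abs, abs_of_nonneg (by positivity)]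
    have := hC θ
    have h0 := norm_nonneg (f θ)
    nlinarith

theorem hasSum_DD_fiber {n : ℕ} {f : ℤ → ℝ → ℂ} (hf : ∀ i, Measurable (f i)) {C : ℝ}
    (hC : ∀ i θ, ‖f i θ‖ ≤ C) (a : ℤ) :
    HasSum (fun b : ℤ => ‖DD n f a b‖ ^ 2) (∫ θ in (0:ℝ)..1, ‖Fa n f a θ‖ ^ 2) := by
  have h := FrPars.hasSum_Ft (L2_of_bdd (Fa_meas (n := n) hf a) (Fa_bdd hC a)) 0
  have e : (fun b : ℤ => ‖DD n f a b‖ ^ 2) = fun j : ℤ => ‖FrPars.Ft (Fa n f a) (0 + j)‖ ^ 2 := by
    funext b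
    rw [DD_eq hf hC]
  rw [e]
  exact h

lemma sum_int_Fa {n : ℕ} (hn : 0 < n) {f : ℤ → ℝ → ℂ} (hf : ∀ i, Measurable (f i)) {C : ℝ}
    (hC : ∀ i θ, ‖f i θ‖ ≤ C) :
    ∑ a ∈ range n, ∫ θ in (0:ℝ)..1, ‖Fa n f a θ‖ ^ 2 =
      (1 / (n : ℝ)) * ∑ i ∈ range n, ∫ θ in (0:ℝ)..1, ‖f i θ‖ ^ 2 := by
  rw [← intervalIntegral.integral_finsetSum, ← intervalIntegral.integral_finsetSum,
    ← intervalIntegral.integral_const_mul]
  · apply intervalIntegral.integral_congr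
    intro θ _
    have h := plancherel_zmod hn (fun i => f i θ)
    simp only
    rw [← h]
    refine sum_congr rfl fun a _ => ?_
    unfold Fa
    simp only [Int.cast_natCast]
  · intro i _
    exact norm_sq_intInt (hf i) (hC i)
  · intro a _
    exact norm_sq_intInt (Fa_meas hf a) (Fa_bdd hC a)

/-- **Parseval** on `ℤ/n × 𝕋`. -/
theorem hasSum_DD {n : ℕ} (hn : 0 < n) {f : ℤ → ℝ → ℂ} (hf : ∀ i, Measurable (f i)) {C : ℝ}
    (hC : ∀ i θ, ‖f i θ‖ ≤ C) :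
    HasSum (fun x : Fin n × ℤ => ‖DD n f (x.1 : ℕ) x.2‖ ^ 2)
      ((1 / (n : ℝ)) * ∑ i ∈ range n, ∫ θ in (0:ℝ)..1, ‖f i θ‖ ^ 2) := by
  have hfib : ∀ a : Fin n, HasSum (fun b : ℤ => ‖DD n f (a : ℕ) b‖ ^ 2)
      (∫ θ in (0:ℝ)..1, ‖Fa n f (a : ℕ) θ‖ ^ 2) := fun a => hasSum_DD_fiber hf hC _
  have hsum : Summable (fun x : Fin n × ℤ => ‖DD n f (x.1 : ℕ) x.2‖ ^ 2) := by
    rw [summable_prod_of_nonneg (fun x => by positivity)]
    exact ⟨fun a => (hfib a).summable, (hasSum_fintype _).summable⟩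
  have h1 : HasSum (fun a : Fin n => ∫ θ in (0:ℝ)..1, ‖Fa n f (a : ℕ) θ‖ ^ 2)
      (∑ a : Fin n, ∫ θ in (0:ℝ)..1, ‖Fa n f (a : ℕ) θ‖ ^ 2) := hasSum_fintype _
  have h2 : ∑ a : Fin n, ∫ θ in (0:ℝ)..1, ‖Fa n f (a : ℕ) θ‖ ^ 2 =
      (1 / (n : ℝ)) * ∑ i ∈ range n, ∫ θ in (0:ℝ)..1, ‖f i θ‖ ^ 2 := by
    rw [← sum_int_Fa hn hf hC]
    exact Fin.sum_univ_eq_sum_range (fun a : ℕ => ∫ θ in (0:ℝ)..1, ‖Fa n f (a : ℤ) θ‖ ^ 2) n
  rw [← h2]
  have h3 := hsum.hasSum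
  have h4 := HasSum.prod_fiberwise h3 hfib
  have h5 := h4.unique h1
  rw [← h5]
  exact h3





/-- **Parseval** for `Dl.Dco`. -/
theorem hasSum_Dco {n : ℕ} (hn : 0 < n) {f : ℤ → ℝ → ℂ} (hf : ∀ i, Measurable (f i)) {C : ℝ}
    (hC : ∀ i θ, ‖f i θ‖ ≤ C) :
    HasSum (fun x : Fin n × ℤ => ‖Dl.Dco n f x.1 x.2‖ ^ 2)
      ((1 / (n : ℝ)) * ∑ i ∈ range n, ∫ θ in (0:ℝ)..1, ‖f i θ‖ ^ 2) :=
  hasSum_DD hn hf hC






end Crest.Agent.R081.DlPars
end

-- ▼ part R081/DgErr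

/-!
# Row 81, route B: the `L²` error of the main coefficients on the c-side
-/

set_option autoImplicit false

namespace Crest.Agent.R081.DgA

open MeasureTheory Set Crest.Agent.R075 Crest.Agent.R081.Dl Crest.Agent.R081.Tw
open scoped ENNReal

lemma enorm_sq (z : ℂ) : ‖z‖ₑ ^ 2 = ENNReal.ofReal (‖z‖ ^ 2) := by
  rw [ENNReal.ofReal_pow (norm_nonneg _), ofReal_norm]

lemma sum_range_tsum {n : ℕ} (f : ℤ → ℤ → ℝ≥0∞) :
    ∑ a ∈ Finset.range n, ∑' b : ℤ, f a b = ∑' x : Fin n × ℤ, f ((x.1 : ℕ) : ℤ) x.2 := by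
  rw [ENNReal.tsum_prod (f := fun (a : Fin n) (b : ℤ) => f ((a : ℕ) : ℤ) b), tsum_fintype,
    Finset.sum_range]

/-- conversion of a real `ℓ²` bound. -/
lemma sum_enorm_le {n : ℕ} (f : ℤ → ℤ → ℂ)
    (hs : Summable fun x : Fin n × ℤ => ‖f ((x.1 : ℕ) : ℤ) x.2‖ ^ 2) {e : ℝ}
    (he : ∑' x : Fin n × ℤ, ‖f ((x.1 : ℕ) : ℤ) x.2‖ ^ 2 ≤ e) :
    ∑ a ∈ Finset.range n, ∑' b : ℤ, ‖f a b‖ₑ ^ 2 ≤ ENNReal.ofReal e := by
  rw [sum_range_tsum (fun a b => ‖f a b‖ₑ ^ 2)]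
  simp only [enorm_sq]
  rw [← ENNReal.ofReal_tsum_of_nonneg (fun x => by positivity) hs]
  exact ENNReal.ofReal_le_ofReal he

lemma enorm_add3_sq (x y z : ℂ) :
    ‖x + y + z‖ₑ ^ 2 ≤ 3 * ‖x‖ₑ ^ 2 + 3 * ‖y‖ₑ ^ 2 + 3 * ‖z‖ₑ ^ 2 := by
  have h : ‖x + y + z‖ ^ 2 ≤ 3 * ‖x‖ ^ 2 + 3 * ‖y‖ ^ 2 + 3 * ‖z‖ ^ 2 := by
    have h1 : ‖x + y + z‖ ≤ ‖x‖ + ‖y‖ + ‖z‖ := norm_add₃_le
    have h2 : ‖x + y + z‖ ^ 2 ≤ (‖x‖ + ‖y‖ + ‖z‖) ^ 2 :=
      pow_le_pow_left₀ (norm_nonneg _) h1 2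
    nlinarith [sq_nonneg (‖x‖ - ‖y‖), sq_nonneg (‖y‖ - ‖z‖), sq_nonneg (‖x‖ - ‖z‖)]
  have e3 : (3 : ℝ≥0∞) = ENNReal.ofReal 3 := by norm_num
  rw [enorm_sq, enorm_sq, enorm_sq, enorm_sq, e3, ← ENNReal.ofReal_mul (by norm_num),
    ← ENNReal.ofReal_mul (by norm_num), ← ENNReal.ofReal_mul (by norm_num),
    ← ENNReal.ofReal_add (by positivity) (by positivity),
    ← ENNReal.ofReal_add (by positivity) (by positivity)]
  exact ENNReal.ofReal_le_ofReal h

variable {q : ℕ} {Λ : Type} [Fintype Λ] {Fam : Set (Λ → ℂ)} {eps : ℝ}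
  {D : LabelDesign q Λ Fam eps} {del : ℝ}

/-- the label function of a piece composed with `E` is measurable. -/
lemma measurable_lab (E : Λ → ℂ) (p : ℕ) (i : ℤ) : Measurable fun θ => E (D.lab p i θ) := by
  classical
  have : (fun θ => E (D.lab p i θ))
      = fun θ => ∑ n : Λ, ({θ | D.lab p i θ = n}).indicator (fun _ => E n) θ := by
    funext θ
    rw [Finset.sum_eq_single_of_mem (D.lab p i θ) (Finset.mem_univ _)]
    · rw [Set.indicator_of_mem]; rfl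
    · intro n _ hn
      rw [Set.indicator_of_notMem]
      intro h
      exact hn h.symm
  rw [this]
  exact Finset.measurable_sum _ fun n _ => measurable_const.indicator (D.lab_meas p i n)

/-- the main estimate of the design in `ENNReal` form. -/
lemma main_enorm {E : Λ → ℂ} (hE : E ∈ Fam) {p : ℕ} (hp : p < D.P) :
    ∑ a ∈ Finset.range D.qq, ∑' b : ℤ, ‖Dco D.qq (fun i θ => E (D.lab p i θ)) a b
      - mainC D.v D.line D.ll D.amp E p a b‖ₑ ^ 2 ≤ ENNReal.ofReal (eps ^ 2) :=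
  sum_enorm_le (fun a b => Dco D.qq (fun i θ => E (D.lab p i θ)) a b
      - mainC D.v D.line D.ll D.amp E p a b) (D.main_summable p hp E hE) (D.main p hp E hE)

/-- Parseval for the label function. -/
lemma dco_enorm {E : Λ → ℂ} (hE : ∀ n, ‖E n‖ = 1) (p : ℕ) :
    ∑ a ∈ Finset.range D.qq, ∑' b : ℤ, ‖Dco D.qq (fun i θ => E (D.lab p i θ)) a b‖ₑ ^ 2
      ≤ 1 := by
  have h := DlPars.hasSum_Dco (n := D.qq) (f := fun i θ => E (D.lab p i θ)) D.qq_pos
    (fun i => measurable_lab E p i) (C := 1) (fun i θ => (hE _).le)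
  have h1 : (1 / (D.qq : ℝ)) * ∑ i ∈ Finset.range D.qq, ∫ θ in (0:ℝ)..1,
      ‖(fun (i : ℤ) θ => E (D.lab p i θ)) i θ‖ ^ 2 = 1 := by
    have hq : (D.qq : ℝ) ≠ 0 := by exact_mod_cast D.qq_pos.ne'
    simp only [hE]
    simp [hq]
  have h2 := sum_enorm_le (n := D.qq) (fun a b => Dco D.qq (fun i θ => E (D.lab p i θ)) a b)
    h.summable (e := 1) (by rw [h.tsum_eq]; exact h1.le)
  simpa using h2

/-- changing the slope from `v` to `v/(1-2δ)`. -/
lemma slope_change (hd0 : 0 < del) (hd1 : del < 1 / 2) {E : Λ → ℂ} (hE : ∀ n, ‖E n‖ = 1) (p : ℕ)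
    (a b : ℤ) (z : ℂ) :
    ‖mainC D.v D.line D.ll D.amp E p a b - mainC (vs D del) D.line D.ll D.amp E p a b‖ₑ ^ 2
      ≤ ENNReal.ofReal (2 * del / (1 - 2 * del))
        * (2 * ‖z‖ₑ ^ 2 + 2 * ‖z - mainC D.v D.line D.ll D.amp E p a b‖ₑ ^ 2) := by
  classical
  have hd : 0 < 1 - 2 * del := by linarith
  have hv := D.v_pos
  set m := mainC D.v D.line D.ll D.amp E p a b with hm
  have h1 : ‖m - mainC (vs D del) D.line D.ll D.amp E p a b‖ ^ 2
      ≤ (2 * del / (1 - 2 * del)) * ‖m‖ ^ 2 := by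
    by_cases hl : D.line p a b
    · have e1 : ‖m‖ ^ 2 = |(b:ℝ)| * D.v := by
        rw [hm, mainC_norm hv.le hE, if_pos hl]
      have e2 : m - mainC (vs D del) D.line D.ll D.amp E p a b
          = (((Real.sqrt (|(b:ℝ)| * D.v) - Real.sqrt (|(b:ℝ)| * vs D del) : ℝ)) : ℂ)
            * (D.amp p a b * E (D.ll p a b)) := by
        rw [hm]; unfold mainC
        rw [if_pos hl, if_pos hl]
        push_cast; ring
      have e3 : ‖m - mainC (vs D del) D.line D.ll D.amp E p a b‖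
          = |Real.sqrt (|(b:ℝ)| * D.v) - Real.sqrt (|(b:ℝ)| * vs D del)| := by
        rw [e2, norm_mul, norm_mul, hE, D.amp_norm, Complex.norm_real]
        simp
      have hvs : vs D del - D.v = D.v * (2 * del / (1 - 2 * del)) := by
        unfold vs; field_simp; ring
      have hle : D.v ≤ vs D del := by
        have : 0 ≤ D.v * (2 * del / (1 - 2 * del)) := by positivity
        linarith
      rw [e3, e1, sq_abs]
      have hx : 0 ≤ |(b:ℝ)| * D.v := by positivity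
      have hy : |(b:ℝ)| * D.v ≤ |(b:ℝ)| * vs D del := by gcongr
      have hx' := Real.sq_sqrt hx
      have hy' := Real.sq_sqrt (hx.trans hy)
      have hs := Real.sqrt_le_sqrt hy
      have hs0 := Real.sqrt_nonneg (|(b:ℝ)| * D.v)
      have e4 : (2 * del / (1 - 2 * del)) * (|(b:ℝ)| * D.v)
          = |(b:ℝ)| * vs D del - |(b:ℝ)| * D.v := by
        rw [← mul_sub, hvs]; ring
      rw [e4]
      nlinarith
    · have e1 : m = 0 := by rw [hm]; unfold mainC; rw [if_neg hl]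
      have e2 : mainC (vs D del) D.line D.ll D.amp E p a b = 0 := by
        unfold mainC; rw [if_neg hl]
      rw [e1, e2]; simp
  have h2 : ‖m‖ ^ 2 ≤ 2 * ‖z‖ ^ 2 + 2 * ‖z - m‖ ^ 2 := by
    have h3 : ‖m‖ ≤ ‖z‖ + ‖z - m‖ := by
      have : m = z - (z - m) := by ring
      calc ‖m‖ = ‖z - (z - m)‖ := by rw [← this]
        _ ≤ ‖z‖ + ‖z - m‖ := norm_sub_le _ _
    have h4 : ‖m‖ ^ 2 ≤ (‖z‖ + ‖z - m‖) ^ 2 := pow_le_pow_left₀ (norm_nonneg _) h3 2
    nlinarith [sq_nonneg (‖z‖ - ‖z - m‖)]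
  have hk : 0 ≤ 2 * del / (1 - 2 * del) := by positivity
  have e2 : (2 : ℝ≥0∞) = ENNReal.ofReal 2 := by norm_num
  rw [enorm_sq, enorm_sq, enorm_sq, e2, ← ENNReal.ofReal_mul (by norm_num),
    ← ENNReal.ofReal_mul (by norm_num), ← ENNReal.ofReal_add (by positivity) (by positivity),
    ← ENNReal.ofReal_mul hk]
  exact ENNReal.ofReal_le_ofReal (h1.trans (mul_le_mul_of_nonneg_left h2 hk))

lemma J_eq_Ioo (hd1 : del < 1 / 2) (p : ℕ) : J D del p
    = Ioo (del + (1 - 2 * del) * ((p + D.eta) / D.P))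
        (del + (1 - 2 * del) * ((p + 1 - D.eta) / D.P)) := by
  have hP : (0:ℝ) < D.P := by exact_mod_cast D.P_pos
  have hd : 0 < 1 - 2 * del := by linarith
  have e : ∀ c, (D.P : ℝ) * sc del c = D.P * (c - del) / (1 - 2 * del) := by
    intro c; unfold sc; ring
  ext c
  unfold J
  rw [Set.mem_Ioo]
  change _ < _ ∧ _ < _ ↔ _
  rw [e, lt_div_iff₀ hd, div_lt_iff₀ hd]
  have e1 : (1 - 2 * del) * ((p + D.eta) / D.P) = ((p:ℝ) + D.eta) * (1 - 2 * del) / D.P := by ring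
  have e2 : (1 - 2 * del) * ((p + 1 - D.eta) / D.P) = ((p:ℝ) + 1 - D.eta) * (1 - 2 * del) / D.P := by
    ring
  rw [e1, e2, ← lt_sub_iff_add_lt', ← sub_lt_iff_lt_add', div_lt_iff₀ hP, lt_div_iff₀ hP,
    mul_comm (c - del) (D.P : ℝ)]

lemma volume_J (hd1 : del < 1 / 2) (p : ℕ) :
    volume (J D del p) = ENNReal.ofReal ((1 - 2 * del) * (1 - 2 * D.eta) / D.P) := by
  rw [J_eq_Ioo hd1, Real.volume_Ioo]
  congr 1
  ring

/-- the union of the trimmed pieces. -/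
def G (D : LabelDesign q Λ Fam eps) (del : ℝ) : Set ℝ := ⋃ p ∈ Finset.range D.P, J D del p

lemma measurableSet_G : MeasurableSet (G D del) :=
  Finset.measurableSet_biUnion _ fun p _ => measurableSet_J D del p

lemma volume_G (hd1 : del < 1 / 2) :
    volume (G D del) = ENNReal.ofReal ((1 - 2 * del) * (1 - 2 * D.eta)) := by
  have hP : (D.P : ℝ) ≠ 0 := by exact_mod_cast D.P_pos.ne'
  unfold G
  rw [measure_biUnion_finset]
  · simp only [volume_J hd1, Finset.sum_const, Finset.card_range, nsmul_eq_mul]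
    rw [← ENNReal.ofReal_natCast, ← ENNReal.ofReal_mul (Nat.cast_nonneg _)]
    congr 1
    field_simp
  · intro p _ p' _ hne
    rw [Function.onFun, Set.disjoint_left]
    intro c hc hc'
    exact hne (J_unique hc hc')
  · intro p _; exact measurableSet_J D del p

lemma G_subset (hd1 : del < 1 / 2) : G D del ⊆ Icc del (1 - del) := by
  intro c hc
  unfold G at hc
  rw [Set.mem_iUnion₂] at hc
  obtain ⟨p, hp, hc⟩ := hc
  obtain ⟨-, -, h1, h2⟩ := sc_bounds hd1 (Finset.mem_range.1 hp) hc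
  exact ⟨h1.le, h2.le⟩

/-- constant of the error on the good set. -/
noncomputable def Kc (eps del : ℝ) : ℝ := 3 * eps ^ 2 + 3 * (2 * del / (1 - 2 * del)) * (2 + 2 * eps ^ 2)

lemma good_bound (hd0 : 0 < del) (hd1 : del < 1 / 2) {E : Λ → ℂ} (hEF : E ∈ Fam)
    (hE : ∀ n, ‖E n‖ = 1) (Z : ℤ → ℤ → ℝ → ℂ) {c : ℝ} (hc : c ∈ G D del) :
    ∑ a ∈ Finset.range D.qq, ∑' b : ℤ, ‖Z a b c - MC D del E a b c‖ₑ ^ 2
      ≤ 3 * (∑ a ∈ Finset.range D.qq, ∑' b : ℤ,
          ‖Z a b c - Dco D.qq (fun i θ => E (D.lab (pcl D del c) i θ)) a b‖ₑ ^ 2)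
        + ENNReal.ofReal (Kc eps del) := by
  unfold G at hc
  rw [Set.mem_iUnion₂] at hc
  obtain ⟨p, hp, hc⟩ := hc
  have hp := Finset.mem_range.1 hp
  rw [pcl_of_mem hc]
  set U : ℤ → ℤ → ℂ := fun a b => Dco D.qq (fun i θ => E (D.lab p i θ)) a b with hU
  set m : ℤ → ℤ → ℂ := fun a b => mainC D.v D.line D.ll D.amp E p a b with hm
  set m' : ℤ → ℤ → ℂ := fun a b => mainC (vs D del) D.line D.ll D.amp E p a b with hm'
  have hpt : ∀ a b : ℤ, ‖Z a b c - MC D del E a b c‖ₑ ^ 2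
      ≤ 3 * ‖Z a b c - U a b‖ₑ ^ 2 + 3 * ‖U a b - m a b‖ₑ ^ 2 + 3 * ‖m a b - m' a b‖ₑ ^ 2 := by
    intro a b
    rw [MC_of_mem E a b hp hc]
    have : Z a b c - m' a b = (Z a b c - U a b) + (U a b - m a b) + (m a b - m' a b) := by ring
    change ‖Z a b c - m' a b‖ₑ ^ 2 ≤ _
    rw [this]
    exact enorm_add3_sq _ _ _
  have hk : 0 ≤ 2 * del / (1 - 2 * del) := by
    have : 0 < 1 - 2 * del := by linarith
    positivity
  calc ∑ a ∈ Finset.range D.qq, ∑' b : ℤ, ‖Z a b c - MC D del E a b c‖ₑ ^ 2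
      ≤ ∑ a ∈ Finset.range D.qq, ∑' b : ℤ, (3 * ‖Z a b c - U a b‖ₑ ^ 2
          + 3 * ‖U a b - m a b‖ₑ ^ 2 + 3 * ‖m a b - m' a b‖ₑ ^ 2) :=
        Finset.sum_le_sum fun a _ => ENNReal.tsum_le_tsum fun b => hpt a b
    _ = 3 * (∑ a ∈ Finset.range D.qq, ∑' b : ℤ, ‖Z a b c - U a b‖ₑ ^ 2)
        + 3 * (∑ a ∈ Finset.range D.qq, ∑' b : ℤ, ‖U a b - m a b‖ₑ ^ 2)
        + 3 * (∑ a ∈ Finset.range D.qq, ∑' b : ℤ, ‖m a b - m' a b‖ₑ ^ 2) := by
        simp only [ENNReal.tsum_add, ENNReal.tsum_mul_left, Finset.sum_add_distrib,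
          Finset.mul_sum]
    _ ≤ 3 * (∑ a ∈ Finset.range D.qq, ∑' b : ℤ, ‖Z a b c - U a b‖ₑ ^ 2)
        + 3 * ENNReal.ofReal (eps ^ 2)
        + 3 * (ENNReal.ofReal (2 * del / (1 - 2 * del)) * (2 * 1 + 2 * ENNReal.ofReal (eps ^ 2))) := by
        gcongr
        · exact main_enorm hEF hp
        · calc ∑ a ∈ Finset.range D.qq, ∑' b : ℤ, ‖m a b - m' a b‖ₑ ^ 2
              ≤ ∑ a ∈ Finset.range D.qq, ∑' b : ℤ, (ENNReal.ofReal (2 * del / (1 - 2 * del))
                * (2 * ‖U a b‖ₑ ^ 2 + 2 * ‖U a b - m a b‖ₑ ^ 2)) :=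
              Finset.sum_le_sum fun a _ => ENNReal.tsum_le_tsum fun b =>
                slope_change hd0 hd1 hE p a b (U a b)
            _ = ENNReal.ofReal (2 * del / (1 - 2 * del))
                * (2 * (∑ a ∈ Finset.range D.qq, ∑' b : ℤ, ‖U a b‖ₑ ^ 2)
                  + 2 * (∑ a ∈ Finset.range D.qq, ∑' b : ℤ, ‖U a b - m a b‖ₑ ^ 2)) := by
              simp only [ENNReal.tsum_add, ENNReal.tsum_mul_left, Finset.sum_add_distrib,
                Finset.mul_sum, mul_add]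
            _ ≤ _ := by
              gcongr
              · exact dco_enorm hE p
              · exact main_enorm hEF hp
    _ = 3 * (∑ a ∈ Finset.range D.qq, ∑' b : ℤ, ‖Z a b c - U a b‖ₑ ^ 2)
        + ENNReal.ofReal (Kc eps del) := by
        have e3 : (3 : ℝ≥0∞) = ENNReal.ofReal 3 := by norm_num
        have e2 : (2 : ℝ≥0∞) = ENNReal.ofReal 2 := by norm_num
        rw [add_assoc]
        congr 1
        rw [mul_one, e2, e3, ← ENNReal.ofReal_mul (by norm_num),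
          ← ENNReal.ofReal_mul (by norm_num), ← ENNReal.ofReal_add (by norm_num) (by positivity),
          ← ENNReal.ofReal_mul hk, ← ENNReal.ofReal_mul (by norm_num),
          ← ENNReal.ofReal_add (by positivity) (by positivity)]
        congr 1
        unfold Kc; ring

lemma bad_bound {E : Λ → ℂ} (Z : ℤ → ℤ → ℝ → ℂ) {c : ℝ} (hc : c ∉ G D del) :
    ∑ a ∈ Finset.range D.qq, ∑' b : ℤ, ‖Z a b c - MC D del E a b c‖ₑ ^ 2
      = ∑ a ∈ Finset.range D.qq, ∑' b : ℤ, ‖Z a b c‖ₑ ^ 2 := by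
  have h : ∀ a b : ℤ, MC D del E a b c = 0 := by
    intro a b
    refine MC_of_notMem E a b fun p hp hcp => hc ?_
    unfold G
    rw [Set.mem_iUnion₂]
    exact ⟨p, Finset.mem_range.2 hp, hcp⟩
  simp only [h, sub_zero]

lemma lintegral_sum_tsum {n : ℕ} {s : Set ℝ} (f : ℤ → ℤ → ℝ → ℝ≥0∞)
    (hf : ∀ a b, Measurable (f a b)) :
    ∑ a ∈ Finset.range n, ∑' b : ℤ, ∫⁻ c in s, f a b c
      = ∫⁻ c in s, ∑ a ∈ Finset.range n, ∑' b : ℤ, f a b c := by
  rw [lintegral_finset_sum]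
  · refine Finset.sum_congr rfl fun a _ => ?_
    rw [lintegral_tsum fun b => (hf a b).aemeasurable]
  · intro a _
    exact Measurable.ennreal_tsum fun b => hf a b

lemma measurable_pcl : Measurable (pcl D del) :=
  Nat.measurable_floor.comp (measurable_const.mul (continuous_sc del).measurable)

lemma measurable_dco (E : Λ → ℂ) (a b : ℤ) : Measurable fun c =>
    Dco D.qq (fun i θ => E (D.lab (pcl D del c) i θ)) a b :=
  (measurable_from_nat (f := fun p => Dco D.qq (fun i θ => E (D.lab p i θ)) a b)).comp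
    measurable_pcl

/-- **total error on the c-side.** -/
theorem err_bound (hd0 : 0 < del) (hd1 : del < 1 / 2) {E : Λ → ℂ} (hEF : E ∈ Fam)
    (hE : ∀ n, ‖E n‖ = 1) (Z : ℤ → ℤ → ℝ → ℂ) (hZm : ∀ a b, Measurable (Z a b))
    (hZ1 : ∀ c ∈ Ioc (0:ℝ) 1, ∑ a ∈ Finset.range D.qq, ∑' b : ℤ, ‖Z a b c‖ₑ ^ 2 ≤ 1) {e1 : ℝ}
    (he1 : 0 ≤ e1)
    (hZ2 : ∑ a ∈ Finset.range D.qq, ∑' b : ℤ, ∫⁻ c in Icc del (1 - del),
      ‖Z a b c - Dco D.qq (fun i θ => E (D.lab (pcl D del c) i θ)) a b‖ₑ ^ 2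
        ≤ ENNReal.ofReal e1) :
    ∑ a ∈ Finset.range D.qq, ∑' b : ℤ, ∫⁻ c in Ioc (0:ℝ) 1,
      ‖Z a b c - MC D del E a b c‖ₑ ^ 2
      ≤ ENNReal.ofReal (3 * e1 + Kc eps del + 2 * eps + 2 * del) := by
  have hm : ∀ a b : ℤ, Measurable fun c => ‖Z a b c - MC D del E a b c‖ₑ ^ 2 := fun a b =>
    ((hZm a b).sub (MC_meas E a b)).enorm.pow_const 2
  have hm2 : ∀ a b : ℤ, Measurable fun c =>
      ‖Z a b c - Dco D.qq (fun i θ => E (D.lab (pcl D del c) i θ)) a b‖ₑ ^ 2 := fun a b =>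
    ((hZm a b).sub (measurable_dco E a b)).enorm.pow_const 2
  rw [lintegral_sum_tsum _ hm]
  rw [lintegral_sum_tsum _ hm2] at hZ2
  have hd : 0 < 1 - 2 * del := by linarith
  have he := D.eta_pos
  have he2 := D.eta_half
  have heps := D.eta_eps
  have hK : 0 ≤ Kc eps del := by
    unfold Kc
    have : 0 ≤ 2 * del / (1 - 2 * del) := by positivity
    positivity
  have hG := measurableSet_G (D := D) (del := del)
  have hsplit := lintegral_inter_add_diff (μ := volume)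
    (fun c => ∑ a ∈ Finset.range D.qq, ∑' b : ℤ, ‖Z a b c - MC D del E a b c‖ₑ ^ 2)
    (Ioc (0:ℝ) 1) hG
  rw [← hsplit]
  have hsub : G D del ⊆ Ioc (0:ℝ) 1 := fun c hc => by
    have := G_subset hd1 hc
    exact ⟨by linarith [this.1], by linarith [this.2]⟩
  have h1 : ∫⁻ c in Ioc (0:ℝ) 1 ∩ G D del,
      ∑ a ∈ Finset.range D.qq, ∑' b : ℤ, ‖Z a b c - MC D del E a b c‖ₑ ^ 2
      ≤ 3 * ENNReal.ofReal e1 + ENNReal.ofReal (Kc eps del) := by
    rw [Set.inter_eq_right.2 hsub]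
    calc ∫⁻ c in G D del, ∑ a ∈ Finset.range D.qq, ∑' b : ℤ, ‖Z a b c - MC D del E a b c‖ₑ ^ 2
        ≤ ∫⁻ c in G D del, (3 * (∑ a ∈ Finset.range D.qq, ∑' b : ℤ,
          ‖Z a b c - Dco D.qq (fun i θ => E (D.lab (pcl D del c) i θ)) a b‖ₑ ^ 2)
        + ENNReal.ofReal (Kc eps del)) :=
          setLIntegral_mono' hG fun c hc => good_bound hd0 hd1 hEF hE Z hc
      _ = 3 * (∫⁻ c in G D del, ∑ a ∈ Finset.range D.qq, ∑' b : ℤ,
          ‖Z a b c - Dco D.qq (fun i θ => E (D.lab (pcl D del c) i θ)) a b‖ₑ ^ 2)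
        + ENNReal.ofReal (Kc eps del) * volume (G D del) := by
          rw [lintegral_add_right _ measurable_const, lintegral_const_mul', setLIntegral_const]
          norm_num
      _ ≤ 3 * ENNReal.ofReal e1 + ENNReal.ofReal (Kc eps del) * 1 := by
          gcongr
          · exact (lintegral_mono_set (G_subset hd1)).trans hZ2
          · rw [volume_G hd1]
            refine ENNReal.ofReal_le_one.2 ?_
            nlinarith
      _ = _ := by rw [mul_one]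
  have h2 : ∫⁻ c in Ioc (0:ℝ) 1 \ G D del,
      ∑ a ∈ Finset.range D.qq, ∑' b : ℤ, ‖Z a b c - MC D del E a b c‖ₑ ^ 2
      ≤ ENNReal.ofReal (2 * eps + 2 * del) := by
    calc ∫⁻ c in Ioc (0:ℝ) 1 \ G D del,
      ∑ a ∈ Finset.range D.qq, ∑' b : ℤ, ‖Z a b c - MC D del E a b c‖ₑ ^ 2
        ≤ ∫⁻ c in Ioc (0:ℝ) 1 \ G D del, 1 := by
          refine setLIntegral_mono' (measurableSet_Ioc.diff hG) fun c hc => ?_
          rw [bad_bound Z hc.2]
          exact hZ1 c hc.1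
      _ = volume (Ioc (0:ℝ) 1 \ G D del) := by rw [setLIntegral_one]
      _ = volume (Ioc (0:ℝ) 1) - volume (G D del) :=
          measure_diff hsub hG.nullMeasurableSet (by rw [volume_G hd1]; exact ENNReal.ofReal_ne_top)
      _ = ENNReal.ofReal (1 - (1 - 2 * del) * (1 - 2 * D.eta)) := by
          rw [Real.volume_Ioc, volume_G hd1, sub_zero, ← ENNReal.ofReal_sub _ (by nlinarith)]
      _ ≤ _ := by
          refine ENNReal.ofReal_le_ofReal ?_
          nlinarith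
  calc _ ≤ (3 * ENNReal.ofReal e1 + ENNReal.ofReal (Kc eps del))
        + ENNReal.ofReal (2 * eps + 2 * del) := add_le_add h1 h2
    _ = ENNReal.ofReal (3 * e1 + Kc eps del + 2 * eps + 2 * del) := by
      have e3 : (3 : ℝ≥0∞) = ENNReal.ofReal 3 := by norm_num
      rw [e3, ← ENNReal.ofReal_mul (by norm_num), ← ENNReal.ofReal_add (by positivity) hK,
        ← ENNReal.ofReal_add (by positivity) (by linarith)]
      congr 1
      ring

end Crest.Agent.R081.DgA
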