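import Crest.Agent.R081.Dg4
import Crest.Agent.R081.StDefs
import Mathlib
import Crest.Agent.R081.TwDefs
import Crest.Agent.R081.DgErr

-- ▼ part R081/Dg5
section

/-! Row 81, route B, node DGLUE, part 5: comparison of the coefficients of the word with those of the
label function. -/

set_option autoImplicit false

namespace Crest.Agent.R081.Dg

open MeasureTheory Crest.Agent.R075 Finset
open scoped ENNReal

variable {q qq M1 M2 : ℕ} {N N' : ℤ} {lab : ℝ → ℤ → ℝ → ZMod M1 × ZMod M2}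

/-- coefficients of the label function -/
noncomputable def DLab (qq : ℕ) (k : ℤ × ℤ) (lab : ℝ → ℤ → ℝ → ZMod M1 × ZMod M2) (a b : ℤ) (c : ℝ) : ℂ :=
  Co.sec qq (fun i t => Ek M1 M2 k (lab c (i : ℤ) t)) a b

theorem measurable_lab [NeZero M1] [NeZero M2]
    (hmeas : ∀ i n, MeasurableSet {z : ℝ × ℝ | lab z.1 i z.2 = n}) (i : ℤ) :
    Measurable (fun z : ℝ × ℝ => lab z.1 i z.2) :=
  measurable_to_countable' (fun n => hmeas i n)

theorem measurable_Ek_lab [NeZero M1] [NeZero M2]
    (hmeas : ∀ i n, MeasurableSet {z : ℝ × ℝ | lab z.1 i z.2 = n}) (k : ℤ × ℤ) (i : ℤ) :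
    Measurable (fun z : ℝ × ℝ => Ek M1 M2 k (lab z.1 i z.2)) :=
  (measurable_of_countable (fun s => Ek M1 M2 k s)).comp (measurable_lab hmeas i)

theorem measurable_DLab [NeZero M1] [NeZero M2]
    (hmeas : ∀ i n, MeasurableSet {z : ℝ × ℝ | lab z.1 i z.2 = n}) (k : ℤ × ℤ) (a b : ℤ) :
    Measurable (fun c => DLab qq k lab a b c) := by
  unfold DLab Co.sec
  refine measurable_const.mul (Finset.measurable_fun_sum _ fun i _ => ?_)
  simp_rw [intervalIntegral.integral_of_le zero_le_one]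
  have h1 : StronglyMeasurable (fun z : ℝ × ℝ =>
      Ek M1 M2 k (lab z.1 (i : ℤ) z.2) * ee (-(a * i / qq + b * z.2))) := by
    refine ((measurable_Ek_lab hmeas k i).mul ?_).stronglyMeasurable
    exact (ee_continuous.comp (by fun_prop)).measurable
  exact (h1.integral_prod_right' (ν := volume.restrict (Set.Ioc (0 : ℝ) 1))).measurable


theorem measurable_Dd (w : Tw.Word) (k : ℤ × ℤ) (a b : ℤ) :
    Measurable (fun c => St.Dd q qq N w k a b c) :=
  (Co.continuous_DD (Co.continuous_wa1 q w) (Co.continuous_wa2 q w) N k a b).measurable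

/-- the bad set of index `i` on the section -/
def BadS (q qq M1 M2 : ℕ) (N : ℤ) (lab : ℝ → ℤ → ℝ → ZMod M1 × ZMod M2) (w : Tw.Word) (i : ℕ) :
    Set (ℝ × ℝ) :=
  {z : ℝ × ℝ | gl M1 M2 (Tw.Word.act q w (z.1 / (q * qq) + N * i / qq, z.2)) ≠ lab z.1 (i : ℤ) z.2}

theorem measurableSet_BadS [NeZero M1] [NeZero M2]
    (hmeas : ∀ i n, MeasurableSet {z : ℝ × ℝ | lab z.1 i z.2 = n}) (w : Tw.Word) (i : ℕ) :
    MeasurableSet (BadS q qq M1 M2 N lab w i) := by
  have h1 : Measurable (fun z : ℝ × ℝ =>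
      gl M1 M2 (Tw.Word.act q w (z.1 / (q * qq) + N * i / qq, z.2))) := by
    refine measurable_gl.comp ((Tw.Word.contDiff_act q w).continuous.measurable.comp ?_)
    exact ((measurable_fst.div_const _).add_const _).prodMk measurable_snd
  have e : BadS q qq M1 M2 N lab w i = ⋃ s : ZMod M1 × ZMod M2,
      ({z : ℝ × ℝ | gl M1 M2 (Tw.Word.act q w (z.1 / (q * qq) + N * i / qq, z.2)) = s}ᶜ
        ∩ {z : ℝ × ℝ | lab z.1 (i : ℤ) z.2 = s}) := by
    ext y
    simp only [BadS, Set.mem_ofPred_eq, Set.mem_iUnion, Set.mem_inter_iff, Set.mem_compl_iff]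
    constructor
    · intro h
      exact ⟨_, h, rfl⟩
    · rintro ⟨s, h1, h2⟩
      rw [h2]; exact h1
  rw [e]
  exact MeasurableSet.iUnion fun s => MeasurableSet.inter
    (MeasurableSet.compl (h1 (measurableSet_singleton s))) (hmeas i s)

theorem integrable_sq_of_bound {U : ℝ → ℂ} (hU : Measurable U) (hb : ∀ t, ‖U t‖ ≤ 2) :
    Integrable (fun t => ‖U t‖ ^ 2) (volume.restrict (Set.Ioc (0 : ℝ) 1)) := by
  have h1 : AEStronglyMeasurable (fun t => ‖U t‖ ^ 2) (volume.restrict (Set.Ioc (0 : ℝ) 1)) :=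
    (hU.norm.pow_const 2).aestronglyMeasurable
  refine Integrable.of_bound h1 4 (Filter.Eventually.of_forall fun t => ?_)
  rw [Real.norm_of_nonneg (by positivity)]
  calc ‖U t‖ ^ 2 ≤ (2 : ℝ) ^ 2 := by gcongr; exact hb t
    _ = 4 := by norm_num

theorem int_le [NeZero M1] [NeZero M2] (k : ℤ × ℤ) (A1 A2 : ℝ → ℝ) (h1 : Continuous A1)
    (h2 : Continuous A2) (L : ℝ → ZMod M1 × ZMod M2) (hL : Measurable L)
    {κ : ℝ} (hκ : 2 * Real.pi * (|(k.1 : ℝ)| / M1 + |(k.2 : ℝ)| / M2) ≤ κ) :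
    ENNReal.ofReal (∫ t in (0:ℝ)..1, ‖ee (k.1 * A1 t + k.2 * A2 t) - Ek M1 M2 k (L t)‖ ^ 2)
      ≤ ENNReal.ofReal (κ ^ 2) + 4 * ∫⁻ t in Set.Ioc (0 : ℝ) 1,
          {t | gl M1 M2 (A1 t, A2 t) ≠ L t}.indicator (fun _ => (1 : ℝ≥0∞)) t := by
  have hm1 : Measurable (fun t : ℝ => ee (k.1 * A1 t + k.2 * A2 t)) :=
    (ee_continuous.comp (by fun_prop)).measurable
  have hm2 : Measurable (fun t : ℝ => Ek M1 M2 k (L t)) :=
    (measurable_of_countable (fun s => Ek M1 M2 k s)).comp hL
  have hint : Integrable (fun t : ℝ => ‖ee (k.1 * A1 t + k.2 * A2 t) - Ek M1 M2 k (L t)‖ ^ 2)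
      (volume.restrict (Set.Ioc (0 : ℝ) 1)) := by
    refine integrable_sq_of_bound (U := fun t => ee (k.1 * A1 t + k.2 * A2 t) - Ek M1 M2 k (L t))
      (hm1.sub hm2) fun t => ?_
    refine (norm_sub_le _ _).trans ?_
    rw [norm_ee, norm_Ek]; norm_num
  have hms : MeasurableSet {t | gl M1 M2 (A1 t, A2 t) ≠ L t} := by
    have e : {t | gl M1 M2 (A1 t, A2 t) ≠ L t} = ⋃ s : ZMod M1 × ZMod M2,
        ({t | gl M1 M2 (A1 t, A2 t) = s}ᶜ ∩ {t | L t = s}) := by
      ext y
      simp only [Set.mem_ofPred_eq, Set.mem_iUnion, Set.mem_inter_iff, Set.mem_compl_iff]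
      constructor
      · intro h
        exact ⟨_, h, rfl⟩
      · rintro ⟨s, h1, h2⟩
        rw [h2]; exact h1
    have h3 : Measurable (fun t => gl M1 M2 (A1 t, A2 t)) :=
      measurable_gl.comp (h1.measurable.prodMk h2.measurable)
    rw [e]
    exact MeasurableSet.iUnion fun s => MeasurableSet.inter
      (MeasurableSet.compl (h3 (measurableSet_singleton s))) (hL (measurableSet_singleton s))
  rw [intervalIntegral.integral_of_le zero_le_one,
    ofReal_integral_eq_lintegral_ofReal hint (Filter.Eventually.of_forall fun t => by positivity)]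
  have h4 : ∀ t : ℝ, ENNReal.ofReal (‖ee (k.1 * A1 t + k.2 * A2 t) - Ek M1 M2 k (L t)‖ ^ 2)
      ≤ ENNReal.ofReal (κ ^ 2)
        + 4 * {t | gl M1 M2 (A1 t, A2 t) ≠ L t}.indicator (fun _ => (1 : ℝ≥0∞)) t := by
    intro t
    have h5 := norm_sub_sq_le (M1 := M1) (M2 := M2) k (A1 t, A2 t) (L t) hκ
    refine (ENNReal.ofReal_le_ofReal h5).trans ?_
    by_cases hb : gl M1 M2 (A1 t, A2 t) ≠ L t
    · rw [Set.indicator_of_mem (s := {z : ℝ × ℝ | gl M1 M2 z ≠ L t}) hb,
        Set.indicator_of_mem (s := {t | gl M1 M2 (A1 t, A2 t) ≠ L t}) hb,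
        ENNReal.ofReal_add (by positivity) (by norm_num)]
      norm_num
    · rw [Set.indicator_of_notMem (s := {z : ℝ × ℝ | gl M1 M2 z ≠ L t}) hb,
        Set.indicator_of_notMem (s := {t | gl M1 M2 (A1 t, A2 t) ≠ L t}) hb]
      simp
  refine (lintegral_mono h4).trans ?_
  rw [lintegral_add_left measurable_const, lintegral_const_mul]
  · simp
  · exact measurable_const.indicator hms

/-- pointwise in `c` -/
theorem sum_DLab_sub [NeZero M1] [NeZero M2] (hq : 0 < q) (hqq : 0 < qq)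
    (hmeas : ∀ i n, MeasurableSet {z : ℝ × ℝ | lab z.1 i z.2 = n}) (w : Tw.Word) (k : ℤ × ℤ)
    {κ : ℝ} (hκ : 2 * Real.pi * (|(k.1 : ℝ)| / M1 + |(k.2 : ℝ)| / M2) ≤ κ) (c : ℝ) :
    ∑ a ∈ range qq, ∑' b : ℤ, ‖St.Dd q qq N w k a b c - DLab qq k lab a b c‖ₑ ^ 2
      ≤ ENNReal.ofReal (κ ^ 2) + 4 * (ENNReal.ofReal (1 / (qq : ℝ)) * ∑ i ∈ range qq,
        ∫⁻ t in Set.Ioc (0 : ℝ) 1, (BadS q qq M1 M2 N lab w i).indicator (fun _ => (1 : ℝ≥0∞)) (c, t)) := by
  have hκ0 : 0 ≤ κ := le_trans (by positivity) hκ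
  have hqq' : (0 : ℝ) < qq := by exact_mod_cast hqq
  have hW : ∀ i < qq, MemLp (fun t => Ek M1 M2 k (lab c (i : ℤ) t)) 2
      (volume.restrict (Set.Ioc 0 1)) := by
    intro i _
    refine MemLp.of_bound (C := 1) ?_ (Filter.Eventually.of_forall fun t => (norm_Ek _ _).le)
    exact ((measurable_Ek_lab hmeas k i).comp measurable_prodMk_left).aestronglyMeasurable
  have h1 := Co.DD_sub_parseval (Co.eqv_word hq w) hqq N k c
    (fun i t => Ek M1 M2 k (lab c (i : ℤ) t)) hW
  have h2 : ∑ a ∈ range qq, ∑' b : ℤ, ‖St.Dd q qq N w k a b c - DLab qq k lab a b c‖ₑ ^ 2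
      = ENNReal.ofReal ((1 / (qq : ℝ)) * ∑ i ∈ range qq, ∫ t in (0:ℝ)..1,
        ‖ee (k.1 * Co.wa1 q w (Co.sp q qq N c i) t
      + k.2 * Co.wa2 q w (Co.sp q qq N c i) t) - Ek M1 M2 k (lab c (i : ℤ) t)‖ ^ 2) := by
    rw [← h1.tsum_eq, ENNReal.ofReal_tsum_of_nonneg (fun b => by positivity) h1.summable,
      ← Summable.tsum_finsetSum (fun a _ => ENNReal.summable)]
    refine tsum_congr fun b => ?_
    rw [ENNReal.ofReal_sum_of_nonneg (fun a _ => by positivity)]
    refine Finset.sum_congr rfl fun a _ => ?_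
    rw [ENNReal.ofReal_pow (norm_nonneg _), ofReal_norm]
    rfl
  rw [h2]
  have h3 : ∀ i ∈ range qq, ENNReal.ofReal (∫ t in (0:ℝ)..1,
        ‖ee (k.1 * Co.wa1 q w (Co.sp q qq N c i) t
      + k.2 * Co.wa2 q w (Co.sp q qq N c i) t) - Ek M1 M2 k (lab c (i : ℤ) t)‖ ^ 2)
      ≤ ENNReal.ofReal (κ ^ 2) + 4 * ∫⁻ t in Set.Ioc (0 : ℝ) 1,
          (BadS q qq M1 M2 N lab w i).indicator (fun _ => (1 : ℝ≥0∞)) (c, t) := by
    intro i hi
    exact int_le k (Co.wa1 q w (Co.sp q qq N c i)) (Co.wa2 q w (Co.sp q qq N c i))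
      ((Co.eqv_word hq w).cont1 _) ((Co.eqv_word hq w).cont2 _) (fun t => lab c (i : ℤ) t)
      ((measurable_lab hmeas i).comp measurable_prodMk_left) hκ
  rw [ENNReal.ofReal_mul (by positivity), ENNReal.ofReal_sum_of_nonneg]
  · have h6 : ENNReal.ofReal (1 / (qq : ℝ)) * (qq : ℝ≥0∞) = 1 := by
      rw [← ENNReal.ofReal_natCast, ← ENNReal.ofReal_mul (by positivity)]
      rw [one_div, inv_mul_cancel₀ hqq'.ne', ENNReal.ofReal_one]
    calc ENNReal.ofReal (1 / (qq : ℝ)) * _
        ≤ ENNReal.ofReal (1 / (qq : ℝ)) * ∑ i ∈ range qq, (ENNReal.ofReal (κ ^ 2)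
          + 4 * ∫⁻ t in Set.Ioc (0 : ℝ) 1,
            (BadS q qq M1 M2 N lab w i).indicator (fun _ => (1 : ℝ≥0∞)) (c, t)) := by
          gcongr with i hi
          exact h3 i hi
      _ = (ENNReal.ofReal (1 / (qq : ℝ)) * (qq : ℝ≥0∞)) * ENNReal.ofReal (κ ^ 2)
          + 4 * (ENNReal.ofReal (1 / (qq : ℝ)) * ∑ i ∈ range qq, ∫⁻ t in Set.Ioc (0 : ℝ) 1,
            (BadS q qq M1 M2 N lab w i).indicator (fun _ => (1 : ℝ≥0∞)) (c, t)) := by
          rw [Finset.sum_add_distrib, Finset.sum_const, card_range, nsmul_eq_mul,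
            ← Finset.mul_sum]
          ring
      _ = _ := by rw [h6, one_mul]
  · intro i _
    exact intervalIntegral.integral_nonneg zero_le_one (fun t _ => by positivity)

end Crest.Agent.R081.Dg
end

-- ▼ part R081/Dg6
section

/-! Row 81, route B, node DGLUE, part 6: the integral over `c` of the comparison. -/

set_option autoImplicit false

namespace Crest.Agent.R081.Dg

open MeasureTheory Crest.Agent.R075 Finset
open scoped ENNReal

variable {q qq M1 M2 : ℕ} {N N' : ℤ} {lab : ℝ → ℤ → ℝ → ZMod M1 × ZMod M2}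

theorem lintegral_indicator_sq (B : Set (ℝ × ℝ)) (hB : MeasurableSet B) :
    ∫⁻ c in Set.Ioc (0 : ℝ) 1, ∫⁻ t in Set.Ioc (0 : ℝ) 1, B.indicator (fun _ => (1 : ℝ≥0∞)) (c, t)
      = volume (Sq ∩ B) := by
  have e1 : ∀ f : ℝ → ℝ≥0∞, ∫⁻ t in Set.Ioc (0 : ℝ) 1, f t = ∫⁻ t in Set.Ico (0 : ℝ) 1, f t :=
    fun f => setLIntegral_congr Ico_ae_eq_Ioc.symm
  simp_rw [e1]
  have h1 : Measurable (B.indicator (fun _ : ℝ × ℝ => (1 : ℝ≥0∞))) := measurable_const.indicator hB
  rw [← lintegral_prod (B.indicator (fun _ : ℝ × ℝ => (1 : ℝ≥0∞))) h1.aemeasurable,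
    lintegral_indicator hB, lintegral_const, one_mul, Measure.restrict_apply_univ,
    Measure.prod_restrict, Measure.restrict_apply hB, Set.inter_comm]
  rfl

theorem section_Bad' [NeZero M1] [NeZero M2] (hq : 0 < q) (hqq : 0 < qq)
    (hcop : Nat.Coprime q qq) (hdiv : q ∣ M1)
    (hN : (qq : ℤ) ∣ N * q - 1) (hN' : (q : ℤ) ∣ N' * qq - 1)
    (hlab : ∀ c i θ, lab c (i + qq) θ = lab c i θ)
    (hmeas : ∀ i n, MeasurableSet {z : ℝ × ℝ | lab z.1 i z.2 = n}) (w : Tw.Word) :
    ENNReal.ofReal (1 / (qq : ℝ)) * ∑ i ∈ range qq, volume (Sq ∩ BadS q qq M1 M2 N lab w i)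
      = volume (Sq ∩ Bad q qq M1 M2 N' lab w) := by
  have h1 := section_Bad (N := N) hq hqq hcop hdiv hN hN' hlab hmeas w
  have h2 := congrArg ENNReal.ofReal h1
  rw [ENNReal.ofReal_toReal (volume_Sq_inter_ne_top _), ENNReal.ofReal_mul (by positivity),
    ENNReal.ofReal_sum_of_nonneg (fun _ _ => ENNReal.toReal_nonneg)] at h2
  rw [← h2]
  congr 1
  refine Finset.sum_congr rfl fun i _ => ?_
  exact (ENNReal.ofReal_toReal (volume_Sq_inter_ne_top _)).symm

/-- **the coefficients of the word are those of the label function** -/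
theorem err_lab [NeZero M1] [NeZero M2] (hq : 0 < q) (hqq : 0 < qq)
    (hcop : Nat.Coprime q qq) (hdiv : q ∣ M1)
    (hN : (qq : ℤ) ∣ N * q - 1) (hN' : (q : ℤ) ∣ N' * qq - 1)
    (hlab : ∀ c i θ, lab c (i + qq) θ = lab c i θ)
    (hmeas : ∀ i n, MeasurableSet {z : ℝ × ℝ | lab z.1 i z.2 = n}) (w : Tw.Word) (k : ℤ × ℤ)
    {κ : ℝ} (hκ : 2 * Real.pi * (|(k.1 : ℝ)| / M1 + |(k.2 : ℝ)| / M2) ≤ κ) :
    ∫⁻ c in Set.Ioc (0 : ℝ) 1,
      ∑ a ∈ range qq, ∑' b : ℤ, ‖St.Dd q qq N w k a b c - DLab qq k lab a b c‖ₑ ^ 2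
      ≤ ENNReal.ofReal (κ ^ 2) + 4 * volume (Sq ∩ Bad q qq M1 M2 N' lab w) := by
  refine (lintegral_mono fun c => sum_DLab_sub hq hqq hmeas w k hκ c).trans ?_
  have hmi : ∀ i : ℕ, Measurable (fun c : ℝ => ∫⁻ t in Set.Ioc (0 : ℝ) 1,
      (BadS q qq M1 M2 N lab w i).indicator (fun _ => (1 : ℝ≥0∞)) (c, t)) := fun i =>
    (measurable_const.indicator (measurableSet_BadS hmeas w i)).lintegral_prod_right'
  rw [lintegral_add_left measurable_const, lintegral_const_mul _ (by
      exact (Finset.measurable_fun_sum _ fun i _ => hmi i).const_mul _),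
    lintegral_const_mul _ (by exact Finset.measurable_fun_sum _ fun i _ => hmi i),
    lintegral_finset_sum _ (fun i _ => hmi i)]
  simp_rw [lintegral_indicator_sq _ (measurableSet_BadS hmeas w _)]
  rw [section_Bad' hq hqq hcop hdiv hN hN' hlab hmeas w]
  simp

end Crest.Agent.R081.Dg
end

-- ▼ part R081/ShDefs
section

/-! Row 81, node SHEAR APPROXIMATION: grid labels. -/

set_option autoImplicit false

namespace Crest.Agent.R081.ShD

/-- the label of a point of the plane in the `M1 × M2` grid of the torus -/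
noncomputable def gl (M1 M2 : ℕ) (y : ℝ × ℝ) : ZMod M1 × ZMod M2 :=
  (((⌊(M1 : ℝ) * y.1⌋ : ℤ) : ZMod M1), ((⌊(M2 : ℝ) * y.2⌋ : ℤ) : ZMod M2))

end Crest.Agent.R081.ShD
end

-- ▼ part R081/ShA1
section

/-! Row 81, node SHEAR APPROXIMATION, combinatorial part: equivariant permutations of a grid of
cells are products of row moves and column moves, up to one row. -/

set_option autoImplicit false

namespace Crest.Agent.R081.ShA

open Equiv

variable {q m n : ℕ}

/-- cells of the grid -/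
abbrev Gr (q m n : ℕ) : Type := ZMod (q * m) × ZMod n

/-- reduction of the column index -/
def red (q m : ℕ) : ZMod (q * m) →+* ZMod m := ZMod.castHom (Dvd.intro_left q rfl) (ZMod m)

theorem red_m : red q m (m : ZMod (q * m)) = 0 := by
  simp [red]

theorem red_eq [NeZero q] [NeZero m] {i x : ZMod (q * m)} (h : red q m i = red q m x) :
    ∃ k : ℕ, i = x + k * (m : ZMod (q * m)) := by
  have h0 : red q m (i - x) = 0 := by rw [map_sub, h, sub_self]
  have hne : NeZero (q * m) := ⟨Nat.mul_ne_zero (NeZero.ne q) (NeZero.ne m)⟩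
  have h1 : (((i - x).val : ℕ) : ZMod (q * m)) = i - x := ZMod.natCast_zmod_val _
  rw [← h1, map_natCast] at h0
  obtain ⟨k, hk⟩ := (ZMod.natCast_eq_zero_iff _ _).1 h0
  refine ⟨k, ?_⟩
  rw [hk] at h1
  push_cast at h1
  have h2 : i = (i - x) + x := by ring
  rw [h2, ← h1]; ring

theorem red_surj [NeZero m] : Function.Surjective (red q m) := by
  intro y
  refine ⟨((y.val : ℕ) : ZMod (q * m)), ?_⟩
  rw [map_natCast, ZMod.natCast_zmod_val]

/-- the orbit of a cell -/
def pr (z : Gr q m n) : ZMod m × ZMod n := (red q m z.1, z.2)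

/-- row move -/
def rowM (a : ZMod n → ZMod (q * m)) : Perm (Gr q m n) where
  toFun z := (z.1 + a z.2, z.2)
  invFun z := (z.1 - a z.2, z.2)
  left_inv z := by ext <;> simp
  right_inv z := by ext <;> simp

/-- column move -/
def colM (b : ZMod m → ZMod n) : Perm (Gr q m n) where
  toFun z := (z.1, z.2 + b (red q m z.1))
  invFun z := (z.1, z.2 - b (red q m z.1))
  left_inv z := by ext <;> simp
  right_inv z := by ext <;> simp

@[simp] theorem rowM_apply (a : ZMod n → ZMod (q * m)) (z : Gr q m n) :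
    rowM a z = (z.1 + a z.2, z.2) := rfl
@[simp] theorem colM_apply (b : ZMod m → ZMod n) (z : Gr q m n) :
    colM b z = (z.1, z.2 + b (red q m z.1)) := rfl
@[simp] theorem rowM_inv_apply (a : ZMod n → ZMod (q * m)) (z : Gr q m n) :
    (rowM a)⁻¹ z = (z.1 - a z.2, z.2) := rfl
@[simp] theorem colM_inv_apply (b : ZMod m → ZMod n) (z : Gr q m n) :
    (colM b)⁻¹ z = (z.1, z.2 - b (red q m z.1)) := rfl

/-- the deck shift -/
def S (q m n : ℕ) : Perm (Gr q m n) := rowM (fun _ => (m : ZMod (q * m)))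

/-- the group of shear words -/
def G (q m n : ℕ) : Subgroup (Perm (Gr q m n)) :=
  Subgroup.closure (Set.range rowM ∪ Set.range colM)

theorem rowM_mem (a : ZMod n → ZMod (q * m)) : (rowM a : Perm (Gr q m n)) ∈ G q m n :=
  Subgroup.subset_closure (Or.inl ⟨a, rfl⟩)

theorem colM_mem (b : ZMod m → ZMod n) : (colM b : Perm (Gr q m n)) ∈ G q m n :=
  Subgroup.subset_closure (Or.inr ⟨b, rfl⟩)

theorem rowM_comm (a : ZMod n → ZMod (q * m)) : Commute (rowM a) (S q m n) := by
  ext z
  · simp [S]; ring_nf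
  · simp [S]

theorem colM_comm (b : ZMod m → ZMod n) : Commute (colM b) (S q m n) := by
  ext z
  · simp [S]
  · simp [S, map_add, red_m]

theorem G_comm {g : Perm (Gr q m n)} (hg : g ∈ G q m n) : Commute g (S q m n) := by
  refine Subgroup.closure_induction (p := fun g _ => Commute g (S q m n)) ?_ ?_ ?_ ?_ hg
  · rintro x (⟨a, rfl⟩ | ⟨b, rfl⟩)
    · exact rowM_comm a
    · exact colM_comm b
  · exact Commute.one_left _
  · intro x y _ _ hx hy
    exact hx.mul_left hy
  · intro x _ hx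
    exact hx.inv_left

/-- reachability with fixed complement -/
def R (V : Set (ZMod m × ZMod n)) (b a : Gr q m n) : Prop :=
  ∃ g ∈ G q m n, (∀ z, pr z ∉ V → g z = z) ∧ g b = a

theorem R.symm {V : Set (ZMod m × ZMod n)} {b a : Gr q m n} (h : R V b a) : R V a b := by
  obtain ⟨g, hg, hf, rfl⟩ := h
  refine ⟨g⁻¹, inv_mem hg, fun z hz => ?_, by simp⟩
  rw [Perm.inv_eq_iff_eq]
  exact (hf z hz).symm

theorem R.trans {V : Set (ZMod m × ZMod n)} {a b c : Gr q m n} (h : R V a b) (h' : R V b c) :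
    R V a c := by
  obtain ⟨g, hg, hf, rfl⟩ := h
  obtain ⟨k, hk, hf', rfl⟩ := h'
  refine ⟨k * g, mul_mem hk hg, fun z hz => ?_, rfl⟩
  simp only [Perm.mul_apply]
  rw [hf z hz, hf' z hz]

theorem R.refl (V : Set (ZMod m × ZMod n)) (b : Gr q m n) : R V b b :=
  ⟨1, one_mem _, fun _ _ => rfl, rfl⟩

/-- the basic three-cycle -/
theorem tri (x x' : ZMod (q * m)) (y y' : ZMod n) (hx : red q m x ≠ red q m x') (hy : y ≠ y') :
    ∃ g ∈ G q m n, (∀ z : Gr q m n, pr z ≠ (red q m x, y) → pr z ≠ (red q m x', y) →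
      pr z ≠ (red q m x, y') → g z = z) ∧ g (x, y) = (x', y) ∧ g (x, y') = (x, y) := by
  classical
  set P : Perm (Gr q m n) := rowM (fun j => if j = y then x' - x else 0) with hP
  set C : Perm (Gr q m n) := colM (fun i => if i = red q m x then y' - y else 0) with hC
  have hPm : P ∈ G q m n := rowM_mem _
  have hCm : C ∈ G q m n := colM_mem _
  refine ⟨P * C * P⁻¹ * C⁻¹, mul_mem (mul_mem (mul_mem hPm hCm) (inv_mem hPm)) (inv_mem hCm),
    ?_, ?_, ?_⟩
  · rintro ⟨i, j⟩ h1 h2 h3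
    simp only [pr, ne_eq, Prod.mk.injEq, not_and] at h1 h2 h3
    simp only [Perm.mul_apply, hP, hC, colM_inv_apply, rowM_inv_apply, colM_apply, rowM_apply]
    by_cases hi : red q m i = red q m x
    · have hj1 : j ≠ y := h1 hi
      have hj3 : j ≠ y' := h3 hi
      have hj4 : j - (y' - y) ≠ y := by
        intro h; apply hj3; rw [sub_eq_iff_eq_add] at h; rw [h]; ring
      simp [hi, hj1, hj4]
    · by_cases hj : j = y
      · subst hj
        have h4 : red q m (i - (x' - x)) ≠ red q m x := by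
          intro h
          rw [map_sub, map_sub] at h
          have h5 : red q m i = red q m x' := by
            rw [sub_eq_iff_eq_add] at h
            rw [h]; ring
          exact h2 h5 rfl
        simp [hi]
        rw [map_sub, map_sub] at h4
        simp [h4]
      · simp [hi, hj]
  · simp only [Perm.mul_apply, hP, hC, colM_inv_apply, rowM_inv_apply, colM_apply, rowM_apply]
    have h1 : y - (y' - y) ≠ y := by
      intro h; apply hy
      have : y' - y = 0 := by
        have := sub_eq_self.1 h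
        exact this
      rw [sub_eq_zero] at this; exact this.symm
    simp [h1]
  · simp only [Perm.mul_apply, hP, hC, colM_inv_apply, rowM_inv_apply, colM_apply, rowM_apply]
    have h2 : red q m (x - (x' - x)) ≠ red q m x := by
      intro h
      rw [map_sub, map_sub] at h
      have := sub_eq_self.1 h
      rw [sub_eq_zero] at this
      exact hx this.symm
    rw [map_sub, map_sub] at h2
    simp [h2]

theorem tri_row {V : Set (ZMod m × ZMod n)} {x x' : ZMod (q * m)} {y y' : ZMod n}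
    (hx : red q m x ≠ red q m x') (hy : y ≠ y') (h1 : (red q m x, y) ∈ V)
    (h2 : (red q m x', y) ∈ V) (h3 : (red q m x, y') ∈ V) :
    R V ((x, y) : Gr q m n) (x', y) := by
  obtain ⟨g, hg, hf, h, _⟩ := tri x x' y y' hx hy
  refine ⟨g, hg, fun z hz => hf z ?_ ?_ ?_, h⟩
  · rintro h; exact hz (h ▸ h1)
  · rintro h; exact hz (h ▸ h2)
  · rintro h; exact hz (h ▸ h3)

theorem tri_col {V : Set (ZMod m × ZMod n)} {x x' : ZMod (q * m)} {y y' : ZMod n}
    (hx : red q m x ≠ red q m x') (hy : y ≠ y') (h1 : (red q m x, y) ∈ V)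
    (h2 : (red q m x', y) ∈ V) (h3 : (red q m x, y') ∈ V) :
    R V ((x, y') : Gr q m n) (x, y) := by
  obtain ⟨g, hg, hf, _, h⟩ := tri x x' y y' hx hy
  refine ⟨g, hg, fun z hz => hf z ?_ ?_ ?_, h⟩
  · rintro h; exact hz (h ▸ h1)
  · rintro h; exact hz (h ▸ h2)
  · rintro h; exact hz (h ▸ h3)

theorem conn (hm : 2 ≤ m) {V : Set (ZMod m × ZMod n)} {j0 : ZMod n}
    (hV : ∀ i, (i, j0) ∈ V) {a b : Gr q m n} (ha0 : a.2 ≠ j0) (ha : pr a ∈ V) (hb : pr b ∈ V) :
    R V b a := by
  have : Fact (1 < m) := ⟨hm⟩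
  have h1ne : ∀ x : ZMod (q * m), red q m x ≠ red q m (x + 1) := by
    intro x h
    rw [map_add, map_one] at h
    exact one_ne_zero (left_eq_add.1 h)
  -- every cell is connected with its projection to the row `j0`
  have key : ∀ c : Gr q m n, pr c ∈ V → R V c (c.1, j0) := by
    rintro ⟨x, y⟩ hc
    by_cases hy : y = j0
    · subst hy; exact R.refl V _
    · exact tri_col (h1ne x) (Ne.symm hy) (hV _) (hV _) hc
  obtain ⟨x', r⟩ := a
  -- all cells of the row `j0` are connected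
  have hstep : ∀ x w : ZMod (q * m), red q m x = red q m x' → red q m x ≠ red q m w →
      R V ((x, j0) : Gr q m n) (w, j0) := by
    intro x w hx hw
    refine tri_row hw (Ne.symm ha0) (hV _) (hV _) ?_
    rw [hx]; exact ha
  have hrow : ∀ x : ZMod (q * m), R V ((x, j0) : Gr q m n) (x', j0) := by
    intro x
    by_cases hx : red q m x = red q m x'
    · have h1 : R V ((x, j0) : Gr q m n) (x' + 1, j0) :=
        hstep x (x' + 1) hx (by rw [hx]; exact h1ne x')
      have h2 : R V ((x', j0) : Gr q m n) (x' + 1, j0) := hstep x' (x' + 1) rfl (h1ne x')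
      exact h1.trans h2.symm
    · exact (hstep x' x rfl (fun h => hx h.symm)).symm
  exact ((key b hb).trans (hrow b.1)).trans (key (x', r) ha).symm

theorem S_zpow (k : ℕ) (z : Gr q m n) : ((S q m n) ^ k) z = (z.1 + k * (m : ZMod (q * m)), z.2) := by
  induction k generalizing z with
  | zero => simp
  | succ k ih =>
    rw [pow_succ, Perm.mul_apply, ih]
    simp [S]
    ring

/-- **(ShA1)** every equivariant permutation agrees with a shear word outside one row. -/
theorem exists_word [NeZero q] (hm : 2 ≤ m) [NeZero n] (π : Perm (Gr q m n))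
    (hπ : Commute π (S q m n)) (j0 : ZMod n) :
    ∃ w ∈ G q m n, ∀ z : Gr q m n, z.2 ≠ j0 → w z = π z := by
  classical
  have hm0 : NeZero m := ⟨by omega⟩
  have key : ∀ F : Finset (ZMod m × ZMod n), (∀ o ∈ F, o.2 ≠ j0) →
      ∃ g ∈ G q m n, ∀ z : Gr q m n, pr z ∈ F → g (π z) = z := by
    intro F
    induction F using Finset.induction_on with
    | empty => intro _; exact ⟨1, one_mem _, by simp⟩
    | insert o F ho ih =>
      intro hF
      obtain ⟨g, hg, hgf⟩ := ih (fun o' ho' => hF o' (Finset.mem_insert_of_mem ho'))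
      obtain ⟨x, hx⟩ := red_surj (q := q) (m := m) o.1
      set a : Gr q m n := (x, o.2) with ha
      have hpa : pr a = o := by ext <;> simp [pr, ha, hx]
      have hpb : pr (g (π a)) ∉ F := by
        intro h
        have h1 := hgf _ h
        have h2 : π (g (π a)) = π a := g.injective h1
        have h3 : g (π a) = a := π.injective h2
        rw [h3, hpa] at h
        exact ho h
      obtain ⟨h, hh, hhf, hha⟩ := conn (q := q) (n := n) hm (V := {o | o ∉ F}) (j0 := j0)
        (fun i hi => hF _ (Finset.mem_insert_of_mem hi) rfl) (a := a) (b := g (π a))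
        (hF o (Finset.mem_insert_self _ _)) (by rw [hpa]; exact ho) hpb
      refine ⟨h * g, mul_mem hh hg, fun z hz => ?_⟩
      rw [Finset.mem_insert] at hz
      rcases hz with hz | hz
      · have hz' : red q m z.1 = red q m a.1 := by
          have := congrArg Prod.fst hz
          simpa [pr, ha, hx] using this
        obtain ⟨k, hk⟩ := red_eq hz'
        have hzS : z = ((S q m n) ^ k) a := by
          rw [S_zpow]
          ext
          · exact hk
          · have := congrArg Prod.snd hz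
            simpa [pr, ha] using this
        have hc : Commute (h * g * π) ((S q m n) ^ k) :=
          (((G_comm hh).mul_left (G_comm hg)).mul_left hπ).pow_right k
        have hc2 := congrArg (fun σ : Perm (Gr q m n) => σ a) hc.eq
        simp only [Perm.mul_apply] at hc2
        rw [hzS, Perm.mul_apply, hc2, hha]
      · rw [Perm.mul_apply, hgf z hz]
        exact hhf z (by simpa using hz)
  have : Fintype (ZMod m × ZMod n) := by
    have : Fintype (ZMod m) := ZMod.fintype m
    have : Fintype (ZMod n) := ZMod.fintype n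
    infer_instance
  obtain ⟨g, hg, hgf⟩ := key (Finset.univ.filter (fun o => o.2 ≠ j0)) (by
    intro o ho; exact (Finset.mem_filter.1 ho).2)
  refine ⟨g⁻¹, inv_mem hg, fun z hz => ?_⟩
  rw [Perm.inv_eq_iff_eq]
  exact (hgf z (Finset.mem_filter.2 ⟨Finset.mem_univ _, hz⟩)).symm

end Crest.Agent.R081.ShA
end

-- ▼ part R081/ShLab1
section

/-! Row 81, node SHEAR APPROXIMATION, label part 1: an equivariant label function on the fine grid is
realised, up to the defect of its distribution, by an equivariant permutation followed by the coarse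
grid label. -/

set_option autoImplicit false

namespace Crest.Agent.R081.ShLab

open Equiv Crest.Agent.R081.ShA

/-- matching of two finite label functions by a permutation -/
theorem exists_perm_match {Y L : Type*} [Fintype Y] [DecidableEq Y] [Fintype L] [DecidableEq L]
    (a b : Y → L) : ∃ σ : Perm Y,
      (Finset.univ.filter (fun y => b (σ y) ≠ a y)).card ≤
        ∑ l, ((Finset.univ.filter (fun y => a y = l)).card
          - (Finset.univ.filter (fun y => b y = l)).card) := by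
  classical
  obtain ⟨σ, -, hσ⟩ := Finset.exists_min_image (Finset.univ : Finset (Perm Y))
    (fun σ => (Finset.univ.filter (fun y => b (σ y) ≠ a y)).card) ⟨1, Finset.mem_univ _⟩
  refine ⟨σ, ?_⟩
  have key : ∀ l, (∃ y, a y = l ∧ b (σ y) ≠ l) → ∀ y', b (σ y') = l → a y' = l := by
    rintro l ⟨y, hy, hby⟩ y' hy'
    by_contra hne
    have hyy : y ≠ y' := by rintro rfl; exact hne hy
    have h1 := hσ (σ * swap y y') (Finset.mem_univ _)
    have h2 : (Finset.univ.filter (fun x => b ((σ * swap y y') x) ≠ a x)).card <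
        (Finset.univ.filter (fun x => b (σ x) ≠ a x)).card := by
      apply Finset.card_lt_card
      rw [Finset.ssubset_iff_of_subset]
      · refine ⟨y, Finset.mem_filter.2 ⟨Finset.mem_univ _, by rw [hy]; exact hby⟩, ?_⟩
        intro hmem
        apply (Finset.mem_filter.1 hmem).2
        rw [Perm.mul_apply, swap_apply_left, hy, hy']
      · intro x hx
        rw [Finset.mem_filter] at hx ⊢
        refine ⟨Finset.mem_univ _, ?_⟩
        by_cases hxy : x = y
        · subst hxy; rw [hy]; exact hby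
        · by_cases hxy' : x = y'
          · subst hxy'; rw [hy']; exact fun h => hne h.symm
          · have := hx.2
            rwa [Perm.mul_apply, swap_apply_of_ne_of_ne hxy hxy'] at this
    omega
  rw [Finset.card_eq_sum_card_fiberwise (f := a) (t := Finset.univ) (fun x _ => Finset.mem_univ _)]
  refine Finset.sum_le_sum fun l _ => ?_
  rw [Finset.filter_filter]
  by_cases h : ∃ y, a y = l ∧ b (σ y) ≠ l
  · have hk := key l h
    have e1 : (Finset.univ.filter (fun y => b y = l)).card =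
        (Finset.univ.filter (fun y => b (σ y) = l)).card := by
      symm
      apply Finset.card_bij (fun y _ => σ y)
      · intro y hy; simpa using hy
      · intro y _ y' _ h; exact σ.injective h
      · intro y hy; exact ⟨σ.symm y, by simpa using hy, by simp⟩
    have e2 : (Finset.univ.filter (fun y => a y = l)).card =
        (Finset.univ.filter (fun y => b (σ y) ≠ a y ∧ a y = l)).card +
        (Finset.univ.filter (fun y => b (σ y) = l)).card := by
      rw [← Finset.card_union_of_disjoint]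
      · congr 1
        ext y
        simp only [Finset.mem_filter, Finset.mem_univ, true_and, Finset.mem_union]
        constructor
        · intro hy
          by_cases hb : b (σ y) = l
          · exact Or.inr hb
          · exact Or.inl ⟨by rw [hy]; exact hb, hy⟩
        · rintro (⟨_, h⟩ | h)
          · exact h
          · exact hk y h
      · rw [Finset.disjoint_left]
        intro y hy hy'
        simp only [Finset.mem_filter, Finset.mem_univ, true_and] at hy hy'
        exact hy.1 (hy'.trans hy.2.symm)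
    omega
  · push Not at h
    have : (Finset.univ.filter (fun y => b (σ y) ≠ a y ∧ a y = l)) = ∅ := by
      rw [Finset.filter_eq_empty_iff]
      rintro y - ⟨h1, h2⟩
      exact h1 (by rw [h y h2, h2])
    rw [this]; simp

section sheets

variable {q m n : ℕ}

/-- the map "sheet, orbit" of an equivariant sheet function is bijective -/
theorem bij_sheet [NeZero q] [NeZero m] [NeZero n] (F : Gr q m n → ZMod q)
    (hF : ∀ z : Gr q m n, F (z.1 + (m : ZMod (q * m)), z.2) = F z + 1) :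
    Function.Bijective (fun z : Gr q m n => (F z, pr z)) := by
  have : NeZero (q * m) := ⟨Nat.mul_ne_zero (NeZero.ne q) (NeZero.ne m)⟩
  have hFk : ∀ (k : ℕ) (z : Gr q m n), F (z.1 + k * (m : ZMod (q * m)), z.2) = F z + k := by
    intro k
    induction k with
    | zero => intro z; simp
    | succ k ih =>
      intro z
      have h1 := hF (z.1 + k * (m : ZMod (q * m)), z.2)
      rw [ih] at h1
      simp only at h1
      have e : z.1 + ((k + 1 : ℕ) : ZMod (q * m)) * (m : ZMod (q * m)) =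
          z.1 + k * (m : ZMod (q * m)) + m := by push_cast; ring
      rw [e, h1]; push_cast; ring
  have hinj : Function.Injective (fun z : Gr q m n => (F z, pr z)) := by
    rintro z z' h
    simp only [Prod.mk.injEq] at h
    obtain ⟨h1, h2⟩ := h
    have h3 : red q m z.1 = red q m z'.1 := congrArg Prod.fst h2
    have h4 : z.2 = z'.2 := by
      have := congrArg (Prod.snd (α := ZMod m)) h2
      simpa [pr] using this
    obtain ⟨k, hk⟩ := red_eq h3
    have h5 : z = (z'.1 + k * (m : ZMod (q * m)), z'.2) := by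
      ext
      · exact hk
      · exact h4
    have h6 : F z = F z' + k := by rw [h5, hFk]
    rw [h1] at h6
    have h7 : ((k : ℕ) : ZMod q) = 0 := left_eq_add.1 h6
    rw [ZMod.natCast_eq_zero_iff] at h7
    obtain ⟨l, rfl⟩ := h7
    rw [h5]
    ext
    · simp only
      have : (((q * l : ℕ) : ZMod (q * m))) * (m : ZMod (q * m)) = 0 := by
        have e : (((q * l : ℕ) : ZMod (q * m))) * (m : ZMod (q * m)) =
            ((q * m : ℕ) : ZMod (q * m)) * l := by push_cast; ring
        rw [e, ZMod.natCast_self, zero_mul]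
      rw [this, add_zero]
    · rfl
  have hc : Fintype.card (Gr q m n) = Fintype.card (ZMod q × (ZMod m × ZMod n)) := by
    simp [Gr, Fintype.card_prod, ZMod.card, mul_assoc]
  exact (Fintype.bijective_iff_injective_and_card _).2 ⟨hinj, hc⟩

/-- the sheet of a label -/
def sheet (q c : ℕ) (s : ZMod (q * c)) : ZMod q := ((s.val / c : ℕ) : ZMod q)

theorem sheet_add [NeZero q] {c : ℕ} [NeZero c] (s : ZMod (q * c)) :
    sheet q c (s + (c : ZMod (q * c))) = sheet q c s + 1 := by
  have hqc : NeZero (q * c) := ⟨Nat.mul_ne_zero (NeZero.ne q) (NeZero.ne c)⟩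
  have hc0 : 0 < c := Nat.pos_of_ne_zero (NeZero.ne c)
  have h1 : ((s.val + c : ℕ) : ZMod (q * c)) = s + c := by push_cast; rw [ZMod.natCast_zmod_val]
  rw [sheet, sheet, ← h1, ZMod.val_natCast]
  have h2 : (s.val + c) % (q * c) / c = ((s.val + c) / c) % q := by
    generalize s.val + c = x
    rw [mul_comm q c, Nat.mod_mul_right_div_self]
  rw [h2, ZMod.natCast_mod, Nat.add_div_right _ hc0]
  push_cast; rfl

theorem sheet_red_inj [NeZero q] {c : ℕ} [NeZero c] {s t : ZMod (q * c)}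
    (h1 : sheet q c s = sheet q c t) (h2 : red q c s = red q c t) : s = t := by
  have hqc : NeZero (q * c) := ⟨Nat.mul_ne_zero (NeZero.ne q) (NeZero.ne c)⟩
  have hc0 : 0 < c := Nat.pos_of_ne_zero (NeZero.ne c)
  have h3 : s.val % c = t.val % c := by
    have e1 : red q c s = ((s.val : ℕ) : ZMod c) := by
      conv_lhs => rw [← ZMod.natCast_zmod_val s]
      rw [map_natCast]
    have e2 : red q c t = ((t.val : ℕ) : ZMod c) := by
      conv_lhs => rw [← ZMod.natCast_zmod_val t]
      rw [map_natCast]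
    rw [e1, e2, ZMod.natCast_eq_natCast_iff] at h2
    exact h2
  have h4 : s.val / c = t.val / c := by
    have hs : s.val / c < q := by
      rw [Nat.div_lt_iff_lt_mul hc0]; exact ZMod.val_lt s
    have ht : t.val / c < q := by
      rw [Nat.div_lt_iff_lt_mul hc0]; exact ZMod.val_lt t
    rw [sheet, sheet, ZMod.natCast_eq_natCast_iff] at h1
    rw [Nat.ModEq, Nat.mod_eq_of_lt hs, Nat.mod_eq_of_lt ht] at h1
    exact h1
  have h5 : s.val = t.val := by
    rw [← Nat.div_add_mod s.val c, ← Nat.div_add_mod t.val c, h3, h4]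
  exact ZMod.val_injective _ h5

end sheets

end Crest.Agent.R081.ShLab
end

-- ▼ part R081/ShLab2
section

/-! Row 81, node SHEAR APPROXIMATION, label part 2: matching two equivariant label functions of the
fine grid by an equivariant permutation. -/

set_option autoImplicit false

namespace Crest.Agent.R081.ShLab

open Equiv Crest.Agent.R081.ShA

variable {q c m n M : ℕ}

/-- the base of a label -/
def base (q c M : ℕ) (s : ZMod (q * c) × ZMod M) : ZMod c × ZMod M := (red q c s.1, s.2)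

theorem sheet_equiv [NeZero q] [NeZero c] {P : Gr q m n → ZMod (q * c) × ZMod M}
    (hP : ∀ z : Gr q m n, P (z.1 + (m : ZMod (q * m)), z.2) = P z + ((c : ZMod (q * c)), 0))
    (z : Gr q m n) : sheet q c (P (z.1 + (m : ZMod (q * m)), z.2)).1 = sheet q c (P z).1 + 1 := by
  rw [hP, Prod.fst_add]; exact sheet_add _

theorem base_equiv {P : Gr q m n → ZMod (q * c) × ZMod M}
    (hP : ∀ z : Gr q m n, P (z.1 + (m : ZMod (q * m)), z.2) = P z + ((c : ZMod (q * c)), 0))
    (k : ℕ) (z : Gr q m n) :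
    base q c M (P (z.1 + k * (m : ZMod (q * m)), z.2)) = base q c M (P z) := by
  induction k with
  | zero => simp
  | succ k ih =>
    have e : z.1 + ((k + 1 : ℕ) : ZMod (q * m)) * (m : ZMod (q * m)) =
        z.1 + k * (m : ZMod (q * m)) + m := by push_cast; ring
    have h := hP (z.1 + k * (m : ZMod (q * m)), z.2)
    simp only at h
    rw [e, h, ← ih]
    ext
    · simp [base]
    · simp [base]

theorem base_pr [NeZero q] [NeZero m] {P : Gr q m n → ZMod (q * c) × ZMod M}
    (hP : ∀ z : Gr q m n, P (z.1 + (m : ZMod (q * m)), z.2) = P z + ((c : ZMod (q * c)), 0))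
    {z z' : Gr q m n} (h : pr z = pr z') : base q c M (P z) = base q c M (P z') := by
  have h3 : red q m z.1 = red q m z'.1 := congrArg Prod.fst h
  have h4 : z.2 = z'.2 := by
    have := congrArg (Prod.snd (α := ZMod m)) h
    simpa [pr] using this
  obtain ⟨k, hk⟩ := red_eq h3
  have h5 : z = (z'.1 + k * (m : ZMod (q * m)), z'.2) := by
    ext
    · exact hk
    · exact h4
  rw [h5]
  exact base_equiv hP k z'

theorem card_pr [NeZero q] [NeZero m] [NeZero n] (F : Gr q m n → ZMod q)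
    (hF : ∀ z : Gr q m n, F (z.1 + (m : ZMod (q * m)), z.2) = F z + 1)
    (R : ZMod m × ZMod n → Prop) [DecidablePred R] :
    (Finset.univ.filter (fun z : Gr q m n => R (pr z))).card =
      q * (Finset.univ.filter R).card := by
  classical
  have hb := bij_sheet F hF
  have h1 : (Finset.univ.filter (fun z : Gr q m n => R (pr z))).card =
      ((Finset.univ : Finset (ZMod q)) ×ˢ (Finset.univ.filter R)).card := by
    refine Finset.card_bij (fun z _ => (F z, pr z)) ?_ ?_ ?_
    · intro z hz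
      simpa using hz
    · intro z _ z' _ h
      exact hb.1 h
    · rintro ⟨r, o⟩ hro
      obtain ⟨z, hz⟩ := hb.2 (r, o)
      refine ⟨z, ?_, hz⟩
      simp only [Prod.mk.injEq] at hz
      simp only [Finset.mem_product, Finset.mem_univ, true_and, Finset.mem_filter] at hro
      simp only [Finset.mem_filter, Finset.mem_univ, true_and]
      rw [hz.2]; exact hro
  rw [h1, Finset.card_product, Finset.card_univ, ZMod.card]

theorem card_base [NeZero q] [NeZero m] [NeZero n] [NeZero c] [NeZero M]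
    (P : Gr q m n → ZMod (q * c) × ZMod M) (l : ZMod c × ZMod M) :
    (Finset.univ.filter (fun z : Gr q m n => base q c M (P z) = l)).card =
      ∑ s ∈ Finset.univ.filter (fun s => base q c M s = l),
        (Finset.univ.filter (fun z : Gr q m n => P z = s)).card := by
  classical
  rw [Finset.card_eq_sum_card_fiberwise (f := P)
    (t := Finset.univ.filter (fun s => base q c M s = l))]
  · refine Finset.sum_congr rfl fun s hs => ?_
    congr 1
    ext z
    simp only [Finset.mem_filter, Finset.mem_univ, true_and] at hs ⊢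
    constructor
    · exact fun h => h.2
    · rintro rfl; exact ⟨hs, rfl⟩
  · intro z hz
    simpa using hz

/-- **L2**: two equivariant label functions are matched by an equivariant permutation up to the
difference of their distributions. -/
theorem exists_perm_lab [NeZero q] [NeZero m] [NeZero n] [NeZero c] [NeZero M]
    (P Z : Gr q m n → ZMod (q * c) × ZMod M)
    (hP : ∀ z : Gr q m n, P (z.1 + (m : ZMod (q * m)), z.2) = P z + ((c : ZMod (q * c)), 0))
    (hZ : ∀ z : Gr q m n, Z (z.1 + (m : ZMod (q * m)), z.2) = Z z + ((c : ZMod (q * c)), 0)) :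
    ∃ π : Perm (Gr q m n), Commute π (S q m n) ∧
      ((Finset.univ.filter (fun z => Z (π z) ≠ P z)).card : ℝ) ≤
        ∑ s, |((Finset.univ.filter (fun z => P z = s)).card : ℝ) -
          (Finset.univ.filter (fun z => Z z = s)).card| := by
  classical
  have hFP := sheet_equiv hP
  have hFZ := sheet_equiv hZ
  let eP : Gr q m n ≃ ZMod q × (ZMod m × ZMod n) := Equiv.ofBijective _ (bij_sheet (fun z => sheet q c (P z).1) hFP)
  let eZ : Gr q m n ≃ ZMod q × (ZMod m × ZMod n) := Equiv.ofBijective _ (bij_sheet (fun z => sheet q c (Z z).1) hFZ)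
  have hePr : ∀ z, (eP z).2 = pr z := fun z => rfl
  have heZr : ∀ z, (eZ z).2 = pr z := fun z => rfl
  have heP1 : ∀ z, (eP z).1 = sheet q c (P z).1 := fun z => rfl
  have heZ1 : ∀ z, (eZ z).1 = sheet q c (Z z).1 := fun z => rfl
  let bP : ZMod m × ZMod n → ZMod c × ZMod M := fun o => base q c M (P (eP.symm (0, o)))
  let bZ : ZMod m × ZMod n → ZMod c × ZMod M := fun o => base q c M (Z (eZ.symm (0, o)))
  have hbP : ∀ z, base q c M (P z) = bP (pr z) := by
    intro z
    apply base_pr hP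
    rw [← hePr (eP.symm (0, pr z)), Equiv.apply_symm_apply]
  have hbZ : ∀ z, base q c M (Z z) = bZ (pr z) := by
    intro z
    apply base_pr hZ
    rw [← heZr (eZ.symm (0, pr z)), Equiv.apply_symm_apply]
  obtain ⟨σ, hσ⟩ := exists_perm_match bP bZ
  let π : Perm (Gr q m n) := (eP.trans ((Equiv.refl (ZMod q)).prodCongr σ)).trans eZ.symm
  have hπ : ∀ z, eZ (π z) = (sheet q c (P z).1, σ (pr z)) := by
    intro z
    simp only [π, Equiv.trans_apply, Equiv.apply_symm_apply]
    rfl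
  have hπ1 : ∀ z, sheet q c (Z (π z)).1 = sheet q c (P z).1 := by
    intro z
    rw [← heZ1, hπ]
  have hπ2 : ∀ z, pr (π z) = σ (pr z) := by
    intro z
    rw [← heZr, hπ]
  have hiff : ∀ z, Z (π z) ≠ P z ↔ bZ (σ (pr z)) ≠ bP (pr z) := by
    intro z
    rw [← hπ2, ← hbZ, ← hbP, not_iff_not]
    constructor
    · intro h; rw [h]
    · intro h
      have h1 : red q c (Z (π z)).1 = red q c (P z).1 := congrArg Prod.fst h
      have h2 : (Z (π z)).2 = (P z).2 := congrArg (Prod.snd (α := ZMod c)) h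
      exact Prod.ext (sheet_red_inj (hπ1 z) h1) h2
  refine ⟨π, ?_, ?_⟩
  · -- commutation
    have hprS : ∀ z : Gr q m n, pr (z.1 + (m : ZMod (q * m)), z.2) = pr z := by
      intro z; ext <;> simp [pr, red_m]
    ext1 z
    simp only [Perm.mul_apply]
    apply eZ.injective
    have hS : ∀ z : Gr q m n, S q m n z = (z.1 + (m : ZMod (q * m)), z.2) := fun z => rfl
    rw [hπ, hS, hS]
    have e1 : eZ ((π z).1 + (m : ZMod (q * m)), (π z).2) = ((eZ (π z)).1 + 1, (eZ (π z)).2) := by
      ext1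
      · exact hFZ (π z)
      · exact hprS (π z)
    rw [e1, hπ, hFP, hprS]
  · have hc1 : (Finset.univ.filter (fun z => Z (π z) ≠ P z)).card =
        q * (Finset.univ.filter (fun o => bZ (σ o) ≠ bP o)).card := by
      rw [← card_pr (fun z => sheet q c (P z).1) hFP]
      congr 1
      ext z
      simp only [Finset.mem_filter, Finset.mem_univ, true_and]
      exact hiff z
    have hcP : ∀ l, q * (Finset.univ.filter (fun o => bP o = l)).card =
        ∑ s ∈ Finset.univ.filter (fun s => base q c M s = l),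
          (Finset.univ.filter (fun z : Gr q m n => P z = s)).card := by
      intro l
      rw [← card_base, ← card_pr (fun z => sheet q c (P z).1) hFP]
      congr 1
      ext z
      simp only [Finset.mem_filter, Finset.mem_univ, true_and]
      rw [hbP]
    have hcZ : ∀ l, q * (Finset.univ.filter (fun o => bZ o = l)).card =
        ∑ s ∈ Finset.univ.filter (fun s => base q c M s = l),
          (Finset.univ.filter (fun z : Gr q m n => Z z = s)).card := by
      intro l
      rw [← card_base, ← card_pr (fun z => sheet q c (Z z).1) hFZ]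
      congr 1
      ext z
      simp only [Finset.mem_filter, Finset.mem_univ, true_and]
      rw [hbZ]
    have h3 : ((Finset.univ.filter (fun z => Z (π z) ≠ P z)).card : ℝ) ≤
        ∑ l, |∑ s ∈ Finset.univ.filter (fun s => base q c M s = l),
          (((Finset.univ.filter (fun z => P z = s)).card : ℝ) -
          (Finset.univ.filter (fun z => Z z = s)).card)| := by
      have h4 : (Finset.univ.filter (fun z => Z (π z) ≠ P z)).card ≤
          ∑ l, (q * (Finset.univ.filter (fun o => bP o = l)).card -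
            q * (Finset.univ.filter (fun o => bZ o = l)).card) := by
        rw [hc1]
        refine (Nat.mul_le_mul_left q hσ).trans ?_
        rw [Finset.mul_sum]
        refine Finset.sum_le_sum fun l _ => ?_
        rw [Nat.mul_sub]
      refine (Nat.cast_le.2 h4).trans ?_
      rw [Nat.cast_sum]
      refine Finset.sum_le_sum fun l _ => ?_
      rw [Finset.sum_sub_distrib, ← Nat.cast_sum, ← Nat.cast_sum, ← hcP, ← hcZ]
      generalize q * (Finset.univ.filter (fun o => bP o = l)).card = x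
      generalize q * (Finset.univ.filter (fun o => bZ o = l)).card = y
      rcases le_total y x with h | h
      · rw [Nat.cast_sub h]; exact le_abs_self _
      · rw [Nat.sub_eq_zero_of_le h]; simp
    refine h3.trans ?_
    calc _ ≤ ∑ l, ∑ s ∈ Finset.univ.filter (fun s => base q c M s = l),
          |((Finset.univ.filter (fun z => P z = s)).card : ℝ) -
          (Finset.univ.filter (fun z => Z z = s)).card| :=
          Finset.sum_le_sum fun l _ => Finset.abs_sum_le_sum_abs _ _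
      _ = _ := Finset.sum_fiberwise _ _ _

end Crest.Agent.R081.ShLab
end

-- ▼ part R081/Sa1
section

/-! Row 81 (helper478's mechanism), node SHEAR APPROXIMATION, part 1: the combinatorial half.

A group of permutations of a finite free `ℤ/q`-set which contains all equivariant three-cycles
realises every prescribed equivariant injection off two orbits; and the group generated by the
single-row rotations and the single-column rotations of a grid contains all equivariant
three-cycles. -/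

set_option autoImplicit false

namespace Crest.Agent.R081.Sa

open Equiv

section abstract_part

variable {X O : Type*}

/-- `τ ∈ 𝓗` is an equivariant three-cycle `x → y → z → x`. -/
def Cyc (H : Subgroup (Perm X)) (p : X → O) (x y z : X) : Prop :=
  ∃ τ ∈ H, τ x = y ∧ τ y = z ∧ τ z = x ∧
    ∀ w, p w ≠ p x → p w ≠ p y → p w ≠ p z → τ w = w

theorem Cyc.rot {H : Subgroup (Perm X)} {p : X → O} {x y z : X} (h : Cyc H p x y z) :
    Cyc H p y z x := by
  obtain ⟨τ, hτ, h1, h2, h3, h4⟩ := h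
  exact ⟨τ, hτ, h2, h3, h1, fun w a b c => h4 w c a b⟩

/-- orbit structure: `p` is the quotient map by the cyclic group generated by `s`. -/
structure Orb (s : Perm X) (p : X → O) : Prop where
  inv : ∀ x, p (s x) = p x
  tr : ∀ x y, p x = p y → ∃ n : ℕ, y = (s ^ n) x
  surj : Function.Surjective p

variable {s : Perm X} {p : X → O} {H : Subgroup (Perm X)}

theorem comm_pow {τ : Perm X} (h : τ * s = s * τ) (n : ℕ) (x : X) :
    τ ((s ^ n) x) = (s ^ n) (τ x) := by
  have h' : τ * s ^ n = s ^ n * τ := (Commute.pow_right (show Commute τ s from h) n).eq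
  have := congrArg (fun f : Perm X => f x) h'
  simpa using this

theorem Orb.pow_inv (ho : Orb s p) (n : ℕ) (x : X) : p ((s ^ n) x) = p x := by
  induction n with
  | zero => simp
  | succ n ih => rw [pow_succ']; simp [ho.inv, ih]

theorem Orb.map_eq (ho : Orb s p) {τ : Perm X} (h : τ * s = s * τ) {x y : X}
    (hxy : p x = p y) : p (τ x) = p (τ y) := by
  obtain ⟨n, rfl⟩ := ho.tr x y hxy
  rw [comm_pow h, ho.pow_inv]

theorem Orb.map_ne (ho : Orb s p) {τ : Perm X} (h : τ * s = s * τ) {x y : X}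
    (hxy : p x ≠ p y) : p (τ x) ≠ p (τ y) := by
  intro h1
  apply hxy
  have h2 : τ⁻¹ * s = s * τ⁻¹ := (show Commute τ s from h).inv_left.eq
  have := ho.map_eq h2 h1
  simpa using this

theorem Cyc.conj (ho : Orb s p) (hc : ∀ τ ∈ H, τ * s = s * τ) {x y z : X}
    (h : Cyc H p x y z) {g : Perm X} (hg : g ∈ H) : Cyc H p (g x) (g y) (g z) := by
  obtain ⟨τ, hτ, h1, h2, h3, h4⟩ := h
  refine ⟨g * τ * g⁻¹, H.mul_mem (H.mul_mem hg hτ) (H.inv_mem hg), ?_, ?_, ?_, ?_⟩
  · simp [h1]
  · simp [h2]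
  · simp [h3]
  · intro w hx hy hz
    have hg' := hc _ (H.inv_mem hg)
    have e : ∀ u : X, p w ≠ p (g u) → p (g⁻¹ w) ≠ p u := by
      intro u hu
      have := ho.map_ne hg' hu
      simpa using this
    have : τ (g⁻¹ w) = g⁻¹ w := h4 _ (e x hx) (e y hy) (e z hz)
    show g (τ (g⁻¹ w)) = w
    rw [this]
    simp


end abstract_part

end Crest.Agent.R081.Sa
end

-- ▼ part R081/Sa2
section

/-! Row 81, node SHEAR APPROXIMATION, part 2: single-row rotations and single-column rotations of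
the grid `ZMod (q*a) × ZMod b` generate all equivariant three-cycles. -/

set_option autoImplicit false

namespace Crest.Agent.R081.Sa

open Equiv

variable (q a b : ℕ)

/-- cells of the grid -/
abbrev Cell (q a b : ℕ) : Type := ZMod (q * a) × ZMod b



/-- the shift -/
def sh (q a b : ℕ) : Perm (Cell q a b) :=
  (Equiv.addRight ((a : ℕ) : ZMod (q * a))).prodCongr (Equiv.refl _)

@[simp] theorem sh_apply (x : Cell q a b) : sh q a b x = (x.1 + (a : ZMod (q * a)), x.2) := rfl






variable {q a b}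




variable {H : Subgroup (Perm (Cell q a b))}


section gen

variable [NeZero q] [NeZero a]




end gen

end Crest.Agent.R081.Sa
end

-- ▼ part R081/Sa3
section

/-! Row 81, node SHEAR APPROXIMATION, part 3: smooth periodic functions with prescribed values on
the good part of the cells; shear words realising the row and column rotations exactly on the good
set; the grid form of the shear approximation lemma. -/

set_option autoImplicit false

namespace Crest.Agent.R081.Sa

open scoped ContDiff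
open Equiv Crest.Agent.R081.Tw

/-! ### smooth bumps on the circle -/

theorem cos_le_of_mid {r u : ℝ} (h0 : 0 ≤ r) (h1 : r ≤ |u|) (h2 : |u| ≤ 1 - r) :
    Real.cos (2 * Real.pi * u) ≤ Real.cos (2 * Real.pi * r) := by
  have hpi := Real.pi_pos
  have e : Real.cos (2 * Real.pi * u) = Real.cos (2 * Real.pi * |u|) := by
    rcases abs_choice u with h | h
    · rw [h]
    · rw [h, mul_neg, Real.cos_neg]
  rw [e]
  by_cases h : |u| ≤ 1 / 2
  · apply Real.cos_le_cos_of_nonneg_of_le_pi
    · positivity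
    · nlinarith
    · nlinarith
  · push Not at h
    have e2 : Real.cos (2 * Real.pi * |u|) = Real.cos (2 * Real.pi * (1 - |u|)) := by
      rw [← Real.cos_neg (2 * Real.pi * (1 - |u|)), ← Real.cos_add_two_pi (-(2 * Real.pi * (1 - |u|)))]
      congr 1; ring
    rw [e2]
    apply Real.cos_le_cos_of_nonneg_of_le_pi
    · positivity
    · nlinarith
    · nlinarith

theorem cos_ge_of_small {r u : ℝ} (h0 : r ≤ 1 / 2) (h1 : |u| ≤ r) :
    Real.cos (2 * Real.pi * r) ≤ Real.cos (2 * Real.pi * u) := by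
  have hpi := Real.pi_pos
  have e : Real.cos (2 * Real.pi * u) = Real.cos (2 * Real.pi * |u|) := by
    rcases abs_choice u with h | h
    · rw [h]
    · rw [h, mul_neg, Real.cos_neg]
  rw [e]
  apply Real.cos_le_cos_of_nonneg_of_le_pi
  · positivity
  · nlinarith
  · nlinarith

/-- a smooth 1-periodic function, `1` within `r1` of `c + ℤ` and `0` at distance at least `r0`. -/
theorem exists_bump (c r0 r1 : ℝ) (h1 : 0 ≤ r1) (h2 : r1 < r0) (h3 : r0 ≤ 1 / 2) :
    ∃ f : ℝ → ℝ, ContDiff ℝ ∞ f ∧ (∀ t, f (t + 1) = f t) ∧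
      (∀ (n : ℤ) (u : ℝ), |u| ≤ r1 → f (c + n + u) = 1) ∧
      (∀ (n : ℤ) (u : ℝ), r0 ≤ |u| → |u| ≤ 1 - r0 → f (c + n + u) = 0) := by
  have hpi := Real.pi_pos
  have hgap : 0 < Real.cos (2 * Real.pi * r1) - Real.cos (2 * Real.pi * r0) := by
    have := Real.cos_lt_cos_of_nonneg_of_le_pi (x := 2 * Real.pi * r1) (y := 2 * Real.pi * r0)
      (by positivity) (by nlinarith) (by nlinarith)
    linarith
  refine ⟨fun t => Real.smoothTransition ((Real.cos (2 * Real.pi * (t - c)) -
    Real.cos (2 * Real.pi * r0)) / (Real.cos (2 * Real.pi * r1) - Real.cos (2 * Real.pi * r0))),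
    ?_, ?_, ?_, ?_⟩
  · apply Real.smoothTransition.contDiff.comp
    fun_prop
  · intro t
    have : Real.cos (2 * Real.pi * (t + 1 - c)) = Real.cos (2 * Real.pi * (t - c)) := by
      rw [← Real.cos_add_two_pi (2 * Real.pi * (t - c))]; congr 1; ring
    simp only [this]
  · intro n u hu
    have e : Real.cos (2 * Real.pi * (c + n + u - c)) = Real.cos (2 * Real.pi * u) := by
      rw [← Real.cos_add_int_mul_two_pi (2 * Real.pi * u) n]; congr 1; ring
    simp only [e]
    apply Real.smoothTransition.one_of_one_le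
    rw [le_div_iff₀ hgap, one_mul]
    have := cos_ge_of_small (r := r1) (u := u) (by linarith) hu
    linarith
  · intro n u hu hu'
    have e : Real.cos (2 * Real.pi * (c + n + u - c)) = Real.cos (2 * Real.pi * u) := by
      rw [← Real.cos_add_int_mul_two_pi (2 * Real.pi * u) n]; congr 1; ring
    simp only [e]
    apply Real.smoothTransition.zero_of_nonpos
    apply div_nonpos_of_nonpos_of_nonneg _ hgap.le
    have := cos_le_of_mid (r := r0) (u := u) (by linarith) hu hu'
    linarith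

theorem zmod_int_eq_iff {b : ℕ} (m n : ℤ) : ((m : ZMod b) = (n : ZMod b)) ↔ ∃ k : ℤ, n = m + b * k := by
  rw [ZMod.intCast_eq_intCast_iff_dvd_sub]
  constructor
  · rintro ⟨k, hk⟩; exact ⟨k, by linarith⟩
  · rintro ⟨k, hk⟩; exact ⟨k, by linarith⟩

/-- indicator of one row, smooth -/
theorem exists_row_bump {b : ℕ} [NeZero b] {d : ℝ} (hd : 0 < d) (hd2 : d ≤ 1 / 2) (j : ZMod b) :
    ∃ f : ℝ → ℝ, ContDiff ℝ ∞ f ∧ (∀ t, f (t + 1) = f t) ∧
      ∀ t : ℝ, d ≤ Int.fract (b * t) → Int.fract (b * t) ≤ 1 - d →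
        f t = if ((⌊(b : ℝ) * t⌋ : ℤ) : ZMod b) = j then 1 else 0 := by
  have hb : 0 < (b : ℝ) := by exact_mod_cast Nat.pos_of_ne_zero (NeZero.ne b)
  have hb1 : (1 : ℝ) ≤ b := by exact_mod_cast Nat.pos_of_ne_zero (NeZero.ne b)
  obtain ⟨f, hf1, hf2, hf3, hf4⟩ := exists_bump (((j.val : ℝ) + 1 / 2) / b) (1 / (2 * b))
    ((1 / 2 - d) / b) (by apply div_nonneg <;> linarith)
    (by rw [div_lt_div_iff₀ hb (by positivity)]; nlinarith)
    (by rw [div_le_div_iff₀ (by positivity) (by norm_num)]; linarith)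
  refine ⟨f, hf1, hf2, ?_⟩
  intro t ht1 ht2
  have hj : ((j.val : ℤ) : ZMod b) = j := by
    rw [Int.cast_natCast, ZMod.natCast_zmod_val]
  set m : ℤ := ⌊(b : ℝ) * t⌋ with hm
  have ht : t = ((m : ℝ) + Int.fract (b * t)) / b := by
    rw [eq_div_iff hb.ne', Int.floor_add_fract]; ring
  split_ifs with h
  · rw [← hj] at h
    obtain ⟨k, hk⟩ := (zmod_int_eq_iff _ _).1 h.symm
    have e : t = ((j.val : ℝ) + 1 / 2) / b + k + (Int.fract (b * t) - 1 / 2) / b := by
      conv_lhs => rw [ht]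
      have : (m : ℝ) = j.val + b * k := by rw [hk]; push_cast; ring
      rw [this]
      field_simp
      ring
    rw [e]
    have hu : |(Int.fract (b * t) - 1 / 2) / b| ≤ (1 / 2 - d) / b := by
      rw [abs_div, abs_of_pos hb]
      apply div_le_div_of_nonneg_right _ hb.le
      rw [abs_le]; constructor <;> linarith
    exact hf3 k _ hu
  · -- different row
    obtain ⟨k, l, hk, hl0, hlb⟩ : ∃ k l : ℤ, m = l + b * k ∧ 0 ≤ l ∧ l < b :=
      ⟨m / b, m % b, (Int.emod_add_mul_ediv m b).symm, Int.emod_nonneg _ (by exact_mod_cast NeZero.ne b),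
        Int.emod_lt_of_pos _ (by exact_mod_cast Nat.pos_of_ne_zero (NeZero.ne b))⟩
    have hlj : l ≠ j.val := by
      intro h'
      apply h
      rw [hk, h']
      push_cast
      rw [ZMod.natCast_self, zero_mul, add_zero]
      simp
    have hjb : (j.val : ℤ) < b := by exact_mod_cast ZMod.val_lt j
    have e : t = ((j.val : ℝ) + 1 / 2) / b + k + ((l : ℝ) - j.val + (Int.fract (b * t) - 1 / 2)) / b := by
      conv_lhs => rw [ht]
      have : (m : ℝ) = l + b * k := by rw [hk]; push_cast; ring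
      rw [this]
      field_simp
      ring
    rw [e]
    have h1 : (1 : ℝ) / 2 ≤ |(l : ℝ) - j.val + (Int.fract (b * t) - 1 / 2)| ∧
        |(l : ℝ) - j.val + (Int.fract (b * t) - 1 / 2)| ≤ b - 1 / 2 := by
      have hj0 : (0 : ℤ) ≤ (j.val : ℤ) := by positivity
      rcases lt_or_gt_of_ne hlj with hlt | hgt
      · have a1 : (l : ℝ) - j.val ≤ -1 := by
          have : l - (j.val : ℤ) ≤ -1 := by omega
          exact_mod_cast this
        have a2 : -((b : ℝ) - 1) ≤ (l : ℝ) - j.val := by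
          have : -((b : ℤ) - 1) ≤ l - (j.val : ℤ) := by omega
          exact_mod_cast this
        rw [abs_of_neg (by linarith)]
        constructor <;> linarith
      · have a1 : (1 : ℝ) ≤ (l : ℝ) - j.val := by
          have : 1 ≤ l - (j.val : ℤ) := by omega
          exact_mod_cast this
        have a2 : (l : ℝ) - j.val ≤ (b : ℝ) - 1 := by
          have : l - (j.val : ℤ) ≤ (b : ℤ) - 1 := by omega
          exact_mod_cast this
        rw [abs_of_pos (by linarith)]
        constructor <;> linarith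
    apply hf4 k
    · rw [abs_div, abs_of_pos hb, div_le_div_iff₀ (by positivity) hb]
      nlinarith [h1.1]
    · rw [abs_div, abs_of_pos hb, div_le_iff₀ hb]
      have : (1 - 1 / (2 * (b : ℝ))) * b = b - 1 / 2 := by field_simp
      rw [this]
      exact h1.2

/-- prescribed values on the good part of the rows -/
theorem exists_row_fun {b : ℕ} [NeZero b] {d : ℝ} (hd : 0 < d) (hd2 : d ≤ 1 / 2) (v : ZMod b → ℝ) :
    ∃ f : ℝ → ℝ, ContDiff ℝ ∞ f ∧ (∀ t, f (t + 1) = f t) ∧
      ∀ t : ℝ, d ≤ Int.fract (b * t) → Int.fract (b * t) ≤ 1 - d →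
        f t = v ((⌊(b : ℝ) * t⌋ : ℤ) : ZMod b) := by
  choose F h1 h2 h3 using fun j : ZMod b => exists_row_bump hd hd2 j
  refine ⟨fun t => ∑ j, v j * F j t, ?_, ?_, ?_⟩
  · exact ContDiff.sum fun j _ => contDiff_const.mul (h1 j)
  · intro t; simp [h2]
  · intro t ht1 ht2
    simp only [h3 _ t ht1 ht2]
    simp

/-! ### cells and good points -/

/-- the cell of a point -/
noncomputable def cell (q a b : ℕ) (y : ℝ × ℝ) : Cell q a b :=
  (((⌊((q * a : ℕ) : ℝ) * y.1⌋ : ℤ) : ZMod (q * a)), ((⌊(b : ℝ) * y.2⌋ : ℤ) : ZMod b))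

/-- the good points: not too close to the boundaries of the cells -/
structure Good (q a b : ℕ) (d : ℝ) (y : ℝ × ℝ) : Prop where
  l1 : d ≤ Int.fract (((q * a : ℕ) : ℝ) * y.1)
  u1 : Int.fract (((q * a : ℕ) : ℝ) * y.1) ≤ 1 - d
  l2 : d ≤ Int.fract ((b : ℝ) * y.2)
  u2 : Int.fract ((b : ℝ) * y.2) ≤ 1 - d

/-- `w` realises `σ` exactly on the good points -/
def Rz (q a b : ℕ) (d : ℝ) (w : Word) (σ : Cell q a b → Cell q a b) : Prop :=
  ∀ y, Good q a b d y → cell q a b (Word.act q w y) = σ (cell q a b y) ∧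
    Int.fract (((q * a : ℕ) : ℝ) * (Word.act q w y).1) = Int.fract (((q * a : ℕ) : ℝ) * y.1) ∧
    Int.fract ((b : ℝ) * (Word.act q w y).2) = Int.fract ((b : ℝ) * y.2)

variable {q a b : ℕ} {d : ℝ}

theorem Rz.good {w : Word} {σ : Cell q a b → Cell q a b} (h : Rz q a b d w σ) {y : ℝ × ℝ}
    (hy : Good q a b d y) : Good q a b d (Word.act q w y) := by
  obtain ⟨-, h1, h2⟩ := h y hy
  exact ⟨h1 ▸ hy.l1, h1 ▸ hy.u1, h2 ▸ hy.l2, h2 ▸ hy.u2⟩

theorem Rz.comp {w w' : Word} {σ σ' : Cell q a b → Cell q a b} (h : Rz q a b d w σ)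
    (h' : Rz q a b d w' σ') : Rz q a b d (w ++ w') (fun x => σ (σ' x)) := by
  intro y hy
  obtain ⟨a1, a2, a3⟩ := h' y hy
  obtain ⟨b1, b2, b3⟩ := h _ (h'.good hy)
  rw [Word.act_append]
  exact ⟨by rw [b1, a1], by rw [b2, a2], by rw [b3, a3]⟩

theorem Rz.nil : Rz q a b d [] (fun x => x) := fun y _ => ⟨rfl, rfl, rfl⟩







end Crest.Agent.R081.Sa
end

-- ▼ part R081/ShB1
section

/-! Row 81, node SHEAR APPROXIMATION: measure preservation on the unit square, the good set, and the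
exact translation property of words. -/

set_option autoImplicit false

namespace Crest.Agent.R081.ShB

open MeasureTheory Set Crest.Agent.R081.Tw Crest.Agent.R081.ShA
open scoped ContDiff ENNReal

/-- the unit square -/
def Sq : Set (ℝ × ℝ) := Ico (0:ℝ) 1 ×ˢ Ico (0:ℝ) 1


theorem volume_Sq : volume Sq = 1 := by
  rw [Sq, Measure.volume_eq_prod, Measure.prod_prod]
  simp






/-! ### the good set -/

theorem bad1 {N : ℕ} (hN : 0 < N) {d : ℝ} (hd : 0 ≤ d) :
    volume (Ico (0:ℝ) 1 ∩ {t | Int.fract ((N:ℝ) * t) ∉ Icc d (1 - d)}) ≤ ENNReal.ofReal (2 * d) := by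
  have hN' : (0:ℝ) < N := by exact_mod_cast hN
  have hsub : Ico (0:ℝ) 1 ∩ {t | Int.fract ((N:ℝ) * t) ∉ Icc d (1 - d)} ⊆
      ⋃ j ∈ Finset.range N, (Icc ((j:ℝ) / N) (((j:ℝ) + d) / N) ∪
        Icc (((j:ℝ) + 1 - d) / N) (((j:ℝ) + 1) / N)) := by
    rintro t ⟨⟨ht0, ht1⟩, ht⟩
    simp only [mem_setOf_eq, mem_Icc, not_and_or, not_le] at ht
    have hfl : (0:ℤ) ≤ ⌊(N:ℝ) * t⌋ := Int.floor_nonneg.2 (by positivity)
    obtain ⟨j, hj⟩ := Int.eq_ofNat_of_zero_le hfl
    have hjle : (j:ℝ) ≤ (N:ℝ) * t := by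
      have := Int.floor_le ((N:ℝ) * t); rw [hj] at this; exact_mod_cast this
    have hjlt : (N:ℝ) * t < (j:ℝ) + 1 := by
      have := Int.lt_floor_add_one ((N:ℝ) * t); rw [hj] at this; exact_mod_cast this
    have hfr : Int.fract ((N:ℝ) * t) = (N:ℝ) * t - j := by
      rw [Int.fract, hj]; simp
    have hjN : j < N := by
      have : (j:ℝ) < N := by nlinarith
      exact_mod_cast this
    refine mem_biUnion (Finset.mem_coe.2 (Finset.mem_range.2 hjN)) ?_
    rw [hfr] at ht
    rcases ht with ht | ht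
    · left
      constructor
      · rw [div_le_iff₀ hN']; linarith
      · rw [le_div_iff₀ hN']; linarith
    · right
      constructor
      · rw [div_le_iff₀ hN']; linarith
      · rw [le_div_iff₀ hN']; linarith
  refine (measure_mono hsub).trans ?_
  refine (measure_biUnion_finset_le _ _).trans ?_
  have hone : ∀ j ∈ Finset.range N, volume (Icc ((j:ℝ) / N) (((j:ℝ) + d) / N) ∪
        Icc (((j:ℝ) + 1 - d) / N) (((j:ℝ) + 1) / N)) ≤ ENNReal.ofReal (2 * d / N) := by
    intro j _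
    refine (measure_union_le _ _).trans ?_
    rw [Real.volume_Icc, Real.volume_Icc, ← ENNReal.ofReal_add]
    · apply le_of_eq; congr 1; field_simp; ring
    · rw [← sub_div]; apply div_nonneg _ hN'.le; linarith
    · rw [← sub_div]; apply div_nonneg _ hN'.le; linarith
  refine (Finset.sum_le_sum hone).trans ?_
  rw [Finset.sum_const, Finset.card_range, nsmul_eq_mul, ← ENNReal.ofReal_natCast,
    ← ENNReal.ofReal_mul (by positivity)]
  apply le_of_eq; congr 1; field_simp

/-- the good set -/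
def Good (N1 N2 : ℕ) (d : ℝ) (y : ℝ × ℝ) : Prop :=
  Int.fract ((N1:ℝ) * y.1) ∈ Icc d (1 - d) ∧ Int.fract ((N2:ℝ) * y.2) ∈ Icc d (1 - d)

theorem bad2 {N1 N2 : ℕ} (h1 : 0 < N1) (h2 : 0 < N2) {d : ℝ} (hd : 0 ≤ d) :
    volume (Sq ∩ {y | ¬ Good N1 N2 d y}) ≤ ENNReal.ofReal (4 * d) := by
  have hsub : Sq ∩ {y | ¬ Good N1 N2 d y} ⊆
      (Ico (0:ℝ) 1 ∩ {t | Int.fract ((N1:ℝ) * t) ∉ Icc d (1 - d)}) ×ˢ Ico (0:ℝ) 1 ∪
      Ico (0:ℝ) 1 ×ˢ (Ico (0:ℝ) 1 ∩ {t | Int.fract ((N2:ℝ) * t) ∉ Icc d (1 - d)}) := by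
    rintro y ⟨⟨hy1, hy2⟩, hy⟩
    simp only [mem_setOf_eq, Good, not_and_or] at hy
    rcases hy with hy | hy
    · left; exact ⟨⟨hy1, hy⟩, hy2⟩
    · right; exact ⟨hy1, ⟨hy2, hy⟩⟩
  refine (measure_mono hsub).trans ((measure_union_le _ _).trans ?_)
  rw [Measure.volume_eq_prod, Measure.prod_prod, Measure.prod_prod]
  simp only [Real.volume_Ico, sub_zero, ENNReal.ofReal_one, mul_one, one_mul]
  calc _ ≤ ENNReal.ofReal (2 * d) + ENNReal.ofReal (2 * d) := add_le_add (bad1 h1 hd) (bad1 h2 hd)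
    _ = ENNReal.ofReal (4 * d) := by
      rw [← ENNReal.ofReal_add (by linarith) (by linarith)]; congr 1; ring

end Crest.Agent.R081.ShB
end

-- ▼ part R081/Sa4
section

/-! Row 81, node SHEAR APPROXIMATION, part 4: every element of helper74's group `ShA.G` is realised
by a shear word exactly on the good points. -/

set_option autoImplicit false

namespace Crest.Agent.R081.Sa

open scoped ContDiff
open Equiv Crest.Agent.R081.Tw

variable {q m n : ℕ} {d : ℝ}

theorem rz_rowM [NeZero q] [NeZero m] [NeZero n] (hd : 0 < d) (hd2 : d ≤ 1 / 2)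
    (e : ZMod n → ZMod (q * m)) : ∃ w, Rz q m n d w (ShA.rowM e) := by
  have : NeZero (q * m) := ⟨Nat.mul_ne_zero (NeZero.ne q) (NeZero.ne m)⟩
  have hN : (((q * m : ℕ) : ℝ)) ≠ 0 := by exact_mod_cast NeZero.ne (q * m)
  obtain ⟨f, h1, h2, h3⟩ := exists_row_fun hd hd2
    (fun j' : ZMod n => ((e j').val : ℝ) / ((q * m : ℕ) : ℝ))
  refine ⟨[⟨false, f, h1, h2⟩], ?_⟩
  intro y hy
  have e1 := h3 y.2 hy.l2 hy.u2
  have ea : Word.act q [⟨false, f, h1, h2⟩] y = (y.1 + f y.2, y.2) := by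
    simp [Sh1.act]
  rw [ea, e1]
  have e2 : ((q * m : ℕ) : ℝ) * (y.1 + ((e ((⌊(n : ℝ) * y.2⌋ : ℤ) : ZMod n)).val : ℝ) /
      ((q * m : ℕ) : ℝ)) = ((q * m : ℕ) : ℝ) * y.1 + ((e ((⌊(n : ℝ) * y.2⌋ : ℤ) : ZMod n)).val : ℕ) := by
    rw [mul_add, mul_div_cancel₀ _ hN]
  refine ⟨?_, ?_, rfl⟩
  · simp only [cell, ShA.rowM_apply]
    rw [e2, Int.floor_add_natCast]
    ext
    · push_cast
      rw [ZMod.natCast_zmod_val]
    · rfl
  · simp only
    rw [e2, Int.fract_add_natCast]

theorem rz_colM [NeZero q] [NeZero m] [NeZero n] (hd : 0 < d) (hd2 : d ≤ 1 / 2)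
    (e : ZMod m → ZMod n) : ∃ w, Rz q m n d w (ShA.colM e) := by
  have hN : ((n : ℝ)) ≠ 0 := by exact_mod_cast NeZero.ne n
  obtain ⟨f, h1, h2, h3⟩ := exists_row_fun hd hd2
    (fun c' : ZMod m => ((e c').val : ℝ) / (n : ℝ))
  refine ⟨[⟨true, f, h1, h2⟩], ?_⟩
  intro y hy
  have hq : (m : ℝ) * ((q : ℝ) * y.1) = ((q * m : ℕ) : ℝ) * y.1 := by push_cast; ring
  have e1 := h3 (q * y.1) (by rw [hq]; exact hy.l1) (by rw [hq]; exact hy.u1)
  rw [hq] at e1
  have ecl : ((⌊((q * m : ℕ) : ℝ) * y.1⌋ : ℤ) : ZMod m) =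
      ShA.red q m ((⌊((q * m : ℕ) : ℝ) * y.1⌋ : ℤ) : ZMod (q * m)) := by simp
  have ea : Word.act q [⟨true, f, h1, h2⟩] y = (y.1, y.2 + f (q * y.1)) := by
    simp [Sh1.act]
  rw [ea, e1, ecl]
  set E := e (ShA.red q m ((⌊((q * m : ℕ) : ℝ) * y.1⌋ : ℤ) : ZMod (q * m))) with hE
  have e2 : (n : ℝ) * (y.2 + (E.val : ℝ) / (n : ℝ)) = (n : ℝ) * y.2 + (E.val : ℕ) := by
    rw [mul_add, mul_div_cancel₀ _ hN]
  refine ⟨?_, rfl, ?_⟩
  · simp only [cell, ShA.colM_apply]
    rw [e2, Int.floor_add_natCast, ← hE]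
    ext
    · rfl
    · push_cast
      rw [ZMod.natCast_zmod_val]
  · simp only
    rw [e2, Int.fract_add_natCast]

/-- the realisable permutations -/
def HG (q m n : ℕ) (d : ℝ) : Subgroup (Perm (ZMod (q * m) × ZMod n)) where
  carrier := {σ | (∃ w, Rz q m n d w σ) ∧ (∃ w, Rz q m n d w (σ⁻¹ : Perm _))}
  mul_mem' := by
    rintro σ τ ⟨⟨w, hw⟩, ⟨w', hw'⟩⟩ ⟨⟨v, hv⟩, ⟨v', hv'⟩⟩
    refine ⟨⟨w ++ v, hw.comp hv⟩, ⟨v' ++ w', ?_⟩⟩
    rw [mul_inv_rev]; exact hv'.comp hw'
  one_mem' := ⟨⟨[], Rz.nil⟩, ⟨[], by rw [inv_one]; exact Rz.nil⟩⟩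
  inv_mem' := by
    rintro σ ⟨hw, hw'⟩
    exact ⟨hw', by rwa [inv_inv]⟩

theorem rowM_inv' (e : ZMod n → ZMod (q * m)) :
    (ShA.rowM e : Perm (ShA.Gr q m n))⁻¹ = ShA.rowM (-e) := by
  ext x : 1
  rw [ShA.rowM_inv_apply, ShA.rowM_apply]
  simp only [sub_eq_add_neg, Pi.neg_apply]

theorem colM_inv' (e : ZMod m → ZMod n) :
    (ShA.colM e : Perm (ShA.Gr q m n))⁻¹ = ShA.colM (-e) := by
  ext x : 1
  rw [ShA.colM_inv_apply, ShA.colM_apply]
  simp only [sub_eq_add_neg, Pi.neg_apply]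

/-- **Smoothing.** Every element of `ShA.G` is realised by a shear word exactly on the good
points (fractional parts are preserved). `cell` is 245's/846's `cellOf`. -/
theorem exists_word_G (hq : 0 < q) (hm : 0 < m) (hn : 0 < n) {g : Perm (ShA.Gr q m n)}
    (hg : g ∈ ShA.G q m n) (hd : 0 < d) (hd2 : d ≤ 1 / 2) :
    ∃ w : Word, ∀ y, ShB.Good (q * m) n d y →
      cell q m n (Word.act q w y) = g (cell q m n y) ∧
      ShB.Good (q * m) n d (Word.act q w y) ∧
      Int.fract (((q * m : ℕ) : ℝ) * (Word.act q w y).1) = Int.fract (((q * m : ℕ) : ℝ) * y.1) ∧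
      Int.fract ((n : ℝ) * (Word.act q w y).2) = Int.fract ((n : ℝ) * y.2) := by
  have : NeZero q := ⟨hq.ne'⟩
  have : NeZero m := ⟨hm.ne'⟩
  have : NeZero n := ⟨hn.ne'⟩
  have hle : ShA.G q m n ≤ HG q m n d := by
    unfold ShA.G
    rw [Subgroup.closure_le]
    rintro x (⟨a, rfl⟩ | ⟨b, rfl⟩)
    · exact ⟨rz_rowM hd hd2 a, by rw [rowM_inv']; exact rz_rowM hd hd2 (-a)⟩
    · exact ⟨rz_colM hd hd2 b, by rw [colM_inv']; exact rz_colM hd hd2 (-b)⟩
  obtain ⟨w, hw⟩ := (hle hg).1
  refine ⟨w, fun y hy => ?_⟩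
  have hy' : Good q m n d y := ⟨hy.1.1, hy.1.2, hy.2.1, hy.2.2⟩
  obtain ⟨h1, h2, h3⟩ := hw y hy'
  refine ⟨h1, ?_, h2, h3⟩
  exact ⟨h2 ▸ hy.1, h3 ▸ hy.2⟩


end Crest.Agent.R081.Sa
end

-- ▼ part R081/SaLab
section

/-!
Row 81, node SHEAR APPROXIMATION, label half (helper245): L2 = optimal equivariant matching of
two equivariant labelings of the grid `ZMod (q*m) × ZMod n`.
-/

set_option autoImplicit false
open Equiv

namespace Crest.Agent.R081.SaL

section matching

/-- optimal matching without group action -/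
theorem matching {Y L : Type*} [Fintype Y] [DecidableEq Y] [Fintype L] [DecidableEq L]
    (u v : Y → L) : ∃ σ : Perm Y,
      (Finset.univ.filter (fun y => v (σ y) ≠ u y)).card
        ≤ ∑ l, ((Finset.univ.filter (fun y => u y = l)).card
            - (Finset.univ.filter (fun y => v y = l)).card) := by
  classical
  obtain ⟨σ, -, hσ⟩ := Finset.exists_min_image (Finset.univ : Finset (Perm Y))
    (fun σ => (Finset.univ.filter (fun y => v (σ y) ≠ u y)).card) ⟨1, Finset.mem_univ _⟩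
  refine ⟨σ, ?_⟩
  by_contra hcon
  push Not at hcon
  have h1 : (Finset.univ.filter (fun y => v (σ y) ≠ u y)).card
      = ∑ l, (Finset.univ.filter (fun y => u y = l ∧ v (σ y) ≠ l)).card := by
    rw [Finset.card_eq_sum_card_fiberwise (f := u) (t := Finset.univ) (fun _ _ => Finset.mem_univ _)]
    apply Finset.sum_congr rfl
    intro l _
    congr 1
    ext y
    simp only [Finset.mem_filter, Finset.mem_univ, true_and]
    constructor
    · rintro ⟨h1, h2⟩; exact ⟨h2, h2 ▸ h1⟩
    · rintro ⟨h1, h2⟩; exact ⟨by rw [h1]; exact h2, h1⟩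
  rw [h1] at hcon
  obtain ⟨l, -, hl⟩ := Finset.exists_lt_of_sum_lt hcon
  have h2 : (Finset.univ.filter (fun y => u y = l)).card
      = (Finset.univ.filter (fun y => u y = l ∧ v (σ y) = l)).card
        + (Finset.univ.filter (fun y => u y = l ∧ v (σ y) ≠ l)).card := by
    rw [← Finset.filter_filter, ← Finset.filter_filter]
    exact (Finset.card_filter_add_card_filter_not _).symm
  have h3 : (Finset.univ.filter (fun y => v y = l)).card
      = (Finset.univ.filter (fun y => v (σ y) = l)).card := by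
    symm
    apply Finset.card_bij (fun y _ => σ y)
    · intro y hy; simpa using hy
    · intro a _ b _ h; exact σ.injective h
    · intro y hy
      exact ⟨σ.symm y, by simpa using hy, by simp⟩
  have h4 : (Finset.univ.filter (fun y => v (σ y) = l)).card
      = (Finset.univ.filter (fun y => v (σ y) = l ∧ u y = l)).card
        + (Finset.univ.filter (fun y => v (σ y) = l ∧ u y ≠ l)).card := by
    rw [← Finset.filter_filter, ← Finset.filter_filter]
    exact (Finset.card_filter_add_card_filter_not _).symm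
  have h5 : (Finset.univ.filter (fun y => v (σ y) = l ∧ u y = l)).card
      = (Finset.univ.filter (fun y => u y = l ∧ v (σ y) = l)).card := by
    congr 1; ext y; simp [and_comm]
  have h6 : 0 < (Finset.univ.filter (fun y => v (σ y) = l ∧ u y ≠ l)).card := by omega
  have h7 : 0 < (Finset.univ.filter (fun y => u y = l ∧ v (σ y) ≠ l)).card := by omega
  obtain ⟨y2, hy2⟩ := Finset.card_pos.1 h6
  obtain ⟨y1, hy1⟩ := Finset.card_pos.1 h7
  simp only [Finset.mem_filter, Finset.mem_univ, true_and] at hy1 hy2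
  have hne : y1 ≠ y2 := by
    rintro rfl; exact hy1.2 hy2.1
  have h8 := hσ (σ * swap y1 y2) (Finset.mem_univ _)
  have h9 : (Finset.univ.filter (fun y => v ((σ * swap y1 y2) y) ≠ u y)).card
      < (Finset.univ.filter (fun y => v (σ y) ≠ u y)).card := by
    apply Finset.card_lt_card
    rw [Finset.ssubset_iff_of_subset]
    · refine ⟨y1, ?_, ?_⟩
      · simp only [Finset.mem_filter, Finset.mem_univ, true_and]
        rw [hy1.1]; exact hy1.2
      · intro h
        rw [Finset.mem_filter] at h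
        apply h.2
        rw [Perm.mul_apply, swap_apply_left, hy2.1, hy1.1]
    · intro y hy
      simp only [Finset.mem_filter, Finset.mem_univ, true_and] at hy ⊢
      by_cases e1 : y = y1
      · subst e1; rw [hy1.1]; exact hy1.2
      by_cases e2 : y = y2
      · subst e2; rw [hy2.1]; exact fun h => hy2.2 h.symm
      · rw [Perm.mul_apply, swap_apply_of_ne_of_ne e1 e2] at hy
        exact hy
  omega

end matching

section sheets

variable (q m : ℕ) [NeZero q] [NeZero m]

/-- value of the sheet coordinates -/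
def shv (x : ZMod q × Fin m) : ZMod (q * m) := ((m * x.1.val + x.2.val : ℕ) : ZMod (q * m))

variable {q m}

omit [NeZero m] in
theorem shv_lt (x : ZMod q × Fin m) : m * x.1.val + x.2.val < q * m := by
  have h1 : x.1.val < q := ZMod.val_lt x.1
  have h2 : x.2.val < m := x.2.isLt
  calc m * x.1.val + x.2.val < m * x.1.val + m := by omega
    _ = m * (x.1.val + 1) := by ring
    _ ≤ m * q := Nat.mul_le_mul_left m h1
    _ = q * m := by ring

theorem shv_val (x : ZMod q × Fin m) : (shv q m x).val = m * x.1.val + x.2.val := by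
  rw [shv, ZMod.val_natCast, Nat.mod_eq_of_lt (shv_lt x)]

theorem shv_inj : Function.Injective (shv q m) := by
  intro x y h
  have h1 := congrArg ZMod.val h
  rw [shv_val, shv_val] at h1
  have hm : 0 < m := Nat.pos_of_ne_zero (NeZero.ne m)
  have h2 : x.2.val = y.2.val := by
    have := congrArg (· % m) h1
    simpa [Nat.mod_eq_of_lt x.2.isLt, Nat.mod_eq_of_lt y.2.isLt] using this
  have h3 : x.1.val = y.1.val := by
    rw [h2] at h1
    exact Nat.eq_of_mul_eq_mul_left hm (by omega)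
  exact Prod.ext (ZMod.val_injective q h3) (Fin.ext h2)

theorem shv_add (f : ZMod q) (i : Fin m) : shv q m (f + 1, i) = shv q m (f, i) + (m : ZMod (q * m)) := by
  have h1 : (((f + 1).val : ℕ) : ZMod q) = ((f.val + 1 : ℕ) : ZMod q) := by
    simp
  have h2 : (f + 1).val ≡ f.val + 1 [MOD q] := (ZMod.natCast_eq_natCast_iff _ _ q).1 h1
  have h3 : m * (f + 1).val + i.val ≡ m * f.val + i.val + m [MOD q * m] := by
    have h4 := (h2.mul_left' m).add_right i.val
    rw [mul_comm m q] at h4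
    have h5 : m * (f.val + 1) + i.val = m * f.val + i.val + m := by ring
    rw [h5] at h4
    exact h4
  have h6 := (ZMod.natCast_eq_natCast_iff _ _ (q * m)).2 h3
  rw [shv, shv, h6]
  push_cast
  ring

instance : NeZero (q * m) := ⟨Nat.mul_ne_zero (NeZero.ne q) (NeZero.ne m)⟩

theorem shv_bij : Function.Bijective (shv q m) := by
  rw [Fintype.bijective_iff_injective_and_card]
  exact ⟨shv_inj, by simp [ZMod.card]⟩

variable (q m)

/-- the grid as `q` sheets -/
noncomputable def sh (n : ℕ) : ZMod q × (Fin m × ZMod n) ≃ ZMod (q * m) × ZMod n :=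
  (Equiv.prodAssoc _ _ _).symm.trans (Equiv.prodCongr (Equiv.ofBijective (shv q m) shv_bij) (Equiv.refl _))

variable {q m}

theorem sh_apply {n : ℕ} (f : ZMod q) (y : Fin m × ZMod n) :
    sh q m n (f, y) = (shv q m (f, y.1), y.2) := rfl

theorem sh_add {n : ℕ} (f : ZMod q) (y : Fin m × ZMod n) :
    sh q m n (f + 1, y) = sh q m n (f, y) + ((m : ZMod (q * m)), 0) := by
  rw [sh_apply, sh_apply, shv_add]
  ext <;> simp

end sheets

section equimatch

variable {q : ℕ} [NeZero q] {Y L : Type*} [Fintype Y] [DecidableEq Y] [Fintype L] [DecidableEq L]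





end equimatch

section grid

variable {q m n : ℕ} [NeZero q] [NeZero m] [NeZero n]



end grid

end Crest.Agent.R081.SaL
end

-- ▼ part R081/SaGrid
section

/-!
Row 81, node SHEAR APPROXIMATION (helper245): volumes of grid cells and approximation of a
measurable equivariant labeling by an equivariant labeling of the cells of a fine grid (L1).
-/

set_option autoImplicit false
open MeasureTheory Set Crest.Agent.R081.ShD Crest.Agent.R081.SaL

namespace Crest.Agent.R081.SaG

section cells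

variable {M N : ℕ} [NeZero M] [NeZero N]

theorem cell1 (i : ZMod M) :
    Ico (0:ℝ) 1 ∩ {x | ((⌊(M : ℝ) * x⌋ : ℤ) : ZMod M) = i}
      = Ico ((i.val : ℝ) / M) (((i.val : ℝ) + 1) / M) := by
  have hM : (0:ℝ) < M := Nat.cast_pos.2 (Nat.pos_of_ne_zero (NeZero.ne M))
  ext x
  simp only [mem_inter_iff, mem_Ico, mem_setOf_eq]
  constructor
  · rintro ⟨⟨h0, h1⟩, h2⟩
    set k : ℤ := ⌊(M : ℝ) * x⌋ with hk
    have hk0 : 0 ≤ k := Int.floor_nonneg.2 (by positivity)
    have hk1 : k < M := by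
      rw [hk, Int.floor_lt]
      push_cast
      nlinarith
    obtain ⟨j, hj⟩ := Int.eq_ofNat_of_zero_le hk0
    have hjM : j < M := by
      have : (j : ℤ) < M := by rw [← hj]; exact hk1
      exact_mod_cast this
    have h3 : i.val = j := by
      rw [← h2, hj, Int.cast_natCast, ZMod.val_natCast, Nat.mod_eq_of_lt hjM]
    have h4 : ((j : ℤ) : ℝ) ≤ M * x := by
      rw [← hj, hk]; exact Int.floor_le _
    have h5 : (M : ℝ) * x < ((j : ℤ) : ℝ) + 1 := by
      rw [← hj, hk]; exact Int.lt_floor_add_one _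
    rw [h3]
    push_cast at h4 h5
    rw [div_le_iff₀ hM, lt_div_iff₀ hM]
    exact ⟨by linarith, by linarith⟩
  · rintro ⟨h1, h2⟩
    rw [div_le_iff₀ hM] at h1
    rw [lt_div_iff₀ hM] at h2
    have hv : i.val < M := ZMod.val_lt i
    have hv' : (i.val : ℝ) + 1 ≤ M := by exact_mod_cast hv
    have hv0 : (0:ℝ) ≤ i.val := Nat.cast_nonneg _
    refine ⟨⟨?_, ?_⟩, ?_⟩
    · by_contra hneg
      push Not at hneg
      nlinarith
    · by_contra hneg
      push Not at hneg
      nlinarith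
    · have : ⌊(M : ℝ) * x⌋ = (i.val : ℤ) := by
        rw [Int.floor_eq_iff]
        push_cast
        exact ⟨by linarith, by linarith⟩
      rw [this]
      simp

theorem cell2 (c : ZMod M × ZMod N) :
    (Ico (0:ℝ) 1 ×ˢ Ico (0:ℝ) 1) ∩ {y | gl M N y = c}
      = Ico ((c.1.val : ℝ) / M) (((c.1.val : ℝ) + 1) / M)
          ×ˢ Ico ((c.2.val : ℝ) / N) (((c.2.val : ℝ) + 1) / N) := by
  rw [← cell1 c.1, ← cell1 c.2]
  ext y
  simp only [mem_inter_iff, mem_prod, mem_setOf_eq, gl, Prod.ext_iff]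
  tauto

theorem volume_cell (c : ZMod M × ZMod N) :
    volume ((Ico (0:ℝ) 1 ×ˢ Ico (0:ℝ) 1) ∩ {y | gl M N y = c})
      = ENNReal.ofReal (1 / ((M : ℝ) * N)) := by
  have hM : (0:ℝ) < M := Nat.cast_pos.2 (Nat.pos_of_ne_zero (NeZero.ne M))
  have hN : (0:ℝ) < N := Nat.cast_pos.2 (Nat.pos_of_ne_zero (NeZero.ne N))
  rw [cell2, Measure.volume_eq_prod, Measure.prod_prod, Real.volume_Ico, Real.volume_Ico,
    ← ENNReal.ofReal_mul]
  · congr 1
    field_simp
    ring
  · rw [← sub_div, add_sub_cancel_left]; positivity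

theorem measurable_gl1 (M : ℕ) (i : ZMod M) :
    MeasurableSet {x : ℝ | ((⌊(M : ℝ) * x⌋ : ℤ) : ZMod M) = i} := by
  have h : Measurable (fun x : ℝ => ⌊(M : ℝ) * x⌋) :=
    Int.measurable_floor.comp (measurable_const.mul measurable_id)
  exact h (MeasurableSet.of_discrete (s := {k : ℤ | (k : ZMod M) = i}))

theorem measurableSet_gl (M N : ℕ) (c : ZMod M × ZMod N) :
    MeasurableSet {y : ℝ × ℝ | gl M N y = c} := by
  have h1 : MeasurableSet {y : ℝ × ℝ | ((⌊(M : ℝ) * y.1⌋ : ℤ) : ZMod M) = c.1} :=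
    measurable_fst (measurable_gl1 M c.1)
  have h2 : MeasurableSet {y : ℝ × ℝ | ((⌊(N : ℝ) * y.2⌋ : ℤ) : ZMod N) = c.2} :=
    measurable_snd (measurable_gl1 N c.2)
  convert h1.inter h2 using 1
  ext y
  simp [gl, Prod.ext_iff]

theorem measurableSet_gl' (P : ZMod M × ZMod N → Prop) :
    MeasurableSet {y : ℝ × ℝ | P (gl M N y)} := by
  have : {y : ℝ × ℝ | P (gl M N y)} = ⋃ c ∈ {c | P c}, {y : ℝ × ℝ | gl M N y = c} := by
    ext y; simp
  rw [this]
  exact MeasurableSet.biUnion (Set.toFinite _).countable (fun c _ => measurableSet_gl M N c)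

/-- (V) volume of a union of cells -/
theorem volume_cells (P : ZMod M × ZMod N → Prop) [DecidablePred P] :
    volume ((Ico (0:ℝ) 1 ×ˢ Ico (0:ℝ) 1) ∩ {y | P (gl M N y)})
      = ENNReal.ofReal ((Finset.univ.filter (fun c => P c)).card / ((M : ℝ) * N)) := by
  classical
  have h1 : (Ico (0:ℝ) 1 ×ˢ Ico (0:ℝ) 1) ∩ {y | P (gl M N y)}
      = ⋃ c ∈ Finset.univ.filter (fun c => P c),
          ((Ico (0:ℝ) 1 ×ˢ Ico (0:ℝ) 1) ∩ {y | gl M N y = c}) := by
    ext y; simp
  rw [h1, measure_biUnion_finset]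
  · simp_rw [volume_cell]
    rw [Finset.sum_const, nsmul_eq_mul, ← ENNReal.ofReal_natCast, ← ENNReal.ofReal_mul (by positivity)]
    congr 1
    ring
  · intro c _ c' _ hne
    rw [Function.onFun, Set.disjoint_left]
    rintro y ⟨_, h1⟩ ⟨_, h2⟩
    exact hne (h1.symm.trans h2)
  · intro c _
    exact (measurableSet_Ico.prod measurableSet_Ico).inter (measurableSet_gl M N c)

end cells

section period

/-- a set invariant under `y1 += 1/q` has `q` times the measure of its first sheet -/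
theorem sheets_le (q : ℕ) (hq : 0 < q) (W : Set (ℝ × ℝ))
    (hW : ∀ y : ℝ × ℝ, (y.1 + 1 / (q : ℝ), y.2) ∈ W ↔ y ∈ W) :
    volume ((Ico (0:ℝ) 1 ×ˢ Ico (0:ℝ) 1) ∩ W)
      ≤ q * volume ((Ico (0:ℝ) (1 / q) ×ˢ Ico (0:ℝ) 1) ∩ W) := by
  have hq' : (0:ℝ) < q := Nat.cast_pos.2 hq
  have hWn : ∀ (k : ℕ) (y : ℝ × ℝ), (y.1 + k / (q : ℝ), y.2) ∈ W ↔ y ∈ W := by
    intro k
    induction k with
    | zero => intro y; simp
    | succ k ih =>
      intro y
      rw [← ih y, ← hW (y.1 + k / (q : ℝ), y.2)]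
      have : y.1 + ((k + 1 : ℕ) : ℝ) / q = y.1 + k / q + 1 / q := by push_cast; ring
      rw [this]
  have hcov : (Ico (0:ℝ) 1 ×ˢ Ico (0:ℝ) 1) ∩ W
      ⊆ ⋃ k ∈ Finset.range q, (fun y : ℝ × ℝ => (-(k / (q:ℝ)), (0:ℝ)) + y) ⁻¹'
          ((Ico (0:ℝ) (1 / q) ×ˢ Ico (0:ℝ) 1) ∩ W) := by
    rintro ⟨y1, y2⟩ ⟨⟨⟨h1, h2⟩, h3⟩, hw⟩
    simp only at h1 h2 h3
    set k : ℕ := ⌊(q : ℝ) * y1⌋₊ with hk
    have hk1 : (k : ℝ) ≤ q * y1 := Nat.floor_le (by positivity)
    have hk2 : (q : ℝ) * y1 < k + 1 := Nat.lt_floor_add_one _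
    have hkq : k < q := by
      rw [hk, Nat.floor_lt (by positivity)]
      nlinarith
    simp only [mem_iUnion, mem_preimage, Finset.mem_range]
    refine ⟨k, hkq, ⟨?_, ?_⟩, ?_⟩
    · simp only [Prod.fst_add, mem_Ico]
      constructor
      · have : (k : ℝ) / q ≤ y1 := by rw [div_le_iff₀ hq']; linarith
        linarith
      · have : y1 < (k + 1) / q := by rw [lt_div_iff₀ hq']; linarith
        have e : ((k : ℝ) + 1) / q = k / q + 1 / q := by ring
        rw [e] at this
        linarith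
    · simpa using h3
    · rw [← hWn k]
      convert hw using 2
      · simp
      · simp
  refine (measure_mono hcov).trans ((measure_biUnion_finset_le _ _).trans ?_)
  have hpre : ∀ k : ℕ, volume ((fun y : ℝ × ℝ => (-(k / (q:ℝ)), (0:ℝ)) + y) ⁻¹'
          ((Ico (0:ℝ) (1 / q) ×ˢ Ico (0:ℝ) 1) ∩ W))
      = volume ((Ico (0:ℝ) (1 / q) ×ˢ Ico (0:ℝ) 1) ∩ W) := by
    intro k
    exact measure_preimage_add volume _ _
  simp_rw [hpre]
  rw [Finset.sum_const, Finset.card_range, nsmul_eq_mul]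

end period

section approx

/-- the equivariant extension of a labeling of the first sheet -/
theorem gl_add (q m n : ℕ) (hq : 0 < q) (y : ℝ × ℝ) :
    gl (q * m) n (y.1 + 1 / (q : ℝ), y.2) = gl (q * m) n y + ((m : ZMod (q * m)), 0) := by
  have hq' : (q : ℝ) ≠ 0 := by positivity
  ext1
  · simp only [gl, Prod.fst_add]
    have e : (((q * m : ℕ) : ℝ)) * (y.1 + 1 / (q : ℝ)) = ((q * m : ℕ) : ℝ) * y.1 + (m : ℤ) := by
      push_cast; field_simp
    rw [e, Int.floor_add_intCast]
    push_cast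
    rfl
  · simp [gl]

theorem gl_first (q m n : ℕ) [NeZero q] [NeZero m] [NeZero n] (y : ℝ × ℝ)
    (hy : y ∈ Ico (0:ℝ) (1 / q) ×ˢ Ico (0:ℝ) 1) :
    ∃ (i : Fin m), gl (q * m) n y = sh q m n (0, (i, (gl (q * m) n y).2)) := by
  have hq : (0:ℝ) < q := Nat.cast_pos.2 (Nat.pos_of_ne_zero (NeZero.ne q))
  have hm : (0:ℝ) < m := Nat.cast_pos.2 (Nat.pos_of_ne_zero (NeZero.ne m))
  obtain ⟨⟨h1, h2⟩, h3⟩ := hy
  set k : ℤ := ⌊((q * m : ℕ) : ℝ) * y.1⌋ with hk
  have hk0 : 0 ≤ k := Int.floor_nonneg.2 (by positivity)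
  have hk1 : k < m := by
    rw [hk, Int.floor_lt]
    push_cast
    rw [lt_div_iff₀ hq] at h2
    nlinarith
  obtain ⟨j, hj⟩ := Int.eq_ofNat_of_zero_le hk0
  have hjm : j < m := by
    have : (j : ℤ) < m := by rw [← hj]; exact hk1
    exact_mod_cast this
  refine ⟨⟨j, hjm⟩, ?_⟩
  rw [sh_apply]
  ext1
  · show ((⌊((q * m : ℕ) : ℝ) * y.1⌋ : ℤ) : ZMod (q * m)) = shv q m (0, ⟨j, hjm⟩)
    rw [← hk, hj, shv]
    simp
  · rfl

theorem cell_close {M N : ℕ} [NeZero M] [NeZero N] (y : ℝ × ℝ)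
    (hy : y ∈ Ico (0:ℝ) 1 ×ˢ Ico (0:ℝ) 1) :
    dist y (((gl M N y).1.val : ℝ) / M, ((gl M N y).2.val : ℝ) / N) ≤ max (1 / (M : ℝ)) (1 / (N : ℝ)) := by
  have h := (cell2 (gl M N y)).subset ⟨hy, rfl⟩
  obtain ⟨⟨h1, h2⟩, ⟨h3, h4⟩⟩ := h
  rw [Prod.dist_eq]
  rw [add_div] at h2 h4
  apply max_le_max
  · rw [Real.dist_eq, abs_le]
    constructor
    · have : (0:ℝ) ≤ 1 / M := by positivity
      simp only; linarith
    · simp only; linarith
  · rw [Real.dist_eq, abs_le]
    constructor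
    · have : (0:ℝ) ≤ 1 / N := by positivity
      simp only; linarith
    · simp only; linarith

/-- (L1) a measurable equivariant labeling is close to an equivariant labeling of the cells of
every sufficiently fine grid -/
theorem grid_approx {A : Type*} [Fintype A] [Nonempty A] (q : ℕ) (hq : 0 < q) (t : A → A)
    (ht : t^[q] = id) (Lam : ℝ × ℝ → A) (hm : ∀ a, MeasurableSet {y | Lam y = a})
    (he : ∀ y : ℝ × ℝ, Lam (y.1 + 1 / (q : ℝ), y.2) = t (Lam y)) {δ : ℝ} (hδ : 0 < δ) :
    ∃ M0 : ℕ, 0 < M0 ∧ ∀ m n : ℕ, M0 ≤ m → M0 ≤ n →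
      ∃ P' : ZMod (q * m) × ZMod n → A,
        (∀ c, P' (c + ((m : ZMod (q * m)), 0)) = t (P' c)) ∧
        volume ((Ico (0:ℝ) 1 ×ˢ Ico (0:ℝ) 1) ∩ {y | Lam y ≠ P' (gl (q * m) n y)})
          ≤ ENNReal.ofReal δ := by
  classical
  haveI : NeZero q := ⟨hq.ne'⟩
  have hq' : (0:ℝ) < q := Nat.cast_pos.2 hq
  set e : A ≃ Fin (Fintype.card A) := Fintype.equivFin A with hedef
  set Q : Set (ℝ × ℝ) := Ico (0:ℝ) 1 ×ˢ Ico (0:ℝ) 1 with hQ
  have hQm : MeasurableSet Q := measurableSet_Ico.prod measurableSet_Ico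
  set H : ℝ × ℝ → ℝ := Q.indicator (fun y => ((e (Lam y)).val : ℝ)) with hH
  have hQv : volume Q < ⊤ := by
    rw [hQ, Measure.volume_eq_prod, Measure.prod_prod]; simp
  have hmeas : Measurable (fun y => ((e (Lam y)).val : ℝ)) := by
    have : (fun y => ((e (Lam y)).val : ℝ))
        = fun y => ∑ a : A, ({y | Lam y = a}.indicator (fun _ => ((e a).val : ℝ)) y) := by
      ext y
      rw [Finset.sum_eq_single (Lam y)]
      · simp
      · intro b _ hb
        simp [Set.indicator, hb.symm]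
      · simp
    rw [this]
    exact Finset.measurable_sum _ (fun a _ => Measurable.indicator
      (measurable_const : Measurable (fun _ : ℝ × ℝ => ((e a).val : ℝ))) (hm a))
  have hHi : Integrable H := by
    rw [hH, integrable_indicator_iff hQm]
    refine Measure.integrableOn_of_bounded (M := (Fintype.card A : ℝ)) hQv.ne
      hmeas.aestronglyMeasurable (Filter.Eventually.of_forall (fun y => ?_))
    rw [Real.norm_eq_abs, abs_of_nonneg (Nat.cast_nonneg _)]
    exact_mod_cast (e (Lam y)).isLt.le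
  obtain ⟨φ, hφc, hφi, hφcont, hφint⟩ :=
    hHi.exists_hasCompactSupport_integral_sub_le (ε := δ / (4 * q)) (by positivity)
  have huc := hφc.uniformContinuous_of_continuous hφcont
  rw [Metric.uniformContinuous_iff] at huc
  obtain ⟨ρ, hρ, hρ2⟩ := huc (1 / 4) (by norm_num)
  obtain ⟨M0, hM0⟩ := exists_nat_gt (1 / ρ)
  have hM0pos : 0 < M0 := by
    have : (0:ℝ) < M0 := lt_trans (by positivity) hM0
    exact_mod_cast this
  refine ⟨M0, hM0pos, fun m n hmm hnn => ?_⟩
  haveI : NeZero m := ⟨by omega⟩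
  haveI : NeZero n := ⟨by omega⟩
  -- first sheet labels
  let corner : ZMod (q * m) × ZMod n → ℝ × ℝ :=
    fun c => ((c.1.val : ℝ) / ((q * m : ℕ) : ℝ), (c.2.val : ℝ) / n)
  let P0 : Fin m × ZMod n → A := fun y =>
    if h : ∃ a : A, |((e a).val : ℝ) - φ (corner (sh q m n (0, y)))| < 1 / 2 then h.choose
    else Classical.arbitrary A
  let P' : ZMod (q * m) × ZMod n → A := fun c =>
    t^[((sh q m n).symm c).1.val] (P0 ((sh q m n).symm c).2)
  have htmod : ∀ a b : ℕ, a ≡ b [MOD q] → t^[a] = t^[b] := by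
    have h1 : ∀ a : ℕ, t^[a] = t^[a % q] := by
      intro a
      conv_lhs => rw [← Nat.mod_add_div a q]
      rw [Function.iterate_add, Function.iterate_mul, ht, Function.iterate_id, Function.comp_id]
    intro a b hab
    rw [h1 a, h1 b, hab]
  have hP'e : ∀ f y, P' (sh q m n (f, y)) = t^[f.val] (P0 y) := by
    intro f y; simp only [P', Equiv.symm_apply_apply]
  have hP' : ∀ c, P' (c + ((m : ZMod (q * m)), 0)) = t (P' c) := by
    intro c
    obtain ⟨⟨f, y⟩, rfl⟩ := (sh q m n).surjective c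
    rw [← sh_add, hP'e, hP'e, ← Function.iterate_succ_apply' t]
    have h1 : (((f + 1).val : ℕ) : ZMod q) = ((f.val + 1 : ℕ) : ZMod q) := by simp
    rw [htmod _ _ ((ZMod.natCast_eq_natCast_iff _ _ q).1 h1)]
  have htinj : Function.Injective t := by
    obtain ⟨k, rfl⟩ : ∃ k, q = k + 1 := ⟨q - 1, by omega⟩
    intro a b hab
    have h1 : t^[k + 1] a = t^[k + 1] b := by
      rw [Function.iterate_succ_apply, Function.iterate_succ_apply, hab]
    rw [ht] at h1
    exact h1
  refine ⟨P', hP', ?_⟩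
  -- the bad set is invariant
  set W : Set (ℝ × ℝ) := {y | Lam y ≠ P' (gl (q * m) n y)} with hW
  have hWinv : ∀ y : ℝ × ℝ, (y.1 + 1 / (q : ℝ), y.2) ∈ W ↔ y ∈ W := by
    intro y
    simp only [hW, mem_setOf_eq]
    rw [he, gl_add q m n hq, hP', not_iff_not]
    exact htinj.eq_iff
  refine (sheets_le q hq W hWinv).trans ?_
  -- the first sheet
  have hsub : (Ico (0:ℝ) (1 / q) ×ˢ Ico (0:ℝ) 1) ∩ W ⊆ {y | 1 / 4 ≤ ‖H y - φ y‖} := by
    rintro y ⟨hy, hw⟩
    by_contra hcon
    rw [mem_setOf_eq, not_le] at hcon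
    apply hw
    have h1q : 1 / (q : ℝ) ≤ 1 := by
      rw [div_le_one hq']; exact_mod_cast hq
    have hyQ : y ∈ Q := ⟨⟨hy.1.1, hy.1.2.trans_le h1q⟩, hy.2⟩
    obtain ⟨i, hi⟩ := gl_first q m n y hy
    have hclose := cell_close (M := q * m) (N := n) y hyQ
    have hmax : max (1 / ((q * m : ℕ) : ℝ)) (1 / (n : ℝ)) < ρ := by
      have hM0' : (0:ℝ) < M0 := Nat.cast_pos.2 hM0pos
      have hr : 1 / (M0 : ℝ) < ρ := by
        rw [div_lt_iff₀ hM0']; rw [div_lt_iff₀ hρ] at hM0; linarith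
      apply max_lt
      · refine lt_of_le_of_lt (one_div_le_one_div_of_le hM0' ?_) hr
        have : M0 ≤ q * m := hmm.trans (Nat.le_mul_of_pos_left m hq)
        exact_mod_cast this
      · refine lt_of_le_of_lt (one_div_le_one_div_of_le hM0' ?_) hr
        exact_mod_cast hnn
    have h2 := hρ2 (lt_of_le_of_lt hclose hmax)
    have hHy : H y = ((e (Lam y)).val : ℝ) := by
      rw [hH, Set.indicator_of_mem hyQ]
    rw [Real.norm_eq_abs, hHy] at hcon
    rw [Real.dist_eq] at h2
    have h3 : |((e (Lam y)).val : ℝ) - φ (corner (gl (q * m) n y))| < 1 / 2 := by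
      have : ((e (Lam y)).val : ℝ) - φ (corner (gl (q * m) n y))
          = (((e (Lam y)).val : ℝ) - φ y) + (φ y - φ (corner (gl (q * m) n y))) := by ring
      rw [this]
      refine (abs_add_le _ _).trans_lt ?_
      have h2' : |φ y - φ (corner (gl (q * m) n y))| < 1 / 4 := h2
      linarith
    have hP0 : P' (gl (q * m) n y) = P0 (i, (gl (q * m) n y).2) := by
      conv_lhs => rw [hi]
      rw [hP'e]
      simp
    rw [hP0]
    have hex : ∃ a : A, |((e a).val : ℝ)
        - φ (corner (sh q m n (0, (i, (gl (q * m) n y).2))))| < 1 / 2 := ⟨Lam y, by rw [← hi]; exact h3⟩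
    have hP0e : P0 (i, (gl (q * m) n y).2) = hex.choose := by
      simp only [P0]
      rw [dif_pos hex]
    rw [hP0e]
    have hgen : ∀ a0 : A, |((e a0).val : ℝ)
        - φ (corner (sh q m n (0, (i, (gl (q * m) n y).2))))| < 1 / 2 → Lam y = a0 := by
      intro a0 h4
      rw [← hi] at h4
      have h5 : |((e (Lam y)).val : ℝ) - ((e a0).val : ℝ)| < 1 := by
        have : ((e (Lam y)).val : ℝ) - ((e a0).val : ℝ)
            = (((e (Lam y)).val : ℝ) - φ (corner (gl (q * m) n y)))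
              - (((e a0).val : ℝ) - φ (corner (gl (q * m) n y))) := by ring
        rw [this]
        refine (abs_sub _ _).trans_lt ?_
        linarith
      have h6 : (e (Lam y)).val = (e a0).val := by
        have h7 : |(((e (Lam y)).val : ℤ) : ℝ) - (((e a0).val : ℤ) : ℝ)| < 1 := by
          push_cast; exact h5
        rw [← Int.cast_sub, ← Int.cast_abs] at h7
        have h8 : |((e (Lam y)).val : ℤ) - ((e a0).val : ℤ)| < 1 := by exact_mod_cast h7
        rw [Int.abs_lt_one_iff] at h8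
        omega
      exact e.injective (Fin.ext h6)
    exact hgen _ hex.choose_spec
  have hint : Integrable (fun y => ‖H y - φ y‖) := (hHi.sub hφint).norm
  have hch := mul_meas_ge_le_integral_of_nonneg (μ := volume)
    (Filter.Eventually.of_forall (fun y => norm_nonneg (H y - φ y))) hint (1 / 4)
  have hfin : volume {y | 1 / 4 ≤ ‖H y - φ y‖} ≠ ⊤ := by
    have := hint.measure_ge_lt_top (ε := 1 / 4) (by norm_num)
    exact this.ne
  have h1 : volume.real {y | 1 / 4 ≤ ‖H y - φ y‖} ≤ δ / q := by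
    have : δ / (4 * q) = (1 / 4) * (δ / q) := by field_simp
    rw [this] at hφi
    linarith
  calc (q : ENNReal) * volume ((Ico (0:ℝ) (1 / q) ×ˢ Ico (0:ℝ) 1) ∩ W)
      ≤ q * volume {y | 1 / 4 ≤ ‖H y - φ y‖} := by gcongr
    _ = q * ENNReal.ofReal (volume.real {y | 1 / 4 ≤ ‖H y - φ y‖}) := by
        rw [measureReal_def, ENNReal.ofReal_toReal hfin]
    _ ≤ q * ENNReal.ofReal (δ / q) := by gcongr
    _ = ENNReal.ofReal δ := by
        rw [← ENNReal.ofReal_natCast, ← ENNReal.ofReal_mul (by positivity)]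
        congr 1
        field_simp

end approx

end Crest.Agent.R081.SaG
end

-- ▼ part R081/ShLab3
section

/-! Row 81, node SHEAR APPROXIMATION, label part 3: the final statement `exists_word_label` from the
volume of cells (V), the approximation of label functions by grid labels (L1), the matching (L2), the
combinatorics of shears (ShA) and the smoothing (Sa). -/

set_option autoImplicit false

namespace Crest.Agent.R081.ShLab

open Equiv Crest.Agent.R081.ShA Crest.Agent.R081.ShD Crest.Agent.R081.ShB MeasureTheory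

/-- floors in a refined grid -/
theorem val_div_floor {N N0 K : ℕ} (hN : N = N0 * K) (hN0 : 0 < N0) (hK : 0 < K) (x : ℝ) :
    ((((((⌊(N : ℝ) * x⌋ : ℤ) : ZMod N)).val / K : ℕ)) : ZMod N0) =
      ((⌊(N0 : ℝ) * x⌋ : ℤ) : ZMod N0) := by
  have hK' : (0:ℝ) < K := by exact_mod_cast hK
  set a : ℤ := ⌊(N : ℝ) * x⌋ with ha
  set b : ℤ := ⌊(N0 : ℝ) * x⌋ with hb
  have hNr : (N : ℝ) = N0 * K := by rw [hN]; push_cast; ring
  have h1 : (K : ℤ) * b ≤ a := by
    rw [ha, Int.le_floor]
    have := Int.floor_le ((N0 : ℝ) * x)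
    rw [← hb] at this
    push_cast
    rw [hNr]; nlinarith
  have h2 : a < (K : ℤ) * b + K := by
    have h3 := Int.lt_floor_add_one ((N0 : ℝ) * x)
    rw [← hb] at h3
    have h4 := Int.floor_le ((N : ℝ) * x)
    rw [← ha, hNr] at h4
    have : (a : ℝ) < K * b + K := by nlinarith
    exact_mod_cast this
  obtain ⟨r, hr⟩ := Int.eq_ofNat_of_zero_le (show 0 ≤ a - K * b by linarith)
  have hrK : r < K := by
    have : (r : ℤ) < K := by rw [← hr]; linarith
    exact_mod_cast this
  have hN0' : (0 : ℤ) < N0 := by exact_mod_cast hN0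
  obtain ⟨v, hv⟩ := Int.eq_ofNat_of_zero_le (Int.emod_nonneg b hN0'.ne')
  have hvN : v < N0 := by
    have : (v : ℤ) < N0 := by rw [← hv]; exact Int.emod_lt_of_pos b hN0'
    exact_mod_cast this
  have hdiv := Int.emod_add_mul_ediv b N0
  rw [hv] at hdiv
  generalize hw : b / (N0 : ℤ) = w at hdiv
  have e1 : ((a : ℤ) : ZMod N) = ((K * v + r : ℕ) : ZMod N) := by
    have : a = (K * v + r : ℕ) + (N : ℤ) * w := by
      rw [hN]
      push_cast
      have : a = K * b + r := by linarith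
      rw [this, ← hdiv]
      ring
    rw [this]
    push_cast
    simp
  have hlt : K * v + r < N := by
    rw [hN]
    calc K * v + r < K * v + K := by omega
      _ = K * (v + 1) := by ring
      _ ≤ K * N0 := Nat.mul_le_mul_left K hvN
      _ = N0 * K := by ring
  rw [e1, ZMod.val_natCast_of_lt hlt]
  have h5 : (K * v + r) / K = v := by
    rw [Nat.mul_add_div hK, Nat.div_eq_of_lt hrK, add_zero]
  rw [h5]
  have h6 : ((b : ℤ) : ZMod N0) = ((v : ℤ) : ZMod N0) := by
    rw [← hdiv]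
    push_cast
    simp
  rw [h6]
  simp

theorem gl_surj {M N : ℕ} [NeZero M] [NeZero N] (s : ZMod M × ZMod N) :
    gl M N ((s.1.val : ℝ) / M, (s.2.val : ℝ) / N) = s := by
  have hM : (M : ℝ) ≠ 0 := by exact_mod_cast NeZero.ne M
  have hN : (N : ℝ) ≠ 0 := by exact_mod_cast NeZero.ne N
  ext1
  · simp only [gl]
    rw [mul_div_cancel₀ _ hM, Int.floor_natCast, Int.cast_natCast, ZMod.natCast_zmod_val]
  · simp only [gl]
    rw [mul_div_cancel₀ _ hN, Int.floor_natCast, Int.cast_natCast, ZMod.natCast_zmod_val]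

theorem vol_ne_top (S : Set (ℝ × ℝ)) : volume (Sq ∩ S) ≠ ⊤ :=
  ((measure_mono Set.inter_subset_left).trans_lt (by rw [volume_Sq]; exact ENNReal.one_lt_top)).ne

theorem v_mono {S T : Set (ℝ × ℝ)} (h : Sq ∩ S ⊆ T) :
    (volume (Sq ∩ S)).toReal ≤ (volume (Sq ∩ T)).toReal :=
  ENNReal.toReal_mono (vol_ne_top T) (measure_mono (fun _ hy => ⟨hy.1, h hy⟩))

theorem v_union (S T : Set (ℝ × ℝ)) :
    (volume (Sq ∩ (S ∪ T))).toReal ≤ (volume (Sq ∩ S)).toReal + (volume (Sq ∩ T)).toReal := by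
  rw [← ENNReal.toReal_add (vol_ne_top S) (vol_ne_top T)]
  refine ENNReal.toReal_mono (ENNReal.add_ne_top.2 ⟨vol_ne_top S, vol_ne_top T⟩) ?_
  rw [Set.inter_union_distrib_left]
  exact measure_union_le _ _

theorem v_cells {M N : ℕ} [NeZero M] [NeZero N] (P : ZMod M × ZMod N → Prop) [DecidablePred P] :
    (volume (Sq ∩ {y | P (gl M N y)})).toReal =
      (Finset.univ.filter (fun c => P c)).card / ((M : ℝ) * N) := by
  have h := SaG.volume_cells P
  rw [Sq, h, ENNReal.toReal_ofReal (by positivity)]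

theorem v_fiber {L : Type*} [Fintype L] [DecidableEq L] (f : ℝ × ℝ → L)
    (hf : ∀ s, MeasurableSet {y | f y = s}) (D : Set (ℝ × ℝ)) :
    ∑ s, (volume (Sq ∩ ({y | f y = s} ∩ D))).toReal = (volume (Sq ∩ D)).toReal := by
  rw [← ENNReal.toReal_sum (fun s _ => vol_ne_top _)]
  congr 1
  have h := sum_measure_preimage_singleton (μ := volume.restrict (Sq ∩ D)) (f := f) Finset.univ
    (fun s _ => hf s)
  rw [Finset.coe_univ, Set.preimage_univ, Measure.restrict_apply_univ] at h
  rw [← h]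
  refine Finset.sum_congr rfl fun s _ => ?_
  have hfs : MeasurableSet (f ⁻¹' {s}) := hf s
  rw [Measure.restrict_apply hfs]
  congr 1
  ext y
  constructor
  · rintro ⟨h1, h2, h3⟩; exact ⟨h2, h1, h3⟩
  · rintro ⟨h2, h1, h3⟩; exact ⟨h1, h2, h3⟩

/-- **SHEAR APPROXIMATION, label form.** Every measurable equivariant label function whose
distribution is nearly uniform is realised, off a small set, by a shear word followed by the
`M1 × M2` grid label. -/
theorem exists_word_label {q M1 M2 : ℕ} [NeZero M1] [NeZero M2] (hq : 0 < q) (hd : q ∣ M1)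
    (Lam : ℝ × ℝ → ZMod M1 × ZMod M2) (hm : ∀ s, MeasurableSet {y | Lam y = s})
    (he : ∀ y : ℝ × ℝ, Lam (y.1 + 1 / (q : ℝ), y.2) = Lam y + (((M1 / q : ℕ) : ZMod M1), 0))
    {eta : ℝ} (hdist : ∑ s, |(volume (Sq ∩ {y | Lam y = s})).toReal - 1 / ((M1 : ℝ) * M2)| ≤ eta)
    {eps : ℝ} (heps : 0 < eps) :
    ∃ w : Tw.Word,
      (volume (Sq ∩ {y | gl M1 M2 (Tw.Word.act q w y) ≠ Lam y})).toReal ≤ eta + eps := by
  classical
  obtain ⟨c, rfl⟩ := hd
  have hc : c ≠ 0 := by rintro rfl; exact NeZero.ne (q * 0) (mul_zero q)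
  have : NeZero c := ⟨hc⟩
  have : NeZero q := ⟨hq.ne'⟩
  have hc0 : 0 < c := Nat.pos_of_ne_zero hc
  have hM20 : 0 < M2 := Nat.pos_of_ne_zero (NeZero.ne M2)
  rw [Nat.mul_div_cancel_left c hq] at he
  set e : ℝ := eps / 8 with hedef
  have he0 : 0 < e := by positivity
  obtain ⟨M0, hM0, happ⟩ := SaG.grid_approx q hq
    (fun s : ZMod (q * c) × ZMod M2 => s + ((c : ZMod (q * c)), 0)) (by
      rw [add_right_iterate]
      funext s
      have : q • ((c : ZMod (q * c)), (0 : ZMod M2)) = 0 := by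
        apply Prod.ext
        · change q • (c : ZMod (q * c)) = 0
          have := ZMod.natCast_self (q * c)
          rw [nsmul_eq_mul]; rw [Nat.cast_mul] at this; exact this
        · change q • (0 : ZMod M2) = 0
          simp
      simp [this]) Lam hm he he0
  -- the size of the grid
  obtain ⟨K0, hK0⟩ := exists_nat_gt (1 / e)
  set K : ℕ := M0 + K0 + 2 with hK
  have hKpos : 0 < K := by omega
  have hKe : 1 / (K : ℝ) ≤ e := by
    rw [div_le_iff₀ (by exact_mod_cast hKpos)]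
    have h1 : (K0 : ℝ) ≤ K := by exact_mod_cast (by omega : K0 ≤ K)
    rw [div_lt_iff₀ he0] at hK0
    nlinarith
  have : NeZero K := ⟨hKpos.ne'⟩
  set m : ℕ := c * K with hmdef
  set n : ℕ := M2 * K with hndef
  have hm0 : 0 < m := Nat.mul_pos hc0 hKpos
  have hn0 : 0 < n := Nat.mul_pos hM20 hKpos
  have : NeZero m := ⟨hm0.ne'⟩
  have : NeZero n := ⟨hn0.ne'⟩
  have hKm : K ≤ m := Nat.le_mul_of_pos_left K hc0
  have hKn : K ≤ n := Nat.le_mul_of_pos_left K hM20
  obtain ⟨P', hP'e, hP'v⟩ := happ m n (by omega) (by omega)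
  -- the coarse label
  let Z : Gr q m n → ZMod (q * c) × ZMod M2 := fun z =>
    (((z.1.val / K : ℕ) : ZMod (q * c)), ((z.2.val / K : ℕ) : ZMod M2))
  have hZgl : ∀ y, Z (gl (q * m) n y) = gl (q * c) M2 y := by
    intro y
    ext1
    · exact val_div_floor (by rw [hmdef, mul_assoc]) (Nat.mul_pos hq hc0) hKpos y.1
    · exact val_div_floor hndef hM20 hKpos y.2
  have hZe : ∀ z : Gr q m n, Z (z.1 + (m : ZMod (q * m)), z.2) = Z z + ((c : ZMod (q * c)), 0) := by
    intro z
    have hz := gl_surj (M := q * m) (N := n) z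
    set y : ℝ × ℝ := ((z.1.val : ℝ) / ((q * m : ℕ) : ℝ), (z.2.val : ℝ) / (n : ℝ)) with hy
    have h1 : (z.1 + (m : ZMod (q * m)), z.2) = gl (q * m) n (y.1 + 1 / (q : ℝ), y.2) := by
      rw [SaG.gl_add q m n hq, hz]
      ext <;> simp
    rw [h1, hZgl, SaG.gl_add q c M2 hq, ← hZgl, hz]
  have hPe : ∀ z : Gr q m n, P' (z.1 + (m : ZMod (q * m)), z.2) = P' z + ((c : ZMod (q * c)), 0) := by
    intro z
    have h := hP'e z
    have h1 : (z.1 + (m : ZMod (q * m)), z.2) = z + ((m : ZMod (q * m)), 0) := by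
      ext <;> simp
    rw [h1]; exact h
  obtain ⟨π, hπS, hπ⟩ := exists_perm_lab P' Z hPe hZe
  obtain ⟨g, hg, hgπ⟩ := ShA.exists_word (q := q) (m := m) (n := n) (by omega) π hπS 0
  obtain ⟨w, hw⟩ := Sa.exists_word_G hq hm0 hn0 hg (d := min (e / 4) (1 / 2))
    (lt_min (by positivity) (by norm_num)) (min_le_right _ _)
  refine ⟨w, ?_⟩
  have hd0 : (0:ℝ) ≤ min (e / 4) (1 / 2) := le_min (by positivity) (by norm_num)
  have hbad : Sq ∩ {y | gl (q * c) M2 (Tw.Word.act q w y) ≠ Lam y} ⊆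
      ((({y | ¬ Good (q * m) n (min (e / 4) (1 / 2)) y} ∪ {y | (gl (q * m) n y).2 = 0}) ∪
        {y | Z (π (gl (q * m) n y)) ≠ P' (gl (q * m) n y)}) ∪
        {y | Lam y ≠ P' (gl (q * m) n y)}) := by
    rintro y ⟨_, hy⟩
    by_contra hcon
    simp only [Set.mem_union, Set.mem_ofPred_eq, not_or, not_not] at hcon
    obtain ⟨⟨⟨h1, h2⟩, h3⟩, h4⟩ := hcon
    apply hy
    have h5 := (hw y h1).1
    have h6 : gl (q * m) n (Tw.Word.act q w y) = g (gl (q * m) n y) := h5
    rw [← hZgl, h6, hgπ _ h2, h3, h4]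
  refine (v_mono hbad).trans ((v_union _ _).trans ?_)
  have hb1 : (volume (Sq ∩ {y | ¬ Good (q * m) n (min (e / 4) (1 / 2)) y})).toReal ≤ e := by
    have := bad2 (Nat.mul_pos hq hm0) hn0 hd0
    refine (ENNReal.toReal_mono ENNReal.ofReal_ne_top this).trans ?_
    rw [ENNReal.toReal_ofReal (by positivity)]
    have := min_le_left (e / 4) (1 / 2 : ℝ)
    linarith
  have hb2 : (volume (Sq ∩ {y | (gl (q * m) n y).2 = 0})).toReal ≤ e := by
    rw [v_cells (fun z : ZMod (q * m) × ZMod n => z.2 = 0)]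
    have h1 : (Finset.univ.filter (fun z : ZMod (q * m) × ZMod n => z.2 = 0)).card = q * m := by
      have : (Finset.univ.filter (fun z : ZMod (q * m) × ZMod n => z.2 = 0)) =
          Finset.univ ×ˢ {0} := by
        ext z
        simp only [Finset.mem_filter, Finset.mem_univ, true_and, Finset.mem_product,
          Finset.mem_singleton]
      rw [this, Finset.card_product, Finset.card_univ, ZMod.card, Finset.card_singleton, mul_one]
    rw [h1]
    have hqm : ((q * m : ℕ) : ℝ) ≠ 0 := by positivity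
    rw [div_mul_eq_div_div, div_self hqm]
    refine le_trans ?_ hKe
    exact one_div_le_one_div_of_le (by exact_mod_cast hKpos) (by exact_mod_cast hKn)
  have hb4 : (volume (Sq ∩ {y | Lam y ≠ P' (gl (q * m) n y)})).toReal ≤ e := by
    refine (ENNReal.toReal_mono ENNReal.ofReal_ne_top hP'v).trans ?_
    rw [ENNReal.toReal_ofReal he0.le]
  have hb3 : (volume (Sq ∩ {y | Z (π (gl (q * m) n y)) ≠ P' (gl (q * m) n y)})).toReal ≤
      2 * e + eta := by
    rw [v_cells (fun z : ZMod (q * m) × ZMod n => Z (π z) ≠ P' z)]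
    have hpos : (0:ℝ) < ((q * m : ℕ) : ℝ) * n := by positivity
    have hA : ∀ s, (volume (Sq ∩ {y | P' (gl (q * m) n y) = s})).toReal =
        ((Finset.univ.filter (fun z => P' z = s)).card : ℝ) / (((q * m : ℕ) : ℝ) * n) :=
      fun s => v_cells (fun z : ZMod (q * m) × ZMod n => P' z = s)
    have hB : ∀ s, 1 / (((q * c : ℕ) : ℝ) * M2) =
        ((Finset.univ.filter (fun z => Z z = s)).card : ℝ) / (((q * m : ℕ) : ℝ) * n) := by
      intro s
      rw [← v_cells (fun z : ZMod (q * m) × ZMod n => Z z = s)]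
      simp_rw [hZgl]
      rw [v_cells (fun z : ZMod (q * c) × ZMod M2 => z = s)]
      rw [Finset.filter_eq']
      simp
    have hfib1 := v_fiber (fun y => P' (gl (q * m) n y))
      (fun s => SaG.measurableSet_gl' (fun z => P' z = s)) {y | Lam y ≠ P' (gl (q * m) n y)}
    have hfib2 := v_fiber Lam hm {y | Lam y ≠ P' (gl (q * m) n y)}
    have hs : ∀ s, |(volume (Sq ∩ {y | P' (gl (q * m) n y) = s})).toReal -
        (volume (Sq ∩ {y | Lam y = s})).toReal| ≤
        (volume (Sq ∩ ({y | P' (gl (q * m) n y) = s} ∩ {y | Lam y ≠ P' (gl (q * m) n y)}))).toReal +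
        (volume (Sq ∩ ({y | Lam y = s} ∩ {y | Lam y ≠ P' (gl (q * m) n y)}))).toReal := by
      intro s
      have i1 : (volume (Sq ∩ {y | P' (gl (q * m) n y) = s})).toReal ≤
          (volume (Sq ∩ ({y | P' (gl (q * m) n y) = s} ∩ {y | Lam y ≠ P' (gl (q * m) n y)}))).toReal +
          (volume (Sq ∩ {y | Lam y = s})).toReal := by
        refine le_trans (v_mono ?_) (v_union _ _)
        rintro y ⟨_, hy⟩
        simp only [Set.mem_union, Set.mem_inter_iff, Set.mem_ofPred_eq] at hy ⊢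
        by_cases h : Lam y = P' (gl (q * m) n y)
        · right; rw [h, hy]
        · left; exact ⟨hy, h⟩
      have i2 : (volume (Sq ∩ {y | Lam y = s})).toReal ≤
          (volume (Sq ∩ ({y | Lam y = s} ∩ {y | Lam y ≠ P' (gl (q * m) n y)}))).toReal +
          (volume (Sq ∩ {y | P' (gl (q * m) n y) = s})).toReal := by
        refine le_trans (v_mono ?_) (v_union _ _)
        rintro y ⟨_, hy⟩
        simp only [Set.mem_union, Set.mem_inter_iff, Set.mem_ofPred_eq] at hy ⊢
        by_cases h : Lam y = P' (gl (q * m) n y)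
        · right; rw [← h, hy]
        · left; exact ⟨hy, h⟩
      have j1 : (0:ℝ) ≤ (volume (Sq ∩ ({y | P' (gl (q * m) n y) = s} ∩
        {y | Lam y ≠ P' (gl (q * m) n y)}))).toReal := ENNReal.toReal_nonneg
      have j2 : (0:ℝ) ≤ (volume (Sq ∩ ({y | Lam y = s} ∩
        {y | Lam y ≠ P' (gl (q * m) n y)}))).toReal := ENNReal.toReal_nonneg
      rw [abs_le]; constructor <;> linarith
    calc _ ≤ (∑ s, |((Finset.univ.filter (fun z => P' z = s)).card : ℝ) -
          (Finset.univ.filter (fun z => Z z = s)).card|) / (((q * m : ℕ) : ℝ) * n) := by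
          exact div_le_div_of_nonneg_right hπ hpos.le
      _ = ∑ s, |(volume (Sq ∩ {y | P' (gl (q * m) n y) = s})).toReal -
          1 / (((q * c : ℕ) : ℝ) * M2)| := by
          rw [Finset.sum_div]
          refine Finset.sum_congr rfl fun s _ => ?_
          rw [hA s, hB s, ← sub_div, abs_div, abs_of_pos hpos]
      _ ≤ ∑ s, (|(volume (Sq ∩ {y | P' (gl (q * m) n y) = s})).toReal -
          (volume (Sq ∩ {y | Lam y = s})).toReal| +
          |(volume (Sq ∩ {y | Lam y = s})).toReal - 1 / (((q * c : ℕ) : ℝ) * M2)|) :=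
          Finset.sum_le_sum fun s _ => abs_sub_le _ _ _
      _ = (∑ s, |(volume (Sq ∩ {y | P' (gl (q * m) n y) = s})).toReal -
          (volume (Sq ∩ {y | Lam y = s})).toReal|) +
          ∑ s, |(volume (Sq ∩ {y | Lam y = s})).toReal - 1 / (((q * c : ℕ) : ℝ) * M2)| :=
          Finset.sum_add_distrib
      _ ≤ 2 * e + eta := by
          refine add_le_add ?_ hdist
          refine (Finset.sum_le_sum fun s _ => hs s).trans ?_
          rw [Finset.sum_add_distrib, hfib1, hfib2]
          linarith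
  have hu1 := v_union ({y | ¬ Good (q * m) n (min (e / 4) (1 / 2)) y} ∪
    {y | (gl (q * m) n y).2 = 0}) {y | Z (π (gl (q * m) n y)) ≠ P' (gl (q * m) n y)}
  have hu2 := v_union {y | ¬ Good (q * m) n (min (e / 4) (1 / 2)) y} {y | (gl (q * m) n y).2 = 0}
  have : eps = 8 * e := by rw [hedef]; ring
  linarith

end Crest.Agent.R081.ShLab
end

-- ▼ part R081/Dg7
section

/-! Row 81, route B, node DGLUE, part 7: the label function of the pieces. -/

set_option autoImplicit false

namespace Crest.Agent.R081.Dg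

open MeasureTheory Crest.Agent.R075 Finset
open scoped ENNReal

variable {Λ : Type} {P : ℕ} {pc : ℝ → ℕ}

/-- mass of a piece -/
noncomputable def mss (pc : ℝ → ℕ) (p : ℕ) : ℝ := (volume (Set.Ico (0 : ℝ) 1 ∩ pc ⁻¹' {p})).toReal

theorem mss_nonneg (p : ℕ) : 0 ≤ mss pc p := ENNReal.toReal_nonneg

theorem mss_ne_top (p : ℕ) : volume (Set.Ico (0 : ℝ) 1 ∩ pc ⁻¹' {p}) ≠ ⊤ := by
  refine ne_top_of_le_ne_top ?_ (measure_mono Set.inter_subset_left)
  simp

theorem sum_mss (hpc : Measurable pc) (hlt : ∀ c, pc c < P) : ∑ p ∈ range P, mss pc p = 1 := by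
  have e : Set.Ico (0 : ℝ) 1 = ⋃ p ∈ range P, (Set.Ico (0 : ℝ) 1 ∩ pc ⁻¹' {p}) := by
    ext c
    simp only [Set.mem_iUnion, Set.mem_inter_iff, Set.mem_preimage, Set.mem_singleton_iff,
      Finset.mem_range, exists_prop]
    constructor
    · intro h; exact ⟨pc c, hlt c, h, rfl⟩
    · rintro ⟨p, _, h, _⟩; exact h
  have h1 : volume (Set.Ico (0 : ℝ) 1) = ∑ p ∈ range P, volume (Set.Ico (0 : ℝ) 1 ∩ pc ⁻¹' {p}) := by
    conv_lhs => rw [e]
    rw [measure_biUnion_finset]
    · intro p _ p' _ hne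
      rw [Function.onFun, Set.disjoint_left]
      rintro c ⟨_, hc⟩ ⟨_, hc'⟩
      exact hne (hc.symm.trans hc')
    · intro p _
      exact measurableSet_Ico.inter (hpc (measurableSet_singleton p))
  have h2 := congrArg ENNReal.toReal h1
  rw [ENNReal.toReal_sum (fun p _ => mss_ne_top p)] at h2
  rw [show (∑ p ∈ range P, mss pc p) = ∑ p ∈ range P,
    (volume (Set.Ico (0 : ℝ) 1 ∩ pc ⁻¹' {p})).toReal from rfl, ← h2]
  simp

theorem set_piece (hlt : ∀ c, pc c < P) (L : ℕ → ℝ → Λ) (n : Λ) :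
    {z : ℝ × ℝ | L (pc z.1) z.2 = n}
      = ⋃ p ∈ range P, (pc ⁻¹' {p}) ×ˢ {θ | L p θ = n} := by
  ext z
  simp only [Set.mem_ofPred_eq, Set.mem_iUnion, Set.mem_prod, Set.mem_preimage,
    Set.mem_singleton_iff, Finset.mem_range, exists_prop]
  constructor
  · intro h; exact ⟨pc z.1, hlt _, rfl, h⟩
  · rintro ⟨p, _, h1, h2⟩; rw [h1]; exact h2

theorem measurableSet_piece (hpc : Measurable pc) (hlt : ∀ c, pc c < P) (L : ℕ → ℝ → Λ) (n : Λ)
    (hL : ∀ p, MeasurableSet {θ | L p θ = n}) :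
    MeasurableSet {z : ℝ × ℝ | L (pc z.1) z.2 = n} := by
  rw [set_piece hlt L n]
  exact Finset.measurableSet_biUnion _ fun p _ =>
    (hpc (measurableSet_singleton p)).prod (hL p)

theorem volume_piece (hpc : Measurable pc) (hlt : ∀ c, pc c < P) (L : ℕ → ℝ → Λ) (n : Λ)
    (hL : ∀ p, MeasurableSet {θ | L p θ = n}) :
    (volume (Sq ∩ {z : ℝ × ℝ | L (pc z.1) z.2 = n})).toReal
      = ∑ p ∈ range P, mss pc p * (volume {θ ∈ Set.Ico (0 : ℝ) 1 | L p θ = n}).toReal := by
  have e : Sq ∩ {z : ℝ × ℝ | L (pc z.1) z.2 = n}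
      = ⋃ p ∈ range P, (Set.Ico (0 : ℝ) 1 ∩ pc ⁻¹' {p}) ×ˢ {θ ∈ Set.Ico (0 : ℝ) 1 | L p θ = n} := by
    ext z
    simp only [Sq, Set.mem_inter_iff, Set.mem_ofPred_eq, Set.mem_iUnion, Set.mem_prod,
      Set.mem_preimage, Set.mem_singleton_iff, Finset.mem_range, exists_prop]
    constructor
    · rintro ⟨⟨h1, h2⟩, h⟩; exact ⟨pc z.1, hlt _, ⟨h1, rfl⟩, h2, h⟩
    · rintro ⟨p, _, ⟨h1, h2⟩, h3, h4⟩
      exact ⟨⟨h1, h3⟩, by rw [h2]; exact h4⟩
  rw [e, measure_biUnion_finset]
  · rw [ENNReal.toReal_sum]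
    · refine Finset.sum_congr rfl fun p _ => ?_
      rw [Measure.volume_eq_prod, Measure.prod_prod, ENNReal.toReal_mul]
      rfl
    · intro p _
      rw [Measure.volume_eq_prod, Measure.prod_prod]
      refine ENNReal.mul_ne_top (mss_ne_top p) ?_
      refine ne_top_of_le_ne_top ?_ (measure_mono (Set.sep_subset _ _))
      simp
  · intro p _ p' _ hne
    rw [Function.onFun, Set.disjoint_left]
    rintro z ⟨⟨_, hc⟩, _⟩ ⟨⟨_, hc'⟩, _⟩
    exact hne (hc.symm.trans hc')
  · intro p _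
    exact (measurableSet_Ico.inter (hpc (measurableSet_singleton p))).prod
      (measurableSet_Ico.inter (hL p))

/-- distribution of the label function of the pieces -/
theorem dist_piece [Fintype Λ] {qq : ℕ} (hpc : Measurable pc) (hlt : ∀ c, pc c < P)
    (L : ℕ → ℤ → ℝ → Λ) (hL : ∀ p i n, MeasurableSet {θ | L p i θ = n}) (u η : ℝ)
    (hd : ∀ p < P, ∑ n : Λ, |(1 / (qq : ℝ)) * ∑ i ∈ range qq,
      (volume {θ ∈ Set.Ico (0:ℝ) 1 | L p i θ = n}).toReal - u| ≤ η) :
    ∑ n : Λ, |(1 / (qq : ℝ)) * ∑ b ∈ range qq,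
      (volume (Sq ∩ {z : ℝ × ℝ | L (pc z.1) (b : ℤ) z.2 = n})).toReal - u| ≤ η := by
  have h1 : ∀ n : Λ, |(1 / (qq : ℝ)) * ∑ b ∈ range qq,
      (volume (Sq ∩ {z : ℝ × ℝ | L (pc z.1) (b : ℤ) z.2 = n})).toReal - u|
      ≤ ∑ p ∈ range P, mss pc p * |(1 / (qq : ℝ)) * ∑ i ∈ range qq,
      (volume {θ ∈ Set.Ico (0:ℝ) 1 | L p i θ = n}).toReal - u| := by
    intro n
    have e1 : (1 / (qq : ℝ)) * ∑ b ∈ range qq,
        (volume (Sq ∩ {z : ℝ × ℝ | L (pc z.1) (b : ℤ) z.2 = n})).toReal - u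
        = ∑ p ∈ range P, mss pc p * ((1 / (qq : ℝ)) * ∑ i ∈ range qq,
          (volume {θ ∈ Set.Ico (0:ℝ) 1 | L p i θ = n}).toReal - u) := by
      have hv : ∀ b : ℕ, (volume (Sq ∩ {z : ℝ × ℝ | L (pc z.1) (b : ℤ) z.2 = n})).toReal
          = ∑ p ∈ range P, mss pc p *
            (volume {θ ∈ Set.Ico (0 : ℝ) 1 | L p (b : ℤ) θ = n}).toReal :=
        fun b => volume_piece hpc hlt (fun p => L p (b : ℤ)) n (fun p => hL p _ n)
      rw [Finset.sum_congr rfl (fun b _ => hv b)]
      simp only [mul_sub, Finset.sum_sub_distrib]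
      rw [← Finset.sum_mul, sum_mss hpc hlt, one_mul, Finset.sum_comm]
      congr 1
      rw [Finset.mul_sum]
      refine Finset.sum_congr rfl fun p _ => ?_
      rw [← Finset.mul_sum]; ring
    rw [e1]
    refine (Finset.abs_sum_le_sum_abs _ _).trans (Finset.sum_le_sum fun p _ => ?_)
    rw [abs_mul, abs_of_nonneg (mss_nonneg p)]
  refine (Finset.sum_le_sum fun n _ => h1 n).trans ?_
  rw [Finset.sum_comm]
  calc ∑ p ∈ range P, ∑ n : Λ, mss pc p * |(1 / (qq : ℝ)) * ∑ i ∈ range qq,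
      (volume {θ ∈ Set.Ico (0:ℝ) 1 | L p i θ = n}).toReal - u|
      ≤ ∑ p ∈ range P, mss pc p * η := by
        refine Finset.sum_le_sum fun p hp => ?_
        rw [← Finset.mul_sum]
        exact mul_le_mul_of_nonneg_left (hd p (Finset.mem_range.1 hp)) (mss_nonneg p)
    _ = η := by rw [← Finset.sum_mul, sum_mss hpc hlt, one_mul]

end Crest.Agent.R081.Dg
end

-- ▼ part R081/Dg8
section

/-! Row 81, route B, node DGLUE, part 8: the design from a label design. -/

set_option autoImplicit false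

namespace Crest.Agent.R081.Dg

open MeasureTheory Crest.Agent.R075 Finset Crest.Agent.R081.DgA Crest.Agent.R081.Dl
open scoped ENNReal

section

variable {q M1 M2 : ℕ} {Fam : Set (ZMod M1 × ZMod M2 → ℂ)} {eps : ℝ}

/-- the piece of `c`, always `< P` -/
noncomputable def pc' {Λ : Type} [Fintype Λ] {Fam : Set (Λ → ℂ)} (D : LabelDesign q Λ Fam eps)
    (del : ℝ) (c : ℝ) : ℕ := min (pcl D del c) (D.P - 1)

theorem pc'_lt {Λ : Type} [Fintype Λ] {Fam : Set (Λ → ℂ)} (D : LabelDesign q Λ Fam eps)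
    (del : ℝ) (c : ℝ) : pc' D del c < D.P := by
  have := D.P_pos
  unfold pc'
  omega

theorem measurable_pc' {Λ : Type} [Fintype Λ] {Fam : Set (Λ → ℂ)} (D : LabelDesign q Λ Fam eps)
    (del : ℝ) : Measurable (pc' D del) := by
  unfold pc'
  exact measurable_pcl.min measurable_const

theorem pc'_eq {Λ : Type} [Fintype Λ] {Fam : Set (Λ → ℂ)} (D : LabelDesign q Λ Fam eps)
    {del : ℝ} (hd : del < 1 / 2) {c : ℝ} (h2 : c < 1 - del) : pc' D del c = pcl D del c := by
  unfold pc'
  refine min_eq_left ?_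
  have hP : (0 : ℝ) < D.P := by exact_mod_cast D.P_pos
  have h3 : sc del c < 1 := by
    unfold sc
    rw [div_lt_one (by linarith)]
    linarith
  have h4 : (D.P : ℝ) * sc del c < D.P := by
    calc (D.P : ℝ) * sc del c < D.P * 1 := mul_lt_mul_of_pos_left h3 hP
      _ = D.P := mul_one _
  have h5 : pcl D del c < D.P := by
    unfold pcl
    exact (Nat.floor_lt' (D.P_pos.ne')).2 h4
  omega

end

theorem hZ1_word {q qq : ℕ} {N : ℤ} (hq : 0 < q) (hqq : 0 < qq) (w : Tw.Word) (k : ℤ × ℤ) (c : ℝ) :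
    ∑ a ∈ range qq, ∑' b : ℤ, ‖St.Dd q qq N w k a b c‖ₑ ^ 2 ≤ 1 := by
  have h1 := Co.DD_parseval (Co.eqv_word hq w) hqq N k c
  have h2 : ∑ a ∈ range qq, ∑' b : ℤ, ‖St.Dd q qq N w k a b c‖ₑ ^ 2 = ENNReal.ofReal 1 := by
    rw [← h1.tsum_eq, ENNReal.ofReal_tsum_of_nonneg (fun b => by positivity) h1.summable,
      ← Summable.tsum_finsetSum (fun a _ => ENNReal.summable)]
    refine tsum_congr fun b => ?_
    rw [ENNReal.ofReal_sum_of_nonneg (fun a _ => by positivity)]
    refine Finset.sum_congr rfl fun a _ => ?_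
    rw [ENNReal.ofReal_pow (norm_nonneg _), ofReal_norm]
    rfl
  rw [h2]; simp

section main

variable {q M1 M2 : ℕ} [NeZero M1] [NeZero M2] {Fam : Set (ZMod M1 × ZMod M2 → ℂ)} {eps : ℝ}

/-- **the coefficients of the word are close to the main coefficients** -/
theorem err_des (hq : 0 < q) (hdiv : q ∣ M1) (D : LabelDesign q (ZMod M1 × ZMod M2) Fam eps)
    {N N' : ℤ} (hN : (D.qq : ℤ) ∣ N * q - 1) (hN' : (q : ℤ) ∣ N' * D.qq - 1)
    {del : ℝ} (hd0 : 0 < del) (hd1 : del < 1 / 2) (w : Tw.Word) {β : ℝ} (hβ0 : 0 ≤ β)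
    (hw : (volume (Sq ∩ Bad q D.qq M1 M2 N' (fun c i θ => D.lab (pc' D del c) i θ) w)).toReal ≤ β)
    (k : ℤ × ℤ) (hk : Ek M1 M2 k ∈ Fam) {κ : ℝ}
    (hκ : 2 * Real.pi * (|(k.1 : ℝ)| / M1 + |(k.2 : ℝ)| / M2) ≤ κ) :
    ∑ a ∈ Finset.range D.qq, ∑' b : ℤ, ∫⁻ c in Set.Ioc (0:ℝ) 1,
      ‖St.Dd q D.qq N w k a b c - MC D del (Ek M1 M2 k) a b c‖ₑ ^ 2
      ≤ ENNReal.ofReal (3 * (κ ^ 2 + 4 * β) + Kc eps del + 2 * eps + 2 * del) := by
  set lab : ℝ → ℤ → ℝ → ZMod M1 × ZMod M2 := fun c i θ => D.lab (pc' D del c) i θ with hlabdef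
  have hlab : ∀ c i θ, lab c (i + D.qq) θ = lab c i θ := fun c i θ => D.lab_per _ _ _
  have hmeas : ∀ i n, MeasurableSet {z : ℝ × ℝ | lab z.1 i z.2 = n} := fun i n =>
    measurableSet_piece (measurable_pc' D del) (pc'_lt D del) (fun p => D.lab p i) n
      (fun p => D.lab_meas p i n)
  refine err_bound hd0 hd1 hk (fun n => norm_Ek k n) (St.Dd q D.qq N w k)
    (fun a b => measurable_Dd w k a b) (fun c _ => hZ1_word hq D.qq_pos w k c) (by positivity) ?_
  have h1 : ∀ (a b : ℤ), ∫⁻ c in Set.Icc del (1 - del),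
      ‖St.Dd q D.qq N w k a b c - Dco D.qq (fun i θ => Ek M1 M2 k (D.lab (pcl D del c) i θ)) a b‖ₑ ^ 2
      ≤ ∫⁻ c in Set.Ioc (0 : ℝ) 1, ‖St.Dd q D.qq N w k a b c - DLab D.qq k lab a b c‖ₑ ^ 2 := by
    intro a b
    rw [← setLIntegral_congr (Ico_ae_eq_Icc (a := del) (b := 1 - del) (μ := volume))]
    have h2 : ∫⁻ c in Set.Ico del (1 - del), ‖St.Dd q D.qq N w k a b c
          - Dco D.qq (fun i θ => Ek M1 M2 k (D.lab (pcl D del c) i θ)) a b‖ₑ ^ 2
        = ∫⁻ c in Set.Ico del (1 - del), ‖St.Dd q D.qq N w k a b c - DLab D.qq k lab a b c‖ₑ ^ 2 := by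
      refine setLIntegral_congr_fun measurableSet_Ico fun c hc => ?_
      have h3 := pc'_eq D hd1 hc.2
      have h4 : Dco D.qq (fun i θ => Ek M1 M2 k (D.lab (pcl D del c) i θ)) a b
          = DLab D.qq k lab a b c := by
        simp only [hlabdef, DLab, h3]
        rfl
      simp only [h4]
    rw [h2]
    refine lintegral_mono_set ?_
    intro c hc
    exact ⟨by linarith [hc.1], by linarith [hc.2]⟩
  refine (Finset.sum_le_sum (s := Finset.range D.qq) fun (a : ℕ) _ =>
    ENNReal.tsum_le_tsum fun b => h1 (a : ℤ) b).trans ?_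
  rw [lintegral_sum_tsum (fun a b c => ‖St.Dd q D.qq N w k a b c - DLab D.qq k lab a b c‖ₑ ^ 2)
    (fun a b => ((measurable_Dd w k a b).sub (measurable_DLab hmeas k a b)).enorm.pow_const 2)]
  refine (err_lab hq D.qq_pos D.cop hdiv hN hN' hlab hmeas w k hκ).trans ?_
  have h5 : volume (Sq ∩ Bad q D.qq M1 M2 N' lab w) ≤ ENNReal.ofReal β :=
    (ENNReal.le_ofReal_iff_toReal_le (volume_Sq_inter_ne_top _) hβ0).2 hw
  rw [ENNReal.ofReal_add (by positivity) (by positivity), ENNReal.ofReal_mul (by norm_num)]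
  gcongr
  norm_num

end main

end Crest.Agent.R081.Dg
end

-- ▼ part R081/Dg9

/-! Row 81, route B, node DGLUE, part 9: `St.DesStmt` from the label design. -/

set_option autoImplicit false

namespace Crest.Agent.R081.Dg

open MeasureTheory Crest.Agent.R075 Finset Crest.Agent.R081.DgA Crest.Agent.R081.Dl
open scoped ENNReal

section main

variable {q M1 M2 : ℕ} [NeZero M1] [NeZero M2] {Fam : Set (ZMod M1 × ZMod M2 → ℂ)} {e : ℝ}

omit [NeZero M1] in
theorem bezout (hcop : Nat.Coprime q M1) : ∃ N N' : ℤ, (M1 : ℤ) ∣ N * q - 1 ∧ (q : ℤ) ∣ N' * M1 - 1 := by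
  obtain ⟨u, v, h⟩ := (Nat.isCoprime_iff_coprime (m := q) (n := M1)).2 hcop
  exact ⟨u, v, ⟨-v, by linear_combination h⟩, ⟨-u, by linear_combination h⟩⟩

/-- the word of a label design -/
theorem exists_word (hq : 0 < q) (hdiv : q ∣ M1) (D : LabelDesign q (ZMod M1 × ZMod M2) Fam e)
    (he : 0 < e) {N' : ℤ} (hN' : (q : ℤ) ∣ N' * D.qq - 1) (del : ℝ) :
    ∃ w : Tw.Word,
      (volume (Sq ∩ Bad q D.qq M1 M2 N' (fun c i θ => D.lab (pc' D del c) i θ) w)).toReal ≤ 2 * e := by
  set lab : ℝ → ℤ → ℝ → ZMod M1 × ZMod M2 := fun c i θ => D.lab (pc' D del c) i θ with hlabdef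
  have hlab : ∀ c i θ, lab c (i + D.qq) θ = lab c i θ := fun c i θ => D.lab_per _ _ _
  have hmeas : ∀ i n, MeasurableSet {z : ℝ × ℝ | lab z.1 i z.2 = n} := fun i n =>
    measurableSet_piece (measurable_pc' D del) (pc'_lt D del) (fun p => D.lab p i) n
      (fun p => D.lab_meas p i n)
  have h1 := dist_piece (qq := D.qq) (measurable_pc' D del) (pc'_lt D del) D.lab D.lab_meas
    (1 / (Fintype.card (ZMod M1 × ZMod M2) : ℝ)) e D.dist
  have h2 := dist_Lam (N' := N') hq D.qq_pos D.cop hdiv hlab hmeas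
    (1 / (Fintype.card (ZMod M1 × ZMod M2) : ℝ)) e h1
  have hcard : (Fintype.card (ZMod M1 × ZMod M2) : ℝ) = (M1 : ℝ) * M2 := by
    rw [Fintype.card_prod, ZMod.card, ZMod.card]; push_cast; ring
  rw [hcard] at h2
  obtain ⟨w, hw⟩ := ShLab.exists_word_label hq hdiv (Lam q D.qq M1 M2 N' lab)
    (fun s => measurableSet_Lam hmeas s)
    (fun y => Lam_add_one_div hq D.qq_pos hdiv hN' hlab y) h2 he
  refine ⟨w, ?_⟩
  have h3 : e + e = 2 * e := by ring
  rw [h3] at hw
  exact hw

end main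

/-- the label statement for the group `ℤ/M1 × ℤ/M2` -/
def LabStmt : Prop :=
  ∀ (q : ℕ), 0 < q → ∀ (M1 M2 : ℕ) [NeZero M1] [NeZero M2] (Fam : Set (ZMod M1 × ZMod M2 → ℂ)),
    Fam.Finite → (∀ E ∈ Fam, ∀ s, ‖E s‖ = 1) → (∀ E ∈ Fam, ∑ s, E s = 0) → ∀ e : ℝ, 0 < e →
    Nonempty (LabelDesign q (ZMod M1 × ZMod M2) Fam e)

theorem not_dvd_of_lt {M : ℕ} {n : ℤ} (h0 : n ≠ 0) (h : n.natAbs < M) : ¬ ((M : ℤ) ∣ n) := by
  intro hd
  have h1 := Int.natAbs_dvd_natAbs.2 hd
  rw [Int.natAbs_natCast] at h1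
  have h2 := Nat.le_of_dvd (Int.natAbs_pos.2 h0) h1
  omega

theorem desStmt_of (hL : LabStmt) : St.DesStmt := by
  classical
  intro q hq K eps heps
  -- the small parameter
  obtain ⟨e, he0, he1, he2, he3⟩ : ∃ e : ℝ, 0 < e ∧ e ≤ 1 / 16 ∧ e ≤ eps ∧ e ≤ eps ^ 2 / 60 :=
    ⟨min (min (1 / 16) eps) (eps ^ 2 / 60), by positivity,
      (min_le_left _ _).trans (min_le_left _ _), (min_le_left _ _).trans (min_le_right _ _),
      min_le_right _ _⟩
  -- the size of the grid
  set S : ℕ := ∑ k ∈ K, (k.1.natAbs + k.2.natAbs) with hS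
  obtain ⟨R, hR⟩ := exists_nat_gt (2 * Real.pi * S / e + S)
  have hpi := Real.pi_pos
  have hR1 : (S : ℝ) < R := by
    have : 0 ≤ 2 * Real.pi * S / e := by positivity
    linarith
  have hR2 : 2 * Real.pi * S / e < R := by
    have : (0 : ℝ) ≤ S := Nat.cast_nonneg _
    linarith
  have hR0 : 0 < R := by
    have : (0 : ℝ) ≤ S := Nat.cast_nonneg _
    have h : (0 : ℝ) < R := by linarith
    exact_mod_cast h
  have hSR : S < R := by exact_mod_cast hR1
  set M1 : ℕ := q * R with hM1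
  set M2 : ℕ := R with hM2
  have hM10 : 0 < M1 := Nat.mul_pos hq hR0
  have : NeZero M1 := ⟨hM10.ne'⟩
  have : NeZero M2 := ⟨hR0.ne'⟩
  have hdiv : q ∣ M1 := Dvd.intro _ rfl
  have hle : ∀ k ∈ K, k.1.natAbs + k.2.natAbs ≤ S := fun k hk =>
    Finset.single_le_sum (f := fun k : ℤ × ℤ => k.1.natAbs + k.2.natAbs)
      (fun _ _ => Nat.zero_le _) hk
  have hRM : R ≤ M1 := Nat.le_mul_of_pos_left R hq
  -- the family of characters
  set Fam : Set (ZMod M1 × ZMod M2 → ℂ) := (fun k => Ek M1 M2 k) '' {k | k ∈ K ∧ k ≠ 0} with hFam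
  have hfin : Fam.Finite := by
    refine Set.Finite.image _ (K.finite_toSet.subset ?_)
    intro k hk; exact hk.1
  have huni : ∀ E ∈ Fam, ∀ s, ‖E s‖ = 1 := by
    rintro E ⟨k, _, rfl⟩ s
    exact norm_Ek k s
  have hsum : ∀ E ∈ Fam, ∑ s, E s = 0 := by
    rintro E ⟨k, ⟨hk, hk0⟩, rfl⟩
    refine sum_Ek k ?_
    have h1 := hle k hk
    by_cases h : k.1 = 0
    · right
      refine not_dvd_of_lt ?_ (by omega)
      intro h2; exact hk0 (Prod.ext h h2)
    · left
      exact not_dvd_of_lt h (by omega)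
  obtain ⟨D⟩ := hL q hq M1 M2 Fam hfin huni hsum e he0
  obtain ⟨N, N', hN, hN'⟩ := bezout D.cop
  obtain ⟨w, hw⟩ := exists_word hq hdiv D he0 hN' e
  have hd1 : e < 1 / 2 := by linarith
  refine ⟨{
    q2 := D.qq
    q2_pos := D.qq_pos
    cop := D.cop
    N := N
    hN := hN
    del := e
    del_pos := he0
    del_lt := by linarith
    del_le := he2
    v := D.v
    v_pos := D.v_pos
    w := w
    B := D.B.toNat
    E := EC D e
    E_meas := EC_meas
    E_ne0 := EC_ne0
    E_B := EC_B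
    E_sub := EC_sub hd1
    E_symm := EC_symm
    E_inj := EC_inj he0 hd1
    M := fun k => MC D e (Ek M1 M2 k)
    M_meas := fun k a b => MC_meas _ a b
    M_per := fun k a b c => MC_per _ a b c
    M_norm := fun k a b c => MC_norm hd1 (fun n => norm_Ek k n) a b c
    M_symm := fun k a b c => MC_symm (fun n => Ek_neg k n) a b c
    err := ?_ }⟩
  intro k hk hk0
  have hκ : 2 * Real.pi * (|(k.1 : ℝ)| / M1 + |(k.2 : ℝ)| / M2) ≤ e := by
    have h1 : (|(k.1 : ℝ)| + |(k.2 : ℝ)|) ≤ S := by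
      have := hle k hk
      have h2 : ((k.1.natAbs + k.2.natAbs : ℕ) : ℝ) ≤ S := by exact_mod_cast this
      rw [Nat.cast_add, Nat.cast_natAbs, Nat.cast_natAbs] at h2
      simpa using h2
    have hRr : (0 : ℝ) < R := by exact_mod_cast hR0
    have hM1r : (R : ℝ) ≤ M1 := by exact_mod_cast hRM
    have h3 : |(k.1 : ℝ)| / M1 + |(k.2 : ℝ)| / M2 ≤ S / R := by
      calc |(k.1 : ℝ)| / M1 + |(k.2 : ℝ)| / M2 ≤ |(k.1 : ℝ)| / R + |(k.2 : ℝ)| / R := by
            gcongr
        _ = (|(k.1 : ℝ)| + |(k.2 : ℝ)|) / R := by ring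
        _ ≤ S / R := by gcongr
    calc 2 * Real.pi * (|(k.1 : ℝ)| / M1 + |(k.2 : ℝ)| / M2) ≤ 2 * Real.pi * (S / R) := by gcongr
      _ = (2 * Real.pi * S / e) * (e / R) := by field_simp
      _ ≤ R * (e / R) := by gcongr
      _ = e := by field_simp
  have h1 := err_des hq hdiv D hN hN' he0 hd1 w (β := 2 * e) (by positivity) hw k
    ⟨k, ⟨hk, hk0⟩, rfl⟩ hκ
  refine h1.trans (ENNReal.ofReal_le_ofReal ?_)
  have h2 : Kc e e ≤ 17 * e := by
    unfold Kc
    have h3 : 2 * e / (1 - 2 * e) ≤ (16 / 7) * e := by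
      rw [div_le_iff₀ (by linarith)]
      nlinarith
    have h4 : 3 * (2 * e / (1 - 2 * e)) * (2 + 2 * e ^ 2) ≤ 3 * ((16 / 7) * e) * (2 + 2 * e ^ 2) := by
      gcongr
    have h5 : e ^ 2 ≤ e / 16 := by nlinarith
    have h6 : e ^ 2 ≤ 1 / 256 := by nlinarith
    have h7 : e * e ^ 2 ≤ e * (1 / 256) := by gcongr
    nlinarith
  nlinarith

end Crest.Agent.R081.Dg
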