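import Mathlib
import Crest.Agent.R081.DlDefs
import Crest.Agent.R075.ThmQ_Mg
import Crest.Agent.R075.PackMain
import Crest.Agent.R075.Gauss
import Crest.Agent.R075.Basic

-- ▼ part R081/DlLines
section

/-!
# Row 81, route B: systems of lines (helper269)
-/

set_option autoImplicit false

namespace Crest.Agent.R081.Dl

open MeasureTheory Finset Crest.Agent.R075

/-- finitely many lines `(al l, bl l)` on `ℤ/n × ℤ`, symmetric, pairwise different. -/
structure LineSys (n : ℕ) (Λ ι : Type) where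
  ls : Finset ι
  al : ι → ℤ
  bl : ι → ℤ
  lbl : ι → Λ
  u : ι → ℂ
  hu : ∀ l, ‖u l‖ = 1
  flip : ι → ι
  flip_mem : ∀ l ∈ ls, flip l ∈ ls
  al_flip : ∀ l, al (flip l) = - al l
  bl_flip : ∀ l, bl (flip l) = - bl l
  lbl_flip : ∀ l, lbl (flip l) = lbl l
  u_flip : ∀ l, u (flip l) = (starRingEnd ℂ) (u l)
  uniq : ∀ l ∈ ls, ∀ l' ∈ ls, bl l = bl l' → (n:ℤ) ∣ al l - al l' → l = l'

namespace LineSys

variable {n : ℕ} {Λ ι : Type} (S : LineSys n Λ ι)

/-- `l` is the line through `(a,b)` -/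
def on (l : ι) (a b : ℤ) : Prop := l ∈ S.ls ∧ S.bl l = b ∧ (n:ℤ) ∣ a - S.al l

/-- `(a,b)` is on a line -/
def line (a b : ℤ) : Prop := ∃ l, S.on l a b

lemma on_unique {l l' : ι} {a b : ℤ} (h : S.on l a b) (h' : S.on l' a b) : l = l' := by
  refine S.uniq l h.1 l' h'.1 (h.2.1.trans h'.2.1.symm) ?_
  have := dvd_sub h'.2.2 h.2.2
  have e : a - S.al l' - (a - S.al l) = S.al l - S.al l' := by ring
  rwa [e] at this

lemma on_flip {l : ι} {a b : ℤ} (h : S.on l a b) : S.on (S.flip l) (-a) (-b) := by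
  refine ⟨S.flip_mem l h.1, by rw [S.bl_flip, h.2.1], ?_⟩
  rw [S.al_flip]
  have := h.2.2.neg_right
  have e : -(a - S.al l) = -a - -S.al l := by ring
  rwa [e] at this

lemma line_symm (a b : ℤ) : S.line (-a) (-b) ↔ S.line a b := by
  constructor
  · rintro ⟨l, hl⟩
    have := S.on_flip hl
    rw [neg_neg, neg_neg] at this
    exact ⟨_, this⟩
  · rintro ⟨l, hl⟩
    exact ⟨_, S.on_flip hl⟩

lemma on_per (l : ι) (a b : ℤ) : S.on l (a + n) b ↔ S.on l a b := by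
  unfold on
  have e : a + n - S.al l = (a - S.al l) + n := by ring
  rw [e, dvd_add_self_right]

lemma line_per (a b : ℤ) : S.line (a + n) b ↔ S.line a b := by
  unfold line
  simp only [S.on_per]

open Classical in
/-- the label at `(a,b)` -/
noncomputable def ll (d : Λ) (a b : ℤ) : Λ := if h : S.line a b then S.lbl h.choose else d

open Classical in
/-- the phase at `(a,b)` -/
noncomputable def amp (a b : ℤ) : ℂ := if h : S.line a b then S.u h.choose else 1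

lemma ll_eq (d : Λ) {l : ι} {a b : ℤ} (h : S.on l a b) : S.ll d a b = S.lbl l := by
  have h' : S.line a b := ⟨l, h⟩
  rw [ll, dif_pos h', S.on_unique h'.choose_spec h]

lemma amp_eq {l : ι} {a b : ℤ} (h : S.on l a b) : S.amp a b = S.u l := by
  have h' : S.line a b := ⟨l, h⟩
  rw [amp, dif_pos h', S.on_unique h'.choose_spec h]

lemma ll_not (d : Λ) {a b : ℤ} (h : ¬ S.line a b) : S.ll d a b = d := by
  rw [ll, dif_neg h]

lemma amp_not {a b : ℤ} (h : ¬ S.line a b) : S.amp a b = 1 := by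
  rw [amp, dif_neg h]

lemma ll_per (d : Λ) (a b : ℤ) : S.ll d (a + n) b = S.ll d a b := by
  by_cases h : S.line a b
  · obtain ⟨l, hl⟩ := h
    rw [S.ll_eq d hl, S.ll_eq d ((S.on_per l a b).2 hl)]
  · rw [S.ll_not d h, S.ll_not d (fun h' => h ((S.line_per a b).1 h'))]

lemma amp_per (a b : ℤ) : S.amp (a + n) b = S.amp a b := by
  by_cases h : S.line a b
  · obtain ⟨l, hl⟩ := h
    rw [S.amp_eq hl, S.amp_eq ((S.on_per l a b).2 hl)]
  · rw [S.amp_not h, S.amp_not (fun h' => h ((S.line_per a b).1 h'))]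

lemma ll_symm (d : Λ) (a b : ℤ) : S.ll d (-a) (-b) = S.ll d a b := by
  by_cases h : S.line a b
  · obtain ⟨l, hl⟩ := h
    rw [S.ll_eq d hl, S.ll_eq d (S.on_flip hl), S.lbl_flip]
  · rw [S.ll_not d h, S.ll_not d (fun h' => h ((S.line_symm a b).1 h'))]

lemma amp_symm (a b : ℤ) : S.amp (-a) (-b) = (starRingEnd ℂ) (S.amp a b) := by
  by_cases h : S.line a b
  · obtain ⟨l, hl⟩ := h
    rw [S.amp_eq hl, S.amp_eq (S.on_flip hl), S.u_flip]
  · rw [S.amp_not h, S.amp_not (fun h' => h ((S.line_symm a b).1 h')), map_one]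

lemma amp_norm (a b : ℤ) : ‖S.amp a b‖ = 1 := by
  by_cases h : S.line a b
  · obtain ⟨l, hl⟩ := h
    rw [S.amp_eq hl, S.hu]
  · rw [S.amp_not h, norm_one]

open Classical in
/-- at most one line contributes. -/
lemma sum_on {M : Type*} [AddCommMonoid M] (F : ι → M) {l : ι} {a b : ℤ} (h : S.on l a b) :
    ∑ l' ∈ S.ls, (if S.bl l' = b ∧ (n:ℤ) ∣ a - S.al l' then F l' else 0) = F l := by
  rw [Finset.sum_eq_single l]
  · rw [if_pos h.2]
  · intro l' hl' hne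
    rw [if_neg]
    intro h'
    exact hne (S.on_unique ⟨hl', h'⟩ h)
  · intro hl; exact absurd h.1 hl

open Classical in
lemma sum_not {M : Type*} [AddCommMonoid M] (F : ι → M) {a b : ℤ} (h : ¬ S.line a b) :
    ∑ l' ∈ S.ls, (if S.bl l' = b ∧ (n:ℤ) ∣ a - S.al l' then F l' else 0) = 0 := by
  refine Finset.sum_eq_zero fun l' hl' => ?_
  rw [if_neg]
  intro h'
  exact h ⟨l', hl', h'⟩

/-- the representative of `a` in `Fin n`. -/
lemma exists_rep (hn : 0 < n) (a : ℤ) : ∃ x : Fin n, ∀ y : Fin n, (n:ℤ) ∣ (y:ℤ) - a ↔ y = x := by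
  have hn' : (0:ℤ) < n := by exact_mod_cast hn
  have h1 := Int.emod_nonneg a hn'.ne'
  have h2 := Int.emod_lt_of_pos a hn'
  refine ⟨⟨(a % n).toNat, by omega⟩, fun y => ?_⟩
  constructor
  · intro h
    have h3 : (n:ℤ) ∣ (y:ℤ) - a % n := by
      have e : (y:ℤ) - a % n = (y - a) + (n * (a / n)) := by
        have := Int.emod_add_mul_ediv a n
        linarith
      rw [e]; exact dvd_add h (dvd_mul_right _ _)
    have h4 : ((y:ℕ):ℤ) < n := by exact_mod_cast y.2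
    have h5 : (0:ℤ) ≤ (y:ℕ) := by positivity
    obtain ⟨c, hc⟩ := h3
    have h6 : c = 0 := by
      by_contra hc0
      rcases lt_or_gt_of_ne hc0 with h | h
      · nlinarith
      · nlinarith
    rw [h6, mul_zero] at hc
    apply Fin.ext
    simp only
    omega
  · rintro rfl
    simp only
    rw [Int.toNat_of_nonneg h1]
    have e : a % n - a = n * (-(a / n)) := by
      have := Int.emod_add_mul_ediv a n
      linarith
    rw [e]; exact dvd_mul_right _ _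

open Classical in
/-- summing over all `(a,b)`. -/
lemma hasSum_lines (hn : 0 < n) (F : ι → ℝ) :
    HasSum (fun x : Fin n × ℤ => ∑ l' ∈ S.ls,
      (if S.bl l' = x.2 ∧ (n:ℤ) ∣ (x.1:ℤ) - S.al l' then F l' else 0)) (∑ l ∈ S.ls, F l) := by
  refine hasSum_sum fun l _ => ?_
  obtain ⟨x0, hx0⟩ := exists_rep hn (S.al l)
  have e : (fun x : Fin n × ℤ => (if S.bl l = x.2 ∧ (n:ℤ) ∣ (x.1:ℤ) - S.al l then F l else 0))
      = fun x : Fin n × ℤ => if x = (x0, S.bl l) then F l else 0 := by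
    funext x
    have : (S.bl l = x.2 ∧ (n:ℤ) ∣ (x.1:ℤ) - S.al l) ↔ x = (x0, S.bl l) := by
      rw [hx0 x.1]
      constructor
      · rintro ⟨h1, h2⟩; exact Prod.ext h2 h1.symm
      · intro h; rw [h]; exact ⟨rfl, rfl⟩
    simp only [this]
  rw [e]
  exact hasSum_ite_eq _ _

open Classical in
lemma sum_lines (hn : 0 < n) (B : ℤ) (hB : ∀ l ∈ S.ls, |S.bl l| ≤ B) (F : ι → ℝ) :
    ∑ a ∈ range n, ∑ b ∈ Icc (-B) B, ∑ l' ∈ S.ls,
      (if S.bl l' = b ∧ (n:ℤ) ∣ (a:ℤ) - S.al l' then F l' else 0) = ∑ l ∈ S.ls, F l := by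
  have h1 : ∀ a : ℕ, ∑ b ∈ Icc (-B) B, ∑ l' ∈ S.ls,
      (if S.bl l' = b ∧ (n:ℤ) ∣ (a:ℤ) - S.al l' then F l' else 0)
      = ∑ l' ∈ S.ls, if (n:ℤ) ∣ (a:ℤ) - S.al l' then F l' else 0 := by
    intro a
    rw [Finset.sum_comm]
    refine Finset.sum_congr rfl fun l hl => ?_
    have hmem : S.bl l ∈ Icc (-B) B := by
      rw [mem_Icc]; exact abs_le.1 (hB l hl)
    rw [Finset.sum_eq_single (S.bl l)]
    · simp
    · intro b _ hne
      rw [if_neg]; exact fun h => hne h.1.symm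
    · intro h; exact absurd hmem h
  simp only [h1]
  rw [Finset.sum_comm]
  refine Finset.sum_congr rfl fun l _ => ?_
  obtain ⟨x0, hx0⟩ := exists_rep hn (S.al l)
  rw [Finset.sum_eq_single (x0 : ℕ)]
  · rw [if_pos ((hx0 x0).2 rfl)]
  · intro a ha hne
    rw [if_neg]
    intro h
    exact hne (congrArg Fin.val ((hx0 ⟨a, mem_range.1 ha⟩).1 h))
  · intro h; exact absurd (mem_range.2 x0.2) h

end LineSys

end Crest.Agent.R081.Dl
end

-- ▼ part R081/DCells
section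

/-!
# Row 81: the cells of `ℤ/(hQ)` (generic version of `R075/Cells`, no parity hypotheses)
-/

set_option autoImplicit false

namespace Crest.Agent.R081.D

open Finset

/-- combinatorial data of the design: blocks, base arcs, residues -/
structure CD (ι Pc : Type) [Fintype ι] [DecidableEq ι] where
  L : ℕ
  l : ℕ
  L_pos : 0 < L
  l_pos : 0 < l
  t1 : ι → ℕ
  t1_pos : ∀ t, 0 < t1 t
  t1_dvd : ∀ t, t1 t ∣ L
  tau : ℕ → Option ι
  tau_symm : ∀ B < l, ∀ t, tau B = some t → tau (l - 1 - B) = none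
  s : Pc → ι → ℕ
  s_blk : ∀ i t, ∃ B < l, ∃ r < L, t1 t ∣ r ∧ s i t = L * B + r ∧ tau B = some t
  q : ι → ℕ
  q_pos : ∀ t, 0 < q t
  v : Pc → ι → ℤ
  v_inj : ∀ t i i', s i t = s i' t → v i t ≡ v i' t [ZMOD q t] → i = i'

namespace CD

variable {ι Pc : Type} [Fintype ι] [DecidableEq ι] (C : CD ι Pc)

def h : ℕ := C.L * C.l

def Q : ℕ := ∏ t, C.q t

def Dt (t : ι) : ℕ := ∏ t' ∈ univ.erase t, C.q t'

def M : ℕ := C.h * C.Q

lemma Q_eq (t : ι) : C.Q = C.q t * C.Dt t := by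
  unfold Q Dt
  rw [Finset.mul_prod_erase _ _ (mem_univ t)]

lemma Q_pos : 0 < C.Q := Finset.prod_pos fun t _ => C.q_pos t

lemma Dt_pos (t : ι) : 0 < C.Dt t := Finset.prod_pos fun t _ => C.q_pos t

lemma h_pos : 0 < C.h := Nat.mul_pos C.L_pos C.l_pos
lemma M_pos : 0 < C.M := Nat.mul_pos C.h_pos C.Q_pos

/-- the residue mod `Q` of the high part -/
def hi (i : Pc) (t : ι) (j : ℕ) : ℕ := ((C.v i t + j * C.q t) % (C.Q : ℤ)).toNat

def X (i : Pc) (t : ι) (j : ℕ) : ℕ := C.s i t + C.h * C.hi i t j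

lemma hi_cast (i : Pc) (t : ι) (j : ℕ) :
    (C.hi i t j : ℤ) = (C.v i t + j * C.q t) % (C.Q : ℤ) := by
  unfold hi
  rw [Int.toNat_of_nonneg]
  exact Int.emod_nonneg _ (by have := C.Q_pos; omega)

lemma hi_lt (i : Pc) (t : ι) (j : ℕ) : C.hi i t j < C.Q := by
  have h1 := C.hi_cast i t j
  have h2 := Int.emod_lt_of_pos (C.v i t + j * C.q t) (b := (C.Q : ℤ)) (by have := C.Q_pos; omega)
  omega

lemma s_add_le (i : Pc) (t : ι) : C.s i t + C.t1 t ≤ C.h := by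
  obtain ⟨B, hB, r, hr, hd, hs, -⟩ := C.s_blk i t
  have h1 : r + C.t1 t ≤ C.L := by
    obtain ⟨a, ha⟩ := hd
    obtain ⟨b, hb⟩ := C.t1_dvd t
    have hpos := C.t1_pos t
    rw [ha, hb] at hr
    have : a < b := lt_of_mul_lt_mul_left hr (Nat.zero_le _)
    rw [ha, hb]
    calc C.t1 t * a + C.t1 t = C.t1 t * (a + 1) := by ring
      _ ≤ C.t1 t * b := Nat.mul_le_mul_left _ this
  have h2 : C.L * B + C.L ≤ C.L * C.l := by
    calc C.L * B + C.L = C.L * (B + 1) := by ring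
      _ ≤ C.L * C.l := Nat.mul_le_mul_left _ hB
  unfold h
  omega

lemma X_add_le (i : Pc) (t : ι) (j : ℕ) : C.X i t j + C.t1 t ≤ C.M := by
  have h1 := C.s_add_le i t
  have h2 := C.hi_lt i t j
  have h3 : C.h * C.hi i t j + C.h ≤ C.h * C.Q := by
    calc C.h * C.hi i t j + C.h = C.h * (C.hi i t j + 1) := by ring
      _ ≤ C.h * C.Q := Nat.mul_le_mul_left _ h2
  unfold X M
  omega

/-- `c` lies in the arc `(i,t,j)` -/
def InArc (i : Pc) (t : ι) (j : ℕ) (c : ℕ) : Prop := C.X i t j ≤ c ∧ c < C.X i t j + C.t1 t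

/-- information read off from a cell in an arc -/
lemma inArc_info {i : Pc} {t : ι} {j c : ℕ} (hc : C.InArc i t j c) :
    c % C.h = C.s i t + (c - C.X i t j) ∧ c / C.h = C.hi i t j ∧ c - C.X i t j < C.t1 t := by
  obtain ⟨h1, h2⟩ := hc
  have h3 := C.s_add_le i t
  have h4 : c = (C.s i t + (c - C.X i t j)) + C.h * C.hi i t j := by
    have : C.X i t j = C.s i t + C.h * C.hi i t j := rfl
    omega
  have h5 : C.s i t + (c - C.X i t j) < C.h := by omega
  refine ⟨?_, ?_, by omega⟩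
  · conv_lhs => rw [h4]
    rw [Nat.add_mul_mod_self_left, Nat.mod_eq_of_lt h5]
  · conv_lhs => rw [h4]
    rw [Nat.add_mul_div_left _ _ C.h_pos, Nat.div_eq_of_lt h5, zero_add]

lemma inArc_blk {i : Pc} {t : ι} {j c : ℕ} (hc : C.InArc i t j c) :
    C.tau (c % C.h / C.L) = some t ∧
      C.s i t = C.L * (c % C.h / C.L) + (c % C.h % C.L) / C.t1 t * C.t1 t := by
  obtain ⟨h1, h2, h3⟩ := C.inArc_info hc
  obtain ⟨B, hB, r, hr, hd, hs, ht⟩ := C.s_blk i t
  obtain ⟨a, ha⟩ := hd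
  obtain ⟨b, hb⟩ := C.t1_dvd t
  set o := c - C.X i t j with ho
  have hpos := C.t1_pos t
  have hlt : r + o < C.L := by
    rw [ha, hb] at hr
    have : a < b := lt_of_mul_lt_mul_left hr (Nat.zero_le _)
    rw [ha, hb]
    calc C.t1 t * a + o < C.t1 t * a + C.t1 t := by omega
      _ = C.t1 t * (a + 1) := by ring
      _ ≤ C.t1 t * b := Nat.mul_le_mul_left _ this
  have h4 : c % C.h = (r + o) + C.L * B := by rw [h1, hs]; ring
  have h5 : c % C.h / C.L = B := by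
    rw [h4, Nat.add_mul_div_left _ _ C.L_pos, Nat.div_eq_of_lt hlt, zero_add]
  have h6 : c % C.h % C.L = r + o := by
    rw [h4, Nat.add_mul_mod_self_left, Nat.mod_eq_of_lt hlt]
  refine ⟨by rw [h5]; exact ht, ?_⟩
  rw [h5, h6, hs, ha]
  have : (C.t1 t * a + o) / C.t1 t = a := by
    rw [add_comm, Nat.add_mul_div_left _ _ hpos, Nat.div_eq_of_lt h3, zero_add]
  rw [this]; ring

lemma arc_unique {i i' : Pc} {t t' : ι} {j j' c : ℕ} (hj : j < C.Dt t) (hj' : j' < C.Dt t')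
    (hc : C.InArc i t j c) (hc' : C.InArc i' t' j' c) : i = i' ∧ t = t' ∧ j = j' := by
  have h1 := C.inArc_blk hc
  have h2 := C.inArc_blk hc'
  have ht : t = t' := by
    have := h1.1.symm.trans h2.1
    exact Option.some_injective _ this
  subst ht
  have hs : C.s i t = C.s i' t := h1.2.trans h2.2.symm
  have h3 := (C.inArc_info hc).2.1
  have h4 := (C.inArc_info hc').2.1
  have h5 : C.hi i t j = C.hi i' t j' := h3.symm.trans h4
  have h6 : (C.v i t + j * C.q t) ≡ (C.v i' t + j' * C.q t) [ZMOD C.Q] := by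
    have e1 := C.hi_cast i t j
    have e2 := C.hi_cast i' t j'
    unfold Int.ModEq
    rw [← e1, ← e2, h5]
  have h7 : (C.v i t + j * C.q t) ≡ (C.v i' t + j' * C.q t) [ZMOD C.q t] := by
    apply Int.ModEq.of_dvd _ h6
    rw [C.Q_eq t]; push_cast; exact Dvd.intro _ rfl
  have h8 : C.v i t ≡ C.v i' t [ZMOD C.q t] := by
    have a1 : (C.v i t + j * C.q t) ≡ C.v i t [ZMOD C.q t] := by
      have : (j : ℤ) * C.q t ≡ 0 [ZMOD C.q t] := by
        rw [Int.modEq_zero_iff_dvd]; exact Dvd.intro_left _ rfl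
      simpa using (Int.ModEq.refl (C.v i t)).add this
    have a2 : (C.v i' t + j' * C.q t) ≡ C.v i' t [ZMOD C.q t] := by
      have : (j' : ℤ) * C.q t ≡ 0 [ZMOD C.q t] := by
        rw [Int.modEq_zero_iff_dvd]; exact Dvd.intro_left _ rfl
      simpa using (Int.ModEq.refl (C.v i' t)).add this
    exact a1.symm.trans (h7.trans a2)
  have hi : i = i' := C.v_inj t i i' hs h8
  subst hi
  refine ⟨rfl, rfl, ?_⟩
  have h9 : (j : ℤ) * C.q t ≡ j' * C.q t [ZMOD C.q t * C.Dt t] := by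
    have : ((C.q t * C.Dt t : ℕ) : ℤ) = (C.q t : ℤ) * C.Dt t := by push_cast; ring
    rw [← this, ← C.Q_eq t]
    exact Int.ModEq.add_left_cancel' _ h6
  have h10 : (j : ℤ) ≡ j' [ZMOD C.Dt t] := by
    have hq : (0:ℤ) < C.q t := by exact_mod_cast C.q_pos t
    rw [Int.modEq_iff_dvd] at h9 ⊢
    have : (j' : ℤ) * C.q t - j * C.q t = C.q t * (j' - j) := by ring
    rw [this] at h9
    exact (mul_dvd_mul_iff_left hq.ne').mp h9
  have h11 : j ≡ j' [MOD C.Dt t] := (Int.natCast_modEq_iff).mp h10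
  exact Nat.ModEq.eq_of_lt_of_lt h11 hj hj'

lemma mirror_mod {c : ℕ} (hc : c < C.M) : (C.M - 1 - c) % C.h = C.h - 1 - c % C.h := by
  have h1 := Nat.div_add_mod c C.h
  have h2 := Nat.mod_lt c C.h_pos
  have h3 : c / C.h < C.Q := by
    rw [Nat.div_lt_iff_lt_mul C.h_pos, mul_comm]; exact hc
  have h4 : C.M - 1 - c = (C.h - 1 - c % C.h) + C.h * (C.Q - 1 - c / C.h) := by
    have e1 : C.h * (C.Q - 1 - c / C.h) + C.h * (c / C.h) + C.h = C.h * C.Q := by
      have : C.Q = (C.Q - 1 - c / C.h) + c / C.h + 1 := by omega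
      conv_rhs => rw [this]
      ring
    have e2 : C.M = C.h * C.Q := rfl
    omega
  rw [h4, Nat.add_mul_mod_self_left, Nat.mod_eq_of_lt]
  have := C.h_pos
  omega

lemma mirror_blk {x : ℕ} (hx : x < C.h) : (C.h - 1 - x) / C.L = C.l - 1 - x / C.L := by
  have h1 := Nat.div_add_mod x C.L
  have h2 := Nat.mod_lt x C.L_pos
  have h3 : x / C.L < C.l := by
    rw [Nat.div_lt_iff_lt_mul C.L_pos, mul_comm]; exact hx
  have h4 : C.h - 1 - x = (C.L - 1 - x % C.L) + C.L * (C.l - 1 - x / C.L) := by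
    have e1 : C.L * (C.l - 1 - x / C.L) + C.L * (x / C.L) + C.L = C.L * C.l := by
      have : C.l = (C.l - 1 - x / C.L) + x / C.L + 1 := by omega
      conv_rhs => rw [this]
      ring
    have e2 : C.h = C.L * C.l := rfl
    omega
  rw [h4, Nat.add_mul_div_left _ _ C.L_pos, Nat.div_eq_of_lt, zero_add]
  have := C.L_pos
  omega

lemma no_mirror {i i' : Pc} {t t' : ι} {j j' c : ℕ}
    (hc : C.InArc i t j c) (hc' : C.InArc i' t' j' (C.M - 1 - c)) : False := by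
  have hcM : c < C.M := by
    have := C.X_add_le i t j
    have := hc.2
    omega
  have h1 := (C.inArc_blk hc).1
  have h2 := (C.inArc_blk hc').1
  have h3 : c % C.h < C.h := Nat.mod_lt _ C.h_pos
  rw [C.mirror_mod hcM, C.mirror_blk h3] at h2
  have h4 : c % C.h / C.L < C.l := by
    rw [Nat.div_lt_iff_lt_mul C.L_pos, mul_comm]; exact h3
  rw [C.tau_symm _ h4 t h1] at h2
  exact absurd h2 (by simp)

/-- the integer start of an arc (before reduction). -/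
def XI (i : Pc) (t : ι) (j : ℕ) : ℤ := C.s i t + C.h * (C.v i t + j * C.q t)

/-- `c` lies in the arc `[X, X + len)` of `ℤ / N`. -/
def InZ (N : ℕ) (X len c : ℤ) : Prop := ∃ k : ℤ, X ≤ c + k * N ∧ c + k * N < X + len

lemma XI_eq (i : Pc) (t : ι) (j : ℕ) :
    C.XI i t j = C.X i t j + C.M * ((C.v i t + j * C.q t) / (C.Q : ℤ)) := by
  have e1 := C.hi_cast i t j
  have e2 := Int.emod_add_mul_ediv (C.v i t + j * C.q t) (C.Q : ℤ)
  rw [← e1] at e2
  have e4 : (C.X i t j : ℤ) = C.s i t + C.h * C.hi i t j := by unfold X; push_cast; ring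
  have e5 : (C.M : ℤ) = C.h * C.Q := by unfold M; push_cast; ring
  rw [e4, e5]
  unfold XI
  linear_combination (-(C.h : ℤ)) * e2

lemma inArc_of_inZ {i : Pc} {t : ι} {j : ℕ} {c : ℤ} (hc : InZ C.M (C.XI i t j) (C.t1 t) c) :
    C.InArc i t j (c % C.M).toNat := by
  obtain ⟨k, h1, h2⟩ := hc
  have hM : (0:ℤ) < C.M := by exact_mod_cast C.M_pos
  rw [C.XI_eq] at h1 h2
  set w := (C.v i t + j * C.q t) / (C.Q : ℤ)
  have h3 : (C.X i t j : ℤ) ≤ c + (k - w) * C.M := by linarith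
  have h4 : c + (k - w) * C.M < C.X i t j + C.t1 t := by linarith
  have h5 : (C.X i t j : ℤ) + C.t1 t ≤ C.M := by exact_mod_cast C.X_add_le i t j
  have h6 : c % C.M = c + (k - w) * C.M := by
    have h7 : c % C.M = (c + (k - w) * C.M) % C.M := by rw [Int.add_mul_emod_self_right]
    rw [h7]
    exact Int.emod_eq_of_lt (le_trans (Int.natCast_nonneg _) h3) (by linarith)
  have h8 : ((c % C.M).toNat : ℤ) = c + (k - w) * C.M := by
    rw [Int.toNat_of_nonneg (Int.emod_nonneg _ hM.ne'), h6]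
  constructor
  · exact_mod_cast h8 ▸ h3
  · exact_mod_cast h8 ▸ h4

/-- **the arcs are pairwise disjoint**. -/
theorem disj {i i' : Pc} {t t' : ι} {j j' : ℕ} {c : ℤ} (hj : j < C.Dt t) (hj' : j' < C.Dt t')
    (hc : InZ C.M (C.XI i t j) (C.t1 t) c) (hc' : InZ C.M (C.XI i' t' j') (C.t1 t') c) :
    i = i' ∧ t = t' ∧ j = j' :=
  C.arc_unique hj hj' (C.inArc_of_inZ hc) (C.inArc_of_inZ hc')

/-- **no arc meets a mirror arc**. -/
theorem disj_mirror {i i' : Pc} {t t' : ι} {j j' : ℕ} {c : ℤ}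
    (hc : InZ C.M (C.XI i t j) (C.t1 t) c) (hc' : InZ C.M (C.XI i' t' j') (C.t1 t') (-1 - c)) :
    False := by
  have h1 := C.inArc_of_inZ hc
  have h2 := C.inArc_of_inZ hc'
  have hM : (0:ℤ) < C.M := by exact_mod_cast C.M_pos
  refine C.no_mirror h1 (i' := i') (t' := t') (j' := j') ?_
  have h3 : (-1 - c) % C.M = C.M - 1 - c % C.M := by
    have e := Int.emod_add_mul_ediv c C.M
    have e1 : (-1 - c) % C.M = (C.M - 1 - c % C.M + (-1 - c / C.M) * C.M) % C.M := by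
      congr 1
      linarith
    rw [e1, Int.add_mul_emod_self_right]
    apply Int.emod_eq_of_lt
    · have := Int.emod_lt_of_pos c hM; linarith
    · have := Int.emod_nonneg c hM.ne'; linarith
  have h4 : ((-1 - c) % C.M).toNat = C.M - 1 - (c % C.M).toNat := by
    have := Int.emod_nonneg c hM.ne'
    have := Int.emod_lt_of_pos c hM
    omega
  rw [← h4]
  exact h2

end CD

end Crest.Agent.R081.D
end

-- ▼ part R081/ThmD
section

/-!
# Row 81: THM D (design) in generic form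

Arbitrary masses `p t`, arbitrary pairwise non parallel types `t` with `t 0 ≥ 1` (no parity).
The arcs `[X, X + t 0)`, `X = t.om_i + j h q_t`, and their mirrors are pairwise disjoint in
`ℤ/(hQ)`, the mass `p_t / D_t` of a line is (up to `1 + eps`) `P` times the relative length of its
arc, and the Gauss sum splits the type `t` into its `D_t = Q / q_t` lines.
-/

set_option autoImplicit false

namespace Crest.Agent.R081.D

open Finset Crest.Agent.R075

/-- output of the design. -/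
structure Design {R : ℕ} (T : Finset (Fin (R+1) → ℤ)) (p : (Fin (R+1) → ℤ) → ℝ) (eps : ℝ)
    (B0 : ℕ) where
  /-- number of pieces -/
  P : ℕ
  P_pos : 0 < P
  h : ℕ
  h_pos : 0 < h
  q : (Fin (R+1) → ℤ) → ℕ
  q_odd : ∀ t ∈ T, Odd (q t)
  q_one : ∀ t ∈ T, 1 < q t
  q_cop : ∀ t ∈ T, ∀ t' ∈ T, t ≠ t' → Nat.Coprime (q t) (q t')
  q_B0 : ∀ t ∈ T, ∀ n : ℕ, 1 ≤ n → n ≤ B0 → Nat.Coprime (q t) n
  A : Fin (R+1) → ℤ
  A_dvd : ∀ t ∈ T, (q t : ℤ) ∣ ∑ r, t r * A r
  A_cop : ∀ t ∈ T, ∀ t' ∈ T, t ≠ t' → IsCoprime (∑ r, t r * A r) (q t' : ℤ)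
  om : Fin P → Fin (R+1) → ℤ
  disj : ∀ (i i' : Fin P), ∀ t ∈ T, ∀ t' ∈ T, ∀ j < ∏ u ∈ T.erase t, q u,
    ∀ j' < ∏ u ∈ T.erase t', q u, ∀ c : ℤ,
      CD.InZ (h * ∏ u ∈ T, q u) (∑ r, t r * om i r + j * (h * q t)) (t 0) c →
      CD.InZ (h * ∏ u ∈ T, q u) (∑ r, t' r * om i' r + j' * (h * q t')) (t' 0) c →
      i = i' ∧ t = t' ∧ j = j'
  disj_mirror : ∀ (i i' : Fin P), ∀ t ∈ T, ∀ t' ∈ T, ∀ j < ∏ u ∈ T.erase t, q u,
    ∀ j' < ∏ u ∈ T.erase t', q u, ∀ c : ℤ,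
      CD.InZ (h * ∏ u ∈ T, q u) (∑ r, t r * om i r + j * (h * q t)) (t 0) c →
      CD.InZ (h * ∏ u ∈ T, q u) (∑ r, t' r * om i' r + j' * (h * q t')) (t' 0) (-1 - c) →
      False
  mass_lo : ∀ t ∈ T, (P : ℝ) * t 0 / (h * q t) ≤ p t
  mass_hi : ∀ t ∈ T, p t ≤ (1 + eps) * ((P : ℝ) * t 0 / (h * q t))

/-- data coming from the packing lemma and the torsion lemma (no parity) -/
structure PD (R : ℕ) where
  T : Finset (Fin (R+1) → ℤ)
  hpos : ∀ t ∈ T, 1 ≤ t 0
  L : ℕ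
  l : ℕ
  L_pos : 0 < L
  l_pos : 0 < l
  hdvd : ∀ t ∈ T, t 0 ∣ (L : ℤ)
  sigma : ZMod l → (Fin (R+1) → ℤ)
  hsigma : ∀ B, sigma (-1 - B) = - sigma B
  W : Finset ((Fin (R+1) → ZMod l) × ℕ)
  hW : ∀ g ∈ W, ∀ t ∈ T, sigma (pblk l L t g) = t
  kap : ℕ
  q : (Fin (R+1) → ℤ) → ℕ
  q_pos : ∀ t ∈ T, 0 < q t
  q_cop : ∀ t ∈ T, ∀ t2 ∈ T, t ≠ t2 → Nat.Coprime (q t) (q t2)
  q_copL : ∀ t ∈ T, Nat.Coprime (t 0).toNat (q t)
  load : ∀ t ∈ T, ∀ (B : ZMod l) (r : ℤ),
    kap * (W.filter fun g => pblk l L t g = B ∧ t 0 * g.2 % L = r).card ≤ q t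

namespace PD

variable {R : ℕ} (P : PD R)

abbrev Ty : Type := {t : Fin (R+1) → ℤ // t ∈ P.T}
abbrev Wt : Type := {g : (Fin (R+1) → ZMod P.l) × ℕ // g ∈ P.W}

lemma exists_a : ∃ a : P.Wt × Fin P.kap → ℤ, ∀ (t : P.Ty) (i i2 : P.Wt × Fin P.kap),
    sS P.l P.L t.1 i.1.1 = sS P.l P.L t.1 i2.1.1 →
      (NN P.l P.L t.1 i.1.1 / P.l) + (t.1 0).toNat * a i
        ≡ (NN P.l P.L t.1 i2.1.1 / P.l) + (t.1 0).toNat * a i2 [ZMOD P.q t.1] → i = i2 := by
  classical
  have : NeZero P.l := ⟨P.l_pos.ne'⟩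
  have hL' : (0:ℤ) < P.L := by exact_mod_cast P.L_pos
  have hl' : (0:ℤ) < P.l := by exact_mod_cast P.l_pos
  apply exists_residues P.kap (fun (w : P.Wt) (t : P.Ty) => sS P.l P.L t.1 w.1) (fun t => P.q t.1)
    (fun t => P.q_pos t.1 t.2)
    (fun t t2 h => P.q_cop t.1 t.2 t2.1 t2.2 (fun h' => h (Subtype.ext h')))
    (fun t => (t.1 0).toNat) (fun t => P.q_copL t.1 t.2) _ (fun w t => NN P.l P.L t.1 w.1 / P.l)
  intro t x
  refine le_trans ?_ (P.load t.1 t.2 ((x / P.L : ℕ) : ZMod P.l) ((x % P.L : ℕ) : ℤ))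
  apply Nat.mul_le_mul_left
  rw [← Finset.card_map (Function.Embedding.subtype _)]
  apply Finset.card_le_card
  intro g hg
  simp only [mem_map, mem_filter, mem_univ, true_and, Function.Embedding.subtype_apply] at hg
  obtain ⟨w, hw, rfl⟩ := hg
  rw [mem_filter]
  refine ⟨w.2, ?_⟩
  have hr : (t.1 0 * w.1.2 % P.L).toNat < P.L := by
    have := Int.emod_lt_of_pos (t.1 0 * w.1.2) hL'
    have := Int.emod_nonneg (t.1 0 * w.1.2) hL'.ne'
    omega
  have h1 : x / P.L = (NN P.l P.L t.1 w.1 % P.l).toNat := by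
    rw [← hw]; unfold sS
    rw [Nat.mul_add_div P.L_pos, Nat.div_eq_of_lt hr, add_zero]
  have h2 : x % P.L = (t.1 0 * w.1.2 % P.L).toNat := by
    rw [← hw]; unfold sS
    rw [Nat.mul_add_mod, Nat.mod_eq_of_lt hr]
  refine ⟨?_, ?_⟩
  · rw [h1, NNmod_cast]
  · rw [h2, Int.toNat_of_nonneg (Int.emod_nonneg _ hL'.ne')]

noncomputable def a : P.Wt × Fin P.kap → ℤ := P.exists_a.choose

noncomputable def cells : CD P.Ty (P.Wt × Fin P.kap) where
  L := P.L
  l := P.l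
  L_pos := P.L_pos
  l_pos := P.l_pos
  t1 := fun t => (t.1 0).toNat
  t1_pos := by
    intro t
    have := P.hpos t.1 t.2
    omega
  t1_dvd := by
    intro t
    have h1 := P.hpos t.1 t.2
    have h2 := P.hdvd t.1 t.2
    have h3 : (((t.1 0).toNat : ℕ) : ℤ) = t.1 0 := Int.toNat_of_nonneg (by omega)
    rw [← h3] at h2
    exact_mod_cast h2
  tau := by
    classical
    exact fun B => if h : P.sigma (B : ZMod P.l) ∈ P.T then some ⟨_, h⟩ else none
  tau_symm := by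
    classical
    intro B hB t ht
    split_ifs at ht with h
    rw [dif_neg]
    intro h2
    have h3 : ((P.l - 1 - B : ℕ) : ZMod P.l) = -1 - (B : ZMod P.l) := by
      have e : (P.l - 1 - B) + 1 + B = P.l := by omega
      have e2 : (((P.l - 1 - B) + 1 + B : ℕ) : ZMod P.l) = 0 := by rw [e]; simp
      push_cast at e2
      linear_combination e2
    rw [h3, P.hsigma] at h2
    have h4 := P.hpos _ h
    have h5 := P.hpos _ h2
    simp only [Pi.neg_apply] at h5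
    omega
  s := fun i t => sS P.l P.L t.1 i.1.1
  s_blk := by
    classical
    have : NeZero P.l := ⟨P.l_pos.ne'⟩
    intro i t
    have hL' : (0:ℤ) < P.L := by exact_mod_cast P.L_pos
    have hl' : (0:ℤ) < P.l := by exact_mod_cast P.l_pos
    refine ⟨(NN P.l P.L t.1 i.1.1 % P.l).toNat, ?_, (t.1 0 * i.1.1.2 % P.L).toNat, ?_, ?_, rfl, ?_⟩
    · have := Int.emod_lt_of_pos (NN P.l P.L t.1 i.1.1) hl'
      have := Int.emod_nonneg (NN P.l P.L t.1 i.1.1) hl'.ne'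
      omega
    · have := Int.emod_lt_of_pos (t.1 0 * i.1.1.2) hL'
      have := Int.emod_nonneg (t.1 0 * i.1.1.2) hL'.ne'
      omega
    · have h1 := P.hpos t.1 t.2
      have h3 : (((t.1 0).toNat : ℕ) : ℤ) = t.1 0 := Int.toNat_of_nonneg (by omega)
      have h4 : (((t.1 0 * i.1.1.2 % P.L).toNat : ℕ) : ℤ) = t.1 0 * i.1.1.2 % P.L :=
        Int.toNat_of_nonneg (Int.emod_nonneg _ hL'.ne')
      have h5 : t.1 0 ∣ t.1 0 * i.1.1.2 % P.L := by
        rw [Int.emod_def]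
        exact dvd_sub (Dvd.intro _ rfl) (dvd_mul_of_dvd_left (P.hdvd t.1 t.2) _)
      rw [← Int.natCast_dvd_natCast, h3, h4]
      exact h5
    · have h1 := NNmod_cast P.l P.L t.1 i.1.1
      have h2 := P.hW i.1.1 i.1.2 t.1 t.2
      have h3 : P.sigma (((NN P.l P.L t.1 i.1.1 % P.l).toNat : ℕ) : ZMod P.l) = t.1 := by
        rw [h1, h2]
      rw [dif_pos (by rw [h3]; exact t.2)]
      congr 1
      exact Subtype.ext h3
  q := fun t => P.q t.1
  q_pos := fun t => P.q_pos t.1 t.2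
  v := fun i t => NN P.l P.L t.1 i.1.1 / P.l + (t.1 0).toNat * P.a i
  v_inj := fun t i i2 h1 h2 => P.exists_a.choose_spec t i i2 h1 h2

/-- the integer frequency vector of a piece. -/
noncomputable def omv (i : P.Wt × Fin P.kap) (r : Fin (R+1)) : ℤ :=
  uu P.l P.L i.1.1 r + (if r = 0 then ((P.L * P.l : ℕ) : ℤ) * P.a i else 0)

lemma XI_eq (i : P.Wt × Fin P.kap) (t : P.Ty) (j : ℕ) :
    P.cells.XI i t j = ∑ r, t.1 r * P.omv i r + j * (((P.L * P.l : ℕ) : ℤ) * P.q t.1) := by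
  have h1 := P.hpos t.1 t.2
  have h3 : (((t.1 0).toNat : ℕ) : ℤ) = t.1 0 := Int.toNat_of_nonneg (by omega)
  have e1 : P.cells.XI i t j = (sS P.l P.L t.1 i.1.1 : ℤ)
      + ((P.L * P.l : ℕ) : ℤ) * ((NN P.l P.L t.1 i.1.1 / P.l + (t.1 0).toNat * P.a i)
        + j * P.q t.1) := rfl
  have e2 : ∑ r, t.1 r * P.omv i r = ∑ r, t.1 r * uu P.l P.L i.1.1 r
      + t.1 0 * (((P.L * P.l : ℕ) : ℤ) * P.a i) := by
    unfold omv
    simp only [mul_add, Finset.sum_add_distrib]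
    congr 1
    simp
  rw [e1, e2, sum_uu P.l P.L P.L_pos P.l_pos t.1 i.1.1, h3]
  ring

lemma Q_eq : P.cells.Q = ∏ u ∈ P.T, P.q u := by
  have : P.cells.Q = ∏ t : P.Ty, P.q t.1 := rfl
  rw [this, Finset.prod_coe_sort P.T (fun u => P.q u)]

lemma Dt_eq (t : P.Ty) : P.cells.Dt t = ∏ u ∈ P.T.erase t.1, P.q u := by
  have h1 : P.q t.1 * ∏ u ∈ P.T.erase t.1, P.q u = ∏ u ∈ P.T, P.q u :=
    Finset.mul_prod_erase P.T P.q t.2
  have h2 := P.cells.Q_eq t
  rw [P.Q_eq, ← h1] at h2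
  exact (Nat.eq_of_mul_eq_mul_left (P.q_pos t.1 t.2) h2).symm

end PD

set_option maxHeartbeats 1000000 in
/-- **THM D, generic form.** -/
theorem exists_design {R : ℕ} (T : Finset (Fin (R+1) → ℤ)) (hpos : ∀ t ∈ T, 1 ≤ t 0)
    (hnp : ∀ t ∈ T, ∀ t' ∈ T, t ≠ t' → ∃ i j, t i * t' j ≠ t j * t' i)
    (p : (Fin (R+1) → ℤ) → ℝ) (hp : ∀ t ∈ T, 0 < p t) (hsum : 2 * ∑ t ∈ T, p t ≤ 1)
    (eps : ℝ) (heps : 0 < eps) (B0 : ℕ) : Nonempty (Design T p eps B0) := by
  classical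
  set e : ℝ := min eps 1 / 4 with he
  have he0 : 0 < e := by rw [he]; positivity
  have he1 : e ≤ 1 / 4 := by
    rw [he]; have := min_le_right eps 1; linarith
  have heε : (1 + e) * (1 + e) ≤ 1 + eps := by
    have : 4 * e ≤ eps := by rw [he]; have := min_le_left eps 1; linarith
    nlinarith
  set L : ℕ := ∏ t ∈ T, (t 0).toNat with hL
  have hcast : ∀ t ∈ T, (((t 0).toNat : ℕ) : ℤ) = t 0 := fun t ht =>
    Int.toNat_of_nonneg (by have := hpos t ht; omega)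
  have hLpos : 0 < L := Finset.prod_pos fun t ht => by have := hpos t ht; omega
  have hdvdN : ∀ t ∈ T, (t 0).toNat ∣ L := fun t ht => Finset.dvd_prod_of_mem _ ht
  have hdvd : ∀ t ∈ T, t 0 ∣ (L : ℤ) := by
    intro t ht
    rw [← hcast t ht]
    exact_mod_cast hdvdN t ht
  obtain ⟨l0, hl0⟩ := Crest.Agent.R075.Pack.packing T hpos hnp p hp hsum L hLpos hdvd e he0
  obtain ⟨l, hl_ge, hlp⟩ := Nat.exists_infinite_primes l0
  obtain ⟨sigma, W, hWne, hsig, hWL, hW, hload⟩ := hl0 l hl_ge hlp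
  have hWc : (0:ℝ) < W.card := by exact_mod_cast Finset.card_pos.mpr hWne
  have hLpos' : (0:ℝ) < L := by exact_mod_cast hLpos
  have hlpos' : (0:ℝ) < l := by exact_mod_cast hlp.pos
  have ht0 : ∀ t ∈ T, (0:ℝ) < t 0 := fun t ht => by
    have := hpos t ht
    have h2 : (0:ℤ) < t 0 := by omega
    exact_mod_cast h2
  set H : (Fin (R+1) → ℤ) → ℝ := fun t => (1+e) * W.card * t 0 / (p t * (L * l)) with hH
  have hHpos : ∀ t ∈ T, 0 < H t := by
    intro t ht
    have h1 := hp t ht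
    have h2 := ht0 t ht
    simp only [hH]
    positivity
  obtain ⟨kap, q, A, hkap, -, hq, hqB, hqc, hqA, hqA2⟩ := thmQ T hpos hnp H hHpos e he0 (max L B0)
  have hkap0 : (0:ℝ) < kap := by exact_mod_cast hkap
  have hqpos : ∀ t ∈ T, 0 < q t := fun t ht => by have := (hq t ht).2.1; omega
  let P : PD R := {
    T := T
    hpos := hpos
    L := L
    l := l
    L_pos := hLpos
    l_pos := hlp.pos
    hdvd := hdvd
    sigma := sigma
    hsigma := hsig
    W := W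
    hW := hW
    kap := kap
    q := q
    q_pos := hqpos
    q_cop := hqc
    q_copL := by
      intro t ht
      apply Nat.Coprime.symm
      apply hqB t ht
      · have := hpos t ht; omega
      · exact le_trans (Nat.le_of_dvd hLpos (hdvdN t ht)) (le_max_left _ _)
    load := by
      intro t ht B r
      have h1 := hload t ht B r
      have h2 := (hq t ht).2.2.1
      have h3 : (kap : ℝ) * ((W.filter fun g => pblk l L t g = B ∧ t 0 * g.2 % L = r).card : ℝ)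
        ≤ kap * H t := mul_le_mul_of_nonneg_left h1 hkap0.le
      have h4 : (kap : ℝ) * ((W.filter fun g => pblk l L t g = B ∧ t 0 * g.2 % L = r).card : ℝ)
        ≤ q t := le_trans h3 h2
      exact_mod_cast h4 }
  -- pieces
  have hcard : Fintype.card (P.Wt × Fin P.kap) = W.card * kap := by
    rw [Fintype.card_prod, Fintype.card_fin, Fintype.card_coe]
  let eqv : Fin (W.card * kap) ≃ P.Wt × Fin P.kap := (Fintype.equivFinOfCardEq hcard).symm
  have hmass : ∀ t ∈ T, kap * H t = (1 + e) * (((W.card * kap : ℕ) : ℝ) * t 0 / (L * l)) / p t := by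
    intro t ht
    have h1 := hp t ht
    simp only [hH]
    push_cast
    field_simp
  have hM : (L * l) * ∏ u ∈ T, q u = P.cells.M := by
    have h1 : P.cells.M = (L * l) * P.cells.Q := rfl
    rw [h1, P.Q_eq]
  refine ⟨{
    P := W.card * kap
    P_pos := Nat.mul_pos (Finset.card_pos.mpr hWne) hkap
    h := L * l
    h_pos := Nat.mul_pos hLpos hlp.pos
    q := q
    q_odd := fun t ht => (hq t ht).1
    q_one := fun t ht => (hq t ht).2.1
    q_cop := hqc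
    q_B0 := fun t ht n h1 h2 => hqB t ht n h1 (le_trans h2 (le_max_right _ _))
    A := A
    A_dvd := hqA
    A_cop := hqA2
    om := fun i => P.omv (eqv i)
    disj := ?_
    disj_mirror := ?_
    mass_lo := ?_
    mass_hi := ?_ }⟩
  · intro i i' t ht t' ht' j hj j' hj' c hc hc'
    rw [hM] at hc hc'
    have e1 := P.XI_eq (eqv i) ⟨t, ht⟩ j
    have e2 := P.XI_eq (eqv i') ⟨t', ht'⟩ j'
    have d1 := P.Dt_eq ⟨t, ht⟩
    have d2 := P.Dt_eq ⟨t', ht'⟩
    have c1 : ((P.cells.t1 ⟨t, ht⟩ : ℕ) : ℤ) = t 0 := hcast t ht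
    have c2 : ((P.cells.t1 ⟨t', ht'⟩ : ℕ) : ℤ) = t' 0 := hcast t' ht'
    have := P.cells.disj (i := eqv i) (i' := eqv i') (t := ⟨t, ht⟩) (t' := ⟨t', ht'⟩) (j := j)
      (j' := j') (c := c) (by rw [d1]; exact hj) (by rw [d2]; exact hj')
      (by rw [e1, c1]; exact hc) (by rw [e2, c2]; exact hc')
    obtain ⟨a1, a2, a3⟩ := this
    exact ⟨eqv.injective a1, congrArg Subtype.val a2, a3⟩
  · intro i i' t ht t' ht' j hj j' hj' c hc hc'
    rw [hM] at hc hc'
    have e1 := P.XI_eq (eqv i) ⟨t, ht⟩ j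
    have e2 := P.XI_eq (eqv i') ⟨t', ht'⟩ j'
    have c1 : ((P.cells.t1 ⟨t, ht⟩ : ℕ) : ℤ) = t 0 := hcast t ht
    have c2 : ((P.cells.t1 ⟨t', ht'⟩ : ℕ) : ℤ) = t' 0 := hcast t' ht'
    exact P.cells.disj_mirror (i := eqv i) (i' := eqv i') (t := ⟨t, ht⟩) (t' := ⟨t', ht'⟩) (j := j)
      (j' := j') (c := c) (by rw [e1, c1]; exact hc) (by rw [e2, c2]; exact hc')
  · intro t ht
    have h1 := (hq t ht).2.2.1
    rw [hmass t ht] at h1
    have h2 := hp t ht
    have h3 : (0:ℝ) < q t := by exact_mod_cast hqpos t ht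
    have h4 : 0 ≤ ((W.card * kap : ℕ) : ℝ) * t 0 / (L * l) := by
      have := ht0 t ht; positivity
    rw [div_le_iff₀ h2] at h1
    have h5 : ((W.card * kap : ℕ) : ℝ) * t 0 / (((L * l : ℕ) : ℝ) * q t)
        = (((W.card * kap : ℕ) : ℝ) * t 0 / (L * l)) / q t := by
      push_cast; field_simp
    rw [h5, div_le_iff₀ h3]
    nlinarith
  · intro t ht
    have h1 := (hq t ht).2.2.2
    rw [hmass t ht] at h1
    have h2 := hp t ht
    have h3 : (0:ℝ) < q t := by exact_mod_cast hqpos t ht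
    have h4 : 0 ≤ ((W.card * kap : ℕ) : ℝ) * t 0 / (L * l) := by
      have := ht0 t ht; positivity
    have h5 : ((W.card * kap : ℕ) : ℝ) * t 0 / (((L * l : ℕ) : ℝ) * q t)
        = (((W.card * kap : ℕ) : ℝ) * t 0 / (L * l)) / q t := by
      push_cast; field_simp
    rw [h5, ← mul_div_assoc, le_div_iff₀ h3]
    have h6 : (1 + e) * ((1 + e) * (((W.card * kap : ℕ) : ℝ) * t 0 / (L * l)) / p t)
        = ((1 + e) * (1 + e)) * (((W.card * kap : ℕ) : ℝ) * t 0 / (L * l)) / p t := by ring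
    rw [h6, le_div_iff₀ h2] at h1
    calc p t * q t = q t * p t := mul_comm _ _
      _ ≤ ((1 + e) * (1 + e)) * (((W.card * kap : ℕ) : ℝ) * t 0 / (L * l)) := h1
      _ ≤ (1 + eps) * (((W.card * kap : ℕ) : ℝ) * t 0 / (L * l)) :=
        mul_le_mul_of_nonneg_right heε h4

namespace Design

variable {R : ℕ} {T : Finset (Fin (R+1) → ℤ)} {p : (Fin (R+1) → ℤ) → ℝ} {eps : ℝ} {B0 : ℕ}
  (D : Design T p eps B0)

/-- `Q = ∏ q_t`. -/
def Q : ℕ := ∏ u ∈ T, D.q u

/-- number `D_t = Q / q_t` of lines of type `t`. -/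
def Dt (t : Fin (R+1) → ℤ) : ℕ := ∏ u ∈ T.erase t, D.q u

/-- start of the arc of the line `j` of type `t` in the piece `i`, in units `1/(hQ)`. -/
def X (i : Fin D.P) (t : Fin (R+1) → ℤ) (j : ℕ) : ℤ :=
  ∑ r, t r * D.om i r + j * (D.h * D.q t)

lemma q_pos {t : Fin (R+1) → ℤ} (ht : t ∈ T) : 0 < D.q t := by
  have := D.q_one t ht; omega

lemma Q_pos : 0 < D.Q := Finset.prod_pos fun _ ht => D.q_pos ht

lemma Dt_pos (t : Fin (R+1) → ℤ) : 0 < D.Dt t :=
  Finset.prod_pos fun _ hu => D.q_pos (Finset.mem_of_mem_erase hu)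

lemma Dt_odd (t : Fin (R+1) → ℤ) : Odd (D.Dt t) := by
  unfold Dt
  apply Finset.prod_induction _ Odd (fun a b => Odd.mul) odd_one
  intro u hu; exact D.q_odd u (Finset.mem_of_mem_erase hu)

lemma Q_eq {t : Fin (R+1) → ℤ} (ht : t ∈ T) : D.Q = D.q t * D.Dt t :=
  (Finset.mul_prod_erase T D.q ht).symm

/-- mass of a line versus length of its arc. -/
lemma line_lo {t : Fin (R+1) → ℤ} (ht : t ∈ T) :
    (D.P : ℝ) * t 0 / (D.h * D.Q) ≤ p t / D.Dt t := by
  have h1 := D.mass_lo t ht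
  have h2 : (0:ℝ) < D.Dt t := by exact_mod_cast D.Dt_pos t
  have h3 : (0:ℝ) < D.q t := by exact_mod_cast D.q_pos ht
  have h4 : (0:ℝ) < D.h := by exact_mod_cast D.h_pos
  rw [le_div_iff₀ h2]
  refine le_trans (le_of_eq ?_) h1
  rw [D.Q_eq ht]; push_cast; field_simp

lemma line_hi {t : Fin (R+1) → ℤ} (ht : t ∈ T) :
    p t / D.Dt t ≤ (1 + eps) * ((D.P : ℝ) * t 0 / (D.h * D.Q)) := by
  have h1 := D.mass_hi t ht
  have h2 : (0:ℝ) < D.Dt t := by exact_mod_cast D.Dt_pos t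
  have h3 : (0:ℝ) < D.q t := by exact_mod_cast D.q_pos ht
  have h4 : (0:ℝ) < D.h := by exact_mod_cast D.h_pos
  rw [div_le_iff₀ h2]
  refine le_trans h1 (le_of_eq ?_)
  rw [D.Q_eq ht]; push_cast; field_simp

/-- the arcs (with their mirrors) cover almost the mass `2 ∑ p`. -/
lemma cover : 2 * ∑ t ∈ T, p t
    ≤ (1 + eps) * (2 * ∑ t ∈ T, (D.P : ℝ) * D.Dt t * t 0 / (D.h * D.Q)) := by
  rw [Finset.mul_sum, Finset.mul_sum, Finset.mul_sum]
  refine Finset.sum_le_sum fun t ht => ?_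
  have h1 := D.mass_hi t ht
  have h2 : (0:ℝ) < D.Dt t := by exact_mod_cast D.Dt_pos t
  have h3 : (0:ℝ) < D.q t := by exact_mod_cast D.q_pos ht
  have h4 : (0:ℝ) < D.h := by exact_mod_cast D.h_pos
  have h5 : (D.P : ℝ) * D.Dt t * t 0 / (D.h * D.Q) = (D.P : ℝ) * t 0 / (D.h * D.q t) := by
    rw [D.Q_eq ht]; push_cast; field_simp
  rw [h5]; linarith

/-- **Gauss splitting** of the type `t` into its lines (same coefficients for all pieces). -/
theorem gauss_split {t : Fin (R+1) → ℤ} (ht : t ∈ T) :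
    ∃ g : ℕ → ℂ, (∀ j, ‖g j‖ = 1 / Real.sqrt (D.Dt t)) ∧ ∀ (i : Fin D.P) (l : ℤ),
      ee (((∑ r, t r * D.A r : ℤ) : ℝ) * (l : ℝ) ^ 2 / D.Q
          + ((∑ r, t r * D.om i r : ℤ) : ℝ) * l / (D.h * D.Q))
        = ∑ j ∈ range (D.Dt t), g j * ee ((D.X i t j : ℝ) * l / (D.h * D.Q)) := by
  obtain ⟨c, hc⟩ := D.A_dvd t ht
  have hcop : IsCoprime c (D.Dt t : ℤ) := by
    unfold Dt
    push_cast
    apply IsCoprime.prod_right
    intro t' ht'
    have h1 := D.A_cop t ht t' (Finset.mem_of_mem_erase ht') (Finset.ne_of_mem_erase ht').symm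
    rw [hc] at h1
    exact h1.of_mul_left_right
  obtain ⟨g, hg, hg2⟩ := gauss (D.Dt t) (D.Dt_odd t) c hcop
  refine ⟨g, hg, fun i l => ?_⟩
  have h2 : (0:ℝ) < D.Dt t := by exact_mod_cast D.Dt_pos t
  have h3 : (0:ℝ) < D.q t := by exact_mod_cast D.q_pos ht
  have h4 : (0:ℝ) < D.h := by exact_mod_cast D.h_pos
  have e1 : ((∑ r, t r * D.A r : ℤ) : ℝ) * (l : ℝ) ^ 2 / D.Q = (c * l ^ 2 / D.Dt t : ℝ) := by
    rw [hc, D.Q_eq ht]; push_cast; field_simp
  have hk := hg2 l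
  have hee : ∀ x : ℝ, Complex.exp (2 * Real.pi * Complex.I * (x : ℂ)) = ee x := fun x => rfl
  rw [hee] at hk
  simp only [hee] at hk
  rw [e1, ee_add, hk, Finset.sum_mul]
  refine Finset.sum_congr rfl fun j _ => ?_
  rw [mul_assoc, ← ee_add]
  congr 2
  unfold X
  rw [D.Q_eq ht]; push_cast; field_simp
  ring

end Design

end Crest.Agent.R081.D
end

-- ▼ part R081/ThmDL
section

/-!
# Row 81: THM D for a general direction `L` with last entry `1`

`t 0` of `ThmD` is replaced by `t · L`: the real sweep moves the phases along `L`.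
-/

set_option autoImplicit false

namespace Crest.Agent.R081.D

open Finset Crest.Agent.R075

/-- the scalar product. -/
def dot {R : ℕ} (t x : Fin (R+1) → ℤ) : ℤ := ∑ r, t r * x r

/-- output of the design, direction `L`. -/
structure DesignL {R : ℕ} (T : Finset (Fin (R+1) → ℤ)) (L : Fin (R+1) → ℤ)
    (p : (Fin (R+1) → ℤ) → ℝ) (eps : ℝ) (B0 : ℕ) where
  /-- number of pieces -/
  P : ℕ
  P_pos : 0 < P
  h : ℕ
  h_pos : 0 < h
  q : (Fin (R+1) → ℤ) → ℕ
  q_odd : ∀ t ∈ T, Odd (q t)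
  q_one : ∀ t ∈ T, 1 < q t
  q_cop : ∀ t ∈ T, ∀ t' ∈ T, t ≠ t' → Nat.Coprime (q t) (q t')
  q_B0 : ∀ t ∈ T, ∀ n : ℕ, 1 ≤ n → n ≤ B0 → Nat.Coprime (q t) n
  A : Fin (R+1) → ℤ
  A_dvd : ∀ t ∈ T, (q t : ℤ) ∣ dot t A
  A_cop : ∀ t ∈ T, ∀ t' ∈ T, t ≠ t' → IsCoprime (dot t A) (q t' : ℤ)
  om : Fin P → Fin (R+1) → ℤ
  disj : ∀ (i i' : Fin P), ∀ t ∈ T, ∀ t' ∈ T, ∀ j < ∏ u ∈ T.erase t, q u,
    ∀ j' < ∏ u ∈ T.erase t', q u, ∀ c : ℤ,
      CD.InZ (h * ∏ u ∈ T, q u) (dot t (om i) + j * (h * q t)) (dot t L) c →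
      CD.InZ (h * ∏ u ∈ T, q u) (dot t' (om i') + j' * (h * q t')) (dot t' L) c →
      i = i' ∧ t = t' ∧ j = j'
  disj_mirror : ∀ (i i' : Fin P), ∀ t ∈ T, ∀ t' ∈ T, ∀ j < ∏ u ∈ T.erase t, q u,
    ∀ j' < ∏ u ∈ T.erase t', q u, ∀ c : ℤ,
      CD.InZ (h * ∏ u ∈ T, q u) (dot t (om i) + j * (h * q t)) (dot t L) c →
      CD.InZ (h * ∏ u ∈ T, q u) (dot t' (om i') + j' * (h * q t')) (dot t' L) (-1 - c) →
      False
  mass_lo : ∀ t ∈ T, (P : ℝ) * dot t L / (h * q t) ≤ p t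
  mass_hi : ∀ t ∈ T, p t ≤ (1 + eps) * ((P : ℝ) * dot t L / (h * q t))









namespace DesignL

variable {R : ℕ} {T : Finset (Fin (R+1) → ℤ)} {L : Fin (R+1) → ℤ} {p : (Fin (R+1) → ℤ) → ℝ}
  {eps : ℝ} {B0 : ℕ} (D : DesignL T L p eps B0)

/-- `Q = ∏ q_t`. -/
def Q : ℕ := ∏ u ∈ T, D.q u

/-- number `D_t = Q / q_t` of lines of type `t`. -/
def Dt (t : Fin (R+1) → ℤ) : ℕ := ∏ u ∈ T.erase t, D.q u

/-- start of the arc of the line `j` of type `t` in the piece `i`, in units `1/(hQ)`. -/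
def X (i : Fin D.P) (t : Fin (R+1) → ℤ) (j : ℕ) : ℤ := dot t (D.om i) + j * (D.h * D.q t)

lemma q_pos {t : Fin (R+1) → ℤ} (ht : t ∈ T) : 0 < D.q t := by
  have := D.q_one t ht; omega

lemma Q_pos : 0 < D.Q := Finset.prod_pos fun _ ht => D.q_pos ht

lemma Dt_pos (t : Fin (R+1) → ℤ) : 0 < D.Dt t :=
  Finset.prod_pos fun _ hu => D.q_pos (Finset.mem_of_mem_erase hu)

lemma Dt_odd (t : Fin (R+1) → ℤ) : Odd (D.Dt t) := by
  unfold Dt
  apply Finset.prod_induction _ Odd (fun a b => Odd.mul) odd_one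
  intro u hu; exact D.q_odd u (Finset.mem_of_mem_erase hu)


lemma Q_eq {t : Fin (R+1) → ℤ} (ht : t ∈ T) : D.Q = D.q t * D.Dt t :=
  (Finset.mul_prod_erase T D.q ht).symm

/-- mass of a line versus length of its arc. -/
lemma line_lo {t : Fin (R+1) → ℤ} (ht : t ∈ T) :
    (D.P : ℝ) * dot t L / (D.h * D.Q) ≤ p t / D.Dt t := by
  have h1 := D.mass_lo t ht
  have h2 : (0:ℝ) < D.Dt t := by exact_mod_cast D.Dt_pos t
  have h3 : (0:ℝ) < D.q t := by exact_mod_cast D.q_pos ht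
  have h4 : (0:ℝ) < D.h := by exact_mod_cast D.h_pos
  rw [le_div_iff₀ h2]
  refine le_trans (le_of_eq ?_) h1
  rw [D.Q_eq ht]; push_cast; field_simp

lemma line_hi {t : Fin (R+1) → ℤ} (ht : t ∈ T) :
    p t / D.Dt t ≤ (1 + eps) * ((D.P : ℝ) * dot t L / (D.h * D.Q)) := by
  have h1 := D.mass_hi t ht
  have h2 : (0:ℝ) < D.Dt t := by exact_mod_cast D.Dt_pos t
  have h3 : (0:ℝ) < D.q t := by exact_mod_cast D.q_pos ht
  have h4 : (0:ℝ) < D.h := by exact_mod_cast D.h_pos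
  rw [div_le_iff₀ h2]
  refine le_trans h1 (le_of_eq ?_)
  rw [D.Q_eq ht]; push_cast; field_simp

/-- the arcs (with their mirrors) cover almost the mass `2 ∑ p`. -/
lemma cover : 2 * ∑ t ∈ T, p t
    ≤ (1 + eps) * (2 * ∑ t ∈ T, (D.P : ℝ) * D.Dt t * dot t L / (D.h * D.Q)) := by
  rw [Finset.mul_sum, Finset.mul_sum, Finset.mul_sum]
  refine Finset.sum_le_sum fun t ht => ?_
  have h1 := D.mass_hi t ht
  have h2 : (0:ℝ) < D.Dt t := by exact_mod_cast D.Dt_pos t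
  have h3 : (0:ℝ) < D.q t := by exact_mod_cast D.q_pos ht
  have h4 : (0:ℝ) < D.h := by exact_mod_cast D.h_pos
  have h5 : (D.P : ℝ) * D.Dt t * dot t L / (D.h * D.Q) = (D.P : ℝ) * dot t L / (D.h * D.q t) := by
    rw [D.Q_eq ht]; push_cast; field_simp
  rw [h5]; linarith

/-- **Gauss splitting** of the type `t` into its lines (same coefficients for all pieces). -/
theorem gauss_split {t : Fin (R+1) → ℤ} (ht : t ∈ T) :
    ∃ g : ℕ → ℂ, (∀ j, ‖g j‖ = 1 / Real.sqrt (D.Dt t)) ∧ ∀ (i : Fin D.P) (l : ℤ),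
      ee ((dot t D.A : ℝ) * (l : ℝ) ^ 2 / D.Q + (dot t (D.om i) : ℝ) * l / (D.h * D.Q))
        = ∑ j ∈ range (D.Dt t), g j * ee ((D.X i t j : ℝ) * l / (D.h * D.Q)) := by
  obtain ⟨c, hc⟩ := D.A_dvd t ht
  have hcop : IsCoprime c (D.Dt t : ℤ) := by
    unfold Dt
    push_cast
    apply IsCoprime.prod_right
    intro t' ht'
    have h1 := D.A_cop t ht t' (Finset.mem_of_mem_erase ht') (Finset.ne_of_mem_erase ht').symm
    rw [hc] at h1
    exact h1.of_mul_left_right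
  obtain ⟨g, hg, hg2⟩ := gauss (D.Dt t) (D.Dt_odd t) c hcop
  refine ⟨g, hg, fun i l => ?_⟩
  have h2 : (0:ℝ) < D.Dt t := by exact_mod_cast D.Dt_pos t
  have h3 : (0:ℝ) < D.q t := by exact_mod_cast D.q_pos ht
  have h4 : (0:ℝ) < D.h := by exact_mod_cast D.h_pos
  have e1 : (dot t D.A : ℝ) * (l : ℝ) ^ 2 / D.Q = (c * l ^ 2 / D.Dt t : ℝ) := by
    rw [hc, D.Q_eq ht]; push_cast; field_simp
  have hk := hg2 l
  have hee : ∀ x : ℝ, Complex.exp (2 * Real.pi * Complex.I * (x : ℂ)) = ee x := fun x => rfl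
  rw [hee] at hk
  simp only [hee] at hk
  rw [e1, ee_add, hk, Finset.sum_mul]
  refine Finset.sum_congr rfl fun j _ => ?_
  rw [mul_assoc, ← ee_add]
  congr 2
  unfold X
  rw [D.Q_eq ht]; push_cast; field_simp
  ring

end DesignL

end Crest.Agent.R081.D
end

-- ▼ part R081/LdRound
section

/-!
# Row 81: the design of `ThmDL` on a torsion lattice coprime to a given number

`DesignL` packs arcs of the circle `ℤ/(hQ)`.  `h` is a multiple of all the lengths `t·L`, so `hQ`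
is in general not coprime to the order `q` of the twist.  We use the packing only as a packing of
*real* arcs: the torsion lattice is `(1/(Q m)) ℤ` with `m` a large prime, the vectors
`(om_i - i L)/(hQ)` are rounded to the lattice and the arcs are shortened by `eta`.
-/

set_option autoImplicit false

namespace Crest.Agent.R081.D

open Finset Crest.Agent.R075

/-- `D` on the lattice `(1/(Q m)) ℤ`, `Q m` coprime to `q`. -/
structure Rounded {R : ℕ} {T : Finset (Fin (R+1) → ℤ)} {L : Fin (R+1) → ℤ}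
    {p : (Fin (R+1) → ℤ) → ℝ} {eps : ℝ} {B0 : ℕ} (D : DesignL T L p eps B0) (q : ℕ)
    (eta : ℝ) where
  m : ℕ
  m_prime : m.Prime
  /-- the numerators of the phase vectors: piece `i` uses the phases `w i / (Q m)` -/
  w : Fin D.P → Fin (R+1) → ℤ
  cop : Nat.Coprime q (D.Q * m)
  /-- the lines of different pieces and types have disjoint shortened arcs;
  the line `j` of type `t` in piece `i` has torsion numerator `dot t (w i) + j (q_t m)`. -/
  inj : ∀ (i i' : Fin D.P), ∀ t ∈ T, ∀ t' ∈ T, ∀ j < D.Dt t, ∀ j' < D.Dt t', ∀ u u' : ℝ,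
    eta ≤ u → u ≤ 1 - eta → eta ≤ u' → u' ≤ 1 - eta → ∀ k : ℤ,
    ((dot t (w i) + j * (D.q t * m) : ℤ) : ℝ) / (D.Q * m) + dot t L * ((i : ℕ) + u) / (D.h * D.Q)
      = ((dot t' (w i') + j' * (D.q t' * m) : ℤ) : ℝ) / (D.Q * m)
        + dot t' L * ((i' : ℕ) + u') / (D.h * D.Q) + k →
    i = i' ∧ t = t' ∧ j = j' ∧ u = u'
  inj_mirror : ∀ (i i' : Fin D.P), ∀ t ∈ T, ∀ t' ∈ T, ∀ j < D.Dt t, ∀ j' < D.Dt t', ∀ u u' : ℝ,
    eta ≤ u → u ≤ 1 - eta → eta ≤ u' → u' ≤ 1 - eta → ∀ k : ℤ,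
    ((dot t (w i) + j * (D.q t * m) : ℤ) : ℝ) / (D.Q * m) + dot t L * ((i : ℕ) + u) / (D.h * D.Q)
      = -(((dot t' (w i') + j' * (D.q t' * m) : ℤ) : ℝ) / (D.Q * m)
        + dot t' L * ((i' : ℕ) + u') / (D.h * D.Q)) + k →
    False

namespace DesignL

variable {R : ℕ} {T : Finset (Fin (R+1) → ℤ)} {L : Fin (R+1) → ℤ} {p : (Fin (R+1) → ℤ) → ℝ}
  {eps : ℝ} {B0 : ℕ} (D : DesignL T L p eps B0)

lemma inZ_of_le {N : ℕ} (hN : 0 < N) {X len : ℤ} (h : (N : ℤ) ≤ len) (c : ℤ) :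
    CD.InZ N X len c := by
  have hN' : (0:ℤ) < N := by exact_mod_cast hN
  have h1 := Int.emod_add_mul_ediv (c - X) N
  have h2 := Int.emod_lt_of_pos (c - X) hN'
  have h3 := Int.emod_nonneg (c - X) hN'.ne'
  refine ⟨-((c - X) / N), ?_, ?_⟩ <;> nlinarith

/-- an arc is shorter than the circle. -/
lemma dot_lt {t : Fin (R+1) → ℤ} (ht : t ∈ T) : dot t L < D.h * D.Q := by
  by_contra hcon
  push Not at hcon
  have hN : 0 < D.h * D.Q := Nat.mul_pos D.h_pos D.Q_pos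
  have h0 : (⟨0, D.P_pos⟩ : Fin D.P) = ⟨0, D.P_pos⟩ := rfl
  have hle : ((D.h * D.Q : ℕ) : ℤ) ≤ dot t L := by push_cast; exact hcon
  refine D.disj_mirror ⟨0, D.P_pos⟩ ⟨0, D.P_pos⟩ t ht t ht 0 (D.Dt_pos t) 0 (D.Dt_pos t) 0 ?_ ?_
  · exact inZ_of_le hN hle 0
  · exact inZ_of_le hN hle _

/-- a real point strictly inside the arc lies in a cell of the arc. -/
lemma inZ_floor {N : ℕ} {X len : ℤ} {x : ℝ} {k c : ℤ} (h1 : (X:ℝ) < x) (h2 : x < X + len)
    (hc : c + k * N = ⌊x⌋) : CD.InZ N X len c := by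
  refine ⟨k, ?_, ?_⟩
  · rw [hc]; exact Int.le_floor.2 h1.le
  · rw [hc]; exact Int.floor_lt.2 (by push_cast; exact h2)

lemma inZ_mirror {N : ℕ} {X len : ℤ} {x : ℝ} {k c : ℤ} (h1 : (X:ℝ) < x) (h2 : x < X + len)
    (hc : c + k * N = ⌊-x⌋) : CD.InZ N X len (-1 - c) := by
  rw [Int.floor_neg] at hc
  have h3 : X < ⌈x⌉ := Int.lt_ceil.2 h1
  have h4 : ⌈x⌉ ≤ X + len := Int.ceil_le.2 (by push_cast; exact h2.le)
  refine ⟨-k, ?_, ?_⟩ <;> nlinarith

/-- the rounding theorem. -/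
theorem exists_rounded (hpos : ∀ t ∈ T, 1 ≤ dot t L) (q : ℕ) (hq : 0 < q) (hqB : q ≤ B0)
    (eta : ℝ) (heta : 0 < eta) (m0 : ℕ) :
    ∃ Rd : Rounded D q eta, m0 ≤ Rd.m := by
  classical
  have hh0 : (0:ℝ) < D.h := by exact_mod_cast D.h_pos
  have hQ0 : (0:ℝ) < D.Q := by exact_mod_cast D.Q_pos
  set S : ℝ := ∑ t ∈ T, ∑ r, |(t r : ℝ)| with hS
  have hS0 : 0 ≤ S := sum_nonneg fun t _ => sum_nonneg fun r _ => abs_nonneg _
  obtain ⟨M1, hM1⟩ := exists_nat_gt (D.h * S / (2 * eta))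
  obtain ⟨m, hm, hmp⟩ := Nat.exists_infinite_primes (max (max m0 (q+1)) (M1 + 1))
  have hm0 : m0 ≤ m := le_trans (le_trans (le_max_left _ _) (le_max_left _ _)) hm
  have hmq : q < m := by
    have := le_trans (le_trans (le_max_right m0 (q+1)) (le_max_left _ (M1+1))) hm
    omega
  have hmM : (M1 : ℝ) < m := by
    have := le_trans (le_max_right (max m0 (q+1)) (M1 + 1)) hm
    exact_mod_cast (by omega : M1 < m)
  have hmr : (0:ℝ) < m := by exact_mod_cast hmp.pos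
  have herr : D.h * S / (2 * m) < eta := by
    have h1 : D.h * S / (2 * eta) < m := hM1.trans hmM
    rw [div_lt_iff₀ (by positivity)] at h1
    rw [div_lt_iff₀ (by positivity)]
    nlinarith
  set w : Fin D.P → Fin (R+1) → ℤ := fun i r =>
    round ((m:ℝ) * (D.om i r - ((i:ℕ):ℤ) * L r : ℤ) / D.h) with hw
  -- rounding error
  have hround : ∀ i r, |(D.h : ℝ) * w i r / m - (D.om i r - ((i:ℕ):ℤ) * L r : ℤ)|
      ≤ D.h / (2 * m) := by
    intro i r
    have h1 := abs_sub_round ((m:ℝ) * (D.om i r - ((i:ℕ):ℤ) * L r : ℤ) / D.h)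
    have h2 : (D.h : ℝ) * w i r / m - (D.om i r - ((i:ℕ):ℤ) * L r : ℤ)
        = - (D.h / m * ((m:ℝ) * (D.om i r - ((i:ℕ):ℤ) * L r : ℤ) / D.h
          - round ((m:ℝ) * (D.om i r - ((i:ℕ):ℤ) * L r : ℤ) / D.h))) := by
      simp only [hw]
      field_simp
      ring
    rw [h2, abs_neg, abs_mul, abs_of_pos (by positivity)]
    calc (D.h : ℝ) / m * _ ≤ D.h / m * (1/2) := by gcongr
      _ = D.h / (2 * m) := by ring
  have hdot : ∀ i, ∀ t ∈ T, |(D.h : ℝ) * dot t (w i) / m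
      - (dot t (D.om i) - ((i:ℕ):ℤ) * dot t L : ℤ)| < eta := by
    intro i t ht
    have h1 : (D.h : ℝ) * dot t (w i) / m - (dot t (D.om i) - ((i:ℕ):ℤ) * dot t L : ℤ)
        = ∑ r, (t r : ℝ) * ((D.h : ℝ) * w i r / m - (D.om i r - ((i:ℕ):ℤ) * L r : ℤ)) := by
      unfold dot
      push_cast
      simp only [mul_sub, Finset.sum_sub_distrib, Finset.mul_sum, Finset.sum_div]
      congr 1
      · exact Finset.sum_congr rfl fun r _ => by ring
      · congr 1
        exact Finset.sum_congr rfl fun r _ => by ring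
    rw [h1]
    calc |∑ r, (t r : ℝ) * ((D.h : ℝ) * w i r / m - (D.om i r - ((i:ℕ):ℤ) * L r : ℤ))|
        ≤ ∑ r, |(t r : ℝ)| * (D.h / (2 * m)) := by
          refine (Finset.abs_sum_le_sum_abs _ _).trans (Finset.sum_le_sum fun r _ => ?_)
          rw [abs_mul]
          exact mul_le_mul_of_nonneg_left (hround i r) (abs_nonneg _)
      _ = (∑ r, |(t r : ℝ)|) * (D.h / (2 * m)) := by rw [Finset.sum_mul]
      _ ≤ S * (D.h / (2 * m)) := by
          refine mul_le_mul_of_nonneg_right ?_ (by positivity)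
          exact Finset.single_le_sum (f := fun t : Fin (R+1) → ℤ => ∑ r, |(t r : ℝ)|)
            (fun t _ => sum_nonneg fun r _ => abs_nonneg _) ht
      _ = D.h * S / (2 * m) := by ring
      _ < eta := herr
  -- position in units 1/(hQ)
  have hposn : ∀ (i : Fin D.P), ∀ t ∈ T, ∀ j : ℕ, ∀ u : ℝ, eta ≤ u → u ≤ 1 - eta →
      ∃ x : ℝ, (D.X i t j : ℝ) < x ∧ x < D.X i t j + dot t L ∧
        ((dot t (w i) + j * (D.q t * m) : ℤ) : ℝ) / (D.Q * m)
          + dot t L * ((i : ℕ) + u) / (D.h * D.Q) = x / (D.h * D.Q) := by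
    intro i t ht j u hu hu'
    have hb : (1:ℝ) ≤ dot t L := by exact_mod_cast hpos t ht
    have hd := hdot i t ht
    rw [abs_lt] at hd
    set er := (D.h : ℝ) * dot t (w i) / m - (dot t (D.om i) - ((i:ℕ):ℤ) * dot t L : ℤ) with her
    have hX : (D.X i t j : ℝ) = dot t (D.om i) + j * (D.h * D.q t) := by
      unfold X; push_cast; ring
    refine ⟨D.X i t j + dot t L * u + er, ?_, ?_, ?_⟩
    · nlinarith [hd.1]
    · nlinarith [hd.2]
    · rw [hX, her]
      push_cast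
      field_simp
      ring
  have hcop : Nat.Coprime q (D.Q * m) := by
    apply Nat.Coprime.mul_right
    · unfold Q
      exact Nat.Coprime.prod_right fun t ht => (D.q_B0 t ht q hq hqB).symm
    · exact ((hmp.coprime_iff_not_dvd).2 (Nat.not_dvd_of_pos_of_lt hq hmq)).symm
  refine ⟨⟨m, hmp, w, hcop, ?_, ?_⟩, hm0⟩
  · intro i i' t ht t' ht' j hj j' hj' u u' hu1 hu2 hu1' hu2' k heq
    have heq0 := heq
    obtain ⟨x, hx1, hx2, hx3⟩ := hposn i t ht j u hu1 hu2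
    obtain ⟨x', hx1', hx2', hx3'⟩ := hposn i' t' ht' j' u' hu1' hu2'
    rw [hx3, hx3'] at heq
    have hxx : x = x' + (k * (D.h * D.Q : ℕ) : ℤ) := by
      push_cast
      field_simp at heq
      linarith
    have hfl : ⌊x⌋ = ⌊x'⌋ + k * (D.h * D.Q : ℕ) := by
      rw [hxx, Int.floor_add_intCast]
    obtain ⟨e1, e2, e3⟩ := D.disj i i' t ht t' ht' j hj j' hj' ⌊x'⌋
      (inZ_floor (k := k) hx1 hx2 (by rw [hfl]; rfl))
      (inZ_floor (k := 0) hx1' hx2' (by simp))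
    subst e1 e2 e3
    refine ⟨rfl, rfl, rfl, ?_⟩
    have hb : (1:ℝ) ≤ dot t L := by exact_mod_cast hpos t ht
    have hbN : (dot t L : ℝ) < D.h * D.Q := by exact_mod_cast D.dot_lt ht
    have h1 : (dot t L : ℝ) * (u - u') = k * (D.h * D.Q) := by
      have h2 : (dot t L : ℝ) * ((i:ℕ) + u) / (D.h * D.Q)
          = dot t L * ((i:ℕ) + u') / (D.h * D.Q) + k := by linarith
      field_simp at h2
      linarith
    have hN0 : (0:ℝ) < D.h * D.Q := by positivity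
    have hu : |u - u'| < 1 := by rw [abs_lt]; constructor <;> linarith
    have hk : k = 0 := by
      by_contra hk
      have h3 : (1:ℝ) ≤ |(k:ℝ)| := by
        rw [← Int.cast_abs]; exact_mod_cast Int.one_le_abs hk
      have h4 : |(dot t L : ℝ) * (u - u')| = |(k:ℝ)| * (D.h * D.Q) := by
        rw [h1, abs_mul, abs_of_pos hN0]
      rw [abs_mul, abs_of_pos (by linarith : (0:ℝ) < dot t L)] at h4
      nlinarith [abs_nonneg (u - u')]
    rw [hk, Int.cast_zero, zero_mul] at h1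
    rcases mul_eq_zero.1 h1 with h | h
    · linarith
    · linarith
  · intro i i' t ht t' ht' j hj j' hj' u u' hu1 hu2 hu1' hu2' k heq
    obtain ⟨x, hx1, hx2, hx3⟩ := hposn i t ht j u hu1 hu2
    obtain ⟨x', hx1', hx2', hx3'⟩ := hposn i' t' ht' j' u' hu1' hu2'
    rw [hx3, hx3'] at heq
    have hxx : x = -x' + (k * (D.h * D.Q : ℕ) : ℤ) := by
      push_cast
      field_simp at heq
      linarith
    have hfl : ⌊x⌋ = ⌊-x'⌋ + k * (D.h * D.Q : ℕ) := by
      rw [hxx, Int.floor_add_intCast]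
    exact D.disj_mirror i i' t ht t' ht' j hj j' hj' ⌊x⌋
      (inZ_floor (k := 0) hx1 hx2 (by simp))
      (inZ_mirror (k := -k) hx1' hx2' (by rw [hfl]; unfold Q; ring))

/-- **Gauss splitting** on the rounded lattice. -/
theorem gauss_rounded {q : ℕ} {eta : ℝ} (Rd : Rounded D q eta) {t : Fin (R+1) → ℤ} (ht : t ∈ T) :
    ∃ g : ℕ → ℂ, (∀ j, ‖g j‖ = 1 / Real.sqrt (D.Dt t)) ∧ ∀ (i : Fin D.P) (l : ℤ),
      ee ((dot t D.A : ℝ) * (l : ℝ) ^ 2 / D.Q + (dot t (Rd.w i) : ℝ) * l / (D.Q * Rd.m))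
        = ∑ j ∈ range (D.Dt t), g j *
          ee (((dot t (Rd.w i) + j * (D.q t * Rd.m) : ℤ) : ℝ) * l / (D.Q * Rd.m)) := by
  obtain ⟨g, hg, hg2⟩ := D.gauss_split ht
  refine ⟨g, hg, fun i l => ?_⟩
  have h3 : (0:ℝ) < D.h := by exact_mod_cast D.h_pos
  have h4 : (0:ℝ) < D.Q := by exact_mod_cast D.Q_pos
  have h5 : (0:ℝ) < Rd.m := by exact_mod_cast Rd.m_prime.pos
  have e1 : (dot t D.A : ℝ) * (l : ℝ) ^ 2 / D.Q + (dot t (Rd.w i) : ℝ) * l / (D.Q * Rd.m)
      = ((dot t D.A : ℝ) * (l : ℝ) ^ 2 / D.Q + (dot t (D.om i) : ℝ) * l / (D.h * D.Q))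
        + ((dot t (Rd.w i) : ℝ) * l / (D.Q * Rd.m) - (dot t (D.om i) : ℝ) * l / (D.h * D.Q)) := by
    ring
  rw [e1, ee_add, hg2 i l, Finset.sum_mul]
  refine Finset.sum_congr rfl fun j _ => ?_
  rw [mul_assoc, ← ee_add]
  congr 2
  unfold X
  push_cast
  field_simp
  ring


end DesignL

end Crest.Agent.R081.D
end

-- ▼ part R081/LdRound2
section

/-!
# Row 81: lines of the rounded design, with arbitrary phases

Bridge between `LdRound` and the label statement: the chirp of the type `t` in the piece `i`, with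
an arbitrary phase vector `x`, is the sum of `D_t` characters of `ℤ/(Q m)` with coefficients of
modulus `D_t^{-1/2}`, and different lines of a piece have different pairs `(a, b)`.
-/

set_option autoImplicit false

namespace Crest.Agent.R081.D

open Finset Crest.Agent.R075

variable {R : ℕ} {T : Finset (Fin (R+1) → ℤ)} {L : Fin (R+1) → ℤ} {p : (Fin (R+1) → ℤ) → ℝ}
  {eps : ℝ} {B0 : ℕ} {D : DesignL T L p eps B0} {q : ℕ} {eta : ℝ}

namespace Rounded

/-- the torsion order `n = Q m`. -/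
def n (Rd : Rounded D q eta) : ℕ := D.Q * Rd.m

lemma n_pos (Rd : Rounded D q eta) : 0 < Rd.n := Nat.mul_pos D.Q_pos Rd.m_prime.pos

/-- torsion numerator of the line `j` of type `t` in piece `i` (mod `n`). -/
def a (Rd : Rounded D q eta) (i : Fin D.P) (t : Fin (R+1) → ℤ) (j : ℕ) : ℤ :=
  dot t (Rd.w i) + j * (D.q t * Rd.m)

/-- the phase vector (in `ℝ^{R+1}`, mod 1) of the time `l` in the piece `i`, with phase `x`. -/
noncomputable def ph (Rd : Rounded D q eta) (i : Fin D.P) (x : Fin (R+1) → ℝ) (l : ℤ)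
    (r : Fin (R+1)) : ℝ :=
  x r + (Rd.w i r : ℝ) * l / Rd.n + (D.A r : ℝ) * (l : ℝ) ^ 2 / D.Q

lemma sum_ph (Rd : Rounded D q eta) (i : Fin D.P) (x : Fin (R+1) → ℝ) (l : ℤ)
    (t : Fin (R+1) → ℤ) :
    ∑ r, (t r : ℝ) * Rd.ph i x l r = ∑ r, (t r : ℝ) * x r
      + ((dot t D.A : ℝ) * (l : ℝ) ^ 2 / D.Q + (dot t (Rd.w i) : ℝ) * l / (D.Q * Rd.m)) := by
  unfold ph dot n
  push_cast
  rw [Finset.sum_mul, Finset.sum_mul, Finset.sum_div, Finset.sum_div, ← Finset.sum_add_distrib,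
    ← Finset.sum_add_distrib]
  exact Finset.sum_congr rfl fun r _ => by ring

/-- `ph` is `n`-periodic modulo integers. -/
lemma ph_period (Rd : Rounded D q eta) (i : Fin D.P) (x : Fin (R+1) → ℝ) (l : ℤ)
    (r : Fin (R+1)) :
    ∃ k : ℤ, Rd.ph i x (l + Rd.n) r = Rd.ph i x l r + k := by
  have h4 : (0:ℝ) < D.Q := by exact_mod_cast D.Q_pos
  have h5 : (0:ℝ) < Rd.m := by exact_mod_cast Rd.m_prime.pos
  refine ⟨Rd.w i r + D.A r * (2 * l * Rd.m + D.Q * Rd.m ^ 2), ?_⟩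
  unfold ph n
  push_cast
  field_simp
  ring

/-- **line formula**: both signs, arbitrary phases. -/
theorem lines (Rd : Rounded D q eta) {t : Fin (R+1) → ℤ} (ht : t ∈ T) (i : Fin D.P)
    (x : Fin (R+1) → ℝ) :
    ∃ g : ℕ → ℂ, (∀ j, ‖g j‖ ^ 2 = 1 / (D.Dt t : ℝ)) ∧
      (∀ l : ℤ, ee (∑ r, (t r : ℝ) * Rd.ph i x l r)
        = ∑ j ∈ range (D.Dt t), g j * ee ((Rd.a i t j : ℝ) * l / Rd.n)) ∧
      (∀ l : ℤ, ee (∑ r, ((-t) r : ℤ) * Rd.ph i x l r)
        = ∑ j ∈ range (D.Dt t), (starRingEnd ℂ) (g j) * ee (((-(Rd.a i t j) : ℤ) : ℝ) * l / Rd.n))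
      := by
  obtain ⟨g, hg, hg2⟩ := D.gauss_rounded Rd ht
  have hD : (0:ℝ) < D.Dt t := by exact_mod_cast D.Dt_pos t
  have key : ∀ l : ℤ, ee (∑ r, (t r : ℝ) * Rd.ph i x l r)
        = ∑ j ∈ range (D.Dt t), (ee (∑ r, (t r : ℝ) * x r) * g j) *
          ee ((Rd.a i t j : ℝ) * l / Rd.n) := by
    intro l
    rw [Rd.sum_ph, ee_add, hg2 i l, Finset.mul_sum]
    refine Finset.sum_congr rfl fun j _ => ?_
    rw [mul_assoc]
    unfold a n
    push_cast
    rfl
  refine ⟨fun j => ee (∑ r, (t r : ℝ) * x r) * g j, fun j => ?_, key, fun l => ?_⟩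
  · rw [norm_mul, norm_ee, one_mul, hg j, div_pow, Real.sq_sqrt hD.le, one_pow]
  · have e1 : (∑ r, (((-t) r : ℤ) : ℝ) * Rd.ph i x l r) = -(∑ r, (t r : ℝ) * Rd.ph i x l r) := by
      rw [← Finset.sum_neg_distrib]
      refine Finset.sum_congr rfl fun r _ => ?_
      simp
    rw [e1, ← ee_conj, key l, map_sum]
    refine Finset.sum_congr rfl fun j _ => ?_
    rw [map_mul, ee_conj]
    congr 2
    push_cast
    ring


/-- different lines of one piece have different `(a mod n, b)`. -/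
theorem lines_ne (Rd : Rounded D q eta) (heta : eta ≤ 1 / 2) (i : Fin D.P)
    {t t' : Fin (R+1) → ℤ} (ht : t ∈ T) (ht' : t' ∈ T) {j j' : ℕ} (hj : j < D.Dt t)
    (hj' : j' < D.Dt t') (hb : dot t L = dot t' L)
    (h : (Rd.n : ℤ) ∣ Rd.a i t j - Rd.a i t' j') : t = t' ∧ j = j' := by
  obtain ⟨k, hk⟩ := h
  have h4 : (0:ℝ) < D.Q := by exact_mod_cast D.Q_pos
  have h5 : (0:ℝ) < Rd.m := by exact_mod_cast Rd.m_prime.pos
  have hk' : (Rd.a i t j : ℝ) = Rd.a i t' j' + (D.Q * Rd.m : ℝ) * k := by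
    have h6 : Rd.a i t j = Rd.a i t' j' + (D.Q * Rd.m : ℕ) * k := by
      have h7 := hk
      unfold n at h7
      linarith
    rw [h6]; push_cast; ring
  have h1 := Rd.inj i i t ht t' ht' j hj j' hj' (1/2) (1/2) heta (by linarith) heta
    (by linarith) k (by
      rw [hb]
      have h8 : (((dot t (Rd.w i) + j * (D.q t * Rd.m) : ℤ) : ℝ)) / (D.Q * Rd.m)
          = ((dot t' (Rd.w i) + j' * (D.q t' * Rd.m) : ℤ) : ℝ) / (D.Q * Rd.m) + k := by
        have h9 : ((dot t (Rd.w i) + j * (D.q t * Rd.m) : ℤ) : ℝ)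
            = ((dot t' (Rd.w i) + j' * (D.q t' * Rd.m) : ℤ) : ℝ) + (D.Q * Rd.m : ℝ) * k := hk'
        rw [h9]; field_simp
      rw [h8]; ring)
  exact ⟨h1.2.1, h1.2.2.1⟩

end Rounded

end Crest.Agent.R081.D
end

-- ▼ part R081/DlAsm1

/-!
# Row 81, route B: assembly of the label design, part 1 (helper269)

The lines of one piece, and the trigonometric main part as a sum over the lines.
-/

set_option autoImplicit false

namespace Crest.Agent.R081.Dl

open MeasureTheory Finset Crest.Agent.R075 Crest.Agent.R081.D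

/-- direction `e₀` -/
def e0 (R : ℕ) : Fin (R+1) → ℤ := fun r => if r = 0 then 1 else 0

lemma dot_e0 {R : ℕ} (t : Fin (R+1) → ℤ) : dot t (e0 R) = t 0 := by simp [dot, e0]

/-- a design is a design in the direction `e₀`. -/
theorem toL {R : ℕ} {T : Finset (Fin (R+1) → ℤ)} {p : (Fin (R+1) → ℤ) → ℝ} {eps : ℝ} {B0 : ℕ}
    (D : Design T p eps B0) : Nonempty (DesignL T (e0 R) p eps B0) := by
  refine ⟨{
    P := D.P
    P_pos := D.P_pos
    h := D.h
    h_pos := D.h_pos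
    q := D.q
    q_odd := D.q_odd
    q_one := D.q_one
    q_cop := D.q_cop
    q_B0 := D.q_B0
    A := D.A
    A_dvd := D.A_dvd
    A_cop := D.A_cop
    om := D.om
    disj := ?_
    disj_mirror := ?_
    mass_lo := ?_
    mass_hi := ?_ }⟩
  · intro i i' t ht t' ht' j hj j' hj' c hc hc'
    rw [dot_e0] at hc hc'
    exact D.disj i i' t ht t' ht' j hj j' hj' c hc hc'
  · intro i i' t ht t' ht' j hj j' hj' c hc hc'
    rw [dot_e0] at hc hc'
    exact D.disj_mirror i i' t ht t' ht' j hj j' hj' c hc hc'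
  · intro t ht; rw [dot_e0]; exact D.mass_lo t ht
  · intro t ht; rw [dot_e0]; exact D.mass_hi t ht

/-- the direction of a complex number. -/
noncomputable def uu (z : ℂ) : ℂ := by
  classical exact if z = 0 then 1 else z / (‖z‖ : ℂ)

lemma norm_uu (z : ℂ) : ‖uu z‖ = 1 := by
  unfold uu
  split_ifs with h
  · exact norm_one
  · rw [norm_div, Complex.norm_real, norm_norm, div_self (norm_ne_zero_iff.2 h)]

lemma uu_mul (z : ℂ) : (‖z‖ : ℂ) * uu z = z := by
  unfold uu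
  split_ifs with h
  · simp [h]
  · have : (‖z‖ : ℂ) ≠ 0 := by exact_mod_cast (norm_ne_zero_iff.2 h)
    field_simp

section

variable {Λ : Type} {Fam : Set (Λ → ℂ)} {e1 e2 : ℝ} {B0 : ℕ} (TL : TorusLabels Λ Fam e1)
  (D : DesignL TL.T (e0 TL.n) TL.w e2 B0) {q : ℕ} {eta : ℝ} (Rd : Rounded D q eta)
  (x : Fin D.P → Fin (TL.n+1) → ℝ)

/-- Gauss coefficients of the type `t` in the piece `p`. -/
noncomputable def gg (p : Fin D.P) (t : Fin (TL.n+1) → ℤ) : ℕ → ℂ := by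
  classical exact if ht : t ∈ TL.T then (Rd.lines ht p (x p)).choose else fun _ => 0

lemma gg_norm (p : Fin D.P) {t : Fin (TL.n+1) → ℤ} (ht : t ∈ TL.T) (j : ℕ) :
    ‖gg TL D Rd x p t j‖ ^ 2 = 1 / (D.Dt t : ℝ) := by
  unfold gg
  rw [dif_pos ht]
  exact (Rd.lines ht p (x p)).choose_spec.1 j

lemma gg_sum (p : Fin D.P) {t : Fin (TL.n+1) → ℤ} (ht : t ∈ TL.T) (l : ℤ) :
    ee (∑ r, (t r : ℝ) * Rd.ph p (x p) l r)
        = ∑ j ∈ range (D.Dt t), gg TL D Rd x p t j * ee ((Rd.a p t j : ℝ) * l / Rd.n) := by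
  unfold gg
  simp only [dif_pos ht]
  exact (Rd.lines ht p (x p)).choose_spec.2.1 l

/-- coefficient of the line `(t,j)` in the piece `p`. -/
noncomputable def cc (p : Fin D.P) (t : Fin (TL.n+1) → ℤ) (j : ℕ) : ℂ :=
  TL.amp t * gg TL D Rd x p t j

lemma cc_norm (p : Fin D.P) {t : Fin (TL.n+1) → ℤ} (ht : t ∈ TL.T) (j : ℕ) :
    ‖cc TL D Rd x p t j‖ ^ 2 = TL.w t / D.Dt t := by
  unfold cc
  rw [norm_mul, mul_pow, TL.amp_sq t ht, gg_norm TL D Rd x p ht j]
  ring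

/-- the lines of the piece `p`. -/
noncomputable def sys (heta : eta ≤ 1 / 2) (p : Fin D.P) :
    LineSys Rd.n Λ (Σ _ : (Fin (TL.n+1) → ℤ), ℕ × Bool) where
  ls := TL.T.sigma fun t => range (D.Dt t) ×ˢ (univ : Finset Bool)
  al l := if l.2.2 then Rd.a p l.1 l.2.1 else -Rd.a p l.1 l.2.1
  bl l := if l.2.2 then l.1 0 else -l.1 0
  lbl l := TL.lb l.1
  u l := if l.2.2 then uu (cc TL D Rd x p l.1 l.2.1)
    else (starRingEnd ℂ) (uu (cc TL D Rd x p l.1 l.2.1))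
  hu l := by
    split_ifs
    · exact norm_uu _
    · rw [RCLike.norm_conj]; exact norm_uu _
  flip l := ⟨l.1, l.2.1, !l.2.2⟩
  flip_mem l hl := by
    simp only [mem_sigma, mem_product, mem_univ, and_true] at hl ⊢
    exact hl
  al_flip l := by
    obtain ⟨t, j, s⟩ := l
    cases s <;> simp
  bl_flip l := by
    obtain ⟨t, j, s⟩ := l
    cases s <;> simp
  lbl_flip l := rfl
  u_flip l := by
    obtain ⟨t, j, s⟩ := l
    cases s <;> simp
  uniq l hl l' hl' hb hdv := by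
    obtain ⟨t, j, s⟩ := l
    obtain ⟨t', j', s'⟩ := l'
    simp only [mem_sigma, mem_product, mem_univ, and_true, mem_range] at hl hl'
    have hp := TL.T_pos t hl.1
    have hp' := TL.T_pos t' hl'.1
    cases s <;> cases s' <;> simp only [if_true, if_false, Bool.false_eq_true] at hb hdv
    · have h1 : (Rd.n : ℤ) ∣ Rd.a p t j - Rd.a p t' j' := by
        have := hdv.neg_right
        have e : -(-Rd.a p t j - -Rd.a p t' j') = Rd.a p t j - Rd.a p t' j' := by ring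
        rwa [e] at this
      obtain ⟨h2, h3⟩ := Rd.lines_ne heta p hl.1 hl'.1 hl.2 hl'.2
        (by rw [dot_e0, dot_e0]; linarith) h1
      rw [h2, h3]
    · exfalso; linarith
    · exfalso; linarith
    · obtain ⟨h2, h3⟩ := Rd.lines_ne heta p hl.1 hl'.1 hl.2 hl'.2
        (by rw [dot_e0, dot_e0]; exact hb) hdv
      rw [h2, h3]

/-- the coefficient of a line, without the label. -/
noncomputable def cl (p : Fin D.P) (l : Σ _ : (Fin (TL.n+1) → ℤ), ℕ × Bool) : ℂ :=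
  if l.2.2 then cc TL D Rd x p l.1 l.2.1 else (starRingEnd ℂ) (cc TL D Rd x p l.1 l.2.1)

lemma cl_eq (heta : eta ≤ 1 / 2) (p : Fin D.P) (l : Σ _ : (Fin (TL.n+1) → ℤ), ℕ × Bool) :
    cl TL D Rd x p l = (‖cl TL D Rd x p l‖ : ℂ) * (sys TL D Rd x heta p).u l := by
  obtain ⟨t, j, s⟩ := l
  cases s
  · simp only [cl, sys, Bool.false_eq_true, if_false]
    rw [RCLike.norm_conj]
    conv_lhs => rw [← uu_mul (cc TL D Rd x p t j)]
    rw [map_mul, Complex.conj_ofReal]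
  · simp only [cl, sys, if_true]
    rw [uu_mul]

lemma cl_norm (heta : eta ≤ 1 / 2) (p : Fin D.P) {l : Σ _ : (Fin (TL.n+1) → ℤ), ℕ × Bool}
    (hl : l ∈ (sys TL D Rd x heta p).ls) :
    ‖cl TL D Rd x p l‖ ^ 2 = TL.w l.1 / D.Dt l.1 := by
  obtain ⟨t, j, s⟩ := l
  have hl2 : (⟨t, j, s⟩ : Σ _ : (Fin (TL.n+1) → ℤ), ℕ × Bool)
      ∈ TL.T.sigma fun t => range (D.Dt t) ×ˢ (univ : Finset Bool) := hl
  simp only [mem_sigma, mem_product, mem_univ, and_true, mem_range] at hl2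
  cases s
  · simp only [cl, Bool.false_eq_true, if_false]
    rw [RCLike.norm_conj, cc_norm TL D Rd x p hl2.1]
  · simp only [cl, if_true]
    rw [cc_norm TL D Rd x p hl2.1]

/-- the phase at `(i, θ)` -/
noncomputable def XX (p : Fin D.P) (i : ℤ) (θ : ℝ) : Fin (TL.n+1) → ℝ :=
  fun r => Rd.ph p (x p) i r + if r = 0 then θ else 0

lemma dotR_XX (p : Fin D.P) (i : ℤ) (θ : ℝ) (t : Fin (TL.n+1) → ℤ) :
    dotR t (XX TL D Rd x p i θ) = (∑ r, (t r : ℝ) * Rd.ph p (x p) i r) + t 0 * θ := by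
  unfold dotR XX
  simp only [mul_add, Finset.sum_add_distrib, mul_ite, mul_zero]
  simp

lemma ee_XX (p : Fin D.P) (i : ℤ) (θ : ℝ) {t : Fin (TL.n+1) → ℤ} (ht : t ∈ TL.T) :
    TL.amp t * ee (dotR t (XX TL D Rd x p i θ))
      = ∑ j ∈ range (D.Dt t), cc TL D Rd x p t j * ee ((Rd.a p t j : ℝ) * i / Rd.n + t 0 * θ) := by
  rw [dotR_XX, ee_add, gg_sum TL D Rd x p ht i, Finset.sum_mul, Finset.mul_sum]
  refine Finset.sum_congr rfl fun j _ => ?_
  unfold cc
  rw [ee_add]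
  ring

/-- the trigonometric main part as a sum over the lines. -/
theorem main_eq (heta : eta ≤ 1 / 2) (p : Fin D.P) (i : ℤ) (θ : ℝ) (E : Λ → ℂ) :
    ∑ t ∈ TL.T, E (TL.lb t) * (TL.amp t * ee (dotR t (XX TL D Rd x p i θ))
        + (starRingEnd ℂ) (TL.amp t) * ee (-(dotR t (XX TL D Rd x p i θ))))
      = ∑ l ∈ (sys TL D Rd x heta p).ls, (E ((sys TL D Rd x heta p).lbl l) * cl TL D Rd x p l) *
          ee (((sys TL D Rd x heta p).al l : ℝ) * i / Rd.n + (sys TL D Rd x heta p).bl l * θ) := by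
  have hs : (sys TL D Rd x heta p).ls
      = TL.T.sigma fun t => range (D.Dt t) ×ˢ (univ : Finset Bool) := rfl
  rw [hs, Finset.sum_sigma]
  refine Finset.sum_congr rfl fun t ht => ?_
  rw [Finset.sum_product]
  have h1 := ee_XX TL D Rd x p i θ ht
  have h2 : (starRingEnd ℂ) (TL.amp t) * ee (-(dotR t (XX TL D Rd x p i θ)))
      = ∑ j ∈ range (D.Dt t), (starRingEnd ℂ) (cc TL D Rd x p t j)
        * ee (-((Rd.a p t j : ℝ) * i / Rd.n + t 0 * θ)) := by
    rw [← ee_conj, ← map_mul, h1, map_sum]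
    refine Finset.sum_congr rfl fun j _ => ?_
    rw [map_mul, ee_conj]
  rw [h1, h2, ← Finset.sum_add_distrib, Finset.mul_sum]
  refine Finset.sum_congr rfl fun j _ => ?_
  rw [Fintype.sum_bool]
  simp only [sys, cl, if_true, Bool.false_eq_true, if_false]
  push_cast
  rw [show -((Rd.a p t j : ℝ) * i / Rd.n + t 0 * θ)
    = (-(Rd.a p t j : ℝ)) * i / Rd.n + (-(t 0 : ℝ)) * θ by ring]
  ring

end

end Crest.Agent.R081.Dl
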