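import Crest.Agent.R081.BLab
import Crest.Agent.R081.DlDefs

-- ▼ part R081/DlC1
section

/-!
# Row 81, route B, node DL-C (helper919), part 1: Bessel on `ℤ/n × ℝ/ℤ`
-/

set_option autoImplicit false

namespace Crest.Agent.R081.DlC

open MeasureTheory Finset Crest.Agent.R075

/-- Fourier coefficient on `ℤ/n × ℝ/ℤ` -/
noncomputable def coef (n : ℕ) (W : ℤ → ℝ → ℂ) (a b : ℤ) : ℂ :=
  (1 / (n : ℂ)) * ∑ i ∈ Finset.range n, ∫ t in (0:ℝ)..1, W i t * ee (-(a * i / n) - b * t)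


/-- one variable coefficient -/
noncomputable def c1 (f : ℝ → ℂ) (b : ℤ) : ℂ := ∫ t in (0:ℝ)..1, f t * ee (-(b * t))

lemma integral_ee (m : ℤ) : ∫ t in (0:ℝ)..1, ee (m * t) = if m = 0 then 1 else 0 := by
  by_cases hm : m = 0
  · subst hm; simp
  · rw [if_neg hm]
    have hc : (2 * Real.pi * Complex.I * m : ℂ) ≠ 0 := by
      have h1 : (Real.pi : ℂ) ≠ 0 := by exact_mod_cast Real.pi_ne_zero
      have h2 : (m : ℂ) ≠ 0 := by exact_mod_cast hm
      simp [h1, h2]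
    have h1 : ∀ t : ℝ, ee (m * t) = Complex.exp ((2 * Real.pi * Complex.I * m : ℂ) * t) := by
      intro t
      unfold ee
      congr 1
      push_cast
      ring
    simp only [h1]
    rw [integral_exp_mul_complex hc]
    have h2 : Complex.exp ((2 * Real.pi * Complex.I * m : ℂ) * ((1:ℝ) : ℂ)) = 1 := by
      rw [Complex.exp_eq_one_iff]
      exact ⟨m, by push_cast; ring⟩
    rw [h2]
    simp

lemma measurable_ee : Measurable ee := ee_continuous.measurable

lemma ii_of_bdd {f : ℝ → ℂ} (hm : Measurable f) {C : ℝ} (hb : ∀ x, ‖f x‖ ≤ C) (a b : ℝ) :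
    IntervalIntegrable f volume a b := by
  rw [intervalIntegrable_iff]
  refine Measure.integrableOn_of_bounded (M := C) ?_ hm.aestronglyMeasurable (ae_of_all _ hb)
  rw [Set.uIoc, Real.volume_Ioc]
  exact ENNReal.ofReal_ne_top


lemma ii_mul_ee {f : ℝ → ℂ} (hm : Measurable f) {C : ℝ} (hb : ∀ x, ‖f x‖ ≤ C) (y : ℝ) (a b : ℝ) :
    IntervalIntegrable (fun t => f t * ee (y * t)) volume a b := by
  refine ii_of_bdd (C := C) (f := fun t => f t * ee (y * t)) (hm.mul (measurable_ee.comp (by fun_prop)))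
    (fun x => ?_) a b
  rw [norm_mul, norm_ee, mul_one]; exact hb x

lemma norm_sq_eq (z : ℂ) : ((‖z‖ ^ 2 : ℝ) : ℂ) = z * (starRingEnd ℂ) z := by
  rw [Complex.mul_conj, Complex.normSq_eq_norm_sq]

/-- the distance of a function to a trigonometric polynomial with its own coefficients -/
lemma dist_sq {f : ℝ → ℂ} (hm : Measurable f) {C : ℝ} (hb : ∀ x, ‖f x‖ ≤ C) (Bs : Finset ℤ) :
    ∫ t in (0:ℝ)..1, ‖f t - ∑ b ∈ Bs, c1 f b * ee (b * t)‖ ^ 2
      = (∫ t in (0:ℝ)..1, ‖f t‖ ^ 2) - ∑ b ∈ Bs, ‖c1 f b‖ ^ 2 := by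
  classical
  have hmc : Measurable fun t => (starRingEnd ℂ) (f t) := Complex.continuous_conj.measurable.comp hm
  have hbc : ∀ t, ‖(starRingEnd ℂ) (f t)‖ ≤ C := fun t => by rw [RCLike.norm_conj]; exact hb t
  -- pass to complex integrals
  have key : ∫ t in (0:ℝ)..1, (((‖f t - ∑ b ∈ Bs, c1 f b * ee (b * t)‖ ^ 2 : ℝ)) : ℂ)
      = (∫ t in (0:ℝ)..1, (((‖f t‖ ^ 2 : ℝ)) : ℂ)) - ∑ b ∈ Bs, ((‖c1 f b‖ ^ 2 : ℝ) : ℂ) := by
    have e1 : ∀ t : ℝ, (((‖f t - ∑ b ∈ Bs, c1 f b * ee (b * t)‖ ^ 2 : ℝ)) : ℂ)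
        = (((‖f t‖ ^ 2 : ℝ)) : ℂ) - ∑ b ∈ Bs, (starRingEnd ℂ) (c1 f b) * (f t * ee (-(b * t)))
          - ∑ b ∈ Bs, c1 f b * ((starRingEnd ℂ) (f t) * ee (b * t))
          + ∑ b ∈ Bs, ∑ b' ∈ Bs, (c1 f b * (starRingEnd ℂ) (c1 f b')) * ee (((b - b' : ℤ) : ℝ) * t) := by
      intro t
      rw [norm_sq_eq, norm_sq_eq, map_sub, map_sum]
      simp only [map_mul, ee_conj]
      rw [sub_mul, mul_sub, mul_sub, mul_sum, sum_mul, sum_mul_sum]
      have a1 : ∑ b ∈ Bs, f t * ((starRingEnd ℂ) (c1 f b) * ee (-(b * t)))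
          = ∑ b ∈ Bs, (starRingEnd ℂ) (c1 f b) * (f t * ee (-(b * t))) :=
        sum_congr rfl fun b _ => by ring
      have a2 : ∑ b ∈ Bs, c1 f b * ee (b * t) * (starRingEnd ℂ) (f t)
          = ∑ b ∈ Bs, c1 f b * ((starRingEnd ℂ) (f t) * ee (b * t)) :=
        sum_congr rfl fun b _ => by ring
      have a3 : ∑ b ∈ Bs, ∑ b' ∈ Bs, c1 f b * ee (b * t) * ((starRingEnd ℂ) (c1 f b') * ee (-(b' * t)))
          = ∑ b ∈ Bs, ∑ b' ∈ Bs, (c1 f b * (starRingEnd ℂ) (c1 f b')) * ee (((b - b' : ℤ) : ℝ) * t) := by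
        refine sum_congr rfl fun b _ => sum_congr rfl fun b' _ => ?_
        have : ee (((b - b' : ℤ) : ℝ) * t) = ee (b * t) * ee (-(b' * t)) := by
          rw [← ee_add]; congr 1; push_cast; ring
        rw [this]; ring
      rw [a1, a2, a3]
      ring
    simp only [e1]
    have i0 : IntervalIntegrable (fun t => (((‖f t‖ ^ 2 : ℝ)) : ℂ)) volume 0 1 := by
      refine ii_of_bdd (f := fun t => (((‖f t‖ ^ 2 : ℝ)) : ℂ)) (C := C ^ 2)
        (Complex.measurable_ofReal.comp (hm.norm.pow_const 2)) (fun x => ?_) 0 1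
      rw [Complex.norm_real, Real.norm_of_nonneg (by positivity)]
      exact pow_le_pow_left₀ (norm_nonneg _) (hb x) 2
    have i1 : ∀ b : ℤ, IntervalIntegrable (fun t => (starRingEnd ℂ) (c1 f b) * (f t * ee (-(b * t)))) volume 0 1 := by
      intro b
      have := (ii_mul_ee hm hb (-b) 0 1).const_mul ((starRingEnd ℂ) (c1 f b))
      simpa only [neg_mul] using this
    have i2 : ∀ b : ℤ, IntervalIntegrable (fun t => c1 f b * ((starRingEnd ℂ) (f t) * ee (b * t))) volume 0 1 :=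
      fun b => (ii_mul_ee hmc hbc b 0 1).const_mul _
    have i3 : ∀ b b' : ℤ, IntervalIntegrable
        (fun t => (c1 f b * (starRingEnd ℂ) (c1 f b')) * ee (((b - b' : ℤ) : ℝ) * t)) volume 0 1 := by
      intro b b'
      exact (Continuous.intervalIntegrable (ee_continuous.comp (by fun_prop)) 0 1).const_mul _
    have I1 : IntervalIntegrable (fun t => ∑ b ∈ Bs, (starRingEnd ℂ) (c1 f b) * (f t * ee (-(b * t))))
        volume 0 1 := by
      have := IntervalIntegrable.sum Bs (fun b _ => i1 b)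
      simpa [Finset.sum_fn] using this
    have I2 : IntervalIntegrable (fun t => ∑ b ∈ Bs, c1 f b * ((starRingEnd ℂ) (f t) * ee (b * t)))
        volume 0 1 := by
      have := IntervalIntegrable.sum Bs (fun b _ => i2 b)
      simpa [Finset.sum_fn] using this
    have I3' : ∀ b, IntervalIntegrable (fun t => ∑ b' ∈ Bs,
        (c1 f b * (starRingEnd ℂ) (c1 f b')) * ee (((b - b' : ℤ) : ℝ) * t)) volume 0 1 := by
      intro b
      have := IntervalIntegrable.sum Bs (fun b' _ => i3 b b')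
      simpa [Finset.sum_fn] using this
    have I3 : IntervalIntegrable (fun t => ∑ b ∈ Bs, ∑ b' ∈ Bs,
        (c1 f b * (starRingEnd ℂ) (c1 f b')) * ee (((b - b' : ℤ) : ℝ) * t)) volume 0 1 := by
      have := IntervalIntegrable.sum Bs (fun b _ => I3' b)
      simpa [Finset.sum_fn] using this
    rw [intervalIntegral.integral_add ((i0.sub I1).sub I2) I3, intervalIntegral.integral_sub (i0.sub I1) I2,
      intervalIntegral.integral_sub i0 I1, intervalIntegral.integral_finsetSum (fun b _ => i1 b),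
      intervalIntegral.integral_finsetSum (fun b _ => i2 b),
      intervalIntegral.integral_finsetSum (fun b _ => I3' b)]
    have s1 : ∀ b ∈ Bs, ∫ t in (0:ℝ)..1, (starRingEnd ℂ) (c1 f b) * (f t * ee (-(b * t)))
        = ((‖c1 f b‖ ^ 2 : ℝ) : ℂ) := by
      intro b _
      rw [intervalIntegral.integral_const_mul, norm_sq_eq, mul_comm]
      rfl
    have s2 : ∀ b ∈ Bs, ∫ t in (0:ℝ)..1, c1 f b * ((starRingEnd ℂ) (f t) * ee (b * t))
        = ((‖c1 f b‖ ^ 2 : ℝ) : ℂ) := by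
      intro b _
      rw [intervalIntegral.integral_const_mul, norm_sq_eq]
      congr 1
      unfold c1
      rw [intervalIntegral.integral_of_le zero_le_one, intervalIntegral.integral_of_le zero_le_one,
        ← integral_conj]
      congr 1
      funext t
      rw [map_mul, ee_conj, neg_neg]
    have s3 : ∀ b ∈ Bs, ∫ t in (0:ℝ)..1, ∑ b' ∈ Bs,
        (c1 f b * (starRingEnd ℂ) (c1 f b')) * ee (((b - b' : ℤ) : ℝ) * t) = ((‖c1 f b‖ ^ 2 : ℝ) : ℂ) := by
      intro b hbm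
      rw [intervalIntegral.integral_finsetSum (fun b' _ => i3 b b'), sum_eq_single b]
      · rw [intervalIntegral.integral_const_mul, integral_ee, sub_self, if_pos rfl, mul_one, norm_sq_eq]
      · intro b' _ hbb
        rw [intervalIntegral.integral_const_mul, integral_ee, if_neg (sub_ne_zero.2 (Ne.symm hbb)), mul_zero]
      · intro h; exact absurd hbm h
    rw [sum_congr rfl s1, sum_congr rfl s2, sum_congr rfl s3]
    ring
  have h1 : ((∫ t in (0:ℝ)..1, ‖f t - ∑ b ∈ Bs, c1 f b * ee (b * t)‖ ^ 2 : ℝ) : ℂ)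
      = (((∫ t in (0:ℝ)..1, ‖f t‖ ^ 2) - ∑ b ∈ Bs, ‖c1 f b‖ ^ 2 : ℝ) : ℂ) := by
    rw [Complex.ofReal_sub, Complex.ofReal_sum]
    rw [← intervalIntegral.integral_ofReal, ← intervalIntegral.integral_ofReal]
    exact key
  exact_mod_cast h1

/-- Bessel inequality in one variable -/
lemma bessel1 {f : ℝ → ℂ} (hm : Measurable f) {C : ℝ} (hb : ∀ x, ‖f x‖ ≤ C) (Bs : Finset ℤ) :
    ∑ b ∈ Bs, ‖c1 f b‖ ^ 2 ≤ ∫ t in (0:ℝ)..1, ‖f t‖ ^ 2 := by
  have h := dist_sq hm hb Bs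
  have h2 : 0 ≤ ∫ t in (0:ℝ)..1, ‖f t - ∑ b ∈ Bs, c1 f b * ee (b * t)‖ ^ 2 :=
    intervalIntegral.integral_nonneg zero_le_one fun t _ => by positivity
  linarith

/-- sum of characters of `ℤ/n` -/
lemma sum_char {n : ℕ} (hn : 0 < n) (m : ℤ) :
    ∑ a ∈ range n, ee ((m : ℝ) * a / n) = if (n : ℤ) ∣ m then (n : ℂ) else 0 := by
  have hn0 : (n : ℝ) ≠ 0 := by positivity
  have h1 : ∀ a : ℕ, ee ((m : ℝ) * a / n) = ee ((m : ℝ) / n) ^ a := by
    intro a
    rw [← ee_mul_nat]; congr 1; ring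
  simp only [h1]
  split_ifs with h
  · obtain ⟨k, rfl⟩ := h
    have : ee (((n * k : ℤ) : ℝ) / n) = 1 := by
      have : (((n * k : ℤ) : ℝ) / n) = (k : ℝ) := by push_cast; field_simp
      rw [this, ee_int]
    simp only [this, one_pow, sum_const, card_range, nsmul_eq_mul, mul_one]
  · have hne : ee ((m : ℝ) / n) ≠ 1 := by
      intro h1
      unfold ee at h1
      rw [Complex.exp_eq_one_iff] at h1
      obtain ⟨k, hk⟩ := h1
      apply h
      refine ⟨k, ?_⟩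
      have hpi : (2 * Real.pi * Complex.I : ℂ) ≠ 0 := by
        have h1 : (Real.pi : ℂ) ≠ 0 := by exact_mod_cast Real.pi_ne_zero
        simp [h1]
      have h2 : (((m : ℝ) / n : ℝ) : ℂ) = k := by
        apply mul_left_cancel₀ hpi
        rw [hk]; ring
      have h3 : ((m : ℝ) / n) = k := by exact_mod_cast h2
      have h4 : (m : ℝ) = n * k := by
        rw [div_eq_iff hn0] at h3; linarith
      exact_mod_cast h4
    rw [geom_sum_eq hne]
    have : ee ((m : ℝ) / n) ^ n = 1 := by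
      rw [← ee_mul_nat, mul_div_cancel₀ _ hn0]
      exact ee_int m
    rw [this, sub_self, zero_div]

/-- Parseval on `ℤ/n` -/
lemma parseval_n {n : ℕ} (hn : 0 < n) (x : ℕ → ℂ) :
    ∑ a ∈ range n, ‖(1 / (n : ℂ)) * ∑ i ∈ range n, x i * ee (-((a : ℝ) * i / n))‖ ^ 2
      = (1 / (n : ℝ)) * ∑ i ∈ range n, ‖x i‖ ^ 2 := by
  have hn0 : (n : ℂ) ≠ 0 := by exact_mod_cast hn.ne'
  have key : ∑ a ∈ range n, (((‖(1 / (n : ℂ)) * ∑ i ∈ range n, x i * ee (-((a : ℝ) * i / n))‖ ^ 2 : ℝ)) : ℂ)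
      = (1 / (n : ℂ)) * ∑ i ∈ range n, ((‖x i‖ ^ 2 : ℝ) : ℂ) := by
    have e1 : ∀ a : ℕ, (((‖(1 / (n : ℂ)) * ∑ i ∈ range n, x i * ee (-((a : ℝ) * i / n))‖ ^ 2 : ℝ)) : ℂ)
        = (1 / (n : ℂ)) ^ 2 * ∑ i ∈ range n, ∑ i' ∈ range n, (x i * (starRingEnd ℂ) (x i')) *
            ee ((((i' : ℤ) - i : ℤ) : ℝ) * a / n) := by
      intro a
      rw [norm_sq_eq, map_mul, map_sum]
      have e0 : (starRingEnd ℂ) (1 / (n : ℂ)) = 1 / (n : ℂ) := by
        rw [map_div₀, map_one, Complex.conj_natCast]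
      rw [e0]
      simp only [map_mul, ee_conj, neg_neg]
      rw [show (1 / (n : ℂ)) * (∑ i ∈ range n, x i * ee (-((a : ℝ) * i / n))) *
          ((1 / (n : ℂ)) * ∑ i ∈ range n, (starRingEnd ℂ) (x i) * ee ((a : ℝ) * i / n))
          = (1 / (n : ℂ)) ^ 2 * ((∑ i ∈ range n, x i * ee (-((a : ℝ) * i / n))) *
            (∑ i ∈ range n, (starRingEnd ℂ) (x i) * ee ((a : ℝ) * i / n))) by ring]
      rw [sum_mul_sum]
      congr 1
      refine sum_congr rfl fun i _ => sum_congr rfl fun i' _ => ?_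
      have : ee ((((i' : ℤ) - i : ℤ) : ℝ) * a / n) = ee (-((a : ℝ) * i / n)) * ee ((a : ℝ) * i' / n) := by
        rw [← ee_add]; congr 1; push_cast; ring
      rw [this]; ring
    simp only [e1]
    rw [← mul_sum, sum_comm]
    have e2 : ∀ i ∈ range n, ∑ a ∈ range n, ∑ i' ∈ range n, (x i * (starRingEnd ℂ) (x i')) *
            ee ((((i' : ℤ) - i : ℤ) : ℝ) * a / n) = (n : ℂ) * ((‖x i‖ ^ 2 : ℝ) : ℂ) := by
      intro i hi
      rw [sum_comm, sum_eq_single i]
      · rw [← mul_sum, sum_char hn, sub_self, if_pos (dvd_zero _), norm_sq_eq]; ring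
      · intro i' hi' hne
        rw [← mul_sum, sum_char hn, if_neg, mul_zero]
        intro hd
        apply hne
        rw [mem_range] at hi hi'
        have := Int.eq_zero_of_abs_lt_dvd hd (by rw [abs_lt]; constructor <;> omega)
        omega
      · intro h; exact absurd hi h
    rw [sum_congr rfl e2, ← mul_sum]
    field_simp
  have h2 : ((∑ a ∈ range n, ‖(1 / (n : ℂ)) * ∑ i ∈ range n, x i * ee (-((a : ℝ) * i / n))‖ ^ 2 : ℝ) : ℂ)
      = (((1 / (n : ℝ)) * ∑ i ∈ range n, ‖x i‖ ^ 2 : ℝ) : ℂ) := by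
    push_cast at key ⊢
    exact key
  exact_mod_cast h2

lemma coef_eq (n : ℕ) (W : ℤ → ℝ → ℂ) (a : ℕ) (b : ℤ) :
    coef n W a b = (1 / (n : ℂ)) * ∑ i ∈ range n, c1 (W i) b * ee (-((a : ℝ) * i / n)) := by
  unfold coef c1
  congr 1
  refine sum_congr rfl fun i _ => ?_
  rw [← intervalIntegral.integral_mul_const]
  congr 1
  funext t
  rw [mul_assoc, ← ee_add]
  congr 2
  push_cast
  ring

/-- **Bessel on `ℤ/n × ℝ/ℤ`.** -/
theorem bessel {n : ℕ} (hn : 0 < n) {W : ℤ → ℝ → ℂ} (hm : ∀ i, Measurable (W i)) {C : ℝ}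
    (hb : ∀ i t, ‖W i t‖ ≤ C) (Bs : Finset ℤ) :
    ∑ a ∈ range n, ∑ b ∈ Bs, ‖coef n W a b‖ ^ 2
      ≤ (1 / (n : ℝ)) * ∑ i ∈ range n, ∫ t in (0:ℝ)..1, ‖W i t‖ ^ 2 := by
  rw [sum_comm]
  simp only [coef_eq]
  rw [sum_congr rfl fun b _ => parseval_n hn (fun i => c1 (W i) b)]
  rw [← mul_sum, sum_comm]
  refine mul_le_mul_of_nonneg_left (sum_le_sum fun i _ => ?_) (by positivity)
  exact bessel1 (hm i) (hb i) Bs

end Crest.Agent.R081.DlC
end

-- ▼ part R081/DlC2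
section

/-!
# Row 81, route B, node DL-C (helper919), part 2: closeness to a finite sum of lines
-/

set_option autoImplicit false

namespace Crest.Agent.R081.DlC

open MeasureTheory Finset Crest.Agent.R075

/-- the coefficient of one line -/
lemma coef_line {n : ℕ} (hn : 0 < n) (α : ℂ) (a' b' a b : ℤ) :
    coef n (fun i t => α * ee ((a' : ℝ) * i / n + b' * t)) a b
      = if b = b' ∧ (n : ℤ) ∣ a - a' then α else 0 := by
  classical
  have hn0 : (n : ℂ) ≠ 0 := by exact_mod_cast hn.ne'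
  unfold coef
  have h1 : ∀ i ∈ range n, ∫ t in (0:ℝ)..1, α * ee ((a' : ℝ) * (((i : ℕ) : ℤ) : ℝ) / n + b' * t)
        * ee (-(a * (i : ℕ) / n) - b * t)
      = (if b = b' then α else 0) * ee ((((a' - a : ℤ)) : ℝ) * i / n) := by
    intro i _
    have e1 : ∀ t : ℝ, α * ee ((a' : ℝ) * (((i : ℕ) : ℤ) : ℝ) / n + b' * t)
        * ee (-(a * (i : ℕ) / n) - b * t)
        = (α * ee ((((a' - a : ℤ)) : ℝ) * i / n)) * ee (((b' - b : ℤ) : ℝ) * t) := by
      intro t
      rw [mul_assoc, ← ee_add, mul_assoc, ← ee_add]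
      congr 2
      push_cast
      ring
    simp only [e1]
    rw [intervalIntegral.integral_const_mul, integral_ee]
    by_cases hb : b = b'
    · subst hb; simp
    · rw [if_neg (fun h => hb (by omega)), if_neg hb, zero_mul, mul_zero]
  rw [sum_congr rfl h1, ← mul_sum]
  have h2 := sum_char hn (a' - a)
  rw [h2]
  by_cases hb : b = b'
  · by_cases hd : (n : ℤ) ∣ a - a'
    · have hd' : (n : ℤ) ∣ a' - a := by
        have := (dvd_neg (a := (n : ℤ)) (b := a - a')).2 hd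
        rwa [neg_sub] at this
      rw [if_pos hb, if_pos hd', if_pos ⟨hb, hd⟩]
      field_simp
    · have hd' : ¬ (n : ℤ) ∣ a' - a := by
        intro h
        apply hd
        have := (dvd_neg (a := (n : ℤ)) (b := a' - a)).2 h
        rwa [neg_sub] at this
      have h3 : ¬ (b = b' ∧ (n : ℤ) ∣ a - a') := fun h => hd h.2
      rw [if_neg hd', if_neg h3]
      simp
  · have h3 : ¬ (b = b' ∧ (n : ℤ) ∣ a - a') := fun h => hb h.1
    rw [if_neg hb, if_neg h3]
    simp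

lemma coef_sub {n : ℕ} {W V : ℤ → ℝ → ℂ} (hW : ∀ i, Measurable (W i)) (hV : ∀ i, Measurable (V i))
    {C C' : ℝ} (hbW : ∀ i t, ‖W i t‖ ≤ C) (hbV : ∀ i t, ‖V i t‖ ≤ C') (a b : ℤ) :
    coef n (fun i t => W i t - V i t) a b = coef n W a b - coef n V a b := by
  unfold coef
  rw [← mul_sub, ← sum_sub_distrib]
  congr 1
  refine sum_congr rfl fun i _ => ?_
  have m0 : Measurable fun t : ℝ => ee (-(a * (i : ℕ) / n : ℝ) - b * t) := measurable_ee.comp (by fun_prop)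
  rw [← intervalIntegral.integral_sub]
  · congr 1
    funext t
    rw [sub_mul]
  · refine ii_of_bdd (f := fun t => W i t * ee (-(a * (i : ℕ) / n : ℝ) - b * t)) (C := C) ((hW i).mul m0)
      (fun t => ?_) 0 1
    rw [norm_mul, norm_ee, mul_one]; exact hbW i t
  · refine ii_of_bdd (f := fun t => V i t * ee (-(a * (i : ℕ) / n : ℝ) - b * t)) (C := C') ((hV i).mul m0)
      (fun t => ?_) 0 1
    rw [norm_mul, norm_ee, mul_one]; exact hbV i t

lemma coef_sum {n : ℕ} {Λ : Type*} (S : Finset Λ) {V : Λ → ℤ → ℝ → ℂ} (hV : ∀ l i, Measurable (V l i))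
    {C : Λ → ℝ} (hbV : ∀ l i t, ‖V l i t‖ ≤ C l) (a b : ℤ) :
    coef n (fun i t => ∑ l ∈ S, V l i t) a b = ∑ l ∈ S, coef n (V l) a b := by
  unfold coef
  rw [← mul_sum, sum_comm]
  congr 1
  refine sum_congr rfl fun i _ => ?_
  have m0 : Measurable fun t : ℝ => ee (-(a * (i : ℕ) / n : ℝ) - b * t) := measurable_ee.comp (by fun_prop)
  rw [← intervalIntegral.integral_finsetSum]
  · congr 1
    funext t
    rw [sum_mul]
  · intro l _
    refine ii_of_bdd (f := fun t => V l i t * ee (-(a * (i : ℕ) / n : ℝ) - b * t)) (C := C l) ((hV l i).mul m0)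
      (fun t => ?_) 0 1
    rw [norm_mul, norm_ee, mul_one]; exact hbV l i t

/-- the finite sum of lines -/
noncomputable def lineSum {Λ : Type*} (S : Finset Λ) (n : ℕ) (α : Λ → ℂ) (aL bL : Λ → ℤ) (i : ℤ) (t : ℝ) : ℂ :=
  ∑ l ∈ S, α l * ee ((aL l : ℝ) * i / n + bL l * t)

/-- the main coefficients -/
noncomputable def mainC {Λ : Type*} (S : Finset Λ) (n : ℕ) (α : Λ → ℂ) (aL bL : Λ → ℤ) (a b : ℤ) : ℂ :=
  by classical exact ∑ l ∈ S, if b = bL l ∧ (n : ℤ) ∣ a - aL l then α l else 0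

lemma coef_lineSum {Λ : Type*} (S : Finset Λ) {n : ℕ} (hn : 0 < n) (α : Λ → ℂ) (aL bL : Λ → ℤ) (a b : ℤ) :
    coef n (lineSum S n α aL bL) a b = mainC S n α aL bL a b := by
  classical
  unfold lineSum mainC
  rw [coef_sum S (V := fun l i t => α l * ee ((aL l : ℝ) * i / n + bL l * t)) (C := fun l => ‖α l‖)]
  · exact sum_congr rfl fun l _ => coef_line hn _ _ _ _ _
  · intro l i
    exact (measurable_ee.comp (by fun_prop)).const_mul _
  · intro l i t
    rw [norm_mul, norm_ee, mul_one]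

lemma measurable_lineSum {Λ : Type*} (S : Finset Λ) (n : ℕ) (α : Λ → ℂ) (aL bL : Λ → ℤ) (i : ℤ) :
    Measurable (lineSum S n α aL bL i) := by
  unfold lineSum
  exact Finset.measurable_sum _ fun l _ => (measurable_ee.comp (by fun_prop)).const_mul _

lemma norm_lineSum_le {Λ : Type*} (S : Finset Λ) (n : ℕ) (α : Λ → ℂ) (aL bL : Λ → ℤ) (i : ℤ) (t : ℝ) :
    ‖lineSum S n α aL bL i t‖ ≤ ∑ l ∈ S, ‖α l‖ := by
  unfold lineSum
  refine (norm_sum_le _ _).trans (sum_le_sum fun l _ => ?_)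
  rw [norm_mul, norm_ee, mul_one]

/-- **(C1)** L² closeness to a finite sum of lines gives closeness of the coefficients. -/
theorem lines_close {n : ℕ} (hn : 0 < n) {U : ℤ → ℝ → ℂ} (hm : ∀ i, Measurable (U i)) {C : ℝ}
    (hb : ∀ i t, ‖U i t‖ ≤ C) {Λ : Type*} (S : Finset Λ) (α : Λ → ℂ) (aL bL : Λ → ℤ) {e : ℝ}
    (hL2 : (1 / (n : ℝ)) * ∑ i ∈ range n, ∫ t in (0:ℝ)..1, ‖U i t - lineSum S n α aL bL i t‖ ^ 2 ≤ e)
    (Bs : Finset ℤ) :
    ∑ a ∈ range n, ∑ b ∈ Bs, ‖coef n U a b - mainC S n α aL bL a b‖ ^ 2 ≤ e := by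
  have h1 : ∀ (a : ℕ) (b : ℤ), coef n U a b - mainC S n α aL bL a b
      = coef n (fun i t => U i t - lineSum S n α aL bL i t) a b := by
    intro a b
    rw [coef_sub hm (measurable_lineSum S n α aL bL) hb (norm_lineSum_le S n α aL bL), coef_lineSum S hn]
  simp only [h1]
  refine le_trans (bessel hn (W := fun i t => U i t - lineSum S n α aL bL i t)
    (fun i => (hm i).sub (measurable_lineSum S n α aL bL i)) (C := C + ∑ l ∈ S, ‖α l‖) (fun i t => ?_) Bs) hL2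
  exact (norm_sub_le _ _).trans (add_le_add (hb i t) (norm_lineSum_le S n α aL bL i t))





end Crest.Agent.R081.DlC
end

-- ▼ part R081/DlC3

/-!
# Row 81, route B, node DL-C (helper919), part 3: `dco_lines` in the form of `DlDefs.lean`
-/

set_option autoImplicit false

namespace Crest.Agent.R081.DlC

open MeasureTheory Finset Crest.Agent.R075

lemma Dco_eq_coef (n : ℕ) (W : ℤ → ℝ → ℂ) (a b : ℤ) : Dl.Dco n W a b = coef n W a b := by
  unfold Dl.Dco coef
  congr 1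
  refine sum_congr rfl fun i _ => ?_
  congr 1
  funext t
  congr 2
  ring

/-- nonnegative functions on `Fin n × ℤ` with bounded partial sums over boxes -/
lemma summable_box {n : ℕ} (f : Fin n × ℤ → ℝ) (hf : ∀ x, 0 ≤ f x) {e : ℝ}
    (h : ∀ Bs : Finset ℤ, ∑ a : Fin n, ∑ b ∈ Bs, f (a, b) ≤ e) :
    Summable f ∧ ∑' x, f x ≤ e := by
  classical
  have h1 : ∀ s : Finset (Fin n × ℤ), ∑ x ∈ s, f x ≤ e := by
    intro s
    refine le_trans ?_ (h (s.image Prod.snd))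
    rw [← sum_product']
    refine sum_le_sum_of_subset_of_nonneg (fun x hx => ?_) fun x _ _ => hf x
    rw [mem_product]
    exact ⟨mem_univ _, mem_image_of_mem _ hx⟩
  have hs : Summable f := summable_of_sum_le hf h1
  exact ⟨hs, hs.tsum_le_of_sum_le h1⟩

/-- **C1 in `Dco` form** (for helper269): if `U` is `L²` close to a finite sum of lines, its coefficients are
`ℓ²` close to the coefficients of the lines. -/
theorem dco_lines {n : ℕ} (hn : 0 < n) {ι : Type*} [DecidableEq ι] (ls : Finset ι) (al bl : ι → ℤ) (cl : ι → ℂ)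
    (U : ℤ → ℝ → ℂ) (hm : ∀ i, Measurable (U i)) {C : ℝ} (hb : ∀ i θ, ‖U i θ‖ ≤ C) {e1 : ℝ}
    (hL2 : (1 / (n : ℝ)) * ∑ i ∈ range n, ∫ θ in (0:ℝ)..1,
      ‖U i θ - ∑ l ∈ ls, cl l * ee (al l * i / n + bl l * θ)‖ ^ 2 ≤ e1) :
    Summable (fun x : Fin n × ℤ => ‖Dl.Dco n U x.1 x.2
        - ∑ l ∈ ls, (if bl l = x.2 ∧ (n : ℤ) ∣ (x.1 : ℤ) - al l then cl l else 0)‖ ^ 2) ∧
      ∑' x : Fin n × ℤ, ‖Dl.Dco n U x.1 x.2
        - ∑ l ∈ ls, (if bl l = x.2 ∧ (n : ℤ) ∣ (x.1 : ℤ) - al l then cl l else 0)‖ ^ 2 ≤ e1 := by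
  classical
  apply summable_box _ (fun x => by positivity)
  intro Bs
  have h := lines_close hn hm hb ls cl al bl (e := e1) hL2 Bs
  rw [Finset.sum_range] at h
  refine le_trans (le_of_eq ?_) h
  refine sum_congr rfl fun a _ => sum_congr rfl fun b _ => ?_
  rw [Dco_eq_coef]
  congr 3
  unfold mainC
  refine sum_congr rfl fun l _ => ?_
  simp only [eq_comm (a := bl l) (b := b)]




end Crest.Agent.R081.DlC
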