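import Mathlib
import Crest.Agent.R081.DlAsm1
import Crest.Agent.R081.DlC3
import Crest.Agent.R081.BLab
import Crest.Agent.R081.DlDefs
import Crest.Agent.R075.Basic
import Crest.Agent.R081.Dg9
import Crest.Agent.R081.Asm4

-- ▼ part R081/DlAsm2
section

/-!
# Row 81, route B: assembly of the label design, part 2 (helper269)

Amplitudes, cover, injectivity.
-/

set_option autoImplicit false

namespace Crest.Agent.R081.Dl

open MeasureTheory Finset Crest.Agent.R075 Crest.Agent.R081.D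

section

variable {Λ : Type} {Fam : Set (Λ → ℂ)} {e1 e2 : ℝ} {B0 : ℕ} (TL : TorusLabels Λ Fam e1)
  (D : DesignL TL.T (e0 TL.n) TL.w e2 B0) {q : ℕ} {eta : ℝ} (Rd : Rounded D q eta)
  (x : Fin D.P → Fin (TL.n+1) → ℝ)

/-- the slope -/
noncomputable def vv : ℝ := (D.P : ℝ) / (D.h * D.Q)

lemma vv_pos : 0 < vv TL D := by
  have h1 : (0:ℝ) < D.P := by exact_mod_cast D.P_pos
  have h2 : (0:ℝ) < D.h := by exact_mod_cast D.h_pos
  have h3 : (0:ℝ) < D.Q := by exact_mod_cast D.Q_pos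
  unfold vv; positivity

lemma mem_ls (heta : eta ≤ 1 / 2) (p : Fin D.P) (l : Σ _ : (Fin (TL.n+1) → ℤ), ℕ × Bool) :
    l ∈ (sys TL D Rd x heta p).ls ↔ l.1 ∈ TL.T ∧ l.2.1 < D.Dt l.1 := by
  have : (sys TL D Rd x heta p).ls
      = TL.T.sigma fun t => range (D.Dt t) ×ˢ (univ : Finset Bool) := rfl
  rw [this]
  simp only [mem_sigma, mem_product, mem_univ, and_true, mem_range]

lemma abs_bl (heta : eta ≤ 1 / 2) (p : Fin D.P) {l : Σ _ : (Fin (TL.n+1) → ℤ), ℕ × Bool}
    (hl : l ∈ (sys TL D Rd x heta p).ls) : |(sys TL D Rd x heta p).bl l| = l.1 0 := by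
  have h1 := TL.T_pos l.1 ((mem_ls TL D Rd x heta p l).1 hl).1
  obtain ⟨t, j, s⟩ := l
  simp only at h1
  cases s
  · simp only [sys, Bool.false_eq_true, if_false]
    rw [abs_neg, abs_of_pos (by linarith)]
  · simp only [sys, if_true]
    rw [abs_of_pos (by linarith)]

lemma bl_ne (heta : eta ≤ 1 / 2) (p : Fin D.P) {l : Σ _ : (Fin (TL.n+1) → ℤ), ℕ × Bool}
    (hl : l ∈ (sys TL D Rd x heta p).ls) : (sys TL D Rd x heta p).bl l ≠ 0 := by
  have h1 := TL.T_pos l.1 ((mem_ls TL D Rd x heta p l).1 hl).1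
  have h2 := abs_bl TL D Rd x heta p hl
  intro h
  rw [h, abs_zero] at h2
  linarith

/-- sum over the lines of a piece -/
lemma sum_ls (heta : eta ≤ 1 / 2) (p : Fin D.P) (F : (Fin (TL.n+1) → ℤ) → ℝ) :
    ∑ l ∈ (sys TL D Rd x heta p).ls, F l.1 = 2 * ∑ t ∈ TL.T, (D.Dt t : ℝ) * F t := by
  have : (sys TL D Rd x heta p).ls
      = TL.T.sigma fun t => range (D.Dt t) ×ˢ (univ : Finset Bool) := rfl
  rw [this, Finset.sum_sigma, Finset.mul_sum]
  refine Finset.sum_congr rfl fun t _ => ?_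
  simp only [sum_const, card_product, card_range, card_univ, Fintype.card_bool, nsmul_eq_mul]
  push_cast
  ring

lemma sum_mass (heta : eta ≤ 1 / 2) (p : Fin D.P) :
    ∑ l ∈ (sys TL D Rd x heta p).ls, ‖cl TL D Rd x p l‖ ^ 2 ≤ 1 := by
  have h1 : ∑ l ∈ (sys TL D Rd x heta p).ls, ‖cl TL D Rd x p l‖ ^ 2
      = ∑ l ∈ (sys TL D Rd x heta p).ls, (fun t => TL.w t / D.Dt t) l.1 :=
    Finset.sum_congr rfl fun l hl => cl_norm TL D Rd x heta p hl
  rw [h1, sum_ls TL D Rd x heta p (fun t => TL.w t / D.Dt t)]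
  have h2 : ∑ t ∈ TL.T, (D.Dt t : ℝ) * (TL.w t / D.Dt t) = ∑ t ∈ TL.T, TL.w t := by
    refine Finset.sum_congr rfl fun t _ => ?_
    have : (0:ℝ) < D.Dt t := by exact_mod_cast D.Dt_pos t
    field_simp
  rw [h2]
  exact TL.w_hi

lemma cl_lo (heta : eta ≤ 1 / 2) (p : Fin D.P) {l : Σ _ : (Fin (TL.n+1) → ℤ), ℕ × Bool}
    (hl : l ∈ (sys TL D Rd x heta p).ls) :
    |((sys TL D Rd x heta p).bl l : ℝ)| * vv TL D ≤ ‖cl TL D Rd x p l‖ ^ 2 := by
  rw [cl_norm TL D Rd x heta p hl, ← Int.cast_abs, abs_bl TL D Rd x heta p hl]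
  have h := D.line_lo ((mem_ls TL D Rd x heta p l).1 hl).1
  rw [dot_e0] at h
  refine le_trans (le_of_eq ?_) h
  unfold vv; ring

lemma cl_hi (heta : eta ≤ 1 / 2) (p : Fin D.P) {l : Σ _ : (Fin (TL.n+1) → ℤ), ℕ × Bool}
    (hl : l ∈ (sys TL D Rd x heta p).ls) :
    ‖cl TL D Rd x p l‖ ^ 2 ≤ (1 + e2) * (|((sys TL D Rd x heta p).bl l : ℝ)| * vv TL D) := by
  rw [cl_norm TL D Rd x heta p hl, ← Int.cast_abs, abs_bl TL D Rd x heta p hl]
  have h := D.line_hi ((mem_ls TL D Rd x heta p l).1 hl).1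
  rw [dot_e0] at h
  refine le_trans h (le_of_eq ?_)
  unfold vv; ring

lemma amp_close {a b e : ℝ} (ha : 0 ≤ a) (hb : 0 ≤ b) (h1 : b ≤ a ^ 2) (h2 : a ^ 2 ≤ (1 + e) * b)
    (he : 0 ≤ e) : (a - Real.sqrt b) ^ 2 ≤ e * a ^ 2 := by
  have h3 := Real.sq_sqrt hb
  have h4 := Real.sqrt_nonneg b
  have h5 : Real.sqrt b ≤ a := Real.sqrt_le_iff.2 ⟨ha, h1⟩
  nlinarith

/-- total length of the lines of a piece -/
lemma cover_piece (he1 : 0 ≤ e1) (he2 : 0 < e2) (he : e1 + e2 ≤ 1) (heta : eta ≤ 1 / 2)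
    (p : Fin D.P) :
    1 - (e1 + e2) ≤ ∑ l ∈ (sys TL D Rd x heta p).ls,
      |((sys TL D Rd x heta p).bl l : ℝ)| * vv TL D := by
  have h1 : ∑ l ∈ (sys TL D Rd x heta p).ls, |((sys TL D Rd x heta p).bl l : ℝ)| * vv TL D
      = ∑ l ∈ (sys TL D Rd x heta p).ls, (fun t : Fin (TL.n+1) → ℤ => (t 0 : ℝ) * vv TL D) l.1 :=
    Finset.sum_congr rfl fun l hl => by
      rw [← Int.cast_abs, abs_bl TL D Rd x heta p hl]
  rw [h1, sum_ls TL D Rd x heta p (fun t : Fin (TL.n+1) → ℤ => (t 0 : ℝ) * vv TL D)]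
  have h2 := D.cover
  have h3 := TL.w_lo
  have h4 : ∑ t ∈ TL.T, (D.P : ℝ) * D.Dt t * dot t (e0 TL.n) / (D.h * D.Q)
      = ∑ t ∈ TL.T, (D.Dt t : ℝ) * ((t 0 : ℝ) * vv TL D) := by
    refine Finset.sum_congr rfl fun t _ => ?_
    rw [dot_e0]; unfold vv; ring
  rw [h4] at h2
  have h5 : (1 + e2) * (1 - (e1 + e2)) ≤ 1 - e1 := by nlinarith
  have h6 : (1 + e2) * (1 - (e1 + e2))
      ≤ (1 + e2) * (2 * ∑ t ∈ TL.T, (D.Dt t : ℝ) * ((t 0 : ℝ) * vv TL D)) := by linarith
  exact le_of_mul_le_mul_left h6 (by linarith)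

/-- point of the circle -/
noncomputable def pos (p : Fin D.P) (t : Fin (TL.n+1) → ℤ) (j : ℕ) (y : ℝ) : ℝ :=
  ((dot t (Rd.w p) + j * (D.q t * Rd.m) : ℤ) : ℝ) / (D.Q * Rd.m)
    + dot t (e0 TL.n) * ((p : ℕ) + y) / (D.h * D.Q)

lemma point_eq (heta : eta ≤ 1 / 2) (p : Fin D.P) {l : Σ _ : (Fin (TL.n+1) → ℤ), ℕ × Bool}
    {a b : ℤ} (hl : (sys TL D Rd x heta p).on l a b) (y : ℝ) :
    ∃ z : ℤ, (a : ℝ) / Rd.n + b * vv TL D * (((p : ℕ) + y) / D.P)
      = (if l.2.2 then 1 else -1) * pos TL D Rd p l.1 l.2.1 y + z := by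
  obtain ⟨hls, hb, z, hz⟩ := hl
  have h1 : (0:ℝ) < D.P := by exact_mod_cast D.P_pos
  have h2 : (0:ℝ) < D.h := by exact_mod_cast D.h_pos
  have h3 : (0:ℝ) < D.Q := by exact_mod_cast D.Q_pos
  have h5 : (0:ℝ) < Rd.m := by exact_mod_cast Rd.m_prime.pos
  have hn : (Rd.n : ℝ) = D.Q * Rd.m := by unfold Rounded.n; push_cast; ring
  refine ⟨z, ?_⟩
  have ha : (a : ℝ) = (sys TL D Rd x heta p).al l + Rd.n * z := by
    have : a = (sys TL D Rd x heta p).al l + Rd.n * z := by linarith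
    exact_mod_cast this
  rw [ha, ← hb]
  obtain ⟨t, j, s⟩ := l
  cases s
  · simp only [sys, Bool.false_eq_true, if_false, pos, vv, Rounded.a, dot_e0]
    rw [hn]
    push_cast
    field_simp
    ring
  · simp only [sys, if_true, pos, vv, Rounded.a, dot_e0]
    rw [hn]
    push_cast
    field_simp
    ring

theorem inj_main (heta : eta ≤ 1 / 2) (p p' : Fin D.P)
    {l l' : Σ _ : (Fin (TL.n+1) → ℤ), ℕ × Bool} {a b a' b' : ℤ}
    (hl : (sys TL D Rd x heta p).on l a b) (hl' : (sys TL D Rd x heta p').on l' a' b')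
    {y y' : ℝ} (hy : eta ≤ y) (hy2 : y ≤ 1 - eta) (hy' : eta ≤ y') (hy2' : y' ≤ 1 - eta) {k : ℤ}
    (h : (a : ℝ) / Rd.n + b * vv TL D * (((p : ℕ) + y) / D.P)
      = (a' : ℝ) / Rd.n + b' * vv TL D * (((p' : ℕ) + y') / D.P) + k) :
    p = p' ∧ b = b' ∧ y = y' ∧ (Rd.n : ℤ) ∣ a - a' := by
  obtain ⟨z, hz⟩ := point_eq TL D Rd x heta p hl y
  obtain ⟨z', hz'⟩ := point_eq TL D Rd x heta p' hl' y'
  rw [hz, hz'] at h
  have hm := (mem_ls TL D Rd x heta p l).1 hl.1
  have hm' := (mem_ls TL D Rd x heta p' l').1 hl'.1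
  have hfin : p = p' → l = l' → y = y' → p = p' ∧ b = b' ∧ y = y' ∧ (Rd.n : ℤ) ∣ a - a' := by
    intro hp hll hyy
    subst hp
    subst hll
    refine ⟨rfl, hl.2.1.symm.trans hl'.2.1, hyy, ?_⟩
    have := dvd_sub hl.2.2 hl'.2.2
    have e : a - (sys TL D Rd x heta p).al l - (a' - (sys TL D Rd x heta p).al l) = a - a' := by
      ring
    rwa [e] at this
  obtain ⟨t, j, s⟩ := l
  obtain ⟨t', j', s'⟩ := l'
  cases s <;> cases s' <;>
    simp only [if_true, if_false, Bool.false_eq_true, one_mul, neg_one_mul] at h hm hm'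
  · obtain ⟨h1, h2, h3, h4⟩ := Rd.inj p p' t hm.1 t' hm'.1 j hm.2 j' hm'.2 y y' hy hy2 hy' hy2'
      (z - z' - k) (by
        change pos TL D Rd p t j y = pos TL D Rd p' t' j' y' + _
        push_cast
        linarith)
    exact hfin h1 (by rw [h2, h3]) h4
  · exact (Rd.inj_mirror p p' t hm.1 t' hm'.1 j hm.2 j' hm'.2 y y' hy hy2 hy' hy2'
      (z - z' - k) (by
        change pos TL D Rd p t j y = -(pos TL D Rd p' t' j' y') + _
        push_cast
        linarith)).elim
  · exact (Rd.inj_mirror p p' t hm.1 t' hm'.1 j hm.2 j' hm'.2 y y' hy hy2 hy' hy2'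
      (z' + k - z) (by
        change pos TL D Rd p t j y = -(pos TL D Rd p' t' j' y') + _
        push_cast
        linarith)).elim
  · obtain ⟨h1, h2, h3, h4⟩ := Rd.inj p p' t hm.1 t' hm'.1 j hm.2 j' hm'.2 y y' hy hy2 hy' hy2'
      (z' + k - z) (by
        change pos TL D Rd p t j y = pos TL D Rd p' t' j' y' + _
        push_cast
        linarith)
    exact hfin h1 (by rw [h2, h3]) h4

end

end Crest.Agent.R081.Dl
end

-- ▼ part R081/DlDist
section

/-!
# Row 81, label design: near equidistribution of the labels from the flatness bound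

`LabelOut.dist` follows from the smallness of the `(0,0)` coefficients of all nontrivial characters.
-/

set_option autoImplicit false

namespace Crest.Agent.R081.DlDist

open MeasureTheory Crest.Agent.R075 Finset Crest.Agent.R081.B

lemma ee_div_eq_one {n : ℕ} (hn : 0 < n) (d : ℤ) (h : ee ((d : ℝ) / n) = 1) : (n : ℤ) ∣ d := by
  unfold ee at h
  rw [Complex.exp_eq_one_iff] at h
  obtain ⟨k, hk⟩ := h
  have h3 : (2 * (Real.pi : ℂ) * Complex.I) ≠ 0 := by
    simp [Real.pi_ne_zero, Complex.I_ne_zero]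
  have h4 : (((d : ℝ) / n : ℝ) : ℂ) = (k : ℂ) := by
    apply mul_left_cancel₀ h3
    rw [hk]; ring
  have h5 : ((d : ℝ) / n) = (k : ℝ) := by exact_mod_cast h4
  have hn' : (n : ℝ) ≠ 0 := by exact_mod_cast hn.ne'
  rw [div_eq_iff hn'] at h5
  refine ⟨k, ?_⟩
  have : (d : ℝ) = ((n : ℤ) * k : ℤ) := by rw [h5]; push_cast; ring
  exact_mod_cast this

lemma sum_ee_range {n : ℕ} (hn : 0 < n) (d : ℤ) :
    ∑ a ∈ range n, ee (a * d / n) = if (n : ℤ) ∣ d then (n : ℂ) else 0 := by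
  have hn' : (n : ℝ) ≠ 0 := by exact_mod_cast hn.ne'
  have e1 : ∀ a ∈ range n, ee (a * d / n) = ee ((d : ℝ) / n) ^ a := by
    intro a _
    rw [← ee_mul_nat]; congr 1; ring
  rw [Finset.sum_congr rfl e1]
  split_ifs with hd
  · obtain ⟨k, rfl⟩ := hd
    have : ee ((((n : ℤ) * k : ℤ) : ℝ) / n) = 1 := by
      rw [← ee_int k]; congr 1; push_cast; field_simp
    rw [this]; simp
  · have hne : ee ((d : ℝ) / n) ≠ 1 := fun h => hd (ee_div_eq_one hn d h)
    rw [geom_sum_eq hne]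
    have : ee ((d : ℝ) / n) ^ n = 1 := by
      rw [← ee_mul_nat]
      have : (n : ℝ) * ((d : ℝ) / n) = (d : ℤ) := by field_simp
      rw [this, ee_int]
    rw [this]; simp



/-- the integer representatives of a character. -/
def kk {M1 M2 : ℕ} (κ : ZMod M1 × ZMod M2) : ℤ × ℤ := (κ.1.val, κ.2.val)






/-! ### integrals of functions of a label -/

section int
variable {G : Type} [Fintype G]


lemma int1 (lab : ℝ → G) (hm : ∀ s, MeasurableSet {t : ℝ | lab t = s}) (g : G → ℂ) :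
    ∫ t in (0:ℝ)..1, g (lab t)
      = ∑ s, g s * ((volume {t : ℝ | t ∈ Set.Ico (0:ℝ) 1 ∧ lab t = s}).toReal : ℂ) := by
  letI : MeasurableSpace G := ⊤
  haveI : MeasurableSingletonClass G := ⟨fun _ => trivial⟩
  have hlm : Measurable lab := measurable_to_countable' (fun s => hm s)
  have hgm : Measurable g := measurable_from_top
  obtain ⟨C, hC⟩ : ∃ C : ℝ, ∀ s, ‖g s‖ ≤ C := ⟨∑ s, ‖g s‖, fun s =>
    Finset.single_le_sum (f := fun s => ‖g s‖) (fun _ _ => norm_nonneg _) (mem_univ s)⟩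
  rw [intervalIntegral.integral_of_le zero_le_one, ← integral_Ico_eq_integral_Ioc]
  have h2 : ∫ p in Set.Ico (0:ℝ) 1, g (lab p)
      = ∫ s, g s ∂(Measure.map lab ((volume : Measure ℝ).restrict (Set.Ico (0:ℝ) 1))) := by
    rw [integral_map hlm.aemeasurable hgm.aestronglyMeasurable]
  haveI : IsFiniteMeasure (Measure.map lab ((volume : Measure ℝ).restrict (Set.Ico (0:ℝ) 1))) :=
    Measure.isFiniteMeasure_map _ _
  rw [h2, integral_fintype (Integrable.of_bound hgm.aestronglyMeasurable C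
    (Filter.Eventually.of_forall hC))]
  refine Finset.sum_congr rfl (fun s _ => ?_)
  rw [Measure.real, Measure.map_apply hlm (measurableSet_singleton s),
    Measure.restrict_apply (hlm (measurableSet_singleton s)), Complex.real_smul, mul_comm]
  congr 4
  ext p
  simp only [Set.mem_inter_iff, Set.mem_preimage, Set.mem_singleton_iff, Set.mem_ofPred_eq]
  tauto

end int

variable {M1 M2 : ℕ} [NeZero M1] [NeZero M2]















end Crest.Agent.R081.DlDist
end

-- ▼ part R081/DlDist2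
section

/-!
# Row 81, label design: equidistribution of the labels for an arbitrary finite label set
-/

set_option autoImplicit false

namespace Crest.Agent.R081.DlDist

open MeasureTheory Crest.Agent.R075 Finset Crest.Agent.R081.Dl

section
variable {Λ : Type} [Fintype Λ]

/-- the characters of a finite label set (enumerated by `Fintype.equivFin`). -/
noncomputable def chi (κ : ℕ) (s : Λ) : ℂ :=
  ee (κ * ((Fintype.equivFin Λ s).val : ℝ) / (Fintype.card Λ : ℝ))

lemma norm_chi (κ : ℕ) (s : Λ) : ‖chi κ s‖ = 1 := norm_ee _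

lemma chi_zero (s : Λ) : chi 0 s = 1 := by
  unfold chi; simp

lemma sum_chi {κ : ℕ} (h0 : 0 < κ) (h1 : κ < Fintype.card Λ) : ∑ s : Λ, chi κ s = 0 := by
  have hM : 0 < Fintype.card Λ := by omega
  have e0 : ∑ s : Λ, chi κ s
      = ∑ k : Fin (Fintype.card Λ), ee (κ * ((k.val : ℕ) : ℝ) / (Fintype.card Λ : ℝ)) := by
    rw [← Equiv.sum_comp (Fintype.equivFin Λ)]
    rfl
  rw [e0, Fin.sum_univ_eq_sum_range
    (fun k : ℕ => ee (κ * (k : ℝ) / (Fintype.card Λ : ℝ))) (Fintype.card Λ)]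
  have e1 : ∀ a ∈ range (Fintype.card Λ), ee (κ * (a : ℝ) / (Fintype.card Λ : ℝ))
      = ee (a * ((κ : ℤ) : ℝ) / (Fintype.card Λ : ℝ)) := by
    intro a _
    congr 1; push_cast; ring
  rw [Finset.sum_congr rfl e1, sum_ee_range hM, if_neg]
  intro hd
  have := Int.le_of_dvd (by exact_mod_cast h0) hd
  omega

lemma orth_chi [DecidableEq Λ] (x y : Λ) :
    ∑ κ ∈ range (Fintype.card Λ), chi κ x * (starRingEnd ℂ) (chi κ y)
      = if x = y then (Fintype.card Λ : ℂ) else 0 := by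
  have hM : 0 < Fintype.card Λ := Fintype.card_pos_iff.2 ⟨x⟩
  set X := (Fintype.equivFin Λ x).val with hX
  set Y := (Fintype.equivFin Λ y).val with hY
  have hXl : X < Fintype.card Λ := (Fintype.equivFin Λ x).isLt
  have hYl : Y < Fintype.card Λ := (Fintype.equivFin Λ y).isLt
  have e1 : ∀ a ∈ range (Fintype.card Λ), chi a x * (starRingEnd ℂ) (chi a y)
      = ee (a * (((X : ℤ) - (Y : ℤ) : ℤ) : ℝ) / (Fintype.card Λ : ℝ)) := by
    intro a _
    unfold chi
    rw [ee_conj, ← ee_add]; congr 1; push_cast; ring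
  rw [Finset.sum_congr rfl e1, sum_ee_range hM]
  have hiff : ((Fintype.card Λ : ℤ) ∣ (X : ℤ) - (Y : ℤ)) ↔ x = y := by
    constructor
    · intro h
      have h1 : |(X : ℤ) - Y| < Fintype.card Λ := by
        rw [abs_lt]; omega
      have h2 := Int.eq_zero_of_abs_lt_dvd h h1
      apply (Fintype.equivFin Λ).injective
      apply Fin.ext
      omega
    · rintro rfl; simp [hX, hY]
  by_cases h : x = y
  · rw [if_pos h, if_pos (hiff.2 h)]
  · rw [if_neg h, if_neg (fun h' => h (hiff.1 h'))]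

/-- **abstract equidistribution.** -/
theorem dist_abs' (fr : Λ → ℝ) (hsum : ∑ s, fr s = 1) (δ : ℝ) (hδ : 0 ≤ δ)
    (hD : ∀ κ : ℕ, 0 < κ → κ < Fintype.card Λ → ‖∑ s, chi κ s * (fr s : ℂ)‖ ≤ δ) :
    ∑ s, |fr s - 1 / (Fintype.card Λ : ℝ)| ≤ (Fintype.card Λ : ℝ) * δ := by
  classical
  rcases isEmpty_or_nonempty Λ with hE | hE
  · simp
  have hMn : 0 < Fintype.card Λ := Fintype.card_pos
  have hM : (0 : ℝ) < Fintype.card Λ := by exact_mod_cast hMn
  set M := Fintype.card Λ with hMdef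
  set D : ℕ → ℂ := fun κ => ∑ s, chi κ s * (fr s : ℂ) with hDdef
  have hD0 : D 0 = 1 := by
    simp only [hDdef, chi_zero, one_mul]
    rw [← Complex.ofReal_sum, hsum]; simp
  have hinv : ∀ s0 : Λ, ∑ κ ∈ range M, (starRingEnd ℂ) (chi κ s0) * D κ = (M : ℂ) * fr s0 := by
    intro s0
    simp only [hDdef, Finset.mul_sum]
    rw [Finset.sum_comm]
    have : ∀ s : Λ, ∑ κ ∈ range M, (starRingEnd ℂ) (chi κ s0) * (chi κ s * (fr s : ℂ))
        = (if s = s0 then (M : ℂ) else 0) * fr s := by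
      intro s
      rw [← orth_chi s s0, Finset.sum_mul]
      exact Finset.sum_congr rfl (fun κ _ => by ring)
    rw [Finset.sum_congr rfl (fun s _ => this s)]
    simp
  have h0mem : 0 ∈ range M := mem_range.2 hMn
  have hone : ∀ s0, |fr s0 - 1 / (M : ℝ)| ≤ δ := by
    intro s0
    have h1 := hinv s0
    rw [← Finset.add_sum_erase (range M) _ h0mem, chi_zero, hD0] at h1
    have h2 : (((M : ℝ) * (fr s0 - 1 / (M : ℝ)) : ℝ) : ℂ)
        = (∑ κ ∈ (range M).erase 0, (starRingEnd ℂ) (chi κ s0) * D κ) := by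
      have h3 : ((M : ℝ) * (fr s0 - 1 / (M : ℝ)) : ℝ) = M * fr s0 - 1 := by
        field_simp
      rw [h3]
      push_cast at h1 ⊢
      rw [← h1]
      simp
    have h4 : ‖∑ κ ∈ (range M).erase 0, (starRingEnd ℂ) (chi κ s0) * D κ‖ ≤ M * δ := by
      refine (norm_sum_le _ _).trans ?_
      calc ∑ κ ∈ (range M).erase 0, ‖(starRingEnd ℂ) (chi κ s0) * D κ‖
          ≤ ∑ κ ∈ (range M).erase 0, δ := by
            refine Finset.sum_le_sum (fun κ hκ => ?_)
            rw [norm_mul, RCLike.norm_conj, norm_chi, one_mul]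
            exact hD κ (Nat.pos_of_ne_zero (Finset.ne_of_mem_erase hκ))
              (mem_range.1 (Finset.mem_of_mem_erase hκ))
        _ ≤ M * δ := by
            rw [Finset.sum_const, nsmul_eq_mul]
            refine mul_le_mul_of_nonneg_right ?_ hδ
            have : ((range M).erase 0).card ≤ M := by
              refine Finset.card_erase_le.trans ?_
              rw [card_range]
            exact_mod_cast this
    rw [← h2, Complex.norm_real, Real.norm_eq_abs, abs_mul, abs_of_pos hM] at h4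
    exact le_of_mul_le_mul_left h4 hM
  calc ∑ s, |fr s - 1 / (M : ℝ)| ≤ ∑ _s : Λ, δ :=
        Finset.sum_le_sum (fun s _ => hone s)
    _ = M * δ := by
        rw [Finset.sum_const, nsmul_eq_mul, Finset.card_univ]

lemma Dco_zero (n : ℕ) (f : ℤ → ℝ → ℂ) :
    Dco n f 0 0 = (1 / (n : ℂ)) * ∑ i ∈ Finset.range n, ∫ t in (0:ℝ)..1, f i t := by
  unfold Dco
  congr 1
  refine Finset.sum_congr rfl (fun i _ => ?_)
  refine intervalIntegral.integral_congr (fun t _ => ?_)
  simp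

/-- **(D3')** near equidistribution of the labels of one piece, for an arbitrary finite label set. -/
theorem dist_piece' {n : ℕ} (hn : 0 < n) (lab : ℤ → ℝ → Λ)
    (hm : ∀ (i : ℤ) (s : Λ), MeasurableSet {θ : ℝ | lab i θ = s})
    (d : ℝ) (hd : 0 ≤ d)
    (hD : ∀ κ : ℕ, 0 < κ → κ < Fintype.card Λ → ‖Dco n (fun i θ => chi κ (lab i θ)) 0 0‖ ≤ d) :
    ∑ s : Λ, |(1 / (n : ℝ)) * ∑ i ∈ Finset.range n,
        (volume {θ ∈ Set.Ico (0:ℝ) 1 | lab i θ = s}).toReal - 1 / (Fintype.card Λ : ℝ)|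
      ≤ (Fintype.card Λ : ℝ) * d := by
  set fr : Λ → ℝ := fun s => (1 / (n : ℝ)) * ∑ i ∈ Finset.range n,
        (volume {θ ∈ Set.Ico (0:ℝ) 1 | lab i θ = s}).toReal with hfr
  have key : ∀ g : Λ → ℂ, Dco n (fun i θ => g (lab i θ)) 0 0 = ∑ s, g s * (fr s : ℂ) := by
    intro g
    rw [Dco_zero]
    simp only [hfr]
    push_cast
    simp only [Finset.mul_sum]
    rw [Finset.sum_comm]
    refine Finset.sum_congr rfl (fun i _ => ?_)
    rw [int1 (fun t => lab i t) (fun s => hm i s) g, Finset.mul_sum]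
    refine Finset.sum_congr rfl (fun s _ => ?_)
    ring
  refine dist_abs' fr ?_ d hd (fun κ h0 h1 => ?_)
  · have h := key (fun _ => 1)
    rw [Dco_zero] at h
    simp only [one_mul] at h
    have hn' : (n : ℂ) ≠ 0 := by exact_mod_cast hn.ne'
    have h2 : ((∑ s, fr s : ℝ) : ℂ) = 1 := by
      push_cast
      rw [← h]
      simp [hn']
    exact_mod_cast h2
  · rw [← key (chi κ)]
    exact hD κ h0 h1

end

end Crest.Agent.R081.DlDist
end

-- ▼ part R081/Spread
section

/-!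
# Row 81: the spread function (helper472), algebraic part

For a finite field `F` with `Q` elements the plane `F × F` is the union of the `Q + 1` lines through
the origin (indexed by the slope `s : Option F`).  A nontrivial additive character is trivial on exactly one
of these lines; consequently every function of the slope has a Fourier transform which is flat.
-/

set_option autoImplicit false
set_option linter.unusedSectionVars false

namespace Crest.Agent.R081.Spread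

open Finset

variable {F : Type*} [Field F] [Fintype F] [DecidableEq F]

/-- the slope of a nonzero vector of the plane -/
def slope (u : F × F) : Option F := if u.1 = 0 then none else some (u.2 / u.1)

/-- parametrisation of the line with slope `s` -/
def line (s : Option F) (c : F) : F × F :=
  match s with
  | none => (0, c)
  | some a => (c, a * c)

@[simp] lemma line_none (c : F) : line none c = (0, c) := rfl
@[simp] lemma line_some (a c : F) : line (some a) c = (c, a * c) := rfl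

lemma line_zero (s : Option F) : line s (0 : F) = 0 := by
  cases s <;> simp

lemma line_ne_zero (s : Option F) {c : F} (hc : c ≠ 0) : line s c ≠ 0 := by
  cases s <;> simp [Prod.ext_iff, hc]

lemma line_add (s : Option F) (c d : F) : line s (c + d) = line s c + line s d := by
  cases s
  · simp
  · simp [mul_add]

lemma slope_line (s : Option F) {c : F} (hc : c ≠ 0) : slope (line s c) = s := by
  cases s
  · simp [slope]
  · simp [slope, hc]

/-- the nonzero vectors are the pairs (slope, nonzero parameter) -/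
lemma exists_line {u : F × F} (hu : u ≠ 0) : ∃ c : F, c ≠ 0 ∧ line (slope u) c = u := by
  obtain ⟨x, y⟩ := u
  by_cases hx : x = 0
  · subst hx
    refine ⟨y, ?_, ?_⟩
    · intro h; apply hu; simp [h]
    · simp [slope]
  · refine ⟨x, hx, ?_⟩
    simp [slope, hx]

lemma line_injective (s : Option F) : Function.Injective (line s : F → F × F) := by
  intro c d h
  cases s
  · simpa using h
  · simp only [line_some, Prod.mk.injEq] at h
    exact h.1

/-- Summation over the plane: a sum over the nonzero vectors is a sum over slopes and nonzero parameters. -/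
lemma sum_ne_zero (f : F × F → ℂ) :
    ∑ u ∈ univ.filter (fun u : F × F => u ≠ 0), f u
      = ∑ s : Option F, ∑ c ∈ univ.filter (fun c : F => c ≠ 0), f (line s c) := by
  rw [← sum_product']
  symm
  refine sum_bij (fun x _ => line x.1 x.2) ?_ ?_ ?_ ?_
  · intro x hx
    simp only [mem_product, mem_univ, true_and, mem_filter] at hx ⊢
    exact line_ne_zero _ hx
  · intro x hx y hy h
    simp only [mem_product, mem_univ, true_and, mem_filter] at hx hy
    have h1 : x.1 = y.1 := by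
      have := congrArg slope h
      rwa [slope_line _ hx, slope_line _ hy] at this
    have h2 : x.2 = y.2 := by
      rw [h1] at h
      exact line_injective _ h
    exact Prod.ext h1 h2
  · intro u hu
    simp only [mem_filter, mem_univ, true_and] at hu
    obtain ⟨c, hc, h⟩ := exists_line hu
    exact ⟨(slope u, c), by simp [hc], h⟩
  · intro x hx
    rfl

lemma sum_split_zero {α : Type*} [Fintype α] [DecidableEq α] [Zero α] (f : α → ℂ) :
    ∑ u, f u = f 0 + ∑ u ∈ univ.filter (fun u : α => u ≠ 0), f u := by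
  rw [← sum_filter_add_sum_filter_not univ (fun u : α => u = 0)]
  congr 1
  simp [sum_filter]

/-- the character restricted to a line -/
def lineChar (χ : AddChar (F × F) ℂ) (s : Option F) : AddChar F ℂ where
  toFun c := χ (line s c)
  map_zero_eq_one' := by simp [line_zero]
  map_add_eq_mul' c d := by simp [line_add, AddChar.map_add_eq_mul]

lemma lineChar_apply (χ : AddChar (F × F) ℂ) (s : Option F) (c : F) :
    lineChar χ s c = χ (line s c) := rfl

/-- A function of the slope, with an arbitrary value at the origin. -/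
def slopeFun (w0 : ℂ) (W : Option F → ℂ) (u : F × F) : ℂ := if u = 0 then w0 else W (slope u)

lemma sum_slopeFun (w0 : ℂ) (W : Option F → ℂ) (χ : AddChar (F × F) ℂ) :
    ∑ u, slopeFun w0 W u * χ u = w0 + ∑ s : Option F, W s * (∑ c : F, χ (line s c) - 1) := by
  rw [sum_split_zero]
  congr 1
  · simp [slopeFun]
  · rw [sum_ne_zero]
    refine sum_congr rfl fun s _ => ?_
    rw [sum_split_zero (fun c : F => χ (line s c)), line_zero, AddChar.map_zero_eq_one, add_sub_cancel_left,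
      mul_sum]
    refine sum_congr rfl fun c hc => ?_
    simp only [mem_filter, mem_univ, true_and] at hc
    rw [slopeFun, if_neg (line_ne_zero s hc), slope_line s hc]

lemma sum_line (χ : AddChar (F × F) ℂ) (s : Option F) :
    ∑ c : F, χ (line s c) = if lineChar χ s = 0 then (Fintype.card F : ℂ) else 0 := by
  classical
  have := AddChar.sum_eq_ite (lineChar χ s)
  simpa [lineChar_apply] using this

/-- **Spread property**: a nontrivial character is trivial on exactly one line. -/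
theorem existsUnique_line (χ : AddChar (F × F) ℂ) (hχ : χ ≠ 0) :
    ∃ s0 : Option F, ∀ s, lineChar χ s = 0 ↔ s = s0 := by
  classical
  have hQ : (Fintype.card F : ℂ) ≠ 0 := by
    exact_mod_cast Fintype.card_ne_zero
  have h0 : ∑ u, χ u = 0 := by
    rw [AddChar.sum_eq_ite, if_neg hχ]
  have h1 := sum_slopeFun (1 : ℂ) (fun _ => (1 : ℂ)) χ
  have h2 : ∑ u, slopeFun (1 : ℂ) (fun _ => (1 : ℂ)) u * χ u = 0 := by
    rw [← h0]
    refine sum_congr rfl fun u _ => ?_
    simp [slopeFun]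
  rw [h2] at h1
  simp only [one_mul, sum_sub_distrib, sum_const, card_univ, nsmul_eq_mul, mul_one] at h1
  simp only [sum_line] at h1
  rw [Fintype.card_option] at h1
  rw [sum_ite, sum_const_zero, add_zero, sum_const, nsmul_eq_mul] at h1
  have h3 : ((univ.filter fun s : Option F => lineChar χ s = 0).card : ℂ) = 1 := by
    have : ((univ.filter fun s : Option F => lineChar χ s = 0).card : ℂ) * (Fintype.card F : ℂ)
        = 1 * (Fintype.card F : ℂ) := by
      push_cast at h1 ⊢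
      linear_combination -h1
    exact mul_right_cancel₀ hQ this
  have h4 : (univ.filter fun s : Option F => lineChar χ s = 0).card = 1 := by exact_mod_cast h3
  obtain ⟨s0, hs0⟩ := card_eq_one.1 h4
  refine ⟨s0, fun s => ?_⟩
  have : s ∈ (univ.filter fun s : Option F => lineChar χ s = 0) ↔ s ∈ ({s0} : Finset (Option F)) := by
    rw [hs0]
  simpa using this

/-- **Flatness**: the transform of a function of the slope at a nontrivial character. -/
theorem transform_slopeFun (χ : AddChar (F × F) ℂ) (hχ : χ ≠ 0) :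
    ∃ s0 : Option F, ∀ (w0 : ℂ) (W : Option F → ℂ),
      ∑ u, slopeFun w0 W u * χ u = (Fintype.card F : ℂ) * W s0 + (w0 - ∑ s, W s) := by
  classical
  obtain ⟨s0, hs0⟩ := existsUnique_line χ hχ
  refine ⟨s0, fun w0 W => ?_⟩
  rw [sum_slopeFun]
  simp only [sum_line, hs0, mul_sub, mul_one, sum_sub_distrib, mul_ite, mul_zero, sum_ite_eq', mem_univ,
    if_true]
  ring

/-- The transform at the trivial character. -/
theorem transform_slopeFun_zero (w0 : ℂ) (W : Option F → ℂ) :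
    ∑ u : F × F, slopeFun w0 W u = w0 + ((Fintype.card F : ℂ) - 1) * ∑ s, W s := by
  classical
  have h := sum_slopeFun w0 W (0 : AddChar (F × F) ℂ)
  simp only [AddChar.zero_apply, mul_one, sum_const, card_univ, nsmul_eq_mul] at h
  rw [h, mul_sum]
  congr 1
  refine sum_congr rfl fun s _ => ?_
  ring

end Crest.Agent.R081.Spread
end

-- ▼ part R081/SpreadC
section

/-!
# Row 81: the spread function on `(ℤ/p)^(2r)` (helper472)
-/

set_option autoImplicit false

namespace Crest.Agent.R081.Spread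

open Finset

/-- the character `u ↦ e(-t·u/p)` of `(ℤ/p)^n` -/
noncomputable def chr (p : ℕ) [NeZero p] {n : ℕ} (t : Fin n → ℤ) : AddChar (Fin n → ZMod p) ℂ where
  toFun u := ∏ i, ZMod.stdAddChar (-(t i : ZMod p) * u i)
  map_zero_eq_one' := by simp
  map_add_eq_mul' u v := by
    simp only [Pi.add_apply, mul_add, AddChar.map_add_eq_mul, prod_mul_distrib]

lemma chr_apply (p : ℕ) [NeZero p] {n : ℕ} (t : Fin n → ℤ) (u : Fin n → ZMod p) :
    chr p t u = ∏ i, ZMod.stdAddChar (-(t i : ZMod p) * u i) := rfl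

lemma chr_exp (p : ℕ) [NeZero p] {n : ℕ} (t : Fin n → ℤ) (u : Fin n → ZMod p) :
    chr p t u = Complex.exp (-(2 * Real.pi * Complex.I) * (∑ i, (t i : ℂ) * (u i).val) / p) := by
  rw [chr_apply]
  have : ∀ i, (ZMod.stdAddChar (-(t i : ZMod p) * u i) : ℂ)
      = Complex.exp (-(2 * Real.pi * Complex.I) * ((t i : ℂ) * (u i).val) / p) := by
    intro i
    have h1 : (-(t i : ZMod p) * u i) = (((-(t i) * ((u i).val : ℤ)) : ℤ) : ZMod p) := by
      push_cast
      rw [ZMod.natCast_zmod_val]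
    rw [h1, ZMod.stdAddChar_coe]
    congr 1
    push_cast
    ring
  simp only [this]
  rw [← Complex.exp_sum]
  congr 1
  rw [mul_sum, sum_div]

lemma chr_ne_zero (p : ℕ) [Fact p.Prime] {n : ℕ} (t : Fin n → ℤ) (ht : ∃ i, ¬ (p : ℤ) ∣ t i) :
    chr p t ≠ 0 := by
  classical
  obtain ⟨i, hi⟩ := ht
  intro h
  have h1 : chr p t (Pi.single i 1) = 1 := by rw [h]; rfl
  rw [chr_apply] at h1
  have h2 : ∏ j, (ZMod.stdAddChar (-(t j : ZMod p) * (Pi.single i (1 : ZMod p) : Fin n → ZMod p) j) : ℂ)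
      = ZMod.stdAddChar (-(t i : ZMod p)) := by
    rw [prod_eq_single i]
    · simp
    · intro j _ hj
      rw [Pi.single_eq_of_ne hj, mul_zero, AddChar.map_zero_eq_one]
    · simp
  rw [h2] at h1
  have h3 : (-(t i : ZMod p)) = 0 := by
    apply ZMod.injective_stdAddChar
    rw [h1, AddChar.map_zero_eq_one]
  rw [neg_eq_zero, ZMod.intCast_zmod_eq_zero_iff_dvd] at h3
  exact hi h3

lemma chr_eq_zero (p : ℕ) [NeZero p] {n : ℕ} (t : Fin n → ℤ) (ht : ∀ i, (p : ℤ) ∣ t i) :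
    chr p t = 0 := by
  ext u
  rw [chr_apply]
  rw [AddChar.zero_apply]
  refine prod_eq_one fun i _ => ?_
  rw [(ZMod.intCast_zmod_eq_zero_iff_dvd _ _).2 (ht i)]
  simp


end Crest.Agent.R081.Spread
end

-- ▼ part R081/SpreadE
section

/-!
# Row 81: the spread label function, for arbitrary label values (helper472)
-/

set_option autoImplicit false

namespace Crest.Agent.R081.Spread

open Finset

/-- **Spread labels**: `g0 : (ℤ/p)^(2r) → {0..p^r}` such that for *every* `E` the transform of `E ∘ g0` at a nontrivial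
character is `p^r · E m` up to `E 0 - ∑ E`. -/
theorem exists_spreadE (p r : ℕ) [Fact p.Prime] (hr : r ≠ 0) :
    ∃ g0 : (Fin (2 * r) → ZMod p) → ℕ, (∀ u, g0 u ≤ p ^ r) ∧
      (∀ t : Fin (2 * r) → ℤ, (∃ i, ¬ (p : ℤ) ∣ t i) → ∃ m ≤ p ^ r, ∀ E : ℕ → ℂ,
        ∑ u, E (g0 u) * chr p t u
          = (p : ℂ) ^ r * E m + (E 0 - ∑ k ∈ range (p ^ r + 1), E k)) ∧
      (∀ t : Fin (2 * r) → ℤ, (∀ i, (p : ℤ) ∣ t i) → ∀ E : ℕ → ℂ,
        ∑ u, E (g0 u) * chr p t u
          = E 0 + ((p : ℂ) ^ r - 1) * ∑ k ∈ range (p ^ r + 1), E k) ∧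
      (∀ k ≤ p ^ r, (univ.filter (fun u => g0 u = k)).card = if k = 0 then p ^ r else p ^ r - 1) := by
  classical
  let _inst : Fintype (GaloisField p r) := Fintype.ofFinite _
  have hcard : Fintype.card (GaloisField p r) = p ^ r := by
    rw [← Nat.card_eq_fintype_card, GaloisField.card p r hr]
  have hfr : Module.finrank (ZMod p) (Fin (2 * r) → ZMod p)
      = Module.finrank (ZMod p) (GaloisField p r × GaloisField p r) := by
    rw [Module.finrank_prod, GaloisField.finrank p hr, Module.finrank_fin_fun]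
    ring
  let e : (Fin (2 * r) → ZMod p) ≃ₗ[ZMod p] (GaloisField p r × GaloisField p r) :=
    LinearEquiv.ofFinrankEq _ _ hfr
  let idx : Option (GaloisField p r) ≃ Fin (p ^ r + 1) :=
    Fintype.equivFinOfCardEq (by rw [Fintype.card_option, hcard])
  let g0 : (Fin (2 * r) → ZMod p) → ℕ := fun u => if e u = 0 then 0 else idx (slope (e u))
  have hg : ∀ (E : ℕ → ℂ) (u : Fin (2 * r) → ZMod p),
      E (g0 u) = slopeFun (E 0) (fun s => E (idx s : ℕ)) (e u) := by
    intro E u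
    simp only [g0, slopeFun]
    split_ifs <;> simp
  have hsum : ∀ (E : ℕ → ℂ), ∑ s : Option (GaloisField p r), E (idx s : ℕ) = ∑ k ∈ range (p ^ r + 1), E k := by
    intro E
    rw [Equiv.sum_comp idx (fun k : Fin (p ^ r + 1) => E (k : ℕ)), Fin.sum_univ_eq_sum_range]
  have htr : ∀ (t : Fin (2 * r) → ℤ) (E : ℕ → ℂ), ∑ u, E (g0 u) * chr p t u
      = ∑ v : GaloisField p r × GaloisField p r, slopeFun (E 0) (fun s => E (idx s : ℕ)) v *
          ((chr p t).compAddMonoidHom (e.symm : _ →+ _)) v := by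
    intro t E
    rw [← Equiv.sum_comp e.toEquiv]
    refine sum_congr rfl fun u _ => ?_
    rw [hg E u]
    congr 1
    change chr p t u = chr p t (e.symm (e u))
    rw [e.symm_apply_apply]
  have hg0 : ∀ u, g0 u ≤ p ^ r := by
    intro u
    simp only [g0]
    split_ifs
    · exact Nat.zero_le _
    · have := (idx (slope (e u))).2
      omega
  have hdv : ∀ t : Fin (2 * r) → ℤ, (∀ i, (p : ℤ) ∣ t i) → ∀ E : ℕ → ℂ,
        ∑ u, E (g0 u) * chr p t u
          = E 0 + ((p : ℂ) ^ r - 1) * ∑ k ∈ range (p ^ r + 1), E k := by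
    intro t ht E
    rw [htr]
    have h0 : (chr p t).compAddMonoidHom (e.symm : (GaloisField p r × GaloisField p r) →+ _) = 0 := by
      ext v
      rw [chr_eq_zero p t ht]
      rfl
    rw [h0]
    simp only [AddChar.zero_apply, mul_one]
    rw [transform_slopeFun_zero, hsum, hcard]
    push_cast
    ring
  refine ⟨g0, hg0, ?_, hdv, ?_⟩
  · intro t ht
    have hne : (chr p t).compAddMonoidHom (e.symm : (GaloisField p r × GaloisField p r) →+ _) ≠ 0 := by
      intro h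
      apply chr_ne_zero p t ht
      ext u
      have h2 := DFunLike.congr_fun h (e u)
      rw [AddChar.zero_apply] at h2 ⊢
      rw [← h2]
      change chr p t u = chr p t (e.symm (e u))
      rw [e.symm_apply_apply]
    obtain ⟨s0, hs0⟩ := transform_slopeFun _ hne
    refine ⟨idx s0, by have := (idx s0).2; omega, fun E => ?_⟩
    rw [htr, hs0, hsum, hcard]
    push_cast
    ring
  · intro k hk
    have h := hdv 0 (by simp) (fun j => if j = k then 1 else 0)
    have hp1 : 1 ≤ p ^ r := Nat.one_le_pow _ _ (Fact.out : p.Prime).pos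
    have h1 : ∀ u, chr p (0 : Fin (2 * r) → ℤ) u = 1 := by
      intro u
      rw [chr_eq_zero p 0 (by simp), AddChar.zero_apply]
    simp only [h1, mul_one] at h
    rw [sum_boole] at h
    have h2 : ∑ j ∈ range (p ^ r + 1), (if j = k then (1:ℂ) else 0) = 1 := by
      rw [sum_ite_eq' (range (p ^ r + 1)) k, if_pos (mem_range.2 (by omega))]
    rw [h2] at h
    by_cases hk0 : k = 0
    · subst hk0
      rw [if_pos rfl] at h ⊢
      have : ((univ.filter (fun u => g0 u = 0)).card : ℂ) = ((p ^ r : ℕ) : ℂ) := by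
        rw [h]; push_cast; ring
      exact_mod_cast this
    · rw [if_neg (Ne.symm hk0)] at h
      rw [if_neg hk0]
      have : ((univ.filter (fun u => g0 u = k)).card : ℂ) = ((p ^ r - 1 : ℕ) : ℂ) := by
        rw [h, Nat.cast_sub hp1]; push_cast; ring
      exact_mod_cast this

end Crest.Agent.R081.Spread
end

-- ▼ part R081/SpreadM
section

/-!
# Row 81: the masses of the spread function (helper472)

`amass p t` is `p` times the square of the modulus of the Fourier coefficient of the indicator of `[0,1/p)`.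
It is a probability on `ℤ`; the product masses are concentrated on the vectors with a coordinate `±1`.
-/

set_option autoImplicit false

namespace Crest.Agent.R081.Spread

open Finset Filter Topology

/-- `p · |κ(t)|²` -/
noncomputable def amass (p : ℕ) (t : ℤ) : ℝ :=
  if t = 0 then 1 / p else p * (Real.sin (Real.pi * t / p) / (Real.pi * t)) ^ 2

lemma amass_zero (p : ℕ) : amass p 0 = 1 / p := by simp [amass]

lemma amass_nonneg (p : ℕ) (t : ℤ) : 0 ≤ amass p t := by
  unfold amass; split_ifs <;> positivity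

lemma amass_neg (p : ℕ) (t : ℤ) : amass p (-t) = amass p t := by
  unfold amass
  by_cases h : t = 0
  · simp [h]
  · rw [if_neg (by simpa using h), if_neg h]
    push_cast
    rw [mul_neg, neg_div, Real.sin_neg, neg_div_neg_eq]

lemma amass_one_pos {p : ℕ} (hp : 2 ≤ p) : 0 < amass p 1 := by
  unfold amass
  rw [if_neg one_ne_zero]
  have hp0 : (0:ℝ) < p := by exact_mod_cast (by omega : 0 < p)
  have hp1 : (1:ℝ) < p := by exact_mod_cast (by omega : 1 < p)
  have h1 : 0 < Real.sin (Real.pi * (1:ℤ) / p) := by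
    apply Real.sin_pos_of_pos_of_lt_pi
    · have := Real.pi_pos
      push_cast
      positivity
    · push_cast
      rw [mul_one, div_lt_iff₀ hp0]
      nlinarith [Real.pi_pos]
  have h2 := Real.pi_pos
  have h3 : (0:ℝ) < Real.pi * (1:ℤ) := by push_cast; linarith
  positivity

/-- the sum over the positive integers -/
lemma hasSum_amass {p : ℕ} (hp : 1 ≤ p) :
    HasSum (fun n : ℕ => amass p ((n : ℤ) + 1)) ((1 - 1 / p) / 2) := by
  have hp0 : (0:ℝ) < p := by exact_mod_cast (by omega : 0 < p)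
  have hp1 : (1:ℝ) ≤ p := by exact_mod_cast hp
  have hx : (1 / p : ℝ) ∈ Set.Icc (0:ℝ) 1 := ⟨by positivity, by rw [div_le_one hp0]; exact hp1⟩
  have hx0 : (0 : ℝ) ∈ Set.Icc (0:ℝ) 1 := ⟨le_refl _, zero_le_one⟩
  have hB : ∀ x : ℝ, (Polynomial.map (algebraMap ℚ ℝ) (Polynomial.bernoulli (2 * 1))).eval x
      = x ^ 2 - x + 1 / 6 := by
    intro x
    have hb2 : bernoulli 2 = 1 / 6 := by
      rw [bernoulli_eq_bernoulli'_of_ne_one (by norm_num), bernoulli'_two]
    have : Polynomial.bernoulli (2 * 1) = Polynomial.X ^ 2 - Polynomial.X + Polynomial.C (1/6 : ℚ) := by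
      rw [show 2 * 1 = 2 by norm_num, Polynomial.bernoulli_def]
      simp only [Finset.sum_range_succ, Finset.sum_range_zero, Nat.sub_zero]
      rw [show (2 - 1 : ℕ) = 1 by norm_num, show (2 - 2 : ℕ) = 0 by norm_num, hb2, bernoulli_one, bernoulli_zero]
      simp only [Nat.choose_zero_right, Nat.choose_one_right, Nat.choose_self, Nat.cast_one, mul_one]
      simp only [← Polynomial.C_mul_X_pow_eq_monomial]
      norm_num
      ring
    rw [this]
    simp
  have h1 := hasSum_one_div_nat_pow_mul_cos (k := 1) one_ne_zero hx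
  have h0 := hasSum_one_div_nat_pow_mul_cos (k := 1) one_ne_zero hx0
  rw [hB] at h1 h0
  have h2 := h0.sub h1
  have h3 := h2.mul_left (p / (2 * Real.pi ^ 2))
  have hval : (p : ℝ) / (2 * Real.pi ^ 2) *
      ((-1 : ℝ) ^ (1 + 1) * (2 * Real.pi) ^ (2 * 1) / 2 / ((2 * 1).factorial : ℝ) * (0 ^ 2 - 0 + 1 / 6)
        - (-1 : ℝ) ^ (1 + 1) * (2 * Real.pi) ^ (2 * 1) / 2 / ((2 * 1).factorial : ℝ)
          * ((1 / p) ^ 2 - 1 / p + 1 / 6)) = (1 - 1 / p) / 2 := by
    have hpi := Real.pi_ne_zero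
    have hf : ((2 * 1).factorial : ℝ) = 2 := by norm_num [Nat.factorial]
    rw [hf]
    field_simp
    ring
  rw [hval] at h3
  rw [← hasSum_nat_add_iff' 1] at h3
  simp only [Finset.range_one, Finset.sum_singleton, Nat.cast_zero, mul_zero, zero_mul, Real.cos_zero,
    sub_self, mul_one, sub_zero] at h3
  have key : (fun n : ℕ => amass p ((n : ℤ) + 1)) = fun n : ℕ => (p : ℝ) / (2 * Real.pi ^ 2) *
      (1 / ((n + 1 : ℕ) : ℝ) ^ 2
        - 1 / ((n + 1 : ℕ) : ℝ) ^ 2 * Real.cos (2 * Real.pi * ((n + 1 : ℕ) : ℝ) * (1 / p))) := by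
    funext n
    have hn : (n : ℝ) + 1 ≠ 0 := by positivity
    have hpi := Real.pi_ne_zero
    have hne : ((n : ℤ) + 1) ≠ 0 := by omega
    have hs : Real.sin (Real.pi * ((n : ℝ) + 1) / p) ^ 2
        = 1 / 2 - Real.cos (2 * Real.pi * ((n : ℝ) + 1) * (1 / p)) / 2 := by
      rw [Real.sin_sq_eq_half_sub]
      congr 3
      ring
    unfold amass
    rw [if_neg hne]
    push_cast
    rw [div_pow, hs]
    field_simp
  rw [key]
  exact h3

/-- the mass of `[-M, M]` -/
noncomputable def aint (p M : ℕ) : ℝ := ∑ t ∈ Icc (-(M : ℤ)) M, amass p t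

lemma sum_Icc_symm (M : ℕ) (f : ℤ → ℝ) (hf : ∀ t, f (-t) = f t) :
    ∑ t ∈ Icc (-(M : ℤ)) M, f t = f 0 + 2 * ∑ n ∈ range M, f ((n : ℤ) + 1) := by
  induction M with
  | zero => simp
  | succ M ih =>
    rw [sum_range_succ, mul_add, ← add_assoc, ← ih]
    have h : Icc (-((M + 1 : ℕ) : ℤ)) ((M + 1 : ℕ) : ℤ)
        = insert (-((M + 1 : ℕ) : ℤ)) (insert ((M + 1 : ℕ) : ℤ) (Icc (-(M : ℤ)) M)) := by
      ext x
      simp only [mem_Icc, mem_insert]
      push_cast
      omega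
    rw [h, sum_insert, sum_insert]
    · rw [hf]
      push_cast
      ring
    · simp only [mem_Icc]; push_cast; omega
    · simp only [mem_insert, mem_Icc]; push_cast; omega

lemma tendsto_aint {p : ℕ} (hp : 1 ≤ p) : Tendsto (fun M => aint p M) atTop (𝓝 1) := by
  have h := (hasSum_amass hp).tendsto_sum_nat
  have h2 := (h.const_mul 2).const_add (amass p 0)
  have e1 : amass p 0 + 2 * ((1 - 1 / p) / 2) = (1:ℝ) := by rw [amass_zero]; ring
  rw [e1] at h2
  refine h2.congr fun M => ?_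
  rw [aint, sum_Icc_symm M _ (amass_neg p)]

lemma aint_le_one {p : ℕ} (hp : 1 ≤ p) (M : ℕ) : aint p M ≤ 1 := by
  rw [aint, sum_Icc_symm M _ (amass_neg p)]
  have h := sum_le_hasSum (range M) (fun n _ => amass_nonneg p ((n : ℤ) + 1)) (hasSum_amass hp)
  rw [amass_zero]
  linarith

/-- product mass -/
noncomputable def wmass (p : ℕ) {n : ℕ} (t : Fin n → ℤ) : ℝ := ∏ i, amass p (t i)

lemma wmass_nonneg (p : ℕ) {n : ℕ} (t : Fin n → ℤ) : 0 ≤ wmass p t :=
  prod_nonneg fun _ _ => amass_nonneg _ _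

lemma wmass_neg (p : ℕ) {n : ℕ} (t : Fin n → ℤ) : wmass p (-t) = wmass p t := by
  unfold wmass
  exact prod_congr rfl fun i _ => by rw [Pi.neg_apply, amass_neg]

/-- the types used by the design -/
noncomputable def types (n M : ℕ) : Finset (Fin (n + 1) → ℤ) :=
  (Fintype.piFinset fun _ => Icc (-(M : ℤ)) M).filter fun t => 1 ≤ t 0 ∧ ∃ i, t i = 1 ∨ t i = -1


lemma sum_wmass_filter (p n M : ℕ) (P0 P : ℤ → Prop) [DecidablePred P0] [DecidablePred P] :
    ∑ t ∈ (Fintype.piFinset fun _ : Fin (n + 1) => Icc (-(M : ℤ)) M).filter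
        (fun t => P0 (t 0) ∧ ∀ i : Fin n, P (t i.succ)), wmass p t
      = (∑ t ∈ (Icc (-(M : ℤ)) M).filter P0, amass p t) *
        (∑ t ∈ (Icc (-(M : ℤ)) M).filter P, amass p t) ^ n := by
  have h : (Fintype.piFinset fun _ : Fin (n + 1) => Icc (-(M : ℤ)) M).filter
        (fun t => P0 (t 0) ∧ ∀ i : Fin n, P (t i.succ))
      = Fintype.piFinset (Fin.cons ((Icc (-(M : ℤ)) M).filter P0)
          (fun _ : Fin n => (Icc (-(M : ℤ)) M).filter P) : Fin (n + 1) → Finset ℤ) := by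
    ext t
    simp only [mem_filter, Fintype.mem_piFinset]
    constructor
    · rintro ⟨h1, h2, h3⟩ i
      refine Fin.cases ?_ (fun j => ?_) i
      · simp only [Fin.cons_zero, mem_filter]; exact ⟨h1 0, h2⟩
      · simp only [Fin.cons_succ, mem_filter]; exact ⟨h1 _, h3 j⟩
    · intro h
      have h0 := h 0
      simp only [Fin.cons_zero, mem_filter] at h0
      have hj : ∀ j : Fin n, t j.succ ∈ Icc (-(M : ℤ)) (M : ℤ) ∧ P (t j.succ) := by
        intro j
        have := h j.succ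
        simpa only [Fin.cons_succ, mem_filter] using this
      refine ⟨fun i => ?_, h0.2, fun j => (hj j).2⟩
      refine Fin.cases h0.1 (fun j => (hj j).1) i
  rw [h]
  unfold wmass
  rw [← prod_univ_sum (Fin.cons ((Icc (-(M : ℤ)) M).filter P0)
          (fun _ : Fin n => (Icc (-(M : ℤ)) M).filter P) : Fin (n + 1) → Finset ℤ) (fun _ t => amass p t)]
  rw [Fin.prod_univ_succ]
  simp

lemma sum_Icc_pos (p M : ℕ) :
    ∑ t ∈ (Icc (-(M : ℤ)) M).filter (fun t => 1 ≤ t), amass p t = (aint p M - 1 / p) / 2 := by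
  have h1 := sum_filter_add_sum_filter_not (Icc (-(M : ℤ)) M) (fun t => 1 ≤ t) (amass p)
  have h2 : ∑ t ∈ (Icc (-(M : ℤ)) M).filter (fun t => ¬ 1 ≤ t), amass p t
      = ∑ t ∈ (Icc (-(M : ℤ)) M).filter (fun t => 1 ≤ t), amass p t + 1 / p := by
    have h3 : (Icc (-(M : ℤ)) M).filter (fun t => ¬ 1 ≤ t)
        = insert 0 (((Icc (-(M : ℤ)) M).filter (fun t => 1 ≤ t)).image (fun t => -t)) := by
      ext x
      simp only [mem_filter, mem_Icc, mem_insert, mem_image]
      constructor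
      · rintro ⟨⟨h1, h2⟩, h3⟩
        by_cases hx : x = 0
        · exact Or.inl hx
        · exact Or.inr ⟨-x, ⟨⟨by omega, by omega⟩, by omega⟩, by omega⟩
      · rintro (h | ⟨y, ⟨⟨h1, h2⟩, h3⟩, h4⟩)
        · subst h; exact ⟨⟨by omega, by omega⟩, by omega⟩
        · subst h4; exact ⟨⟨by omega, by omega⟩, by omega⟩
    rw [h3, sum_insert, sum_image, amass_zero]
    · simp only [amass_neg]
      ring
    · intro x _ y _ h
      simpa using h
    · simp only [mem_image, mem_filter, mem_Icc]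
      rintro ⟨y, ⟨⟨h1, h2⟩, h3⟩, h4⟩
      omega
  rw [h2] at h1
  unfold aint
  linarith

lemma sum_Icc_not_one {p M : ℕ} (hM : 1 ≤ M) :
    ∑ t ∈ (Icc (-(M : ℤ)) M).filter (fun t => t ≠ 1 ∧ t ≠ -1), amass p t = aint p M - 2 * amass p 1 := by
  have h1 := sum_filter_add_sum_filter_not (Icc (-(M : ℤ)) M) (fun t => t ≠ 1 ∧ t ≠ -1) (amass p)
  have h2 : (Icc (-(M : ℤ)) M).filter (fun t => ¬ (t ≠ 1 ∧ t ≠ -1)) = {1, -1} := by
    ext x
    simp only [mem_filter, mem_Icc, mem_insert, mem_singleton]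
    omega
  rw [h2, sum_pair (by norm_num), amass_neg] at h1
  unfold aint
  linarith

lemma sum_union_le' {p n : ℕ} (A B : Finset (Fin n → ℤ)) :
    ∑ t ∈ A ∪ B, wmass p t ≤ ∑ t ∈ A, wmass p t + ∑ t ∈ B, wmass p t := by
  classical
  have h := sum_union_inter (s₁ := A) (s₂ := B) (f := fun t => wmass p t)
  have h2 : 0 ≤ ∑ t ∈ A ∩ B, wmass p t := sum_nonneg fun _ _ => wmass_nonneg _ _
  linarith

theorem sum_types_ge {p n M : ℕ} (hp : 1 ≤ p) (hM : 1 ≤ M) :
    (aint p M - 1 / p) / 2 * aint p M ^ n - (1 - 2 * amass p 1) ^ n ≤ ∑ t ∈ types n M, wmass p t := by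
  classical
  have h1 := sum_wmass_filter p n M (fun t => 1 ≤ t) (fun _ => True)
  have h2 := sum_wmass_filter p n M (fun t => 1 ≤ t ∧ (t ≠ 1 ∧ t ≠ -1)) (fun t => t ≠ 1 ∧ t ≠ -1)
  rw [sum_Icc_not_one hM] at h2
  rw [sum_Icc_pos, filter_true] at h1
  have hle1 : ∑ t ∈ (Icc (-(M : ℤ)) M).filter (fun t => 1 ≤ t ∧ (t ≠ 1 ∧ t ≠ -1)), amass p t ≤ 1 := by
    refine le_trans (sum_le_sum_of_subset_of_nonneg (filter_subset _ _) fun _ _ _ => amass_nonneg _ _) ?_
    exact aint_le_one hp M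
  have ha := aint_le_one hp M
  have hb0 : 0 ≤ aint p M - 2 * amass p 1 := by
    rw [← sum_Icc_not_one hM]; exact sum_nonneg fun _ _ => amass_nonneg _ _
  have h3 : ∑ t ∈ (Fintype.piFinset fun _ : Fin (n + 1) => Icc (-(M : ℤ)) M).filter
        (fun t => (1 ≤ t 0 ∧ (t 0 ≠ 1 ∧ t 0 ≠ -1)) ∧ ∀ i : Fin n, (t i.succ ≠ 1 ∧ t i.succ ≠ -1)), wmass p t
      ≤ (1 - 2 * amass p 1) ^ n := by
    rw [h2]
    have h4 : (aint p M - 2 * amass p 1) ^ n ≤ (1 - 2 * amass p 1) ^ n :=
      pow_le_pow_left₀ hb0 (by linarith) n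
    calc _ ≤ 1 * (aint p M - 2 * amass p 1) ^ n :=
          mul_le_mul_of_nonneg_right hle1 (pow_nonneg hb0 n)
      _ ≤ _ := by rw [one_mul]; exact h4
  have h5 : ∑ t ∈ (Fintype.piFinset fun _ : Fin (n + 1) => Icc (-(M : ℤ)) M).filter
        (fun t => 1 ≤ t 0 ∧ ∀ i : Fin n, True), wmass p t
      ≤ ∑ t ∈ types n M, wmass p t +
        ∑ t ∈ (Fintype.piFinset fun _ : Fin (n + 1) => Icc (-(M : ℤ)) M).filter
        (fun t => (1 ≤ t 0 ∧ (t 0 ≠ 1 ∧ t 0 ≠ -1)) ∧ ∀ i : Fin n, (t i.succ ≠ 1 ∧ t i.succ ≠ -1)), wmass p t := by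
    refine le_trans (sum_le_sum_of_subset_of_nonneg ?_ fun _ _ _ => wmass_nonneg _ _) (sum_union_le' _ _)
    intro t ht
    simp only [mem_filter, mem_union, types] at ht ⊢
    by_cases h : ∃ i, t i = 1 ∨ t i = -1
    · exact Or.inl ⟨ht.1, ht.2.1, h⟩
    · push_neg at h
      exact Or.inr ⟨ht.1, ⟨ht.2.1, h 0⟩, fun i => h _⟩
  rw [h1] at h5
  have h6 : ∑ t ∈ Icc (-(M : ℤ)) M, amass p t = aint p M := rfl
  rw [h6] at h5
  linarith

theorem sum_types_le {p n M : ℕ} (hp : 1 ≤ p) : 2 * ∑ t ∈ types n M, wmass p t ≤ 1 := by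
  classical
  have h1 := sum_wmass_filter p n M (fun t => 1 ≤ t) (fun _ => True)
  rw [sum_Icc_pos, filter_true] at h1
  have h2 : ∑ t ∈ types n M, wmass p t ≤ ∑ t ∈ (Fintype.piFinset fun _ : Fin (n + 1) => Icc (-(M : ℤ)) M).filter
        (fun t => 1 ≤ t 0 ∧ ∀ i : Fin n, True), wmass p t := by
    refine sum_le_sum_of_subset_of_nonneg ?_ fun _ _ _ => wmass_nonneg _ _
    intro t ht
    simp only [mem_filter, types] at ht ⊢
    exact ⟨ht.1, ht.2.1, fun _ => trivial⟩
  rw [h1] at h2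
  have ha := aint_le_one hp M
  have ha0 : 0 ≤ aint p M := sum_nonneg fun _ _ => amass_nonneg _ _
  have h6 : ∑ t ∈ Icc (-(M : ℤ)) M, amass p t = aint p M := rfl
  rw [h6] at h2
  have h7 : aint p M ^ n ≤ 1 := pow_le_one₀ ha0 ha
  have h8 : 0 ≤ (aint p M - 1 / p) / 2 := by
    rw [← sum_Icc_pos]; exact sum_nonneg fun _ _ => amass_nonneg _ _
  have hp0 : (0:ℝ) < 1 / p := by
    have : (0:ℝ) < p := by exact_mod_cast hp
    positivity
  nlinarith [pow_nonneg ha0 n]

/-- choice of the parameters -/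
theorem exists_params (ε : ℝ) (hε : 0 < ε) (K : ℕ) :
    ∃ p r M : ℕ, p.Prime ∧ K ≤ p ^ (r + 1) ∧ 1 ≤ M ∧
      1 - ε ≤ 2 * ∑ t ∈ types (2 * r + 1) M, wmass p t ∧ 2 * ∑ t ∈ types (2 * r + 1) M, wmass p t ≤ 1 := by
  obtain ⟨p, hpge, hpp⟩ := Nat.exists_infinite_primes (⌈4 / ε⌉₊ + 2)
  have hp2 := hpp.two_le
  have hp0 : (0:ℝ) < p := by exact_mod_cast hpp.pos
  have hpε : 1 / (p : ℝ) ≤ ε / 4 := by
    have h1 : 4 / ε ≤ p := by
      refine le_trans (Nat.le_ceil _) ?_
      exact_mod_cast (by omega : ⌈4 / ε⌉₊ ≤ p)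
    rw [div_le_iff₀ hε] at h1
    rw [div_le_div_iff₀ hp0 (by norm_num)]
    linarith
  have ha1 := amass_one_pos hp2
  have hb0 : 0 ≤ 1 - 2 * amass p 1 := by
    have h := sum_Icc_not_one (p := p) (M := 1) le_rfl
    have h1 : 0 ≤ ∑ t ∈ (Icc (-((1:ℕ) : ℤ)) ((1:ℕ):ℤ)).filter (fun t => t ≠ 1 ∧ t ≠ -1), amass p t :=
      sum_nonneg fun _ _ => amass_nonneg _ _
    have h2 := aint_le_one (p := p) hpp.one_le 1
    linarith
  have hb1 : 1 - 2 * amass p 1 < 1 := by linarith
  have hr : ∀ᶠ r : ℕ in atTop, (1 - 2 * amass p 1) ^ (2 * r + 1) ≤ ε / 8 := by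
    have h := tendsto_pow_atTop_nhds_zero_of_lt_one hb0 hb1
    have h2 : Tendsto (fun r : ℕ => 2 * r + 1) atTop atTop :=
      tendsto_atTop_mono (fun r => (by omega : r ≤ 2 * r + 1)) tendsto_id
    exact ((h.comp h2).eventually_lt_const (by positivity : (0:ℝ) < ε / 8)).mono fun r hr => hr.le
  have hK : ∀ᶠ r : ℕ in atTop, K ≤ p ^ (r + 1) := by
    filter_upwards [eventually_ge_atTop K] with r hr
    have h1 : r + 1 < p ^ (r + 1) := Nat.lt_pow_self hpp.one_lt
    omega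
  obtain ⟨r, hr1, hr2⟩ := (hr.and hK).exists
  have hM : Tendsto (fun M => (aint p M - 1 / p) / 2 * aint p M ^ (2 * r + 1)) atTop
      (𝓝 ((1 - 1 / p) / 2 * 1 ^ (2 * r + 1))) :=
    (((tendsto_aint hpp.one_le).sub_const _).div_const _).mul ((tendsto_aint hpp.one_le).pow _)
  have hM2 := (hM.eventually_const_lt (show (1 - 1 / p) / 2 * 1 ^ (2 * r + 1) - ε / 8 < _ by linarith)).and
    (eventually_ge_atTop 1)
  obtain ⟨M, hM3, hM1⟩ := hM2.exists
  refine ⟨p, r, M, hpp, hr2, hM1, ?_, sum_types_le hpp.one_le⟩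
  have h := sum_types_ge (n := 2 * r + 1) hpp.one_le hM1
  rw [one_pow, mul_one] at hM3
  linarith

lemma types_pos {n M : ℕ} {t : Fin (n + 1) → ℤ} (ht : t ∈ types n M) : 1 ≤ t 0 := by
  simp only [types, mem_filter] at ht; exact ht.2.1

lemma types_nonparallel {n M : ℕ} {t t' : Fin (n + 1) → ℤ} (ht : t ∈ types n M) (ht' : t' ∈ types n M)
    (hne : t ≠ t') : ∃ i j, t i * t' j ≠ t j * t' i := by
  simp only [types, mem_filter] at ht ht'
  by_contra hcon
  push_neg at hcon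
  obtain ⟨-, h0, i, hi⟩ := ht
  obtain ⟨-, h0', j, hj⟩ := ht'
  apply hne
  -- `t = a t'` with `a = ±` and positive first coordinates
  have e1 : t 0 * t' i = t i * t' 0 := (hcon 0 i)
  have e2 : t 0 * t' j = t j * t' 0 := (hcon 0 j)
  have key : t 0 = t' 0 := by
    have a1 : t 0 ∣ t' 0 := by
      rcases hi with h | h
      · rw [h, one_mul] at e1; exact ⟨t' i, e1.symm⟩
      · rw [h] at e1; exact ⟨- t' i, by linarith⟩
    have a2 : t' 0 ∣ t 0 := by
      rcases hj with h | h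
      · rw [h, mul_one] at e2; exact ⟨t j, by linarith⟩
      · rw [h] at e2; exact ⟨- t j, by linarith⟩
    exact Int.dvd_antisymm (by omega) (by omega) a1 a2
  funext k
  have e3 := hcon 0 k
  rw [key] at e3
  have : t' 0 * (t' k - t k) = 0 := by linarith
  rcases mul_eq_zero.1 this with h | h
  · omega
  · omega

lemma types_not_dvd {n M : ℕ} {t : Fin (n + 1) → ℤ} (ht : t ∈ types n M) {p : ℕ} (hp : 2 ≤ p) :
    ∃ i, ¬ (p : ℤ) ∣ t i := by
  simp only [types, mem_filter] at ht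
  obtain ⟨-, h0, i, hi⟩ := ht
  refine ⟨i, fun h => ?_⟩
  have h1 : (p : ℤ) ∣ 1 := by
    rcases hi with h2 | h2
    · rwa [h2] at h
    · rw [h2] at h; simpa using h
  have := Int.le_of_dvd one_pos h1
  omega

end Crest.Agent.R081.Spread
end

-- ▼ part R081/SpreadT
section

/-!
# Row 81: the spread step function on the torus and its Fourier coefficients (helper472)
-/

set_option autoImplicit false

namespace Crest.Agent.R081.Spread

open MeasureTheory Finset Crest.Agent.R075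

/-- the cell of a real number -/
noncomputable def cell (p : ℕ) (x : ℝ) : ZMod p := ((⌊(p:ℝ) * x⌋ : ℤ) : ZMod p)

lemma cell_add_int (p : ℕ) (x : ℝ) (k : ℤ) : cell p (x + k) = cell p x := by
  unfold cell
  rw [mul_add, show (p:ℝ) * (k:ℝ) = ((p * k : ℤ) : ℝ) by push_cast; ring, Int.floor_add_intCast]
  push_cast
  simp

lemma measurable_cell (p : ℕ) : Measurable (cell p) := by
  have h1 : Measurable (fun x : ℝ => ⌊(p:ℝ) * x⌋) := (measurable_const_mul _).floor
  exact (measurable_from_top (f := fun k : ℤ => (k : ZMod p))).comp h1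

lemma cell_eq_iff {p : ℕ} [NeZero p] {x : ℝ} (hx : x ∈ Set.Ico (0:ℝ) 1) (u : ZMod p) :
    cell p x = u ↔ x ∈ Set.Ico ((u.val : ℝ) / p) ((u.val : ℝ) / p + 1 / p) := by
  have hp0 : (0:ℝ) < p := by exact_mod_cast Nat.pos_of_ne_zero (NeZero.ne p)
  have h0 : 0 ≤ ⌊(p:ℝ) * x⌋ := Int.floor_nonneg.2 (mul_nonneg hp0.le hx.1)
  have h1 : ⌊(p:ℝ) * x⌋ < p := by
    rw [Int.floor_lt]
    push_cast
    nlinarith [hx.2]
  have h2 : cell p x = u ↔ ⌊(p:ℝ) * x⌋ = u.val := by
    unfold cell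
    constructor
    · intro h
      rw [← h]
      obtain ⟨m, hm⟩ := Int.eq_ofNat_of_zero_le h0
      rw [hm]
      push_cast
      rw [ZMod.val_natCast, Nat.mod_eq_of_lt (by omega)]
    · intro h
      rw [h]
      simp
  rw [h2, Int.floor_eq_iff, Set.mem_Ico, div_le_iff₀ hp0, ← add_div, lt_div_iff₀ hp0]
  push_cast
  rw [mul_comm x]

/-- the Fourier coefficient of the indicator of `[0,1/p)` -/
noncomputable def kap (p : ℕ) (t : ℤ) : ℂ := ∫ x in (0:ℝ)..(1 / p), ee (-(t * x))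

lemma norm_kap_sq {p : ℕ} (hp : 1 ≤ p) (t : ℤ) : p * ‖kap p t‖ ^ 2 = amass p t := by
  have hp0 : (0:ℝ) < p := by exact_mod_cast (by omega : 0 < p)
  unfold kap amass
  by_cases ht : t = 0
  · subst ht
    simp only [Int.cast_zero, zero_mul, neg_zero, ee_zero, if_true]
    rw [intervalIntegral.integral_const]
    rw [norm_smul, norm_one, mul_one, sub_zero, Real.norm_of_nonneg (by positivity)]
    field_simp
  · rw [if_neg ht]
    have ht' : (t : ℝ) ≠ 0 := by exact_mod_cast ht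
    have hc : (-(2 * Real.pi * t) * Complex.I : ℂ) ≠ 0 := by
      have h1 : (Real.pi : ℂ) ≠ 0 := by exact_mod_cast Real.pi_ne_zero
      have h2 : (t : ℂ) ≠ 0 := by exact_mod_cast ht
      simp [h1, h2]
    have h1 : ∀ x : ℝ, ee (-(t * x)) = Complex.exp ((-(2 * Real.pi * t) * Complex.I : ℂ) * x) := by
      intro x
      unfold ee
      congr 1
      push_cast
      ring
    simp only [h1]
    rw [integral_exp_mul_complex hc]
    rw [norm_div]
    have h2 : ‖Complex.exp ((-(2 * Real.pi * t) * Complex.I : ℂ) * ((1 / p : ℝ) : ℂ))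
        - Complex.exp ((-(2 * Real.pi * t) * Complex.I : ℂ) * ((0 : ℝ) : ℂ))‖
        = 2 * |Real.sin (Real.pi * t / p)| := by
      have e1 : (-(2 * Real.pi * t) * Complex.I : ℂ) * ((1 / p : ℝ) : ℂ)
          = Complex.I * ((-(2 * Real.pi * t / p) : ℝ) : ℂ) := by
        push_cast; ring
      rw [e1, Complex.ofReal_zero, mul_zero, Complex.exp_zero, Complex.norm_exp_I_mul_ofReal_sub_one]
      rw [norm_mul, Real.norm_of_nonneg (by norm_num : (0:ℝ) ≤ 2), Real.norm_eq_abs]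
      congr 1
      rw [show -(2 * Real.pi * t / p) / 2 = -(Real.pi * t / p) by ring, Real.sin_neg, abs_neg]
    rw [h2]
    have h3 : ‖(-(2 * Real.pi * t) * Complex.I : ℂ)‖ = 2 * |Real.pi * t| := by
      rw [norm_mul, Complex.norm_I, mul_one, norm_neg]
      rw [show (2 * Real.pi * t : ℂ) = ((2 * (Real.pi * t) : ℝ) : ℂ) by push_cast; ring, Complex.norm_real,
        norm_mul, Real.norm_of_nonneg (by norm_num : (0:ℝ) ≤ 2), Real.norm_eq_abs]
    rw [h3]
    rw [mul_div_mul_left _ _ (by norm_num : (2:ℝ) ≠ 0), ← abs_div, sq_abs]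

/-- integral over one cell -/
lemma integral_cell {p : ℕ} [NeZero p] (t : ℤ) (u : ZMod p) :
    ∫ x in Set.Ico (0:ℝ) 1, (if cell p x = u then ee (-(t * x)) else 0)
      = ee (-(t * u.val / p)) * kap p t := by
  have hp0 : (0:ℝ) < p := by exact_mod_cast Nat.pos_of_ne_zero (NeZero.ne p)
  have hu : (u.val : ℝ) + 1 ≤ p := by exact_mod_cast ZMod.val_lt u
  have h1 : ∫ x in Set.Ico (0:ℝ) 1, (if cell p x = u then ee (-(t * x)) else 0)
      = ∫ x in Set.Ico (0:ℝ) 1,
        (Set.Ico ((u.val : ℝ) / p) ((u.val : ℝ) / p + 1 / p)).indicator (fun x => ee (-(t * x))) x := by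
    refine setIntegral_congr_fun measurableSet_Ico fun x hx => ?_
    simp only [Set.indicator_apply, cell_eq_iff hx u]
  have hsub : Set.Ico ((u.val : ℝ) / p) ((u.val : ℝ) / p + 1 / p) ⊆ Set.Ico (0:ℝ) 1 := by
    refine Set.Ico_subset_Ico (by positivity) ?_
    rw [← add_div, div_le_one hp0]
    exact hu
  rw [h1, integral_indicator measurableSet_Ico, Measure.restrict_restrict measurableSet_Ico,
    Set.inter_eq_left.2 hsub]
  rw [integral_Ico_eq_integral_Ioc, ← intervalIntegral.integral_of_le (by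
    have : (0:ℝ) < 1 / p := by positivity
    linarith)]
  unfold kap
  have h2 := intervalIntegral.integral_comp_add_right (a := 0) (b := 1 / (p:ℝ)) (fun x => ee (-(t * x)))
    ((u.val : ℝ) / p)
  rw [zero_add, add_comm (1 / (p:ℝ))] at h2
  rw [← h2, ← intervalIntegral.integral_const_mul]
  congr 1
  funext x
  rw [← ee_add]
  congr 1
  ring

lemma restrict_cube (n : ℕ) : (volume : Measure (Fin n → ℝ)).restrict (Set.univ.pi fun _ => Set.Ico (0:ℝ) 1)
    = Measure.pi (fun _ : Fin n => (volume : Measure ℝ).restrict (Set.Ico (0:ℝ) 1)) := by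
  rw [volume_pi, Measure.restrict_pi_pi]

lemma integrable_cell_one (p : ℕ) (t : ℤ) (u : ZMod p) :
    Integrable (fun x : ℝ => if cell p x = u then ee (-(t * x)) else 0)
      ((volume : Measure ℝ).restrict (Set.Ico (0:ℝ) 1)) := by
  classical
  have hm : MeasurableSet {x : ℝ | cell p x = u} := (measurable_cell p) (MeasurableSet.of_discrete (s := {u}))
  have h1 : Measurable (fun x : ℝ => if cell p x = u then ee (-(t * x)) else 0) :=
    Measurable.ite hm ((ee_continuous.comp (by fun_prop)).measurable) measurable_const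
  refine Integrable.mono' (integrable_const (1:ℝ)) h1.aestronglyMeasurable (ae_of_all _ fun x => ?_)
  split_ifs <;> simp

/-- Fourier coefficients of a step function -/
theorem integral_step {p : ℕ} [NeZero p] {n : ℕ} (h : (Fin n → ZMod p) → ℂ) (t : Fin n → ℤ) :
    ∫ φ in Set.univ.pi (fun _ : Fin n => Set.Ico (0:ℝ) 1),
        h (fun i => cell p (φ i)) * ee (-(∑ i, t i * φ i))
      = (∏ i, kap p (t i)) * ∑ u, h u * chr p t u := by
  classical
  have h1 : ∀ φ : Fin n → ℝ, h (fun i => cell p (φ i)) * ee (-(∑ i, t i * φ i))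
      = ∑ u : Fin n → ZMod p, h u * ∏ i, (if cell p (φ i) = u i then ee (-(t i * φ i)) else 0) := by
    intro φ
    rw [sum_eq_single (fun i => cell p (φ i))]
    · congr 1
      simp only [if_true]
      rw [← sum_neg_distrib]
      induction (univ : Finset (Fin n)) using Finset.induction_on with
      | empty => simp
      | insert a s ha ih => rw [sum_insert ha, prod_insert ha, ee_add, ih]
    · intro u _ hu
      have : ∃ i, cell p (φ i) ≠ u i := by
        by_contra hcon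
        apply hu
        funext i
        by_contra h2
        exact hcon ⟨i, fun h3 => h2 h3.symm⟩
      obtain ⟨i, hi⟩ := this
      rw [prod_eq_zero (mem_univ i) (if_neg hi), mul_zero]
    · intro h2; exact absurd (mem_univ _) h2
  simp only [h1]
  rw [restrict_cube]
  have hint : ∀ u : Fin n → ZMod p, Integrable (fun φ : Fin n → ℝ =>
      ∏ i, (if cell p (φ i) = u i then ee (-(t i * φ i)) else 0))
      (Measure.pi (fun _ : Fin n => (volume : Measure ℝ).restrict (Set.Ico (0:ℝ) 1))) := by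
    intro u
    exact Integrable.fintype_prod (f := fun (i : Fin n) (x : ℝ) => if cell p x = u i then ee (-(t i * x)) else 0)
      (fun i => integrable_cell_one p (t i) (u i))
  rw [integral_finsetSum _ (fun u _ => (hint u).const_mul _), mul_sum]
  refine sum_congr rfl fun u _ => ?_
  rw [integral_const_mul]
  rw [integral_fintype_prod_eq_prod (f := fun (i : Fin n) (x : ℝ) => if cell p x = u i then ee (-(t i * x)) else 0)]
  simp only [integral_cell]
  rw [prod_mul_distrib]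
  have h2 : ∏ i, ee (-(t i * (u i).val / p)) = chr p t u := by
    rw [chr_exp]
    unfold ee
    rw [← Complex.exp_sum]
    congr 1
    rw [mul_sum, sum_div]
    refine sum_congr rfl fun i _ => ?_
    push_cast
    ring
  rw [h2]
  ring

end Crest.Agent.R081.Spread
end

-- ▼ part R081/SpreadF
section

/-!
# Row 81: the spread function, final form (helper472)
-/

set_option autoImplicit false

namespace Crest.Agent.R081.Spread

open MeasureTheory Finset Crest.Agent.R075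

/-- Fourier coefficient of a function on the torus (integral over the unit cube) -/
noncomputable def fc {n : ℕ} (f : (Fin n → ℝ) → ℂ) (t : Fin n → ℤ) : ℂ :=
  ∫ φ in Set.univ.pi (fun _ : Fin n => Set.Ico (0:ℝ) 1), f φ * ee (-(∑ i, t i * φ i))


lemma prod_kap_sq {p : ℕ} (hp : 1 ≤ p) {n : ℕ} (t : Fin n → ℤ) :
    ((p:ℝ) ^ n) * (∏ i, ‖kap p (t i)‖) ^ 2 = wmass p t := by
  unfold wmass
  simp only [← norm_kap_sq hp]
  rw [prod_mul_distrib, prod_const, card_univ, Fintype.card_fin, prod_pow]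

lemma sqrt_wmass {p : ℕ} (hp : 1 ≤ p) {r n : ℕ} (hn : n = r * 2) (t : Fin n → ℤ) :
    Real.sqrt (wmass p t) = (p:ℝ) ^ r * ∏ i, ‖kap p (t i)‖ := by
  have h : (p:ℝ) ^ n = ((p:ℝ) ^ r) ^ 2 := by rw [hn, pow_mul]
  rw [← prod_kap_sq hp, h, ← mul_pow, Real.sqrt_sq (by positivity)]


lemma kap_zero {p : ℕ} : kap p 0 = ((1 / p : ℝ) : ℂ) := by
  unfold kap
  simp


end Crest.Agent.R081.Spread
end

-- ▼ part R081/SpreadL
section

/-!
# Row 81: spread labels on the torus, for arbitrary label values (helper472)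
-/

set_option autoImplicit false

namespace Crest.Agent.R081.Spread

open MeasureTheory Finset Crest.Agent.R075

lemma exists_spreadE' (p r n : ℕ) [Fact p.Prime] (hr : r ≠ 0) (hn : n = 2 * r) :
    ∃ g0 : (Fin n → ZMod p) → ℕ, (∀ u, g0 u ≤ p ^ r) ∧
      (∀ t : Fin n → ℤ, (∃ i, ¬ (p : ℤ) ∣ t i) → ∃ m ≤ p ^ r, ∀ E : ℕ → ℂ,
        ∑ u, E (g0 u) * chr p t u
          = (p : ℂ) ^ r * E m + (E 0 - ∑ k ∈ range (p ^ r + 1), E k)) ∧
      (∀ t : Fin n → ℤ, (∀ i, (p : ℤ) ∣ t i) → ∀ E : ℕ → ℂ,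
        ∑ u, E (g0 u) * chr p t u
          = E 0 + ((p : ℂ) ^ r - 1) * ∑ k ∈ range (p ^ r + 1), E k) ∧
      (∀ k ≤ p ^ r, (univ.filter (fun u => g0 u = k)).card = if k = 0 then p ^ r else p ^ r - 1) := by
  subst hn
  exact exists_spreadE p r hr

lemma kap_eq_zero {p : ℕ} (hp : 1 ≤ p) {t : ℤ} (ht : t ≠ 0) (hd : (p : ℤ) ∣ t) : kap p t = 0 := by
  have h := norm_kap_sq hp t
  have hp0 : (0:ℝ) < p := by exact_mod_cast (by omega : 0 < p)
  have h1 : amass p t = 0 := by
    unfold amass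
    rw [if_neg ht]
    obtain ⟨k, rfl⟩ := hd
    have : Real.pi * ((p * k : ℤ) : ℝ) / p = k * Real.pi := by
      push_cast; field_simp
    rw [this, Real.sin_int_mul_pi]
    simp
  rw [h1] at h
  have h2 : ‖kap p t‖ ^ 2 = 0 := by
    rcases mul_eq_zero.1 h with h | h
    · exact absurd h hp0.ne'
    · exact h
  exact norm_eq_zero.1 (by nlinarith [norm_nonneg (kap p t), pow_eq_zero_iff (n := 2) (a := ‖kap p t‖) two_ne_zero |>.1 h2])

/-- **spread labels on the torus.**  `Q` labels up to one; the number of cells of each label is `Q - 1` (`Q` for the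
label `0`), `Q ^ 2` cells in total. -/
theorem exists_labels (ε : ℝ) (hε : 0 < ε) (Q0 : ℕ) :
    ∃ (n p Q : ℕ) (g0 : (Fin (n + 1) → ZMod p) → ℕ) (T : Finset (Fin (n + 1) → ℤ)),
      p.Prime ∧ Q0 ≤ Q ∧ 1 ≤ Q ∧ Q ^ 2 = p ^ (n + 1) ∧ (∀ u, g0 u ≤ Q) ∧
      (∀ t ∈ T, 0 < wmass p t) ∧ (∀ t ∈ T, 1 ≤ t 0) ∧ (∀ t ∈ T, ∃ i, t i = 1 ∨ t i = -1) ∧
      (∀ t ∈ T, ∀ t' ∈ T, t ≠ t' → ∃ i j, t i * t' j ≠ t j * t' i) ∧
      1 - ε ≤ 2 * ∑ t ∈ T, wmass p t ∧ 2 * ∑ t ∈ T, wmass p t ≤ 1 ∧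
      (∀ t : Fin (n + 1) → ℤ, Real.sqrt (wmass p t) = ‖(Q : ℂ) * ∏ i, kap p (t i)‖) ∧
      (∀ t : Fin (n + 1) → ℤ, (∃ i, ¬ (p : ℤ) ∣ t i) → ∃ m ≤ Q, ∀ E : ℕ → ℂ,
        fc (fun φ => E (g0 (fun i => cell p (φ i)))) t
          = ((Q : ℂ) * ∏ i, kap p (t i)) * E m
            + (∏ i, kap p (t i)) * (E 0 - ∑ k ∈ range (Q + 1), E k)) ∧
      (∀ t : Fin (n + 1) → ℤ, t ∈ T ∨ -t ∈ T → ∃ i, ¬ (p : ℤ) ∣ t i) ∧
      (∀ t : Fin (n + 1) → ℤ, t ≠ 0 → (∀ i, (p : ℤ) ∣ t i) → ∀ E : ℕ → ℂ,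
        fc (fun φ => E (g0 (fun i => cell p (φ i)))) t = 0) ∧
      (∀ E : ℕ → ℂ, fc (fun φ => E (g0 (fun i => cell p (φ i)))) 0
          = (1 / (Q : ℂ) ^ 2) * (E 0 + ((Q : ℂ) - 1) * ∑ k ∈ range (Q + 1), E k)) := by
  classical
  obtain ⟨p, r, M, hp, hK, hM, hlow, hup⟩ := exists_params ε hε (Q0 + 1)
  have hpf : Fact p.Prime := ⟨hp⟩
  have hp1 := hp.one_le
  obtain ⟨g0, hg0, hne, hdv, hcnt⟩ := exists_spreadE' p (r + 1) (2 * r + 1 + 1) (Nat.succ_ne_zero r) (by ring)
  set Q : ℕ := p ^ (r + 1) with hQdef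
  have hQ1 : 1 ≤ Q := Nat.one_le_pow _ _ hp.pos
  have hfc : ∀ (E : ℕ → ℂ) (t : Fin (2 * r + 1 + 1) → ℤ),
      fc (fun φ => E (g0 (fun i => cell p (φ i)))) t
        = (∏ i, kap p (t i)) * ∑ u, E (g0 u) * chr p t u := by
    intro E t
    unfold fc
    rw [← integral_step (fun u => E (g0 u)) t]
  have hsq : ∀ t : Fin (2 * r + 1 + 1) → ℤ, Real.sqrt (wmass p t) = ‖(Q : ℂ) * ∏ i, kap p (t i)‖ := by
    intro t
    have h := sqrt_wmass (r := r + 1) hp1 (by ring) t
    rw [h, norm_mul, Complex.norm_natCast, norm_prod, hQdef]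
    push_cast
    rfl
  have hfilt : ∑ t ∈ (types (2 * r + 1) M).filter (fun t => 0 < wmass p t), wmass p t
        = ∑ t ∈ types (2 * r + 1) M, wmass p t := by
    refine sum_filter_of_ne fun t _ h => lt_of_le_of_ne (wmass_nonneg _ _) (Ne.symm h)
  refine ⟨2 * r + 1, p, Q, g0, (types (2 * r + 1) M).filter (fun t => 0 < wmass p t), hp, ?_, hQ1, ?_, hg0, ?_, ?_, ?_,
    ?_, ?_, ?_, hsq, ?_, ?_, ?_, ?_⟩
  · omega
  · rw [hQdef, ← pow_mul]; congr 1; ring
  · intro t ht; exact (mem_filter.1 ht).2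
  · intro t ht; exact types_pos (mem_filter.1 ht).1
  · intro t ht
    have := (mem_filter.1 ht).1
    simp only [types, mem_filter] at this
    exact this.2.2
  · intro t ht t' ht' hne
    exact types_nonparallel (mem_filter.1 ht).1 (mem_filter.1 ht').1 hne
  · rw [hfilt]; exact hlow
  · rw [hfilt]; exact hup
  · intro t ht
    obtain ⟨m, hm, hz⟩ := hne t ht
    refine ⟨m, hm, fun E => ?_⟩
    rw [hfc, hz]
    rw [hQdef]
    push_cast
    ring
  · intro t ht
    rcases ht with ht | ht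
    · exact types_not_dvd (mem_filter.1 ht).1 hp.two_le
    · obtain ⟨i, hi⟩ := types_not_dvd (mem_filter.1 ht).1 hp.two_le
      exact ⟨i, fun h => hi (by simpa using h)⟩
  · intro t ht0 hd E
    rw [hfc]
    have : ∃ i, t i ≠ 0 := by
      by_contra hcon
      push Not at hcon
      exact ht0 (funext hcon)
    obtain ⟨i, hi⟩ := this
    rw [prod_eq_zero (mem_univ i) (kap_eq_zero hp1 hi (hd i)), zero_mul]
  · intro E
    rw [hfc, hdv 0 (by simp)]
    have hk : ∏ i : Fin (2 * r + 1 + 1), kap p ((0 : Fin (2 * r + 1 + 1) → ℤ) i) = 1 / (Q : ℂ) ^ 2 := by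
      simp only [Pi.zero_apply, kap_zero, prod_const, card_univ, Fintype.card_fin, hQdef]
      push_cast
      rw [one_div, one_div, inv_pow, ← pow_mul]
      congr 2
      ring
    rw [hk, hQdef]
    push_cast
    ring

end Crest.Agent.R081.Spread
end

-- ▼ part R081/SpreadN
section

/-!
# Row 81: the spread labels are close to a trigonometric polynomial in L² (helper472)
-/

set_option autoImplicit false

namespace Crest.Agent.R081.Spread

open MeasureTheory Finset Crest.Agent.R075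

/-- the unit cube -/
def cube (n : ℕ) : Set (Fin n → ℝ) := Set.univ.pi (fun _ : Fin n => Set.Ico (0:ℝ) 1)

/-- `t · φ` -/
def dt {n : ℕ} (t : Fin n → ℤ) (φ : Fin n → ℝ) : ℝ := ∑ i, t i * φ i

lemma dt_neg {n : ℕ} (t : Fin n → ℤ) (φ : Fin n → ℝ) : dt (-t) φ = - dt t φ := by
  unfold dt
  rw [← sum_neg_distrib]
  refine sum_congr rfl fun i _ => ?_
  simp

lemma dt_sub {n : ℕ} (s t : Fin n → ℤ) (φ : Fin n → ℝ) : dt (s - t) φ = dt s φ - dt t φ := by
  unfold dt
  rw [← sum_sub_distrib]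
  refine sum_congr rfl fun i _ => ?_
  simp [sub_mul]


lemma continuous_dt {n : ℕ} (t : Fin n → ℤ) : Continuous (dt t) := by
  unfold dt; fun_prop

lemma fc_eq {n : ℕ} (f : (Fin n → ℝ) → ℂ) (t : Fin n → ℤ) :
    fc f t = ∫ φ in cube n, f φ * ee (-(dt t φ)) := rfl

instance isProb_cube (n : ℕ) : IsProbabilityMeasure ((volume : Measure (Fin n → ℝ)).restrict (cube n)) := by
  constructor
  rw [Measure.restrict_apply MeasurableSet.univ, Set.univ_inter]
  unfold cube
  rw [Real.volume_pi_Ico]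
  simp

lemma ee_sum {ι : Type*} (s : Finset ι) (f : ι → ℝ) : ee (∑ i ∈ s, f i) = ∏ i ∈ s, ee (f i) := by
  classical
  induction s using Finset.induction_on with
  | empty => simp
  | insert a s ha ih => rw [sum_insert ha, prod_insert ha, ee_add, ih]

lemma integral_ee_one (t : ℤ) : ∫ x in Set.Ico (0:ℝ) 1, ee (t * x) = if t = 0 then 1 else 0 := by
  rw [integral_Ico_eq_integral_Ioc, ← intervalIntegral.integral_of_le zero_le_one]
  by_cases ht : t = 0
  · subst ht; simp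
  · rw [if_neg ht]
    have hc : (2 * Real.pi * Complex.I * t : ℂ) ≠ 0 := by
      have h1 : (Real.pi : ℂ) ≠ 0 := by exact_mod_cast Real.pi_ne_zero
      have h2 : (t : ℂ) ≠ 0 := by exact_mod_cast ht
      simp [h1, h2]
    have h1 : ∀ x : ℝ, ee (t * x) = Complex.exp ((2 * Real.pi * Complex.I * t : ℂ) * x) := by
      intro x
      unfold ee
      congr 1
      push_cast
      ring
    simp only [h1]
    rw [integral_exp_mul_complex hc]
    have h2 : Complex.exp ((2 * Real.pi * Complex.I * t : ℂ) * ((1:ℝ):ℂ)) = 1 := by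
      rw [← h1, mul_one, ee_int]
    rw [h2]
    simp

lemma integral_ee_dt {n : ℕ} (t : Fin n → ℤ) : ∫ φ in cube n, ee (dt t φ) = if t = 0 then 1 else 0 := by
  classical
  unfold cube dt
  rw [restrict_cube]
  simp only [ee_sum]
  rw [integral_fintype_prod_eq_prod (f := fun (i : Fin n) (x : ℝ) => ee (t i * x))]
  simp only [integral_ee_one]
  by_cases h : t = 0
  · subst h; simp
  · rw [if_neg h]
    have : ∃ i, t i ≠ 0 := by
      by_contra hcon
      push Not at hcon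
      exact h (funext hcon)
    obtain ⟨i, hi⟩ := this
    exact prod_eq_zero (mem_univ i) (if_neg hi)

/-- trigonometric polynomial -/
noncomputable def trig {n : ℕ} (S : Finset (Fin n → ℤ)) (c : (Fin n → ℤ) → ℂ) (φ : Fin n → ℝ) : ℂ :=
  ∑ t ∈ S, c t * ee (dt t φ)

lemma continuous_trig {n : ℕ} (S : Finset (Fin n → ℤ)) (c : (Fin n → ℤ) → ℂ) : Continuous (trig S c) := by
  unfold trig
  refine continuous_finsetSum _ fun t _ => continuous_const.mul (ee_continuous.comp (continuous_dt t))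

lemma norm_trig_le {n : ℕ} (S : Finset (Fin n → ℤ)) (c : (Fin n → ℤ) → ℂ) (φ : Fin n → ℝ) :
    ‖trig S c φ‖ ≤ ∑ t ∈ S, ‖c t‖ := by
  unfold trig
  refine (norm_sum_le _ _).trans (sum_le_sum fun t _ => ?_)
  rw [norm_mul, norm_ee, mul_one]

lemma integral_mul_conj_trig {n : ℕ} (S : Finset (Fin n → ℤ)) (c : (Fin n → ℤ) → ℂ)
    (f : (Fin n → ℝ) → ℂ) (hf : Measurable f) (C : ℝ) (hC : ∀ φ, ‖f φ‖ ≤ C) :
    ∫ φ in cube n, f φ * (starRingEnd ℂ) (trig S c φ) = ∑ t ∈ S, (starRingEnd ℂ) (c t) * fc f t := by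
  have h1 : ∀ φ, f φ * (starRingEnd ℂ) (trig S c φ)
      = ∑ t ∈ S, (starRingEnd ℂ) (c t) * (f φ * ee (-(dt t φ))) := by
    intro φ
    unfold trig
    rw [map_sum, mul_sum]
    refine sum_congr rfl fun t _ => ?_
    rw [map_mul, ee_conj]
    ring
  simp only [h1]
  rw [integral_finsetSum]
  · refine sum_congr rfl fun t _ => ?_
    rw [integral_const_mul]
    rfl
  · intro t _
    refine Integrable.const_mul ?_ _
    refine Integrable.mono' (integrable_const C) ?_ (ae_of_all _ fun φ => ?_)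
    · exact (hf.mul ((ee_continuous.comp (continuous_dt t).neg).measurable)).aestronglyMeasurable
    · rw [norm_mul, norm_ee, mul_one]; exact hC φ

lemma fc_trig {n : ℕ} (S : Finset (Fin n → ℤ)) (c : (Fin n → ℤ) → ℂ) (t : Fin n → ℤ) (ht : t ∈ S) :
    fc (trig S c) t = c t := by
  classical
  rw [fc_eq]
  have h1 : ∀ φ, trig S c φ * ee (-(dt t φ)) = ∑ s ∈ S, c s * ee (dt (s - t) φ) := by
    intro φ
    unfold trig
    rw [sum_mul]
    refine sum_congr rfl fun s _ => ?_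
    rw [mul_assoc, ← ee_add, dt_sub, sub_eq_add_neg]
  simp only [h1]
  rw [integral_finsetSum]
  · simp only [integral_const_mul, integral_ee_dt]
    rw [sum_eq_single t]
    · simp
    · intro s _ hs
      rw [if_neg (sub_ne_zero.2 hs), mul_zero]
    · intro h; exact absurd ht h
  · intro s _
    refine Integrable.const_mul ?_ _
    refine Integrable.mono' (integrable_const 1) ?_ (ae_of_all _ fun φ => ?_)
    · exact ((ee_continuous.comp (continuous_dt _)).measurable).aestronglyMeasurable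
    · rw [norm_ee]

lemma integrable_bdd {n : ℕ} {f : (Fin n → ℝ) → ℂ} (hf : Measurable f) (C : ℝ) (hC : ∀ φ, ‖f φ‖ ≤ C) :
    Integrable f ((volume : Measure (Fin n → ℝ)).restrict (cube n)) :=
  Integrable.mono' (integrable_const C) hf.aestronglyMeasurable (ae_of_all _ hC)

/-- the L² distance to a trigonometric polynomial -/
theorem integral_norm_sub_trig {n : ℕ} (S : Finset (Fin n → ℤ)) (c : (Fin n → ℤ) → ℂ)
    (f : (Fin n → ℝ) → ℂ) (hf : Measurable f) (C : ℝ) (hC : ∀ φ, ‖f φ‖ ≤ C) :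
    ∫ φ in cube n, ‖f φ - trig S c φ‖ ^ 2
      = (∫ φ in cube n, ‖f φ‖ ^ 2) - 2 * (∑ t ∈ S, ((starRingEnd ℂ) (c t) * fc f t).re) + ∑ t ∈ S, ‖c t‖ ^ 2 := by
  have hm := (continuous_trig S c).measurable
  have h1 : ∀ φ, ‖f φ - trig S c φ‖ ^ 2
      = ‖f φ‖ ^ 2 - 2 * (f φ * (starRingEnd ℂ) (trig S c φ)).re
        + (trig S c φ * (starRingEnd ℂ) (trig S c φ)).re := by
    intro φ
    rw [← Complex.normSq_eq_norm_sq, ← Complex.normSq_eq_norm_sq, Complex.normSq_sub, Complex.mul_conj]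
    simp only [Complex.ofReal_re]
    ring
  simp only [h1]
  have i1 : Integrable (fun φ => ‖f φ‖ ^ 2) ((volume : Measure (Fin n → ℝ)).restrict (cube n)) := by
    refine Integrable.mono' (integrable_const (C ^ 2)) (hf.norm.pow_const 2).aestronglyMeasurable
      (ae_of_all _ fun φ => ?_)
    rw [Real.norm_of_nonneg (by positivity)]
    exact pow_le_pow_left₀ (norm_nonneg _) (hC φ) 2
  set B := ∑ t ∈ S, ‖c t‖ with hB
  have hB0 : 0 ≤ B := sum_nonneg fun _ _ => norm_nonneg _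
  have hC0 : 0 ≤ C := (norm_nonneg _).trans (hC 0)
  have i2 : Integrable (fun φ => f φ * (starRingEnd ℂ) (trig S c φ))
      ((volume : Measure (Fin n → ℝ)).restrict (cube n)) := by
    refine integrable_bdd (hf.mul (Complex.continuous_conj.measurable.comp hm)) (C * B) fun φ => ?_
    rw [norm_mul, RCLike.norm_conj]
    exact mul_le_mul (hC φ) (norm_trig_le _ _ _) (norm_nonneg _) hC0
  have i3 : Integrable (fun φ => trig S c φ * (starRingEnd ℂ) (trig S c φ))
      ((volume : Measure (Fin n → ℝ)).restrict (cube n)) := by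
    refine integrable_bdd (hm.mul (Complex.continuous_conj.measurable.comp hm)) (B * B) fun φ => ?_
    rw [norm_mul, RCLike.norm_conj]
    exact mul_le_mul (norm_trig_le _ _ _) (norm_trig_le _ _ _) (norm_nonneg _) hB0
  have e2 : ∫ φ in cube n, (f φ * (starRingEnd ℂ) (trig S c φ)).re
      = (∑ t ∈ S, ((starRingEnd ℂ) (c t) * fc f t).re) := by
    rw [← Complex.re_sum, ← integral_mul_conj_trig S c f hf C hC]
    exact (integral_re i2)
  have e3 : ∫ φ in cube n, (trig S c φ * (starRingEnd ℂ) (trig S c φ)).re = ∑ t ∈ S, ‖c t‖ ^ 2 := by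
    have h3 : ∫ φ in cube n, (trig S c φ * (starRingEnd ℂ) (trig S c φ)).re
        = (∫ φ in cube n, trig S c φ * (starRingEnd ℂ) (trig S c φ)).re := integral_re i3
    rw [h3, integral_mul_conj_trig S c (trig S c) hm B (norm_trig_le S c), Complex.re_sum]
    refine sum_congr rfl fun t ht => ?_
    rw [fc_trig S c t ht, mul_comm, Complex.mul_conj, Complex.ofReal_re, Complex.normSq_eq_norm_sq]
  have j2 : Integrable (fun φ => 2 * (f φ * (starRingEnd ℂ) (trig S c φ)).re)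
      ((volume : Measure (Fin n → ℝ)).restrict (cube n)) := i2.re.const_mul 2
  have j3 : Integrable (fun φ => (trig S c φ * (starRingEnd ℂ) (trig S c φ)).re)
      ((volume : Measure (Fin n → ℝ)).restrict (cube n)) := i3.re
  have j12 : Integrable (fun φ => ‖f φ‖ ^ 2 - 2 * (f φ * (starRingEnd ℂ) (trig S c φ)).re)
      ((volume : Measure (Fin n → ℝ)).restrict (cube n)) := i1.sub j2
  rw [integral_add j12 j3, integral_sub i1 j2, integral_const_mul, e2, e3]

end Crest.Agent.R081.Spread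
end

-- ▼ part R081/LdAvg
section

/-!
# Row 81: random phases (helper472)
-/

set_option autoImplicit false

namespace Crest.Agent.R081.Spread

open MeasureTheory Finset Crest.Agent.R075

/-- periodicity -/
def Per {n : ℕ} {α : Type*} (f : (Fin n → ℝ) → α) : Prop :=
  ∀ (z : Fin n → ℤ) (x : Fin n → ℝ), f (fun i => x i + z i) = f x

lemma cube_ae (n : ℕ) : (cube n : Set (Fin n → ℝ)) =ᵐ[volume] {x : Fin n → ℝ | ∀ i, x i ∈ Set.Ioc (0:ℝ) (0 + 1)} := by
  have h1 : cube n =ᵐ[volume] Set.Icc (fun _ : Fin n => (0:ℝ)) (fun _ => 1) := by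
    unfold cube
    rw [volume_pi]
    exact Measure.univ_pi_Ico_ae_eq_Icc (f := fun _ => (0:ℝ)) (g := fun _ => (1:ℝ))
  have h2 : {x : Fin n → ℝ | ∀ i, x i ∈ Set.Ioc (0:ℝ) (0 + 1)} =ᵐ[volume] Set.Icc (fun _ : Fin n => (0:ℝ)) (fun _ => 1) := by
    have e : {x : Fin n → ℝ | ∀ i, x i ∈ Set.Ioc (0:ℝ) (0 + 1)} = Set.univ.pi (fun _ : Fin n => Set.Ioc (0:ℝ) 1) := by
      ext x; simp
    rw [e, volume_pi]
    exact Measure.univ_pi_Ioc_ae_eq_Icc (f := fun _ => (0:ℝ)) (g := fun _ => (1:ℝ))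
  exact h1.trans h2.symm

lemma integral_torus {n : ℕ} {f : (Fin n → ℝ) → ℝ} (hper : Per f) :
    ∃ I : ℝ, ∀ a : Fin n → ℝ, ∫ x in {x : Fin n → ℝ | ∀ i, x i ∈ Set.Ioc (a i) (a i + 1)}, f x = I := by
  refine ⟨_, fun a => Eq.trans ?_ (UnitAddTorus.integral_preimage (fun y : UnitAddTorus (Fin n) =>
    f (fun i => ((AddCircle.equivIco (1:ℝ) 0 (y i)) : ℝ))) a).symm⟩
  congr 1
  funext x
  have h := hper (fun i => ⌊x i⌋) (fun i => Int.fract (x i))
  have e : (fun i => Int.fract (x i) + ((⌊x i⌋ : ℤ) : ℝ)) = x := by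
    funext i; rw [Int.fract_add_floor]
  rw [e] at h
  rw [h]
  congr 1
  funext i
  rw [AddCircle.coe_equivIco_mk_apply, div_one, mul_one]

/-- translation invariance of the integral over the cube -/
theorem integral_cube_add {n : ℕ} {f : (Fin n → ℝ) → ℝ} (hper : Per f) (a : Fin n → ℝ) :
    ∫ x in cube n, f (x + a) = ∫ x in cube n, f x := by
  have h0 : ∫ x in cube n, f x = ∫ x in {x : Fin n → ℝ | ∀ i, x i ∈ Set.Ioc (0:ℝ) (0 + 1)}, f x :=
    setIntegral_congr_set (cube_ae n)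
  have h1 : ∫ x in cube n, f (x + a)
      = ∫ x in {x : Fin n → ℝ | ∀ i, x i ∈ Set.Ioc (0:ℝ) (0 + 1)}, f (x + a) :=
    setIntegral_congr_set (cube_ae n)
  rw [h0, h1]
  have h2 := (measurePreserving_add_right (volume : Measure (Fin n → ℝ)) a).setIntegral_preimage_emb
    (MeasurableEquiv.addRight a).measurableEmbedding f {x : Fin n → ℝ | ∀ i, x i ∈ Set.Ioc (a i) (a i + 1)}
  have e : (fun x : Fin n → ℝ => x + a) ⁻¹' {x : Fin n → ℝ | ∀ i, x i ∈ Set.Ioc (a i) (a i + 1)}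
      = {x : Fin n → ℝ | ∀ i, x i ∈ Set.Ioc (0:ℝ) (0 + 1)} := by
    ext x
    simp only [Set.mem_preimage, Set.mem_ofPred_eq, Pi.add_apply, Set.mem_Ioc]
    refine forall_congr' fun i => ?_
    constructor
    · rintro ⟨h, h'⟩; exact ⟨by linarith, by linarith⟩
    · rintro ⟨h, h'⟩; exact ⟨by linarith, by linarith⟩
  rw [e] at h2
  obtain ⟨I, hI⟩ := integral_torus hper
  rw [h2, hI a, hI (fun _ => (0:ℝ))]

/-- **random phases** -/
theorem exists_phase {n : ℕ} {f : (Fin n → ℝ) → ℝ} (hper : Per f) (hm : Measurable f) (C : ℝ)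
    (hC : ∀ x, |f x| ≤ C) {N : ℕ} (hN : 0 < N) (v : ℕ → Fin n → ℝ) (e : Fin n → ℝ) :
    ∃ x : Fin n → ℝ, (1 / (N : ℝ)) * ∑ l ∈ range N, ∫ θ in (0:ℝ)..1, f (x + (v l + θ • e))
      ≤ ∫ φ in cube n, f φ := by
  set μ : Measure (Fin n → ℝ) := (volume : Measure (Fin n → ℝ)).restrict (cube n) with hμ
  have hN0 : (0:ℝ) < N := by exact_mod_cast hN
  -- for each `l`
  have hint : ∀ l : ℕ, Integrable (Function.uncurry fun (x : Fin n → ℝ) (θ : ℝ) => f (x + (v l + θ • e)))
      (μ.prod ((volume : Measure ℝ).restrict (Set.Ioc 0 1))) := by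
    intro l
    refine Integrable.mono' (integrable_const C) ?_ (ae_of_all _ fun x => ?_)
    · refine (hm.comp ?_).aestronglyMeasurable
      fun_prop
    · rw [Real.norm_eq_abs]; exact hC _
  have hF : ∀ l : ℕ, Integrable (fun x : Fin n → ℝ => ∫ θ in (0:ℝ)..1, f (x + (v l + θ • e))) μ := by
    intro l
    have := (hint l).integral_prod_left
    simpa only [intervalIntegral.integral_of_le zero_le_one, Function.uncurry] using this
  have hval : ∀ l : ℕ, ∫ x, (∫ θ in (0:ℝ)..1, f (x + (v l + θ • e))) ∂μ = ∫ φ in cube n, f φ := by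
    intro l
    have h1 := integral_integral_swap (hint l)
    simp only [intervalIntegral.integral_of_le zero_le_one]
    rw [h1]
    have h2 : ∀ θ : ℝ, ∫ x, f (x + (v l + θ • e)) ∂μ = ∫ φ in cube n, f φ := fun θ =>
      integral_cube_add hper _
    simp only [h2]
    rw [integral_const]
    simp
  have hG : Integrable (fun x : Fin n → ℝ => (1 / (N : ℝ)) * ∑ l ∈ range N, ∫ θ in (0:ℝ)..1, f (x + (v l + θ • e))) μ :=
    (integrable_finsetSum _ fun l _ => hF l).const_mul _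
  obtain ⟨x, hx⟩ := exists_le_integral hG
  refine ⟨x, hx.trans (le_of_eq ?_)⟩
  rw [integral_const_mul, integral_finsetSum _ (fun l _ => hF l)]
  simp only [hval]
  rw [sum_const, card_range, nsmul_eq_mul, ← mul_assoc, one_div_mul_cancel hN0.ne', one_mul]

end Crest.Agent.R081.Spread
end

-- ▼ part R081/SpreadD
section

/-!
# Row 81: the spread data, and the L² estimate for the label function (helper472)
-/

set_option autoImplicit false

namespace Crest.Agent.R081.Spread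

open MeasureTheory Finset Crest.Agent.R075

/-- a function of the cells -/
noncomputable def lf {N p : ℕ} (g0 : (Fin N → ZMod p) → ℕ) (E : ℕ → ℂ) (φ : Fin N → ℝ) : ℂ :=
  E (g0 (fun i => cell p (φ i)))

/-- the amplitude of the type `t` -/
noncomputable def am (p Q : ℕ) {N : ℕ} (t : Fin N → ℤ) : ℂ := (Q : ℂ) * ∏ i, kap p (t i)

lemma kap_neg (p : ℕ) (t : ℤ) : kap p (-t) = (starRingEnd ℂ) (kap p t) := by
  unfold kap
  rw [intervalIntegral.integral_of_le (by positivity), intervalIntegral.integral_of_le (by positivity),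
    ← integral_conj]
  congr 1
  funext x
  rw [ee_conj]
  congr 1
  push_cast
  ring

lemma am_neg (p Q : ℕ) {N : ℕ} (t : Fin N → ℤ) : am p Q (-t) = (starRingEnd ℂ) (am p Q t) := by
  unfold am
  rw [map_mul, map_prod, Complex.conj_natCast]
  congr 1
  refine prod_congr rfl fun i _ => ?_
  rw [Pi.neg_apply, kap_neg]

lemma fc_conj {N : ℕ} (f : (Fin N → ℝ) → ℂ) (t : Fin N → ℤ) :
    fc (fun φ => (starRingEnd ℂ) (f φ)) (-t) = (starRingEnd ℂ) (fc f t) := by
  rw [fc_eq, fc_eq, ← integral_conj]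
  congr 1
  funext φ
  rw [map_mul, ee_conj, dt_neg]

/-- the spread data -/
structure SData (ε : ℝ) (Q0 : ℕ) where
  n : ℕ
  n_pos : 0 < n
  p : ℕ
  Q : ℕ
  g0 : (Fin (n + 1) → ZMod p) → ℕ
  T : Finset (Fin (n + 1) → ℤ)
  lab : (Fin (n + 1) → ℤ) → ℕ
  hp : p.Prime
  hQ0 : Q0 ≤ Q
  hQ1 : 1 ≤ Q
  hg0 : ∀ u, g0 u ≤ Q
  lab_le : ∀ t, lab t ≤ Q
  wpos : ∀ t ∈ T, 0 < wmass p t
  one_le : ∀ t ∈ T, 1 ≤ t 0
  nonpar : ∀ t ∈ T, ∀ t' ∈ T, t ≠ t' → ∃ i j, t i * t' j ≠ t j * t' i
  low : 1 - ε ≤ 2 * ∑ t ∈ T, wmass p t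
  up : 2 * ∑ t ∈ T, wmass p t ≤ 1
  am_sq : ∀ t : Fin (n + 1) → ℤ, ‖am p Q t‖ ^ 2 = wmass p t
  fc_lab : ∀ t ∈ T, ∀ E : ℕ → ℂ, fc (lf g0 E) t
    = am p Q t * E (lab t) + am p Q t / Q * (E 0 - ∑ k ∈ range (Q + 1), E k)
  fc_zero : ∀ E : ℕ → ℂ, fc (lf g0 E) 0 = (1 / (Q : ℂ) ^ 2) * (E 0 + ((Q : ℂ) - 1) * ∑ k ∈ range (Q + 1), E k)

theorem exists_sdata (ε : ℝ) (hε : 0 < ε) (Q0 : ℕ) : Nonempty (SData ε Q0) := by
  classical
  obtain ⟨n, p, Q, g0, T, hp, hQ0, hQ1, hQ2, hg0, hw, h1, -, hnp, hlow, hup, hsq, hfc, hnd, -, hz⟩ :=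
    exists_labels ε hε Q0
  have hch : ∀ t ∈ T, ∃ m ≤ Q, ∀ E : ℕ → ℂ,
        fc (fun φ => E (g0 (fun i => cell p (φ i)))) t
          = ((Q : ℂ) * ∏ i, kap p (t i)) * E m
            + (∏ i, kap p (t i)) * (E 0 - ∑ k ∈ range (Q + 1), E k) :=
    fun t ht => hfc t (hnd t (Or.inl ht))
  choose m hm hm2 using hch
  have hnpos : 0 < n := by
    by_contra h0
    have h0 : n = 0 := by omega
    subst h0
    -- Q^2 = p
    rw [zero_add, pow_one] at hQ2
    have : ¬ (Q ^ 2).Prime := Nat.Prime.not_prime_pow le_rfl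
    rw [hQ2] at this
    exact this hp
  refine ⟨⟨n, hnpos, p, Q, g0, T, fun t => if h : t ∈ T then m t h else 0, hp, hQ0, hQ1, hg0, ?_, hw, h1, hnp, hlow, hup,
    ?_, ?_, hz⟩⟩
  · intro t
    split_ifs with h
    · exact hm t h
    · exact Nat.zero_le _
  · intro t
    unfold am
    rw [← hsq, Real.sq_sqrt (wmass_nonneg _ _)]
  · intro t ht E
    simp only [dif_pos ht]
    have hQ' : (Q : ℂ) ≠ 0 := by exact_mod_cast (by omega : Q ≠ 0)
    have := hm2 t ht E
    unfold lf am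
    rw [this]
    field_simp

namespace SData

variable {ε : ℝ} {Q0 : ℕ} (S : SData ε Q0)

/-- the remainder at `t` -/
lemma fc_neg (t : Fin (S.n + 1) → ℤ) (ht : t ∈ S.T) (E : ℕ → ℂ) :
    fc (lf S.g0 E) (-t)
    = am S.p S.Q (-t) * E (S.lab t) + am S.p S.Q (-t) / S.Q * (E 0 - ∑ k ∈ range (S.Q + 1), E k) := by
  have h := S.fc_lab t ht (fun k => (starRingEnd ℂ) (E k))
  have h1 : lf S.g0 E = fun φ => (starRingEnd ℂ) (lf S.g0 (fun k => (starRingEnd ℂ) (E k)) φ) := by
    funext φ; unfold lf; rw [Complex.conj_conj]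
  rw [h1, fc_conj, h, am_neg]
  simp only [map_add, map_mul, map_div₀, map_sub, map_sum, Complex.conj_conj, Complex.conj_natCast]

/-- all types with signs -/
noncomputable def TT : Finset (Fin (S.n + 1) → ℤ) := by
  classical exact S.T ∪ S.T.image (fun t => -t)

/-- the label of a signed type -/
noncomputable def lb (t : Fin (S.n + 1) → ℤ) : ℕ := by
  classical exact if t ∈ S.T then S.lab t else S.lab (-t)

lemma mem_TT {t : Fin (S.n + 1) → ℤ} : t ∈ S.TT ↔ t ∈ S.T ∨ -t ∈ S.T := by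
  classical
  unfold TT
  rw [mem_union, mem_image]
  constructor
  · rintro (h | ⟨s, hs, rfl⟩)
    · exact Or.inl h
    · exact Or.inr (by rwa [neg_neg])
  · rintro (h | h)
    · exact Or.inl h
    · exact Or.inr ⟨-t, h, neg_neg t⟩

lemma not_mem_neg {t : Fin (S.n + 1) → ℤ} (ht : t ∈ S.T) : -t ∉ S.T := by
  intro h
  have h1 := S.one_le t ht
  have h2 := S.one_le _ h
  rw [Pi.neg_apply] at h2
  omega


lemma lb_T {t : Fin (S.n + 1) → ℤ} (ht : t ∈ S.T) : S.lb t = S.lab t := by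
  classical
  unfold lb; rw [if_pos ht]

lemma lb_neg {t : Fin (S.n + 1) → ℤ} (ht : t ∈ S.T) : S.lb (-t) = S.lab t := by
  classical
  unfold lb; rw [if_neg (S.not_mem_neg ht), neg_neg]

lemma fc_TT (t : Fin (S.n + 1) → ℤ) (ht : t ∈ S.TT) (E : ℕ → ℂ) :
    fc (lf S.g0 E) t
    = am S.p S.Q t * E (S.lb t) + am S.p S.Q t / S.Q * (E 0 - ∑ k ∈ range (S.Q + 1), E k) := by
  rcases S.mem_TT.1 ht with h | h
  · rw [S.lb_T h]; exact S.fc_lab t h E
  · have h2 := S.fc_neg (-t) h E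
    rw [neg_neg] at h2
    have h3 := S.lb_neg h
    rw [neg_neg] at h3
    rw [h3]
    exact h2

lemma sum_TT (F : (Fin (S.n + 1) → ℤ) → ℝ) (hF : ∀ t, F (-t) = F t) :
    ∑ t ∈ S.TT, F t = 2 * ∑ t ∈ S.T, F t := by
  classical
  unfold TT
  rw [sum_union, sum_image]
  · simp only [hF]; ring
  · intro a _ b _ h
    exact neg_injective h
  · rw [disjoint_left]
    intro t ht h
    rw [mem_image] at h
    obtain ⟨s, hs, rfl⟩ := h
    exact S.not_mem_neg hs ht

lemma measurable_lf {N p : ℕ} [NeZero p] (g0 : (Fin N → ZMod p) → ℕ) (E : ℕ → ℂ) : Measurable (lf g0 E) := by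
  have h1 : Measurable (fun φ : Fin N → ℝ => fun i => cell p (φ i)) :=
    measurable_pi_lambda _ fun i => (measurable_cell p).comp (measurable_pi_apply i)
  have h2 : Measurable (fun u : Fin N → ZMod p => E (g0 u)) := measurable_of_finite _
  exact h2.comp h1

lemma per_lf {N p : ℕ} (g0 : (Fin N → ZMod p) → ℕ) (E : ℕ → ℂ) : Per (lf g0 E) := by
  intro z x
  unfold lf
  congr 2
  funext i
  exact cell_add_int p (x i) (z i)

/-- the coefficients of the main part -/
noncomputable def mc (E : ℕ → ℂ) (t : Fin (S.n + 1) → ℤ) : ℂ := am S.p S.Q t * E (S.lb t)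

/-- **SL2**: the label function is close to its main part in L² -/
theorem integral_label_sub_main (E : ℕ → ℂ) (hE : ∀ k ≤ S.Q, ‖E k‖ = 1) :
    ∫ φ in cube (S.n + 1), ‖lf S.g0 E φ - trig S.TT (S.mc E) φ‖ ^ 2
      ≤ ε + 2 * (1 + ‖∑ k ∈ range (S.Q + 1), E k‖) / S.Q := by
  have hpf : Fact S.p.Prime := ⟨S.hp⟩
  have hQ0 : (0:ℝ) < S.Q := by exact_mod_cast S.hQ1
  have hlb : ∀ t, S.lb t ≤ S.Q := by
    classical
    intro t; unfold lb; split_ifs <;> exact S.lab_le _
  have hnorm : ∀ φ, ‖lf S.g0 E φ‖ = 1 := fun φ => hE _ (S.hg0 _)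
  rw [integral_norm_sub_trig S.TT (S.mc E) (lf S.g0 E) (measurable_lf _ _) 1 (fun φ => (hnorm φ).le)]
  have h1 : ∫ φ in cube (S.n + 1), ‖lf S.g0 E φ‖ ^ 2 = 1 := by
    simp only [hnorm, one_pow]
    rw [integral_const]
    simp
  rw [h1]
  set B : ℝ := (1 + ‖∑ k ∈ range (S.Q + 1), E k‖) / S.Q with hB
  have hmc : ∀ t, ‖S.mc E t‖ ^ 2 = wmass S.p t := by
    intro t
    unfold mc
    rw [norm_mul, hE _ (hlb t), mul_one, S.am_sq]
  have hterm : ∀ t ∈ S.TT, wmass S.p t - B * wmass S.p t ≤ ((starRingEnd ℂ) (S.mc E t) * fc (lf S.g0 E) t).re := by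
    intro t ht
    rw [S.fc_TT t ht E, mul_add]
    have e1 : (starRingEnd ℂ) (S.mc E t) * (am S.p S.Q t * E (S.lb t)) = ((wmass S.p t : ℝ) : ℂ) := by
      have : am S.p S.Q t * E (S.lb t) = S.mc E t := rfl
      rw [this, mul_comm, Complex.mul_conj, Complex.normSq_eq_norm_sq, hmc]
    rw [e1, Complex.add_re, Complex.ofReal_re]
    have e2 : ‖(starRingEnd ℂ) (S.mc E t) * (am S.p S.Q t / S.Q * (E 0 - ∑ k ∈ range (S.Q + 1), E k))‖
        ≤ B * wmass S.p t := by
      rw [norm_mul, RCLike.norm_conj, norm_mul, norm_div, Complex.norm_natCast]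
      have e3 : ‖E 0 - ∑ k ∈ range (S.Q + 1), E k‖ ≤ 1 + ‖∑ k ∈ range (S.Q + 1), E k‖ := by
        refine (norm_sub_le _ _).trans ?_
        rw [hE 0 (Nat.zero_le _)]
      have e4 : ‖S.mc E t‖ = ‖am S.p S.Q t‖ := by
        unfold mc; rw [norm_mul, hE _ (hlb t), mul_one]
      rw [e4]
      have e5 : ‖am S.p S.Q t‖ * (‖am S.p S.Q t‖ / S.Q * (1 + ‖∑ k ∈ range (S.Q + 1), E k‖)) = B * wmass S.p t := by
        rw [← S.am_sq t, hB]; ring
      rw [← e5]
      exact mul_le_mul_of_nonneg_left (mul_le_mul_of_nonneg_left e3 (by positivity)) (norm_nonneg _)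
    have e6 := (Complex.abs_re_le_norm _).trans e2
    rw [abs_le] at e6
    linarith [e6.1]
  have hs := sum_le_sum hterm
  simp only [hmc]
  rw [sum_sub_distrib, ← mul_sum] at hs
  have hTT := S.sum_TT (fun t => wmass S.p t) (fun t => wmass_neg S.p t)
  rw [hTT] at hs ⊢
  have hlow := S.low
  have hup := S.up
  have hB0 : 0 ≤ B := by rw [hB]; positivity
  have hBs : B * (2 * ∑ t ∈ S.T, wmass S.p t) ≤ B := by
    calc B * (2 * ∑ t ∈ S.T, wmass S.p t) ≤ B * 1 := mul_le_mul_of_nonneg_left hup hB0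
      _ = B := mul_one B
  have e7 : 2 * (1 + ‖∑ k ∈ range (S.Q + 1), E k‖) / S.Q = 2 * B := by rw [hB]; ring
  rw [e7]
  linarith

end SData

end Crest.Agent.R081.Spread
end

-- ▼ part R081/LdMain
section

/-!
# Row 81: sample closeness (SC) of the labels to the trigonometric main part (helper472)
-/

set_option autoImplicit false

namespace Crest.Agent.R081.Spread

open MeasureTheory Finset Crest.Agent.R075

lemma per_trig {n : ℕ} (S : Finset (Fin n → ℤ)) (c : (Fin n → ℤ) → ℂ) : Per (trig S c) := by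
  intro z x
  unfold trig
  refine sum_congr rfl fun t _ => ?_
  congr 1
  have : dt t (fun i => x i + (z i : ℝ)) = dt t x + ((∑ i, t i * z i : ℤ) : ℝ) := by
    unfold dt
    push_cast
    rw [← sum_add_distrib]
    exact sum_congr rfl fun i _ => by ring
  rw [this, ee_add_int]

namespace SData

variable {ε : ℝ} {Q0 : ℕ} (S : SData ε Q0)

/-- the remainder -/
noncomputable def rem (E : ℕ → ℂ) (φ : Fin (S.n + 1) → ℝ) : ℝ := ‖lf S.g0 E φ - trig S.TT (S.mc E) φ‖ ^ 2

lemma per_rem (E : ℕ → ℂ) : Per (S.rem E) := by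
  intro z x
  unfold rem
  rw [per_lf S.g0 E z x, per_trig S.TT (S.mc E) z x]

lemma measurable_rem (E : ℕ → ℂ) : Measurable (S.rem E) := by
  have hpf : Fact S.p.Prime := ⟨S.hp⟩
  unfold rem
  exact ((measurable_lf S.g0 E).sub (continuous_trig _ _).measurable).norm.pow_const 2

lemma rem_nonneg (E : ℕ → ℂ) (φ : Fin (S.n + 1) → ℝ) : 0 ≤ S.rem E φ := by unfold rem; positivity

lemma rem_le (E : ℕ → ℂ) (hE : ∀ k ≤ S.Q, ‖E k‖ = 1) (φ : Fin (S.n + 1) → ℝ) :
    S.rem E φ ≤ (1 + ∑ t ∈ S.TT, ‖S.mc E t‖) ^ 2 := by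
  unfold rem
  refine pow_le_pow_left₀ (norm_nonneg _) ?_ 2
  refine (norm_sub_le _ _).trans (add_le_add ?_ (norm_trig_le _ _ _))
  exact (hE _ (S.hg0 _)).le

/-- **sample closeness** with averaged phases, simultaneously for a finite family -/
theorem exists_phase_family {κ : Type*} (K : Finset κ) (E : κ → ℕ → ℂ) (hE : ∀ k ∈ K, ∀ m ≤ S.Q, ‖E k m‖ = 1)
    {N : ℕ} (hN : 0 < N) (v : ℕ → Fin (S.n + 1) → ℝ) (e : Fin (S.n + 1) → ℝ) :
    ∃ x : Fin (S.n + 1) → ℝ, ∀ k ∈ K,
      (1 / (N : ℝ)) * ∑ l ∈ range N, ∫ θ in (0:ℝ)..1,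
        ‖lf S.g0 (E k) (x + (v l + θ • e)) - trig S.TT (S.mc (E k)) (x + (v l + θ • e))‖ ^ 2
      ≤ ∑ k ∈ K, (ε + 2 * (1 + ‖∑ m ∈ range (S.Q + 1), E k m‖) / S.Q) := by
  classical
  have hN0 : (0:ℝ) < N := by exact_mod_cast hN
  set f : (Fin (S.n + 1) → ℝ) → ℝ := fun φ => ∑ k ∈ K, S.rem (E k) φ with hf
  set C : ℝ := ∑ k ∈ K, (1 + ∑ t ∈ S.TT, ‖S.mc (E k) t‖) ^ 2 with hC
  have hf0 : ∀ φ, 0 ≤ f φ := fun φ => sum_nonneg fun k _ => S.rem_nonneg _ _
  have hfC : ∀ φ, |f φ| ≤ C := by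
    intro φ
    rw [abs_of_nonneg (hf0 φ)]
    exact sum_le_sum fun k hk => S.rem_le (E k) (hE k hk) φ
  have hper : Per f := by
    intro z x
    simp only [hf]
    exact sum_congr rfl fun k _ => S.per_rem (E k) z x
  have hm : Measurable f := by
    rw [hf]
    exact Finset.measurable_fun_sum _ fun k _ => S.measurable_rem (E k)
  obtain ⟨x, hx⟩ := exists_phase hper hm C hfC hN v e
  refine ⟨x, fun k hk => ?_⟩
  have hint : ∀ k, k ∈ K → Integrable (S.rem (E k)) ((volume : Measure (Fin (S.n+1) → ℝ)).restrict (cube (S.n + 1))) := by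
    intro k hk
    refine Integrable.mono' (integrable_const ((1 + ∑ t ∈ S.TT, ‖S.mc (E k) t‖) ^ 2))
      (S.measurable_rem (E k)).aestronglyMeasurable (ae_of_all _ fun φ => ?_)
    rw [Real.norm_of_nonneg (S.rem_nonneg _ _)]
    exact S.rem_le (E k) (hE k hk) φ
  have h2 : ∫ φ in cube (S.n + 1), f φ ≤ ∑ k ∈ K, (ε + 2 * (1 + ‖∑ m ∈ range (S.Q + 1), E k m‖) / S.Q) := by
    simp only [hf]
    rw [integral_finsetSum K hint]
    refine sum_le_sum fun k hk => ?_
    exact S.integral_label_sub_main (E k) (hE k hk)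
  refine le_trans ?_ (hx.trans h2)
  refine mul_le_mul_of_nonneg_left (sum_le_sum fun l _ => ?_) (by positivity)
  have hmeas : ∀ g : (Fin (S.n + 1) → ℝ) → ℝ, Measurable g → Measurable (fun θ : ℝ => g (x + (v l + θ • e))) := by
    intro g hg
    refine hg.comp ?_
    fun_prop
  refine intervalIntegral.integral_mono_on zero_le_one ?_ ?_ fun θ _ => ?_
  · refine IntervalIntegrable.mono_fun' (g := fun _ => (1 + ∑ t ∈ S.TT, ‖S.mc (E k) t‖) ^ 2)
      intervalIntegrable_const (hmeas _ (S.measurable_rem (E k))).aestronglyMeasurable (ae_of_all _ fun θ => ?_)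
    beta_reduce
    rw [Real.norm_of_nonneg (by positivity)]
    exact S.rem_le (E k) (hE k hk) _
  · refine IntervalIntegrable.mono_fun' (g := fun _ => C)
      intervalIntegrable_const (hmeas f hm).aestronglyMeasurable (ae_of_all _ fun θ => ?_)
    beta_reduce
    rw [Real.norm_eq_abs]
    exact hfC _
  · exact single_le_sum (f := fun k => S.rem (E k) (x + (v l + θ • e))) (fun k _ => S.rem_nonneg _ _) hk

end SData

/-! ### labels in a finite set -/

/-- the label map `ℕ → Λ` -/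
noncomputable def Gl (Λ : Type*) [Fintype Λ] [Nonempty Λ] (k : ℕ) : Λ :=
  (Fintype.equivFin Λ).symm ⟨k % Fintype.card Λ, Nat.mod_lt _ Fintype.card_pos⟩

lemma Gl_add (Λ : Type*) [Fintype Λ] [Nonempty Λ] (k : ℕ) : Gl Λ (k + Fintype.card Λ) = Gl Λ k := by
  unfold Gl
  congr 2
  exact Nat.add_mod_right _ _

lemma sum_Gl (Λ : Type*) [Fintype Λ] [Nonempty Λ] (E : Λ → ℂ) :
    ∑ k ∈ range (Fintype.card Λ), E (Gl Λ k) = ∑ s, E s := by
  rw [← Fin.sum_univ_eq_sum_range (fun k => E (Gl Λ k)), ← Equiv.sum_comp (Fintype.equivFin Λ).symm]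
  refine sum_congr rfl fun k _ => ?_
  unfold Gl
  congr 2
  exact Fin.ext (Nat.mod_eq_of_lt k.2)

lemma norm_sum_Gl_le (Λ : Type*) [Fintype Λ] [Nonempty Λ] (E : Λ → ℂ) (hE : ∀ s, ‖E s‖ = 1) (h0 : ∑ s, E s = 0)
    (N : ℕ) : ‖∑ k ∈ range N, E (Gl Λ k)‖ ≤ Fintype.card Λ := by
  set M := Fintype.card Λ with hM
  have hM0 : 0 < M := Fintype.card_pos
  induction N using Nat.strong_induction_on with
  | _ N ih =>
    by_cases hN : N < M
    · refine (norm_sum_le _ _).trans ?_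
      simp only [hE]
      rw [sum_const, card_range, nsmul_eq_mul, mul_one]
      exact_mod_cast hN.le
    · obtain ⟨m, rfl⟩ : ∃ m, N = m + M := ⟨N - M, by omega⟩
      have h1 : ∑ k ∈ range (m + M), E (Gl Λ k) = ∑ k ∈ range m, E (Gl Λ k) := by
        rw [add_comm, sum_range_add, sum_Gl, h0, zero_add]
        refine sum_congr rfl fun k _ => ?_
        rw [add_comm, Gl_add]
      rw [h1]
      exact ih m (by omega)

/-- **(SC)** for a finite family of unimodular mean-zero functions on a finite label set -/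
theorem exists_SC (Λ : Type*) [Fintype Λ] [Nonempty Λ] {κ : Type*} (K : Finset κ) (E : κ → Λ → ℂ)
    (hE : ∀ k ∈ K, ∀ s, ‖E k s‖ = 1) (h0 : ∀ k ∈ K, ∑ s, E k s = 0) (ε : ℝ) (hε : 0 < ε) (δ : ℝ) (hδ : 0 < δ) :
    ∃ (ε' : ℝ) (_ : 0 < ε') (_ : ε' ≤ ε) (Q0 : ℕ) (S : SData ε' Q0), ∀ (N : ℕ), 0 < N →
      ∀ (v : ℕ → Fin (S.n + 1) → ℝ) (e : Fin (S.n + 1) → ℝ),
      ∃ x : Fin (S.n + 1) → ℝ, ∀ k ∈ K,
      (1 / (N : ℝ)) * ∑ l ∈ range N, ∫ θ in (0:ℝ)..1,
        ‖lf S.g0 (fun m => E k (Gl Λ m)) (x + (v l + θ • e))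
          - trig S.TT (S.mc (fun m => E k (Gl Λ m))) (x + (v l + θ • e))‖ ^ 2 ≤ δ := by
  set c : ℝ := K.card + 1 with hc
  have hc0 : 0 < c := by positivity
  set ε' : ℝ := min ε (δ / (2 * c)) with hε'
  have he0 : 0 < ε' := lt_min hε (by positivity)
  set M := Fintype.card Λ with hM
  set Q0 : ℕ := ⌈2 * (1 + M) * (2 * c) / δ⌉₊ with hQ0
  obtain ⟨S⟩ := exists_sdata ε' he0 Q0
  refine ⟨ε', he0, min_le_left _ _, Q0, S, fun N hN v e => ?_⟩
  obtain ⟨x, hx⟩ := S.exists_phase_family K (fun k m => E k (Gl Λ m)) (fun k hk m _ => hE k hk _) hN v e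
  refine ⟨x, fun k hk => (hx k hk).trans ?_⟩
  have hQ : (0:ℝ) < S.Q := by exact_mod_cast S.hQ1
  have h1 : ∀ k ∈ K, ε' + 2 * (1 + ‖∑ m ∈ range (S.Q + 1), E k (Gl Λ m)‖) / S.Q ≤ δ / c := by
    intro k hk
    have e1 : ‖∑ m ∈ range (S.Q + 1), E k (Gl Λ m)‖ ≤ M := norm_sum_Gl_le Λ (E k) (hE k hk) (h0 k hk) _
    have e2 : 2 * (1 + ‖∑ m ∈ range (S.Q + 1), E k (Gl Λ m)‖) / S.Q ≤ δ / (2 * c) := by
      rw [div_le_div_iff₀ hQ (by positivity)]
      have e3 : 2 * (1 + (M:ℝ)) * (2 * c) / δ ≤ S.Q := by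
        refine (Nat.le_ceil _).trans ?_
        exact Nat.cast_le.2 S.hQ0
      rw [div_le_iff₀ hδ] at e3
      nlinarith
    have e4 : ε' ≤ δ / (2 * c) := min_le_right _ _
    have e5 : δ / c = δ / (2 * c) + δ / (2 * c) := by field_simp; norm_num
    rw [e5]
    exact add_le_add e4 e2
  refine (sum_le_sum h1).trans ?_
  rw [sum_const, nsmul_eq_mul, mul_div_assoc', div_le_iff₀ hc0]
  nlinarith

/-! ### a generic direction -/









end Crest.Agent.R081.Spread
end

-- ▼ part R081/TlW1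
section

/-!
# Row 81, route B: `TorusLabels` from the spread labels (helper472)
-/

set_option autoImplicit false

namespace Crest.Agent.R081.Spread

open MeasureTheory Finset Crest.Agent.R075 Crest.Agent.R081.Dl

lemma SData.trig_TT {ε : ℝ} {Q0 : ℕ} (S : SData ε Q0) (E : ℕ → ℂ) (φ : Fin (S.n + 1) → ℝ) :
    trig S.TT (S.mc E) φ = ∑ t ∈ S.T, E (S.lab t) * (am S.p S.Q t * ee (dt t φ)
        + (starRingEnd ℂ) (am S.p S.Q t) * ee (-(dt t φ))) := by
  classical
  unfold trig SData.TT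
  rw [sum_union, sum_image]
  · rw [← sum_add_distrib]
    refine sum_congr rfl fun t ht => ?_
    unfold SData.mc
    rw [S.lb_T ht, S.lb_neg ht, am_neg, dt_neg]
    ring
  · intro a _ b _ h
    exact neg_injective h
  · rw [disjoint_left]
    intro t ht h
    rw [mem_image] at h
    obtain ⟨s, hs, rfl⟩ := h
    exact S.not_mem_neg hs ht

theorem exists_torusLabels (Λ : Type) [Fintype Λ] [Nonempty Λ] (Fam : Set (Λ → ℂ)) (hfin : Fam.Finite)
    (hE : ∀ E ∈ Fam, ∀ s, ‖E s‖ = 1) (h0 : ∀ E ∈ Fam, ∑ s, E s = 0) (eps : ℝ) (heps : 0 < eps) :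
    Nonempty (TorusLabels Λ Fam eps) := by
  classical
  obtain ⟨ε', he0, hle, Q0, S, hS⟩ := exists_SC Λ hfin.toFinset (fun E : Λ → ℂ => E)
    (fun E h => hE E (hfin.mem_toFinset.1 h)) (fun E h => h0 E (hfin.mem_toFinset.1 h)) eps heps eps heps
  have hpf : Fact S.p.Prime := ⟨S.hp⟩
  refine ⟨{ n := S.n
            Lam0 := fun φ => Gl Λ (S.g0 (fun i => cell S.p (φ i)))
            meas := ?_
            per := ?_
            T := S.T
            w := fun t => wmass S.p t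
            w_pos := S.wpos
            T_pos := S.one_le
            T_np := S.nonpar
            w_lo := by have := S.low; linarith
            w_hi := S.up
            amp := fun t => am S.p S.Q t
            amp_sq := fun t _ => S.am_sq t
            lb := fun t => Gl Λ (S.lab t)
            sample := ?_ }⟩
  · intro s
    have h1 : Measurable (fun φ : Fin (S.n + 1) → ℝ => fun i => cell S.p (φ i)) :=
      measurable_pi_lambda _ fun i => (measurable_cell S.p).comp (measurable_pi_apply i)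
    exact h1 (MeasurableSet.of_discrete (s := {u : Fin (S.n + 1) → ZMod S.p | Gl Λ (S.g0 u) = s}))
  · intro x k
    congr 2
    funext i
    exact cell_add_int S.p (x i) (k i)
  · intro N hN v
    obtain ⟨x, hx⟩ := hS N hN v (Pi.single 0 1)
    refine ⟨x, fun E hEF => ?_⟩
    have h1 := hx E (hfin.mem_toFinset.2 hEF)
    have hsh : ∀ (l : ℕ) (θ : ℝ), x + (v l + θ • (Pi.single 0 1 : Fin (S.n + 1) → ℝ)) = shift0 x (v l) θ := by
      intro l θ
      funext r
      unfold shift0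
      by_cases hr : r = 0
      · subst hr
        simp [add_assoc]
      · simp [hr]
    simp only [hsh, S.trig_TT] at h1
    exact h1

end Crest.Agent.R081.Spread
end

-- ▼ part R081/DlMain
section

/-!
# Row 81, route B: the label design (helper269), final assembly

`exists_labelDesign`, from 472's sampling data, 287's design, 342's rounding, 919's coefficient
estimate and 332's distribution lemma.
-/

set_option autoImplicit false

namespace Crest.Agent.R081.Dl

open MeasureTheory Finset Crest.Agent.R075 Crest.Agent.R081.D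

lemma meas_comp {Λ : Type} [Finite Λ] (f : ℝ → Λ) (hf : ∀ s, MeasurableSet {θ | f θ = s})
    (E : Λ → ℂ) : Measurable (fun θ => E (f θ)) := by
  letI : MeasurableSpace Λ := ⊤
  have h1 : Measurable f := measurable_to_countable' hf
  exact (measurable_from_top (f := E)).comp h1

section

variable {Λ : Type} {Fam : Set (Λ → ℂ)} {e1 e2 : ℝ} {B0 : ℕ} (TL : TorusLabels Λ Fam e1)
  (D : DesignL TL.T (e0 TL.n) TL.w e2 B0) {q : ℕ} {eta : ℝ} (Rd : Rounded D q eta)
  (x : Fin D.P → Fin (TL.n+1) → ℝ)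

lemma measurable_XX (p : Fin D.P) (i : ℤ) : Measurable (XX TL D Rd x p i) := by
  refine measurable_pi_lambda _ fun r => ?_
  unfold XX
  by_cases hr : r = 0
  · simp only [hr, if_true]
    exact measurable_const.add measurable_id
  · simp only [hr, if_false]
    exact measurable_const

/-- the label function of the piece `p`. -/
noncomputable def labP (p : Fin D.P) (i : ℤ) (θ : ℝ) : Λ := TL.Lam0 (XX TL D Rd x p i θ)

lemma labP_meas (p : Fin D.P) (i : ℤ) (s : Λ) : MeasurableSet {θ | labP TL D Rd x p i θ = s} :=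
  measurable_XX TL D Rd x p i (TL.meas s)

lemma labP_one (p : Fin D.P) (i : ℤ) (θ : ℝ) :
    labP TL D Rd x p i (θ + 1) = labP TL D Rd x p i θ := by
  unfold labP
  rw [← TL.per (XX TL D Rd x p i θ) (fun r => if r = 0 then 1 else 0)]
  congr 1
  funext r
  unfold XX
  by_cases hr : r = 0
  · simp only [hr, if_true]; push_cast; ring
  · simp only [hr, if_false]; push_cast; ring

lemma labP_per (p : Fin D.P) (i : ℤ) (θ : ℝ) :
    labP TL D Rd x p (i + Rd.n) θ = labP TL D Rd x p i θ := by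
  unfold labP
  have h := Rd.ph_period p (x p) i
  choose k hk using h
  rw [← TL.per (XX TL D Rd x p i θ) k]
  congr 1
  funext r
  unfold XX
  rw [hk r]
  ring

/-- the sampling property at the phases of the piece `p`. -/
lemma exists_x (hn : 0 < Rd.n) (p : Fin D.P) : ∃ x0 : Fin (TL.n+1) → ℝ, ∀ E ∈ Fam,
    (1 / (Rd.n:ℝ)) * ∑ i ∈ range Rd.n, ∫ θ in (0:ℝ)..1,
      ‖E (TL.Lam0 (fun r => Rd.ph p x0 (i:ℤ) r + if r = 0 then θ else 0))
        - ∑ t ∈ TL.T, E (TL.lb t) * (TL.amp t *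
            ee (dotR t (fun r => Rd.ph p x0 (i:ℤ) r + if r = 0 then θ else 0))
          + (starRingEnd ℂ) (TL.amp t) *
            ee (-(dotR t (fun r => Rd.ph p x0 (i:ℤ) r + if r = 0 then θ else 0))))‖ ^ 2 ≤ e1 := by
  obtain ⟨x0, hx0⟩ := TL.sample Rd.n hn
    (fun i r => (Rd.w p r : ℝ) * ((i:ℤ):ℝ) / Rd.n + (D.A r : ℝ) * (((i:ℤ):ℝ)) ^ 2 / D.Q)
  refine ⟨x0, fun E hE => ?_⟩
  have h1 := hx0 E hE
  have h2 : ∀ (i : ℕ) (θ : ℝ), shift0 x0
      (fun r => (Rd.w p r : ℝ) * ((i:ℤ):ℝ) / Rd.n + (D.A r : ℝ) * (((i:ℤ):ℝ)) ^ 2 / D.Q) θ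
      = fun r => Rd.ph p x0 (i:ℤ) r + if r = 0 then θ else 0 := by
    intro i θ
    funext r
    unfold shift0 Rounded.ph
    ring
  simp only [h2] at h1
  exact h1

open Classical in
/-- the coefficients of the labels of one piece. -/
theorem main_piece [Finite Λ] (heta : eta ≤ 1 / 2) (he2 : 0 ≤ e2) (p : Fin D.P)
    (hx : ∀ E ∈ Fam, (1 / (Rd.n:ℝ)) * ∑ i ∈ range Rd.n, ∫ θ in (0:ℝ)..1,
      ‖E (labP TL D Rd x p i θ)
        - ∑ t ∈ TL.T, E (TL.lb t) * (TL.amp t * ee (dotR t (XX TL D Rd x p i θ))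
          + (starRingEnd ℂ) (TL.amp t) * ee (-(dotR t (XX TL D Rd x p i θ))))‖ ^ 2 ≤ e1)
    (d0 : Λ) (E : Λ → ℂ) (hE : E ∈ Fam) (hE1 : ∀ s, ‖E s‖ = 1) :
    Summable (fun y : Fin Rd.n × ℤ => ‖Dco Rd.n (fun i θ => E (labP TL D Rd x p i θ)) y.1 y.2
        - (if (sys TL D Rd x heta p).line y.1 y.2 then
            ((Real.sqrt (|(y.2:ℝ)| * vv TL D) : ℝ) : ℂ) * (sys TL D Rd x heta p).amp y.1 y.2
              * E ((sys TL D Rd x heta p).ll d0 y.1 y.2) else 0)‖ ^ 2) ∧
      ∑' y : Fin Rd.n × ℤ, ‖Dco Rd.n (fun i θ => E (labP TL D Rd x p i θ)) y.1 y.2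
        - (if (sys TL D Rd x heta p).line y.1 y.2 then
            ((Real.sqrt (|(y.2:ℝ)| * vv TL D) : ℝ) : ℂ) * (sys TL D Rd x heta p).amp y.1 y.2
              * E ((sys TL D Rd x heta p).ll d0 y.1 y.2) else 0)‖ ^ 2 ≤ 2 * e1 + 2 * e2 := by
  set S := sys TL D Rd x heta p with hS
  have hn := Rd.n_pos
  have hv := vv_pos TL D
  have hC1 := DlC.dco_lines hn S.ls S.al S.bl (fun l => E (S.lbl l) * cl TL D Rd x p l)
    (fun i θ => E (labP TL D Rd x p i θ))
    (fun i => meas_comp _ (labP_meas TL D Rd x p i) E) (C := 1)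
    (fun i θ => (hE1 _).le) (e1 := e1) (by
      have h := hx E hE
      simp only [main_eq TL D Rd x heta p] at h
      exact h)
  obtain ⟨hs1, ht1⟩ := hC1
  -- the second error
  set F : (Σ _ : (Fin (TL.n+1) → ℤ), ℕ × Bool) → ℝ :=
    fun l => (‖cl TL D Rd x p l‖ - Real.sqrt (|(S.bl l : ℝ)| * vv TL D)) ^ 2 with hF
  have hsum2 := S.hasSum_lines hn F
  have hFle : ∑ l ∈ S.ls, F l ≤ e2 := by
    calc ∑ l ∈ S.ls, F l ≤ ∑ l ∈ S.ls, e2 * ‖cl TL D Rd x p l‖ ^ 2 := by
          refine Finset.sum_le_sum fun l hl => ?_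
          exact amp_close (norm_nonneg _) (by positivity) (cl_lo TL D Rd x heta p hl)
            (cl_hi TL D Rd x heta p hl) he2
      _ = e2 * ∑ l ∈ S.ls, ‖cl TL D Rd x p l‖ ^ 2 := by rw [Finset.mul_sum]
      _ ≤ e2 * 1 := mul_le_mul_of_nonneg_left (sum_mass TL D Rd x heta p) he2
      _ = e2 := mul_one _
  have hpt : ∀ a b : ℤ, ‖(∑ l ∈ S.ls, (if S.bl l = b ∧ (Rd.n : ℤ) ∣ a - S.al l then
        E (S.lbl l) * cl TL D Rd x p l else 0))
        - (if S.line a b then ((Real.sqrt (|(b:ℝ)| * vv TL D) : ℝ) : ℂ) * S.amp a b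
              * E (S.ll d0 a b) else 0)‖ ^ 2
      = ∑ l ∈ S.ls, (if S.bl l = b ∧ (Rd.n:ℤ) ∣ a - S.al l then F l else 0) := by
    intro a b
    by_cases h : S.line a b
    · obtain ⟨l, hl⟩ := h
      rw [S.sum_on (fun l => E (S.lbl l) * cl TL D Rd x p l) hl, S.sum_on F hl,
        if_pos ⟨l, hl⟩, S.amp_eq hl, S.ll_eq d0 hl]
      have hc := cl_eq TL D Rd x heta p l
      rw [← hS] at hc
      have e : E (S.lbl l) * cl TL D Rd x p l
          - ((Real.sqrt (|(b:ℝ)| * vv TL D) : ℝ) : ℂ) * S.u l * E (S.lbl l)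
          = ((‖cl TL D Rd x p l‖ - Real.sqrt (|(b:ℝ)| * vv TL D) : ℝ) : ℂ)
            * (S.u l * E (S.lbl l)) := by
        conv_lhs => rw [hc]
        push_cast
        ring
      rw [e, norm_mul, norm_mul, S.hu, hE1, mul_one, mul_one, Complex.norm_real, Real.norm_eq_abs,
        sq_abs]
      simp only [hF]
      rw [hl.2.1]
    · rw [S.sum_not _ h, S.sum_not _ h, if_neg h]
      simp
  have hs2 : Summable (fun y : Fin Rd.n × ℤ =>
      ‖(∑ l ∈ S.ls, (if S.bl l = y.2 ∧ (Rd.n : ℤ) ∣ (y.1:ℤ) - S.al l then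
        E (S.lbl l) * cl TL D Rd x p l else 0))
        - (if S.line y.1 y.2 then ((Real.sqrt (|(y.2:ℝ)| * vv TL D) : ℝ) : ℂ) * S.amp y.1 y.2
              * E (S.ll d0 y.1 y.2) else 0)‖ ^ 2) := by
    simp only [hpt]
    exact hsum2.summable
  have ht2 : ∑' y : Fin Rd.n × ℤ,
      ‖(∑ l ∈ S.ls, (if S.bl l = y.2 ∧ (Rd.n : ℤ) ∣ (y.1:ℤ) - S.al l then
        E (S.lbl l) * cl TL D Rd x p l else 0))
        - (if S.line y.1 y.2 then ((Real.sqrt (|(y.2:ℝ)| * vv TL D) : ℝ) : ℂ) * S.amp y.1 y.2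
              * E (S.ll d0 y.1 y.2) else 0)‖ ^ 2 ≤ e2 := by
    simp only [hpt]
    rw [hsum2.tsum_eq]
    exact hFle
  have hle : ∀ y : Fin Rd.n × ℤ, ‖Dco Rd.n (fun i θ => E (labP TL D Rd x p i θ)) y.1 y.2
        - (if S.line y.1 y.2 then
            ((Real.sqrt (|(y.2:ℝ)| * vv TL D) : ℝ) : ℂ) * S.amp y.1 y.2
              * E (S.ll d0 y.1 y.2) else 0)‖ ^ 2
      ≤ 2 * ‖Dco Rd.n (fun i θ => E (labP TL D Rd x p i θ)) y.1 y.2
          - ∑ l ∈ S.ls, (if S.bl l = y.2 ∧ (Rd.n : ℤ) ∣ (y.1 : ℤ) - S.al l then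
              E (S.lbl l) * cl TL D Rd x p l else 0)‖ ^ 2
        + 2 * ‖(∑ l ∈ S.ls, (if S.bl l = y.2 ∧ (Rd.n : ℤ) ∣ (y.1:ℤ) - S.al l then
        E (S.lbl l) * cl TL D Rd x p l else 0))
        - (if S.line y.1 y.2 then ((Real.sqrt (|(y.2:ℝ)| * vv TL D) : ℝ) : ℂ) * S.amp y.1 y.2
              * E (S.ll d0 y.1 y.2) else 0)‖ ^ 2 := by
    intro y
    have h := norm_sub_le_norm_sub_add_norm_sub
      (Dco Rd.n (fun i θ => E (labP TL D Rd x p i θ)) y.1 y.2)
      (∑ l ∈ S.ls, (if S.bl l = y.2 ∧ (Rd.n : ℤ) ∣ (y.1 : ℤ) - S.al l then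
              E (S.lbl l) * cl TL D Rd x p l else 0))
      (if S.line y.1 y.2 then ((Real.sqrt (|(y.2:ℝ)| * vv TL D) : ℝ) : ℂ) * S.amp y.1 y.2
              * E (S.ll d0 y.1 y.2) else 0)
    have hsq : ∀ A B C : ℝ, 0 ≤ A → A ≤ B + C → A ^ 2 ≤ 2 * B ^ 2 + 2 * C ^ 2 := by
      intro A B C hA h
      nlinarith [sq_nonneg (B - C)]
    exact hsq _ _ _ (norm_nonneg _) h
  have hs3 := (hs1.mul_left 2).add (hs2.mul_left 2)
  have hs : Summable (fun y : Fin Rd.n × ℤ =>
      ‖Dco Rd.n (fun i θ => E (labP TL D Rd x p i θ)) y.1 y.2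
        - (if S.line y.1 y.2 then
            ((Real.sqrt (|(y.2:ℝ)| * vv TL D) : ℝ) : ℂ) * S.amp y.1 y.2
              * E (S.ll d0 y.1 y.2) else 0)‖ ^ 2) :=
    Summable.of_nonneg_of_le (fun _ => by positivity) hle hs3
  refine ⟨hs, ?_⟩
  refine (hs.tsum_le_tsum hle hs3).trans ?_
  rw [(hs1.mul_left 2).tsum_add (hs2.mul_left 2), tsum_mul_left, tsum_mul_left]
  linarith

end

end Crest.Agent.R081.Dl
end

-- ▼ part R081/DlFinal
section

/-!
# Row 81, route B: `exists_labelDesign` (helper269)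
-/

set_option autoImplicit false

namespace Crest.Agent.R081.Dl

open MeasureTheory Finset Crest.Agent.R075 Crest.Agent.R081.D

open Classical in
/-- **the label design** exists. -/
theorem exists_labelDesign (q : ℕ) (hq : 0 < q) (Λ : Type) [Fintype Λ] [Nonempty Λ]
    (Fam : Set (Λ → ℂ)) (hfin : Fam.Finite) (hE : ∀ E ∈ Fam, ∀ s, ‖E s‖ = 1)
    (h0 : ∀ E ∈ Fam, ∑ s, E s = 0) (eps : ℝ) (heps : 0 < eps) :
    Nonempty (LabelDesign q Λ Fam eps) := by
  -- the enlarged family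
  set M : ℕ := Fintype.card Λ with hM
  have hM0 : 0 < M := Fintype.card_pos
  have hM1 : (0:ℝ) < M := by exact_mod_cast hM0
  set Fam' : Set (Λ → ℂ) := Fam ∪ (fun κ : ℕ => (DlDist.chi κ : Λ → ℂ)) '' {κ | 0 < κ ∧ κ < M}
    with hFam'
  have hfin' : Fam'.Finite := by
    refine hfin.union (Set.Finite.image _ ?_)
    exact (Set.finite_lt_nat M).subset fun κ hκ => hκ.2
  have hE' : ∀ E ∈ Fam', ∀ s, ‖E s‖ = 1 := by
    rintro E (h | ⟨κ, -, rfl⟩) s
    · exact hE E h s
    · exact DlDist.norm_chi κ s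
  have h0' : ∀ E ∈ Fam', ∑ s, E s = 0 := by
    rintro E (h | ⟨κ, hκ, rfl⟩)
    · exact h0 E h
    · exact DlDist.sum_chi hκ.1 hκ.2
  -- constants
  set d : ℝ := eps / (M + 1) with hd
  have hd0 : 0 < d := by positivity
  have hdeps : d ≤ eps := div_le_self heps.le (by linarith)
  have hMd : (M:ℝ) * d ≤ eps := by
    rw [hd, mul_div_assoc', div_le_iff₀ (by positivity)]
    nlinarith
  set e : ℝ := min (d ^ 2 / 4) (min eps 1 / 2) with he
  have he0 : 0 < e := by
    apply lt_min (by positivity)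
    have : 0 < min eps 1 := lt_min heps one_pos
    positivity
  have he1 : 2 * e + 2 * e ≤ d ^ 2 := by
    have := min_le_left (d ^ 2 / 4) (min eps 1 / 2)
    rw [← he] at this
    linarith
  have he2 : e + e ≤ min eps 1 := by
    have := min_le_right (d ^ 2 / 4) (min eps 1 / 2)
    rw [← he] at this
    linarith
  have he3 : e + e ≤ eps := he2.trans (min_le_left _ _)
  have he4 : e + e ≤ 1 := he2.trans (min_le_right _ _)
  set eta : ℝ := min eps 1 / 4 with heta
  have heta0 : 0 < eta := by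
    have : 0 < min eps 1 := lt_min heps one_pos
    positivity
  have heta1 : eta < 1 / 2 := by
    have := min_le_right eps 1
    rw [heta]; linarith
  have heta2 : eta ≤ eps := by
    have := min_le_left eps 1
    have h3 : 0 < min eps 1 := lt_min heps one_pos
    rw [heta]; linarith
  -- data
  obtain ⟨TL⟩ := Spread.exists_torusLabels Λ Fam' hfin' hE' h0' e he0
  obtain ⟨D0⟩ := exists_design TL.T TL.T_pos TL.T_np TL.w TL.w_pos TL.w_hi e he0 q
  obtain ⟨D⟩ := toL D0
  obtain ⟨Rd, hRd⟩ := D.exists_rounded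
    (by intro t ht; rw [dot_e0]; exact TL.T_pos t ht) q hq le_rfl eta heta0 D.h
  have hn := Rd.n_pos
  choose x hx using exists_x TL D Rd hn
  have hv := vv_pos TL D
  have hP : (0:ℝ) < D.P := by exact_mod_cast D.P_pos
  have hh : (0:ℝ) < D.h := by exact_mod_cast D.h_pos
  have hQ : (0:ℝ) < D.Q := by exact_mod_cast D.Q_pos
  have hmain := fun (p : Fin D.P) (E : Λ → ℂ) (hEF : E ∈ Fam') =>
    main_piece TL D Rd x heta1.le he0.le p (fun E hE => hx p E hE) (Classical.arbitrary Λ) E hEF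
      (hE' E hEF)
  set d0 : Λ := Classical.arbitrary Λ with hd0'
  -- the structure
  let lab : ℕ → ℤ → ℝ → Λ := fun p i θ =>
    if h : p < D.P then labP TL D Rd x ⟨p, h⟩ i θ else d0
  let line : ℕ → ℤ → ℤ → Prop := fun p a b =>
    ∃ h : p < D.P, (sys TL D Rd x heta1.le ⟨p, h⟩).line a b
  let ll : ℕ → ℤ → ℤ → Λ := fun p a b =>
    if h : p < D.P then (sys TL D Rd x heta1.le ⟨p, h⟩).ll d0 a b else d0
  let amp : ℕ → ℤ → ℤ → ℂ := fun p a b =>
    if h : p < D.P then (sys TL D Rd x heta1.le ⟨p, h⟩).amp a b else 1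
  have hlab : ∀ (p : ℕ) (h : p < D.P), lab p = labP TL D Rd x ⟨p, h⟩ := by
    intro p h; funext i θ; simp only [lab, dif_pos h]
  have hll : ∀ (p : ℕ) (h : p < D.P), ll p = (sys TL D Rd x heta1.le ⟨p, h⟩).ll d0 := by
    intro p h; funext a b; simp only [ll, dif_pos h]
  have hamp : ∀ (p : ℕ) (h : p < D.P), amp p = (sys TL D Rd x heta1.le ⟨p, h⟩).amp := by
    intro p h; funext a b; simp only [amp, dif_pos h]
  have hline : ∀ (p : ℕ) (h : p < D.P) (a b : ℤ),
      line p a b ↔ (sys TL D Rd x heta1.le ⟨p, h⟩).line a b := by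
    intro p h a b
    exact ⟨fun ⟨_, h2⟩ => h2, fun h2 => ⟨h, h2⟩⟩
  have hmainC : ∀ (p : ℕ) (h : p < D.P) (E : Λ → ℂ) (a b : ℤ),
      mainC (vv TL D) line ll amp E p a b
        = (if (sys TL D Rd x heta1.le ⟨p, h⟩).line a b then
            ((Real.sqrt (|(b:ℝ)| * vv TL D) : ℝ) : ℂ) * (sys TL D Rd x heta1.le ⟨p, h⟩).amp a b
              * E ((sys TL D Rd x heta1.le ⟨p, h⟩).ll d0 a b) else 0) := by
    intro p h E a b
    unfold mainC
    by_cases hl : line p a b
    · rw [if_pos hl, if_pos ((hline p h a b).1 hl), hll p h, hamp p h]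
    · rw [if_neg hl, if_neg (fun h' => hl ((hline p h a b).2 h'))]
  have hBound : ∀ (p : Fin D.P), ∀ l ∈ (sys TL D Rd x heta1.le p).ls,
      |(sys TL D Rd x heta1.le p).bl l| ≤ ∑ t ∈ TL.T, t 0 := by
    intro p l hl
    rw [abs_bl TL D Rd x heta1.le p hl]
    exact Finset.single_le_sum (f := fun t : Fin (TL.n+1) → ℤ => t 0)
      (fun t ht => by have := TL.T_pos t ht; linarith)
      ((mem_ls TL D Rd x heta1.le p l).1 hl).1
  have hMain2 : ∀ p < D.P, ∀ E ∈ Fam', Summable (fun x : Fin Rd.n × ℤ =>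
      ‖Dco Rd.n (fun i θ => E (lab p i θ)) x.1 x.2
        - mainC (vv TL D) line ll amp E p x.1 x.2‖ ^ 2) ∧
      ∑' x : Fin Rd.n × ℤ, ‖Dco Rd.n (fun i θ => E (lab p i θ)) x.1 x.2
        - mainC (vv TL D) line ll amp E p x.1 x.2‖ ^ 2 ≤ d ^ 2 := by
    intro p hp E hEF
    obtain ⟨h1, h2⟩ := hmain ⟨p, hp⟩ E hEF
    simp only [hmainC p hp, hlab p hp]
    exact ⟨h1, h2.trans he1⟩
  refine ⟨{
    qq := Rd.n
    qq_pos := hn
    cop := Rd.cop
    P := D.P
    P_pos := D.P_pos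
    v := vv TL D
    v_pos := hv
    full := ?_
    lab := lab
    lab_meas := ?_
    lab_per := ?_
    lab_one := ?_
    line := line
    line_lt := fun p a b h => h.1
    line_ne := ?_
    B := ∑ t ∈ TL.T, t 0
    line_B := ?_
    line_per := ?_
    line_symm := ?_
    ll := ll
    ll_per := ?_
    ll_symm := ?_
    amp := amp
    amp_norm := ?_
    amp_per := ?_
    amp_symm := ?_
    eta := eta
    eta_pos := heta0
    eta_half := heta1
    eta_eps := heta2
    inj := ?_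
    cover := ?_
    dist := ?_
    main_summable := fun p hp E hEF => (hMain2 p hp E (Or.inl hEF)).1
    main := fun p hp E hEF => (hMain2 p hp E (Or.inl hEF)).2.trans
      (pow_le_pow_left₀ hd0.le hdeps 2) }⟩
  · -- full
    have h1 : vv TL D * (Rd.n : ℝ) = D.P * Rd.m / D.h := by
      unfold vv Rounded.n; push_cast; field_simp
    rw [h1, le_div_iff₀ hh, one_mul]
    have h2 : (D.h : ℝ) ≤ Rd.m := by exact_mod_cast hRd
    have h3 : (1:ℝ) ≤ D.P := by exact_mod_cast D.P_pos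
    nlinarith
  · -- lab_meas
    intro p i n
    by_cases h : p < D.P
    · rw [hlab p h]
      exact labP_meas TL D Rd x ⟨p, h⟩ i n
    · have : lab p = fun _ _ => d0 := by funext i θ; simp only [lab, dif_neg h]
      rw [this]
      exact MeasurableSet.const _
  · intro p i θ
    by_cases h : p < D.P
    · rw [hlab p h]; exact labP_per TL D Rd x ⟨p, h⟩ i θ
    · simp only [lab, dif_neg h]
  · intro p i θ
    by_cases h : p < D.P
    · rw [hlab p h]; exact labP_one TL D Rd x ⟨p, h⟩ i θ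
    · simp only [lab, dif_neg h]
  · -- line_ne
    rintro p a b ⟨h, l, hl⟩
    rw [← hl.2.1]
    exact bl_ne TL D Rd x heta1.le ⟨p, h⟩ hl.1
  · -- line_B
    rintro p a b ⟨h, l, hl⟩
    rw [← hl.2.1]
    exact hBound ⟨p, h⟩ l hl.1
  · intro p a b
    exact exists_congr fun h => (sys TL D Rd x heta1.le ⟨p, h⟩).line_per a b
  · intro p a b
    exact exists_congr fun h => (sys TL D Rd x heta1.le ⟨p, h⟩).line_symm a b
  · intro p a b
    by_cases h : p < D.P
    · rw [hll p h]; exact (sys TL D Rd x heta1.le ⟨p, h⟩).ll_per d0 a b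
    · simp only [ll, dif_neg h]
  · intro p a b
    by_cases h : p < D.P
    · rw [hll p h]; exact (sys TL D Rd x heta1.le ⟨p, h⟩).ll_symm d0 a b
    · simp only [ll, dif_neg h]
  · intro p a b
    by_cases h : p < D.P
    · rw [hamp p h]; exact (sys TL D Rd x heta1.le ⟨p, h⟩).amp_norm a b
    · simp only [amp, dif_neg h]; exact norm_one
  · intro p a b
    by_cases h : p < D.P
    · rw [hamp p h]; exact (sys TL D Rd x heta1.le ⟨p, h⟩).amp_per a b
    · simp only [amp, dif_neg h]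
  · intro p a b
    by_cases h : p < D.P
    · rw [hamp p h]; exact (sys TL D Rd x heta1.le ⟨p, h⟩).amp_symm a b
    · simp only [amp, dif_neg h]; exact (map_one _).symm
  · -- inj
    rintro p p' a b a' b' ⟨hp, l, hl⟩ ⟨hp', l', hl'⟩ y y' hy hy2 hy' hy2' k h
    obtain ⟨h1, h2, h3, h4⟩ := inj_main TL D Rd x heta1.le ⟨p, hp⟩ ⟨p', hp'⟩ hl hl' hy hy2 hy' hy2'
      (k := k) h
    exact ⟨congrArg Fin.val h1, h2, h3, h4⟩
  · -- cover
    have h1 : ∀ p ∈ range D.P, 1 - eps ≤ ∑ a ∈ range Rd.n, ∑ b ∈ Icc (-(∑ t ∈ TL.T, t 0))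
        (∑ t ∈ TL.T, t 0), (if line p (a : ℤ) b then |(b:ℝ)| * vv TL D else 0) := by
      intro p hp
      have hp' := mem_range.1 hp
      set S := sys TL D Rd x heta1.le ⟨p, hp'⟩ with hS
      have h2 := S.sum_lines hn (∑ t ∈ TL.T, t 0) (hBound ⟨p, hp'⟩)
        (fun l => |(S.bl l : ℝ)| * vv TL D)
      have h3 : ∀ a b : ℤ, (if line p a b then |(b:ℝ)| * vv TL D else 0)
          = ∑ l' ∈ S.ls, (if S.bl l' = b ∧ (Rd.n:ℤ) ∣ a - S.al l' then
              |(S.bl l' : ℝ)| * vv TL D else 0) := by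
        intro a b
        by_cases hl : S.line a b
        · obtain ⟨l, hl⟩ := hl
          rw [S.sum_on (fun l => |(S.bl l : ℝ)| * vv TL D) hl,
            if_pos ((hline p hp' a b).2 ⟨l, hl⟩), hl.2.1]
        · rw [S.sum_not (fun l => |(S.bl l : ℝ)| * vv TL D) hl,
            if_neg (fun h => hl ((hline p hp' a b).1 h))]
      simp only [h3]
      rw [h2]
      have h4 := cover_piece TL D Rd x he0.le he0 he4 heta1.le ⟨p, hp'⟩
      rw [← hS] at h4
      linarith
    have h5 : (D.P : ℝ) * (1 - eps) ≤ ∑ p ∈ range D.P, ∑ a ∈ range Rd.n,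
        ∑ b ∈ Icc (-(∑ t ∈ TL.T, t 0)) (∑ t ∈ TL.T, t 0),
        (if line p (a : ℤ) b then |(b:ℝ)| * vv TL D else 0) := by
      have := Finset.sum_le_sum h1
      rwa [sum_const, card_range, nsmul_eq_mul] at this
    have h6 : 1 - eps ≤ (1 / (D.P:ℝ)) * ∑ p ∈ range D.P, ∑ a ∈ range Rd.n,
        ∑ b ∈ Icc (-(∑ t ∈ TL.T, t 0)) (∑ t ∈ TL.T, t 0),
        (if line p (a : ℤ) b then |(b:ℝ)| * vv TL D else 0) := by
      rw [one_div, inv_mul_eq_div, le_div_iff₀ hP, mul_comm]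
      exact h5
    refine h6.trans (le_of_eq ?_)
    congr 1
    refine sum_congr rfl fun p _ => sum_congr rfl fun a _ => sum_congr rfl fun b _ => ?_
    split_ifs <;> rfl
  · -- dist
    intro p hp
    refine le_trans (DlDist.dist_piece' hn (lab p) (fun i s => ?_) d hd0.le ?_) hMd
    · rw [hlab p hp]; exact labP_meas TL D Rd x ⟨p, hp⟩ i s
    · intro κ hκ0 hκ1
      obtain ⟨h1, h2⟩ := hMain2 p hp (DlDist.chi κ) (Or.inr ⟨κ, ⟨hκ0, hκ1⟩, rfl⟩)
      have h3 := h1.le_tsum (⟨0, hn⟩, 0) (fun y _ => by positivity)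
      have h4 : mainC (vv TL D) line ll amp (DlDist.chi κ) p
          (((⟨0, hn⟩ : Fin Rd.n) : ℕ) : ℤ) 0 = 0 := by
        rw [hmainC p hp, if_neg]
        rintro ⟨l, hl⟩
        exact bl_ne TL D Rd x heta1.le ⟨p, hp⟩ hl.1 hl.2.1
      simp only at h3
      rw [h4, sub_zero] at h3
      have h5 := h3.trans h2
      have h6 := abs_le_of_sq_le_sq h5 hd0.le
      have h7 : ((((⟨0, hn⟩ : Fin Rd.n) : ℕ)) : ℤ) = 0 := rfl
      rw [h7] at h6
      exact (le_abs_self _).trans h6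

end Crest.Agent.R081.Dl
end

-- ▼ part R081/DgFin
section

/-! Row 81, route B, node DGLUE: `St.DesStmt`. -/

set_option autoImplicit false

namespace Crest.Agent.R081.Dg

/-- **the design exists** -/
theorem desStmt : St.DesStmt :=
  desStmt_of (fun q hq M1 M2 _ _ Fam hfin huni hsum e he =>
    Dl.exists_labelDesign q hq (ZMod M1 × ZMod M2) Fam hfin huni hsum e he)

end Crest.Agent.R081.Dg
end

-- ▼ part R081/AsmFin

/-! Row 81, route B (architect helper310): S0108. -/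

set_option autoImplicit false

namespace Crest.Agent.R081.Asm

/-- the literal conclusion of S0108 -/
theorem goal : Glue.Goal := goal_of_des Dg.desStmt

end Crest.Agent.R081.Asm
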