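import Mathlib
import Crest.Agent.R075.Basic
import Crest.Agent.R081.TwDefs
import Crest.Agent.R081.Co3

-- ▼ part R081/Dg1
section

/-! Row 81, route B, node DGLUE, part 1: the label map on the torus built from the label function on
the section `y1 = c'/(q q'') + N i / q''`, its distribution, and the shear word. -/

set_option autoImplicit false

namespace Crest.Agent.R081.Dg

open MeasureTheory Crest.Agent.R075 Finset

/-- cell of the `M1 × M2` grid of the torus (same as 846's `gl`) -/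
noncomputable def gl (M1 M2 : ℕ) (z : ℝ × ℝ) : ZMod M1 × ZMod M2 :=
  ((⌊(M1 : ℝ) * z.1⌋ : ℤ), (⌊(M2 : ℝ) * z.2⌋ : ℤ))

/-- the half open unit square -/
def Sq : Set (ℝ × ℝ) := Set.Ico (0 : ℝ) 1 ×ˢ Set.Ico (0 : ℝ) 1

/-- the vertical strip over the `j`-th interval of length `1/m` -/
def strip (m : ℕ) (j : ℤ) : Set (ℝ × ℝ) :=
  Set.Ico ((j : ℝ) / m) (((j : ℝ) + 1) / m) ×ˢ Set.Ico (0 : ℝ) 1


theorem measurableSet_strip (m : ℕ) (j : ℤ) : MeasurableSet (strip m j) :=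
  measurableSet_Ico.prod measurableSet_Ico

theorem volume_Sq : volume Sq = 1 := by
  rw [Sq, Measure.volume_eq_prod, Measure.prod_prod]
  simp

/-- the unit square is the disjoint union of the strips -/
theorem Sq_eq_iUnion (m : ℕ) (hm : 0 < m) : Sq = ⋃ j ∈ range m, strip m (j : ℤ) := by
  have hm' : (0 : ℝ) < m := by exact_mod_cast hm
  ext ⟨x, y⟩
  simp only [Sq, strip, Set.mem_prod, Set.mem_Ico, Set.mem_iUnion, exists_prop, mem_range]
  constructor
  · rintro ⟨⟨h0, h1⟩, hy⟩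
    have hf0 : 0 ≤ ⌊(m : ℝ) * x⌋ := Int.floor_nonneg.2 (by positivity)
    refine ⟨⌊(m : ℝ) * x⌋.toNat, ?_, ⟨?_, ?_⟩, hy⟩
    · have : ⌊(m : ℝ) * x⌋ < m := by
        rw [Int.floor_lt]; push_cast; nlinarith
      omega
    · rw [div_le_iff₀ hm']
      have h2 : ((⌊(m : ℝ) * x⌋.toNat : ℤ) : ℝ) = (⌊(m : ℝ) * x⌋ : ℝ) := by
        rw [Int.toNat_of_nonneg hf0]
      push_cast at h2 ⊢
      rw [h2]
      have := Int.floor_le ((m : ℝ) * x)
      linarith
    · rw [lt_div_iff₀ hm']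
      have h2 : ((⌊(m : ℝ) * x⌋.toNat : ℤ) : ℝ) = (⌊(m : ℝ) * x⌋ : ℝ) := by
        rw [Int.toNat_of_nonneg hf0]
      push_cast at h2 ⊢
      rw [h2]
      have := Int.lt_floor_add_one ((m : ℝ) * x)
      linarith
  · rintro ⟨j, hj, ⟨h0, h1⟩, hy⟩
    refine ⟨⟨?_, ?_⟩, hy⟩
    · refine le_trans ?_ h0
      push_cast
      positivity
    · refine lt_of_lt_of_le h1 ?_
      rw [div_le_one hm']
      push_cast
      have : (j : ℝ) + 1 ≤ m := by exact_mod_cast hj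
      exact this

theorem strip_disjoint (m : ℕ) (hm : 0 < m) {i j : ℤ} (hij : i ≠ j) :
    Disjoint (strip m i) (strip m j) := by
  have hm' : (0 : ℝ) < m := by exact_mod_cast hm
  rw [Set.disjoint_left]
  rintro ⟨x, y⟩ ⟨h1, _⟩ ⟨h2, _⟩
  simp only [Set.mem_Ico] at h1 h2
  rw [div_le_iff₀ hm', lt_div_iff₀ hm'] at h1 h2
  apply hij
  have a : i < j + 1 := by
    have : (i : ℝ) < j + 1 := lt_of_le_of_lt h1.1 h2.2
    exact_mod_cast this
  have b : j < i + 1 := by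
    have : (j : ℝ) < i + 1 := lt_of_le_of_lt h2.1 h1.2
    exact_mod_cast this
  omega

/-- measure of a subset of the square as a sum over strips -/
theorem volume_Sq_inter (m : ℕ) (hm : 0 < m) (B : Set (ℝ × ℝ)) (hB : MeasurableSet B) :
    volume (Sq ∩ B) = ∑ j ∈ range m, volume (strip m (j : ℤ) ∩ B) := by
  rw [Sq_eq_iUnion m hm, Set.iUnion₂_inter, measure_biUnion_finset]
  · intro i _ j _ hij
    refine Disjoint.mono Set.inter_subset_left Set.inter_subset_left ?_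
    exact strip_disjoint m hm (by exact_mod_cast hij)
  · intro j _
    exact (measurableSet_strip m j).inter hB

/-- translation of strips -/
theorem volume_strip_add (m : ℕ) (hm : 0 < m) (j k : ℤ) (B : Set (ℝ × ℝ))
    (hinv : ∀ y : ℝ × ℝ, (y.1 + (k : ℝ) / m, y.2) ∈ B ↔ y ∈ B) :
    volume (strip m (j + k) ∩ B) = volume (strip m j ∩ B) := by
  have hm' : (m : ℝ) ≠ 0 := by exact_mod_cast hm.ne'
  have h : (fun y : ℝ × ℝ => y + (((k : ℝ) / m, 0) : ℝ × ℝ)) ⁻¹' (strip m (j + k) ∩ B)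
      = strip m j ∩ B := by
    ext ⟨x, y⟩
    simp only [Set.mem_preimage, Set.mem_inter_iff, strip, Set.mem_prod, Set.mem_Ico,
      Prod.mk_add_mk, add_zero]
    have e := hinv (x, y)
    simp only at e
    rw [e]
    have e1 : (((j + k : ℤ) : ℝ) / m ≤ x + k / m) ↔ ((j : ℝ) / m ≤ x) := by
      push_cast; rw [add_div]; constructor <;> intro h <;> linarith
    have e2 : (x + k / m < (((j + k : ℤ) : ℝ) + 1) / m) ↔ (x < ((j : ℝ) + 1) / m) := by
      have : (((j + k : ℤ) : ℝ) + 1) / m = ((j : ℝ) + 1) / m + k / m := by push_cast; ring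
      rw [this]; constructor <;> intro h <;> linarith
    rw [e1, e2]
  rw [← h]
  exact (measure_preimage_add_right volume (((k : ℝ) / m, 0) : ℝ × ℝ) _).symm

/-- the affine parametrisation of a strip by the square -/
theorem volume_strip_param (m : ℕ) (hm : 0 < m) (j : ℤ) (B : Set (ℝ × ℝ)) :
    volume (Sq ∩ {z : ℝ × ℝ | ((z.1 + j) / m, z.2) ∈ B}) = m * volume (strip m j ∩ B) := by
  have hm' : (0 : ℝ) < m := by exact_mod_cast hm
  -- the linear equivalence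
  let φ : ℝ × ℝ → ℝ × ℝ := fun z => ((z.1 + j) / m, z.2)
  have hpre : φ ⁻¹' (strip m j ∩ B) = Sq ∩ {z : ℝ × ℝ | ((z.1 + j) / m, z.2) ∈ B} := by
    ext ⟨x, y⟩
    simp only [φ, Set.mem_preimage, Set.mem_inter_iff, strip, Sq, Set.mem_prod, Set.mem_Ico,
      Set.mem_ofPred_eq]
    have e1 : ((j : ℝ) / m ≤ (x + j) / m) ↔ (0 ≤ x) := by
      rw [div_le_div_iff_of_pos_right hm']; constructor <;> intro h <;> linarith
    have e2 : ((x + j) / m < ((j : ℝ) + 1) / m) ↔ (x < 1) := by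
      rw [div_lt_div_iff_of_pos_right hm']; constructor <;> intro h <;> linarith
    rw [e1, e2]
  rw [← hpre]
  -- φ = (translation) ∘ (linear map)
  have hφ : φ = (fun z : ℝ × ℝ => z + (((j : ℝ) / m, 0) : ℝ × ℝ)) ∘
      (fun z : ℝ × ℝ => (((m : ℝ)⁻¹) * z.1, z.2)) := by
    funext z
    simp only [φ, Function.comp, Prod.mk_add_mk, add_zero]
    rw [add_div, inv_mul_eq_div]
  rw [hφ, Set.preimage_comp]
  set C : Set (ℝ × ℝ) := (fun z : ℝ × ℝ => z + (((j : ℝ) / m, 0) : ℝ × ℝ)) ⁻¹' (strip m j ∩ B)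
    with hC
  have hCv : volume C = volume (strip m j ∩ B) :=
    measure_preimage_add_right volume (((j : ℝ) / m, 0) : ℝ × ℝ) _
  rw [← hCv]
  -- linear part
  let L : (ℝ × ℝ) →ₗ[ℝ] (ℝ × ℝ) := LinearMap.prodMap ((m : ℝ)⁻¹ • LinearMap.id) LinearMap.id
  have hL : (fun z : ℝ × ℝ => (((m : ℝ)⁻¹) * z.1, z.2)) = L := by
    funext z
    simp [L]
  have hdet : LinearMap.det L = (m : ℝ)⁻¹ := by
    simp only [L]
    rw [LinearMap.det_prodMap]
    simp
  rw [hL, Measure.addHaar_preimage_linearMap volume (by rw [hdet]; positivity), hdet]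
  congr 1
  rw [inv_inv, abs_of_pos hm']
  simp

end Crest.Agent.R081.Dg
end

-- ▼ part R081/Dg2
section

/-! Row 81, route B, node DGLUE, part 2: the label map on the torus. -/

set_option autoImplicit false

namespace Crest.Agent.R081.Dg

open MeasureTheory Crest.Agent.R075 Finset

/-- CRT sum: for coprime `q, r`, a sum over `j < q r` of `F (j % q) (j % r)` is the double sum. -/
theorem sum_crt {α : Type} [AddCommMonoid α] (q r : ℕ) (hq : 0 < q) (hr : 0 < r)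
    (h : Nat.Coprime q r) (F : ℕ → ℕ → α) :
    ∑ j ∈ range (q * r), F (j % q) (j % r) = ∑ a ∈ range q, ∑ b ∈ range r, F a b := by
  rw [← Finset.sum_product']
  refine Finset.sum_nbij' (fun j => (j % q, j % r)) (fun p => (Nat.chineseRemainder h p.1 p.2 : ℕ) % (q * r))
    ?_ ?_ ?_ ?_ ?_
  · intro j _
    simp only [mem_product, mem_range]
    exact ⟨Nat.mod_lt _ hq, Nat.mod_lt _ hr⟩
  · intro p _
    simp only [mem_range]
    exact Nat.mod_lt _ (Nat.mul_pos hq hr)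
  · intro j hj
    simp only [mem_range] at hj
    have h1 := (Nat.chineseRemainder h (j % q) (j % r)).2
    have h2 : (Nat.chineseRemainder h (j % q) (j % r) : ℕ) ≡ j [MOD q * r] := by
      rw [← Nat.modEq_and_modEq_iff_modEq_mul h]
      exact ⟨h1.1.trans (Nat.mod_modEq j q), h1.2.trans (Nat.mod_modEq j r)⟩
    have h3 : (Nat.chineseRemainder h (j % q) (j % r) : ℕ) % (q * r) = j % (q * r) := h2
    simp only [h3]
    exact Nat.mod_eq_of_lt hj
  · rintro ⟨a, b⟩ hp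
    simp only [mem_product, mem_range] at hp
    have h1 := (Nat.chineseRemainder h a b).2
    have e1 : ((Nat.chineseRemainder h a b : ℕ) % (q * r)) % q = a := by
      rw [Nat.mod_mul_right_mod]
      have : (Nat.chineseRemainder h a b : ℕ) % q = a % q := h1.1
      rw [this, Nat.mod_eq_of_lt hp.1]
    have e2 : ((Nat.chineseRemainder h a b : ℕ) % (q * r)) % r = b := by
      rw [Nat.mod_mul_left_mod]
      have : (Nat.chineseRemainder h a b : ℕ) % r = b % r := h1.2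
      rw [this, Nat.mod_eq_of_lt hp.2]
    simp only [e1, e2]
  · intro j _
    rfl

section lam

variable (q qq M1 M2 : ℕ) (N' : ℤ) (lab : ℝ → ℤ → ℝ → ZMod M1 × ZMod M2)

/-- the sheet shift of the `j`-th strip -/
def sh (j : ℤ) : ZMod M1 × ZMod M2 := (((N' * j * ((M1 / q : ℕ) : ℤ) : ℤ) : ZMod M1), 0)

/-- the label map on the plane -/
noncomputable def Lam (y : ℝ × ℝ) : ZMod M1 × ZMod M2 :=
  lab (Int.fract (((q * qq : ℕ) : ℝ) * y.1)) ⌊((q * qq : ℕ) : ℝ) * y.1⌋ y.2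
    + sh q M1 M2 N' ⌊((q * qq : ℕ) : ℝ) * y.1⌋

variable {q qq M1 M2 N' lab}

theorem sh_add_qq (hdiv : q ∣ M1) (hN' : (q : ℤ) ∣ N' * qq - 1) (j : ℤ) :
    sh q M1 M2 N' (j + qq) = sh q M1 M2 N' j + (((M1 / q : ℕ) : ZMod M1), 0) := by
  obtain ⟨k, hk⟩ := hN'
  have hM : ((q : ℤ) * ((M1 / q : ℕ) : ℤ) : ℤ) = M1 := by
    exact_mod_cast Nat.mul_div_cancel' hdiv
  have e : N' * (j + qq) * ((M1 / q : ℕ) : ℤ) = N' * j * ((M1 / q : ℕ) : ℤ)
      + ((M1 / q : ℕ) : ℤ) + k * M1 := by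
    have : N' * qq = q * k + 1 := by linarith
    calc N' * (j + qq) * ((M1 / q : ℕ) : ℤ)
        = N' * j * ((M1 / q : ℕ) : ℤ) + (N' * qq) * ((M1 / q : ℕ) : ℤ) := by ring
      _ = N' * j * ((M1 / q : ℕ) : ℤ) + (q * k + 1) * ((M1 / q : ℕ) : ℤ) := by rw [this]
      _ = N' * j * ((M1 / q : ℕ) : ℤ) + ((M1 / q : ℕ) : ℤ) + k * (q * ((M1 / q : ℕ) : ℤ)) := by ring
      _ = _ := by rw [hM]
  simp only [sh, e, Prod.mk_add_mk, add_zero]
  congr 1
  simp only [Int.cast_add, Int.cast_mul, Int.cast_natCast, ZMod.natCast_self, mul_zero, add_zero]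

theorem sh_add_q (hdiv : q ∣ M1) (j k : ℤ) :
    sh q M1 M2 N' (j + q * k) = sh q M1 M2 N' j := by
  have hM : ((q : ℤ) * ((M1 / q : ℕ) : ℤ) : ℤ) = M1 := by
    exact_mod_cast Nat.mul_div_cancel' hdiv
  have e : N' * (j + q * k) * ((M1 / q : ℕ) : ℤ) = N' * j * ((M1 / q : ℕ) : ℤ) + N' * k * M1 := by
    calc N' * (j + q * k) * ((M1 / q : ℕ) : ℤ)
        = N' * j * ((M1 / q : ℕ) : ℤ) + N' * k * (q * ((M1 / q : ℕ) : ℤ)) := by ring
      _ = _ := by rw [hM]
  simp only [sh, e]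
  congr 1
  push_cast
  simp

theorem lab_add_mul (hlab : ∀ c i θ, lab c (i + qq) θ = lab c i θ) (c : ℝ) (i k : ℤ) (θ : ℝ) :
    lab c (i + qq * k) θ = lab c i θ := by
  induction k using Int.induction_on with
  | zero => simp
  | succ k ih =>
    rw [mul_add, mul_one, ← add_assoc, hlab, ih]
  | pred k ih =>
    rw [← hlab c (i + qq * (-(k : ℤ) - 1)) θ]
    have : i + (qq : ℤ) * (-(k : ℤ) - 1) + qq = i + qq * (-(k : ℤ)) := by ring
    rw [this, ih]

theorem lab_congr (hlab : ∀ c i θ, lab c (i + qq) θ = lab c i θ) (c : ℝ) {i j : ℤ} (θ : ℝ)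
    (h : (qq : ℤ) ∣ i - j) : lab c i θ = lab c j θ := by
  obtain ⟨k, hk⟩ := h
  have : i = j + qq * k := by linarith
  rw [this, lab_add_mul hlab]

theorem Lam_add_one_div (hq : 0 < q) (hqq : 0 < qq) (hdiv : q ∣ M1)
    (hN' : (q : ℤ) ∣ N' * qq - 1)
    (hlab : ∀ c i θ, lab c (i + qq) θ = lab c i θ) (y : ℝ × ℝ) :
    Lam q qq M1 M2 N' lab (y.1 + 1 / q, y.2)
      = Lam q qq M1 M2 N' lab y + (((M1 / q : ℕ) : ZMod M1), 0) := by
  have hq' : (q : ℝ) ≠ 0 := by exact_mod_cast hq.ne'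
  have e : ((q * qq : ℕ) : ℝ) * (y.1 + 1 / q) = ((q * qq : ℕ) : ℝ) * y.1 + ((qq : ℤ) : ℝ) := by
    push_cast; field_simp
  simp only [Lam, e, Int.fract_add_intCast, Int.floor_add_intCast, hlab]
  rw [sh_add_qq hdiv hN', add_assoc]



/-- values of `Lam` on the parametrised strip `j` -/
theorem Lam_param (hq : 0 < q) (hqq : 0 < qq) (j : ℤ) (z : ℝ × ℝ) (hz : z ∈ Sq) :
    Lam q qq M1 M2 N' lab ((z.1 + j) / ((q * qq : ℕ) : ℝ), z.2)
      = lab z.1 j z.2 + sh q M1 M2 N' j := by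
  have hm : (((q * qq : ℕ) : ℝ)) ≠ 0 := by
    have : 0 < q * qq := Nat.mul_pos hq hqq
    exact_mod_cast this.ne'
  have e : ((q * qq : ℕ) : ℝ) * ((z.1 + j) / ((q * qq : ℕ) : ℝ)) = z.1 + j := by
    field_simp
  simp only [Lam, e, Int.fract_add_intCast, Int.floor_add_intCast]
  have h1 := hz.1
  simp only [Set.mem_Ico] at h1
  have h2 : Int.fract z.1 = z.1 := Int.fract_eq_self.2 ⟨h1.1, h1.2⟩
  have h3 : ⌊z.1⌋ = 0 := by rw [Int.floor_eq_zero_iff]; exact ⟨h1.1, h1.2⟩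
  rw [h2, h3, zero_add]

theorem measurableSet_Lam [NeZero M1] [NeZero M2]
    (hmeas : ∀ i n, MeasurableSet {z : ℝ × ℝ | lab z.1 i z.2 = n}) (s : ZMod M1 × ZMod M2) :
    MeasurableSet {y | Lam q qq M1 M2 N' lab y = s} := by
  have e : {y | Lam q qq M1 M2 N' lab y = s} = ⋃ j : ℤ,
      {y : ℝ × ℝ | ⌊((q * qq : ℕ) : ℝ) * y.1⌋ = j} ∩
      ((fun y : ℝ × ℝ => (Int.fract (((q * qq : ℕ) : ℝ) * y.1), y.2)) ⁻¹'
        {z : ℝ × ℝ | lab z.1 j z.2 = s - sh q M1 M2 N' j}) := by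
    ext y
    simp only [Lam, Set.mem_ofPred_eq, Set.mem_iUnion, Set.mem_inter_iff, Set.mem_preimage]
    constructor
    · intro h
      exact ⟨_, rfl, by rw [← h]; abel⟩
    · rintro ⟨j, rfl, h2⟩
      rw [h2]; abel
  rw [e]
  refine MeasurableSet.iUnion fun j => ?_
  refine MeasurableSet.inter ?_ ?_
  · have : Measurable fun y : ℝ × ℝ => ⌊((q * qq : ℕ) : ℝ) * y.1⌋ :=
      Int.measurable_floor.comp (measurable_const.mul measurable_fst)
    exact this (measurableSet_singleton j)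
  · have : Measurable fun y : ℝ × ℝ => (Int.fract (((q * qq : ℕ) : ℝ) * y.1), y.2) :=
      (measurable_fract.comp (measurable_const.mul measurable_fst)).prodMk measurable_snd
    exact this (hmeas j _)

end lam

end Crest.Agent.R081.Dg
end

-- ▼ part R081/Dg3
section

/-! Row 81, route B, node DGLUE, part 3: distribution of the label map, invariance of the bad set,
the measure of the bad set on the section. -/

set_option autoImplicit false

namespace Crest.Agent.R081.Dg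

open MeasureTheory Crest.Agent.R075 Finset

variable {q qq M1 M2 : ℕ} {N N' : ℤ} {lab : ℝ → ℤ → ℝ → ZMod M1 × ZMod M2}

/-- measure of the label `n` on the strip `j` -/
noncomputable def VV (lab : ℝ → ℤ → ℝ → ZMod M1 × ZMod M2) (j : ℤ) (n : ZMod M1 × ZMod M2) : ℝ :=
  (volume (Sq ∩ {z : ℝ × ℝ | lab z.1 j z.2 = n})).toReal

theorem volume_Sq_inter_ne_top (B : Set (ℝ × ℝ)) : volume (Sq ∩ B) ≠ ⊤ := by
  refine ne_top_of_le_ne_top ?_ (measure_mono Set.inter_subset_left)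
  rw [volume_Sq]; exact ENNReal.one_ne_top

theorem VV_congr (hlab : ∀ c i θ, lab c (i + qq) θ = lab c i θ) {i j : ℤ} (h : (qq : ℤ) ∣ i - j)
    (n : ZMod M1 × ZMod M2) : VV lab i n = VV lab j n := by
  unfold VV
  congr 3
  ext z
  simp only [Set.mem_ofPred_eq]
  rw [lab_congr hlab z.1 z.2 h]

theorem strip_ne_top (m : ℕ) (j : ℤ) (B : Set (ℝ × ℝ)) : volume (strip m j ∩ B) ≠ ⊤ := by
  refine ne_top_of_le_ne_top ?_ (measure_mono Set.inter_subset_left)
  rw [strip, Measure.volume_eq_prod, Measure.prod_prod]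
  simp only [Real.volume_Ico]
  exact ENNReal.mul_ne_top ENNReal.ofReal_ne_top ENNReal.ofReal_ne_top

theorem volume_Lam [NeZero M1] [NeZero M2] (hq : 0 < q) (hqq : 0 < qq) (hcop : Nat.Coprime q qq)
    (hdiv : q ∣ M1)
    (hlab : ∀ c i θ, lab c (i + qq) θ = lab c i θ)
    (hmeas : ∀ i n, MeasurableSet {z : ℝ × ℝ | lab z.1 i z.2 = n}) (s : ZMod M1 × ZMod M2) :
    (volume (Sq ∩ {y | Lam q qq M1 M2 N' lab y = s})).toReal
      = (1 / (q : ℝ)) * ∑ a ∈ range q, (1 / (qq : ℝ)) * ∑ b ∈ range qq,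
          VV lab (b : ℤ) (s - sh q M1 M2 N' (a : ℤ)) := by
  have hm : 0 < q * qq := Nat.mul_pos hq hqq
  have hm' : (0 : ℝ) < ((q * qq : ℕ) : ℝ) := by exact_mod_cast hm
  rw [volume_Sq_inter (q * qq) hm _ (measurableSet_Lam hmeas s),
    ENNReal.toReal_sum (fun j _ => strip_ne_top _ _ _)]
  have h1 : ∀ j ∈ range (q * qq),
      (volume (strip (q * qq) (j : ℤ) ∩ {y | Lam q qq M1 M2 N' lab y = s})).toReal
        = (1 / ((q * qq : ℕ) : ℝ)) * VV lab ((j % qq : ℕ) : ℤ) (s - sh q M1 M2 N' ((j % q : ℕ) : ℤ)) := by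
    intro j _
    have h2 := volume_strip_param (q * qq) hm (j : ℤ) {y | Lam q qq M1 M2 N' lab y = s}
    have h3 : Sq ∩ {z : ℝ × ℝ | ((z.1 + ((j : ℤ) : ℝ)) / ((q * qq : ℕ) : ℝ), z.2) ∈
          {y | Lam q qq M1 M2 N' lab y = s}}
        = Sq ∩ {z : ℝ × ℝ | lab z.1 (j : ℤ) z.2 = s - sh q M1 M2 N' (j : ℤ)} := by
      ext z
      simp only [Set.mem_inter_iff, Set.mem_ofPred_eq]
      constructor
      · rintro ⟨hz, h4⟩
        rw [Lam_param hq hqq (j : ℤ) z hz] at h4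
        exact ⟨hz, by rw [← h4]; abel⟩
      · rintro ⟨hz, h4⟩
        refine ⟨hz, ?_⟩
        rw [Lam_param hq hqq (j : ℤ) z hz, h4]; abel
    rw [h3] at h2
    have h5 : VV lab (j : ℤ) (s - sh q M1 M2 N' (j : ℤ))
        = ((q * qq : ℕ) : ℝ) *
          (volume (strip (q * qq) (j : ℤ) ∩ {y | Lam q qq M1 M2 N' lab y = s})).toReal := by
      unfold VV
      rw [h2, ENNReal.toReal_mul]
      simp
    have h6 : sh q M1 M2 N' (j : ℤ) = sh q M1 M2 N' ((j % q : ℕ) : ℤ) := by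
      have e : (j : ℤ) = ((j % q : ℕ) : ℤ) + (q : ℤ) * ((j / q : ℕ) : ℤ) := by
        exact_mod_cast (Nat.mod_add_div j q).symm
      conv_lhs => rw [e]
      exact sh_add_q hdiv _ _
    have h7 : VV lab (j : ℤ) (s - sh q M1 M2 N' (j : ℤ))
        = VV lab ((j % qq : ℕ) : ℤ) (s - sh q M1 M2 N' ((j % q : ℕ) : ℤ)) := by
      rw [h6]
      refine VV_congr hlab ?_ _
      refine ⟨((j / qq : ℕ) : ℤ), ?_⟩
      have e : (j : ℤ) = ((j % qq : ℕ) : ℤ) + (qq : ℤ) * ((j / qq : ℕ) : ℤ) := by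
        exact_mod_cast (Nat.mod_add_div j qq).symm
      linarith
    rw [← h7, h5]
    field_simp
  rw [Finset.sum_congr rfl h1, ← Finset.mul_sum]
  have h8 := sum_crt q qq hq hqq hcop
    (fun a b => VV lab (b : ℤ) (s - sh q M1 M2 N' (a : ℤ)))
  rw [h8]
  push_cast
  simp only [Finset.mul_sum]
  refine Finset.sum_congr rfl fun a _ => Finset.sum_congr rfl fun b _ => ?_
  field_simp

/-- the distribution of the label map is as uniform as that of the label function -/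
theorem dist_Lam [NeZero M1] [NeZero M2] (hq : 0 < q) (hqq : 0 < qq) (hcop : Nat.Coprime q qq)
    (hdiv : q ∣ M1)
    (hlab : ∀ c i θ, lab c (i + qq) θ = lab c i θ)
    (hmeas : ∀ i n, MeasurableSet {z : ℝ × ℝ | lab z.1 i z.2 = n}) (u η : ℝ)
    (hdist : ∑ n : ZMod M1 × ZMod M2, |(1 / (qq : ℝ)) * ∑ b ∈ range qq, VV lab (b : ℤ) n - u| ≤ η) :
    ∑ s : ZMod M1 × ZMod M2,
      |(volume (Sq ∩ {y | Lam q qq M1 M2 N' lab y = s})).toReal - u| ≤ η := by
  have hq' : (0 : ℝ) < q := by exact_mod_cast hq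
  have h1 : ∀ s : ZMod M1 × ZMod M2,
      |(volume (Sq ∩ {y | Lam q qq M1 M2 N' lab y = s})).toReal - u|
        ≤ (1 / (q : ℝ)) * ∑ a ∈ range q,
          |(1 / (qq : ℝ)) * ∑ b ∈ range qq, VV lab (b : ℤ) (s - sh q M1 M2 N' (a : ℤ)) - u| := by
    intro s
    rw [volume_Lam hq hqq hcop hdiv hlab hmeas s]
    have e : u = (1 / (q : ℝ)) * ∑ a ∈ range q, u := by
      rw [Finset.sum_const, card_range, nsmul_eq_mul]
      field_simp
    conv_lhs => rw [e]
    rw [← mul_sub, ← Finset.sum_sub_distrib, abs_mul, abs_of_pos (by positivity : 0 < 1 / (q : ℝ))]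
    exact mul_le_mul_of_nonneg_left (Finset.abs_sum_le_sum_abs _ _) (by positivity)
  refine (Finset.sum_le_sum fun s _ => h1 s).trans ?_
  rw [← Finset.mul_sum, Finset.sum_comm]
  have h2 : ∀ a ∈ range q, ∑ s : ZMod M1 × ZMod M2,
      |(1 / (qq : ℝ)) * ∑ b ∈ range qq, VV lab (b : ℤ) (s - sh q M1 M2 N' (a : ℤ)) - u| ≤ η := by
    intro a _
    refine le_trans (le_of_eq ?_) hdist
    exact Fintype.sum_equiv (Equiv.subRight (sh q M1 M2 N' (a : ℤ))) _ _ (fun s => rfl)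
  calc (1 / (q : ℝ)) * ∑ a ∈ range q, ∑ s : ZMod M1 × ZMod M2,
        |(1 / (qq : ℝ)) * ∑ b ∈ range qq, VV lab (b : ℤ) (s - sh q M1 M2 N' (a : ℤ)) - u|
      ≤ (1 / (q : ℝ)) * ∑ a ∈ range q, η :=
        mul_le_mul_of_nonneg_left (Finset.sum_le_sum h2) (by positivity)
    _ = η := by rw [Finset.sum_const, card_range, nsmul_eq_mul]; field_simp

theorem gl_add_one_div (hq : 0 < q) (hdiv : q ∣ M1) (z : ℝ × ℝ) :
    gl M1 M2 (z + (((1 : ℤ) : ℝ) / q, 0)) = gl M1 M2 z + (((M1 / q : ℕ) : ZMod M1), 0) := by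
  have hq' : (q : ℝ) ≠ 0 := by exact_mod_cast hq.ne'
  have hM : (M1 : ℝ) = q * ((M1 / q : ℕ) : ℝ) := by
    exact_mod_cast (Nat.mul_div_cancel' hdiv).symm
  have e : (M1 : ℝ) * (z.1 + ((1 : ℤ) : ℝ) / q) = (M1 : ℝ) * z.1 + (((M1 / q : ℕ) : ℤ) : ℝ) := by
    rw [mul_add]
    congr 1
    conv_lhs => rw [hM]
    rw [Int.cast_natCast, Int.cast_one]
    field_simp
  simp only [gl, Prod.fst_add, Prod.snd_add, e, Int.floor_add_intCast, add_zero]
  ext
  · simp only [Prod.fst_add, Int.cast_add, Int.cast_natCast]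
  · simp only [Prod.snd_add, add_zero]

/-- the bad set -/
def Bad (q qq M1 M2 : ℕ) (N' : ℤ) (lab : ℝ → ℤ → ℝ → ZMod M1 × ZMod M2) (w : Tw.Word) :
    Set (ℝ × ℝ) :=
  {y | gl M1 M2 (Tw.Word.act q w y) ≠ Lam q qq M1 M2 N' lab y}

theorem mem_Bad_add (hq : 0 < q) (hqq : 0 < qq) (hdiv : q ∣ M1)
    (hN' : (q : ℤ) ∣ N' * qq - 1)
    (hlab : ∀ c i θ, lab c (i + qq) θ = lab c i θ) (w : Tw.Word) (y : ℝ × ℝ) :
    (y.1 + 1 / (q : ℝ), y.2) ∈ Bad q qq M1 M2 N' lab w ↔ y ∈ Bad q qq M1 M2 N' lab w := by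
  have h1 : Tw.Word.act q w (y.1 + 1 / (q : ℝ), y.2)
      = Tw.Word.act q w y + (((1 : ℤ) : ℝ) / q, 0) := by
    rw [← Tw.Word.act_add_div hq.ne' w y 1]
    congr 1
    ext <;> simp
  simp only [Bad, Set.mem_ofPred_eq, h1, gl_add_one_div hq hdiv,
    Lam_add_one_div hq hqq hdiv hN' hlab, ne_eq, add_left_inj]

theorem measurable_gl : Measurable (gl M1 M2) := by
  unfold gl
  refine Measurable.prodMk ?_ ?_
  · exact (measurable_of_countable (fun n : ℤ => (n : ZMod M1))).comp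
      (Int.measurable_floor.comp (measurable_const.mul measurable_fst))
  · exact (measurable_of_countable (fun n : ℤ => (n : ZMod M2))).comp
      (Int.measurable_floor.comp (measurable_const.mul measurable_snd))

theorem measurableSet_Bad [NeZero M1] [NeZero M2]
    (hmeas : ∀ i n, MeasurableSet {z : ℝ × ℝ | lab z.1 i z.2 = n}) (w : Tw.Word) :
    MeasurableSet (Bad q qq M1 M2 N' lab w) := by
  have e : Bad q qq M1 M2 N' lab w = ⋃ s : ZMod M1 × ZMod M2,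
      ({y | gl M1 M2 (Tw.Word.act q w y) = s}ᶜ ∩ {y | Lam q qq M1 M2 N' lab y = s}) := by
    ext y
    simp only [Bad, Set.mem_ofPred_eq, Set.mem_iUnion, Set.mem_inter_iff, Set.mem_compl_iff]
    constructor
    · intro h
      exact ⟨_, h, rfl⟩
    · rintro ⟨s, h1, h2⟩
      rw [h2]; exact h1
  rw [e]
  refine MeasurableSet.iUnion fun s => MeasurableSet.inter (MeasurableSet.compl ?_)
    (measurableSet_Lam hmeas s)
  have h1 : Measurable (fun y => gl M1 M2 (Tw.Word.act q w y)) :=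
    measurable_gl.comp (Tw.Word.contDiff_act q w).continuous.measurable
  exact h1 (measurableSet_singleton s)

/-- the bad set on the section `y1 = c'/(q q'') + N i / q''` -/
theorem section_Bad [NeZero M1] [NeZero M2] (hq : 0 < q) (hqq : 0 < qq)
    (hcop : Nat.Coprime q qq) (hdiv : q ∣ M1)
    (hN : (qq : ℤ) ∣ N * q - 1) (hN' : (q : ℤ) ∣ N' * qq - 1)
    (hlab : ∀ c i θ, lab c (i + qq) θ = lab c i θ)
    (hmeas : ∀ i n, MeasurableSet {z : ℝ × ℝ | lab z.1 i z.2 = n}) (w : Tw.Word) :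
    (1 / (qq : ℝ)) * ∑ i ∈ range qq,
      (volume (Sq ∩ {z : ℝ × ℝ | gl M1 M2 (Tw.Word.act q w
        (z.1 / (q * qq) + N * i / qq, z.2)) ≠ lab z.1 (i : ℤ) z.2})).toReal
      = (volume (Sq ∩ Bad q qq M1 M2 N' lab w)).toReal := by
  have hm : 0 < q * qq := Nat.mul_pos hq hqq
  have hq' : (0 : ℝ) < q := by exact_mod_cast hq
  have hqq' : (0 : ℝ) < qq := by exact_mod_cast hqq
  set B := Bad q qq M1 M2 N' lab w with hB
  set g : ℤ → ℝ := fun j => (volume (strip (q * qq) j ∩ B)).toReal with hg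
  have hgper1 : ∀ j, g (j + qq) = g j := by
    intro j
    simp only [hg]
    rw [volume_strip_add (q * qq) hm j (qq : ℤ) B ?_]
    intro y
    have e : ((qq : ℤ) : ℝ) / ((q * qq : ℕ) : ℝ) = 1 / q := by
      push_cast; field_simp
    rw [e]
    exact mem_Bad_add hq hqq hdiv hN' hlab w y
  have hgper : ∀ j k : ℤ, g (j + qq * k) = g j := by
    intro j k
    induction k using Int.induction_on with
    | zero => simp
    | succ k ih => rw [mul_add, mul_one, ← add_assoc, hgper1, ih]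
    | pred k ih =>
      rw [← hgper1 (j + qq * (-(k : ℤ) - 1))]
      have : j + (qq : ℤ) * (-(k : ℤ) - 1) + qq = j + qq * (-(k : ℤ)) := by ring
      rw [this, ih]
  -- the section over index i
  have h1 : ∀ i ∈ range qq, (volume (Sq ∩ {z : ℝ × ℝ | gl M1 M2 (Tw.Word.act q w
        (z.1 / (q * qq) + N * i / qq, z.2)) ≠ lab z.1 (i : ℤ) z.2})).toReal
        = ((q * qq : ℕ) : ℝ) * g (i : ℤ) := by
    intro i _
    set j : ℤ := N * q * i with hj
    have h2 := volume_strip_param (q * qq) hm j B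
    have h3 : Sq ∩ {z : ℝ × ℝ | ((z.1 + (j : ℝ)) / ((q * qq : ℕ) : ℝ), z.2) ∈ B}
        = Sq ∩ {z : ℝ × ℝ | gl M1 M2 (Tw.Word.act q w
        (z.1 / (q * qq) + N * i / qq, z.2)) ≠ lab z.1 (i : ℤ) z.2} := by
      ext z
      simp only [Set.mem_inter_iff, Set.mem_ofPred_eq]
      refine and_congr_right fun hz => ?_
      have e1 : (z.1 + (j : ℝ)) / ((q * qq : ℕ) : ℝ) = z.1 / (q * qq) + N * i / qq := by
        rw [hj]; push_cast; field_simp
      have e2 := Lam_param (q := q) (qq := qq) (M1 := M1) (M2 := M2) (N' := N') (lab := lab)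
        hq hqq j z hz
      have e3 : sh q M1 M2 N' j = 0 := by
        have : j = 0 + q * (N * i) := by rw [hj]; ring
        rw [this, sh_add_q hdiv]
        simp [sh]
      have e4 : lab z.1 j z.2 = lab z.1 (i : ℤ) z.2 := by
        refine lab_congr hlab _ _ ?_
        obtain ⟨k, hk⟩ := hN
        refine ⟨k * i, ?_⟩
        calc j - i = (N * q - 1) * i := by rw [hj]; ring
          _ = qq * (k * i) := by rw [hk]; ring
      rw [e3, add_zero, e4] at e2
      simp only [hB, Bad, Set.mem_ofPred_eq]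
      rw [e2, e1]
    rw [h3] at h2
    rw [h2, ENNReal.toReal_mul]
    have e5 : g j = g (i : ℤ) := by
      obtain ⟨k, hk⟩ := hN
      have : j = (i : ℤ) + qq * (k * i) := by
        have : j - i = qq * (k * i) := by
          calc j - i = (N * q - 1) * i := by rw [hj]; ring
            _ = qq * (k * i) := by rw [hk]; ring
        linarith
      rw [this, hgper]
    rw [← e5]
    simp [hg]
  rw [Finset.sum_congr rfl h1]
  -- the whole square
  rw [volume_Sq_inter (q * qq) hm B (measurableSet_Bad hmeas w),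
    ENNReal.toReal_sum (fun j _ => strip_ne_top _ _ _)]
  have h4 : ∀ j ∈ range (q * qq), (volume (strip (q * qq) (j : ℤ) ∩ B)).toReal
      = g ((j % qq : ℕ) : ℤ) := by
    intro j _
    have e : (j : ℤ) = ((j % qq : ℕ) : ℤ) + (qq : ℤ) * ((j / qq : ℕ) : ℤ) := by
      exact_mod_cast (Nat.mod_add_div j qq).symm
    have : g (j : ℤ) = g ((j % qq : ℕ) : ℤ) := by
      conv_lhs => rw [e]
      exact hgper _ _
    exact this
  rw [Finset.sum_congr rfl h4, sum_crt q qq hq hqq hcop (fun _ b => g (b : ℤ)), Finset.sum_const,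
    card_range, nsmul_eq_mul, ← Finset.mul_sum]
  push_cast
  field_simp

end Crest.Agent.R081.Dg
end

-- ▼ part R081/Dg4

/-! Row 81, route B, node DGLUE, part 4: the characters of the label group. -/

set_option autoImplicit false

namespace Crest.Agent.R081.Dg

open MeasureTheory Crest.Agent.R075 Finset

variable {M1 M2 : ℕ}

/-- the characters of the label group `ℤ/M1 × ℤ/M2` -/
noncomputable def Ek (M1 M2 : ℕ) (k : ℤ × ℤ) (s : ZMod M1 × ZMod M2) : ℂ :=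
  ee (k.1 * s.1.val / M1 + k.2 * s.2.val / M2)

theorem norm_Ek (k : ℤ × ℤ) (s : ZMod M1 × ZMod M2) : ‖Ek M1 M2 k s‖ = 1 := norm_ee _

theorem Ek_neg (k : ℤ × ℤ) (s : ZMod M1 × ZMod M2) :
    Ek M1 M2 (-k) s = (starRingEnd ℂ) (Ek M1 M2 k s) := by
  unfold Ek
  rw [ee_conj]
  congr 1
  simp only [Prod.fst_neg, Prod.snd_neg, Int.cast_neg]
  ring

theorem sum_zmod_val (M : ℕ) [NeZero M] (f : ℕ → ℂ) :
    ∑ s : ZMod M, f s.val = ∑ a ∈ range M, f a := by
  refine Finset.sum_bij (fun s _ => s.val) ?_ ?_ ?_ ?_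
  · intro s _; exact Finset.mem_range.2 (ZMod.val_lt s)
  · intro s _ t _ h; exact ZMod.val_injective M h
  · intro a ha
    exact ⟨(a : ZMod M), Finset.mem_univ _, ZMod.val_cast_of_lt (Finset.mem_range.1 ha)⟩
  · intro s _; rfl

theorem sum_Ek [NeZero M1] [NeZero M2] (k : ℤ × ℤ)
    (h : ¬ ((M1 : ℤ) ∣ k.1) ∨ ¬ ((M2 : ℤ) ∣ k.2)) : ∑ s, Ek M1 M2 k s = 0 := by
  have e1 : ∑ s : ZMod M1 × ZMod M2, Ek M1 M2 k s
      = (∑ s : ZMod M1, ee (k.1 * s.val / M1)) * ∑ s : ZMod M2, ee (k.2 * s.val / M2) := by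
    rw [Finset.sum_mul_sum, Fintype.sum_prod_type]
    refine Finset.sum_congr rfl fun s _ => Finset.sum_congr rfl fun t _ => ?_
    unfold Ek
    rw [ee_add]
  have e2 : ∀ (M : ℕ) [NeZero M] (d : ℤ), ∑ s : ZMod M, ee (d * s.val / M)
      = if (M : ℤ) ∣ d then (M : ℂ) else 0 := by
    intro M _ d
    rw [sum_zmod_val M (fun a => ee (d * a / M)), ← Co.sum_ee_div (Nat.pos_of_neZero M) d]
    refine Finset.sum_congr rfl fun a _ => ?_
    congr 1; ring
  rw [e1, e2, e2]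
  rcases h with h | h
  · rw [if_neg h, zero_mul]
  · rw [if_neg h, mul_zero]

theorem ee_val_floor {M : ℕ} [NeZero M] (k n : ℤ) :
    ee (k * ((n : ZMod M).val : ℝ) / M) = ee (k * n / M) := by
  have hM : (M : ℝ) ≠ 0 := by exact_mod_cast (NeZero.ne M)
  have h1 : (((n : ZMod M).val : ℕ) : ℤ) = n % M := ZMod.val_intCast n
  have h2 : (n : ℤ) = n % M + M * (n / M) := (Int.emod_add_mul_ediv n M).symm
  have h3 : (((n : ZMod M).val : ℕ) : ℝ) = ((n % M : ℤ) : ℝ) := by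
    rw [← h1]; simp
  have h4 : (n : ℝ) = ((n % M : ℤ) : ℝ) + M * ((n / M : ℤ) : ℝ) := by
    conv_lhs => rw [h2]
    push_cast; ring
  rw [h3, h4]
  have : (k : ℝ) * (((n % M : ℤ) : ℝ) + M * ((n / M : ℤ) : ℝ)) / M
      = k * ((n % M : ℤ) : ℝ) / M + ((k * (n / M) : ℤ) : ℝ) := by
    push_cast; field_simp
  rw [this, ee_add_int]

theorem abs_sub_floor_div {M : ℕ} [NeZero M] (x : ℝ) :
    |x - (⌊(M : ℝ) * x⌋ : ℝ) / M| ≤ 1 / M := by
  have hM : (0 : ℝ) < M := by exact_mod_cast (Nat.pos_of_neZero M)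
  have h1 := Int.floor_le ((M : ℝ) * x)
  have h2 := Int.lt_floor_add_one ((M : ℝ) * x)
  have e : x - (⌊(M : ℝ) * x⌋ : ℝ) / M = ((M : ℝ) * x - ⌊(M : ℝ) * x⌋) / M := by field_simp
  rw [e, abs_of_nonneg (div_nonneg (by linarith) hM.le)]
  exact div_le_div_of_nonneg_right (by linarith) hM.le

theorem Ek_close [NeZero M1] [NeZero M2] (k : ℤ × ℤ) (y : ℝ × ℝ) :
    ‖ee (k.1 * y.1 + k.2 * y.2) - Ek M1 M2 k (gl M1 M2 y)‖
      ≤ 2 * Real.pi * (|(k.1 : ℝ)| / M1 + |(k.2 : ℝ)| / M2) := by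
  have e1 : Ek M1 M2 k (gl M1 M2 y)
      = ee (k.1 * (⌊(M1 : ℝ) * y.1⌋ : ℝ) / M1 + k.2 * (⌊(M2 : ℝ) * y.2⌋ : ℝ) / M2) := by
    unfold Ek gl
    rw [ee_add, ee_add]
    simp only
    rw [ee_val_floor, ee_val_floor]
  rw [e1]
  refine (norm_ee_sub_le _ _).trans ?_
  refine mul_le_mul_of_nonneg_left ?_ (by positivity)
  have e2 : (k.1 * y.1 + k.2 * y.2 : ℝ)
      - (k.1 * (⌊(M1 : ℝ) * y.1⌋ : ℝ) / M1 + k.2 * (⌊(M2 : ℝ) * y.2⌋ : ℝ) / M2)
      = k.1 * (y.1 - (⌊(M1 : ℝ) * y.1⌋ : ℝ) / M1) + k.2 * (y.2 - (⌊(M2 : ℝ) * y.2⌋ : ℝ) / M2) := by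
    ring
  rw [e2]
  refine (abs_add_le _ _).trans ?_
  rw [abs_mul, abs_mul]
  have h1 := abs_sub_floor_div (M := M1) y.1
  have h2 := abs_sub_floor_div (M := M2) y.2
  have h3 := mul_le_mul_of_nonneg_left h1 (abs_nonneg (k.1 : ℝ))
  have h4 := mul_le_mul_of_nonneg_left h2 (abs_nonneg (k.2 : ℝ))
  calc _ ≤ |(k.1 : ℝ)| * (1 / M1) + |(k.2 : ℝ)| * (1 / M2) := add_le_add h3 h4
    _ = _ := by ring

/-- closeness off the bad set -/
theorem norm_sub_sq_le [NeZero M1] [NeZero M2] (k : ℤ × ℤ) (y : ℝ × ℝ) (s : ZMod M1 × ZMod M2)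
    {κ : ℝ} (hκ : 2 * Real.pi * (|(k.1 : ℝ)| / M1 + |(k.2 : ℝ)| / M2) ≤ κ) :
    ‖ee (k.1 * y.1 + k.2 * y.2) - Ek M1 M2 k s‖ ^ 2
      ≤ κ ^ 2 + 4 * Set.indicator {z : ℝ × ℝ | gl M1 M2 z ≠ s} (fun _ => (1 : ℝ)) y := by
  have hκ0 : 0 ≤ κ := le_trans (by positivity) hκ
  by_cases h : gl M1 M2 y = s
  · rw [Set.indicator_of_notMem (by simpa using h)]
    have := (Ek_close (M1 := M1) (M2 := M2) k y).trans hκ
    rw [h] at this
    have h2 : ‖ee (k.1 * y.1 + k.2 * y.2) - Ek M1 M2 k s‖ ^ 2 ≤ κ ^ 2 := by gcongr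
    linarith
  · rw [Set.indicator_of_mem (by simpa using h)]
    have h1 : ‖ee (k.1 * y.1 + k.2 * y.2) - Ek M1 M2 k s‖ ≤ 2 := by
      refine (norm_sub_le _ _).trans ?_
      rw [norm_ee, norm_Ek]; norm_num
    have h2 : ‖ee (k.1 * y.1 + k.2 * y.2) - Ek M1 M2 k s‖ ^ 2 ≤ 2 ^ 2 := by gcongr
    nlinarith [sq_nonneg κ]

end Crest.Agent.R081.Dg
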