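import Crest.Agent.R081.TwDefs
import Crest.Agent.R081.SmLimit

/-! Row 81, node EXPLICIT STEP: the lifted diffeomorphisms `R_t, B, L, Lin, V_χ` of the three-torus
(as `LD`) and the fact that they preserve Haar measure. -/

set_option autoImplicit false

namespace Crest.Agent.R081.Tw

open scoped ContDiff
open MeasureTheory Crest.AnalysisR.Torus3 Crest.Agent.R081.Sm Crest.Agent.R081.Shear

/-! ### shears as `LD` -/

theorem per_lift (D : ShearData) (hk : ∀ m : Fin 3 → ℤ, ∃ k : ℤ, ∀ x, D.b (fun i => x i + m i) = D.b x + k) :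
    Per D.lift := by
  intro m
  obtain ⟨k, hk⟩ := hk m
  refine ⟨fun i => m i + k * D.w i, fun x => ?_⟩
  have h1 : D.b (x + zv m) = D.b x + k := hk x
  funext i
  show (x + zv m) i + D.b (x + zv m) * D.w i = (D.lift x + zv _) i
  rw [h1]
  simp [ShearData.lift]
  ring

/-- a shear with uniform periodicity constants as a lifted diffeomorphism -/
noncomputable def shLD (D : ShearData)
    (hk : ∀ m : Fin 3 → ℤ, ∃ k : ℤ, ∀ x, D.b (fun i => x i + m i) = D.b x + k) : LD where
  F := D.lift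
  H := D.symm.lift
  hF := D.contDiff_lift
  hH := D.symm.contDiff_lift
  pF := per_lift D hk
  pH := per_lift D.symm (fun m => by
    obtain ⟨k, hk⟩ := hk m
    refine ⟨-k, fun x => ?_⟩
    show - D.b _ = - D.b x + ((-k : ℤ) : ℝ)
    rw [hk x]; push_cast; ring)
  FH := D.lift_lift_symm
  HF := D.lift_symm_lift

/-- Haar measure preserving lifted diffeomorphisms -/
def MP (A : LD) : Prop := MeasurePreserving A.perm (volume : Measure T3) volume

theorem mp_shLD (D : ShearData)
    (hk : ∀ m : Fin 3 → ℤ, ∃ k : ℤ, ∀ x, D.b (fun i => x i + m i) = D.b x + k) : MP (shLD D hk) := by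
  have : (shLD D hk).perm = D.perm := by
    ext1 y
    obtain ⟨x, rfl⟩ := proj_surj y
    rw [LD.perm_proj, ShearData.perm_apply, ShearData.map_proj]
    rfl
  unfold MP
  rw [this]
  exact D.perm_measurePreserving

theorem mp_one : MP LD.one := by
  unfold MP
  rw [LD.perm_one]
  exact MeasurePreserving.id _

theorem MP.comp {A B : LD} (hA : MP A) (hB : MP B) : MP (A.comp B) := by
  unfold MP
  rw [LD.perm_comp]
  show MeasurePreserving (⇑A.perm ∘ ⇑B.perm) volume volume
  exact MeasurePreserving.comp hA hB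

theorem MP.inv {A : LD} (hA : MP A) : MP A.inv := by
  unfold MP
  rw [LD.perm_inv]
  have := mp_zpow hA (-1)
  simpa using this

/-- translation -/
noncomputable def trLD (v : E3) : LD where
  F := fun x => x + v
  H := fun x => x - v
  hF := contDiff_id.add contDiff_const
  hH := contDiff_id.sub contDiff_const
  pF := fun k => ⟨k, fun x => add_right_comm _ _ _⟩
  pH := fun k => ⟨k, fun x => add_sub_right_comm _ _ _⟩
  FH := fun x => by simp
  HF := fun x => by simp

theorem mp_trLD (v : E3) : MP (trLD v) := by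
  unfold MP
  have : (⇑(trLD v).perm) = fun x : T3 => x + proj v := by
    funext y
    obtain ⟨x, rfl⟩ := proj_surj y
    rw [LD.perm_proj]
    funext i
    simp [trLD, proj]
  rw [this]
  exact translate_mp _

/-! ### coordinate shears -/


/-- shear in direction `e3 = y2` by a function of `(c, y1)`: `y2 += b(c, y1)` -/
noncomputable def sh2 (b : ℝ → ℝ → ℝ) (hb : ContDiff ℝ ∞ (fun p : ℝ × ℝ => b p.1 p.2))
    (hp : ∀ m n : ℤ, ∃ k : ℤ, ∀ c y, b (c + m) (y + n) = b c y + k) : LD :=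
  shLD { w := ![0, 0, 1]
         b := fun x => b (x 0) (x 1)
         smooth := hb.comp ((contDiff_apply ℝ ℝ (0 : Fin 3)).prodMk (contDiff_apply ℝ ℝ (1 : Fin 3)))
         per := fun m x => by
          obtain ⟨k, hk⟩ := hp (m 0) (m 1)
          exact ⟨k, hk _ _⟩
         inv := fun x s => by simp }
    (fun m => by
      obtain ⟨k, hk⟩ := hp (m 0) (m 1)
      exact ⟨k, fun x => hk _ _⟩)

/-- shear in direction `e2 = y1` by a function of `(c, y2)`: `y1 += b(c, y2)` -/
noncomputable def sh1 (b : ℝ → ℝ → ℝ) (hb : ContDiff ℝ ∞ (fun p : ℝ × ℝ => b p.1 p.2))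
    (hp : ∀ m n : ℤ, ∃ k : ℤ, ∀ c y, b (c + m) (y + n) = b c y + k) : LD :=
  shLD { w := ![0, 1, 0]
         b := fun x => b (x 0) (x 2)
         smooth := hb.comp ((contDiff_apply ℝ ℝ (0 : Fin 3)).prodMk (contDiff_apply ℝ ℝ (2 : Fin 3)))
         per := fun m x => by
          obtain ⟨k, hk⟩ := hp (m 0) (m 2)
          exact ⟨k, hk _ _⟩
         inv := fun x s => by simp }
    (fun m => by
      obtain ⟨k, hk⟩ := hp (m 0) (m 2)
      exact ⟨k, fun x => hk _ _⟩)

section
variable (b : ℝ → ℝ → ℝ) (hb : ContDiff ℝ ∞ (fun p : ℝ × ℝ => b p.1 p.2))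
    (hp : ∀ m n : ℤ, ∃ k : ℤ, ∀ c y, b (c + m) (y + n) = b c y + k)

theorem sh2_F (x : E3) : (sh2 b hb hp).F x = ![x 0, x 1, x 2 + b (x 0) (x 1)] := by
  funext i
  fin_cases i <;> simp [sh2, shLD, ShearData.lift]

theorem sh2_H (x : E3) : (sh2 b hb hp).H x = ![x 0, x 1, x 2 - b (x 0) (x 1)] := by
  funext i
  fin_cases i <;> simp [sh2, shLD, ShearData.lift, ShearData.symm, sub_eq_add_neg]

theorem sh1_F (x : E3) : (sh1 b hb hp).F x = ![x 0, x 1 + b (x 0) (x 2), x 2] := by
  funext i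
  fin_cases i <;> simp [sh1, shLD, ShearData.lift]


theorem mp_sh2 : MP (sh2 b hb hp) := mp_shLD _ _
theorem mp_sh1 : MP (sh1 b hb hp) := mp_shLD _ _

end

/-- `y2 += χ(c)` with `χ(c + 1) - χ(c)` a constant integer -/
noncomputable def vLD (χ : ℝ → ℝ) (hχ : ContDiff ℝ ∞ χ) (k : ℤ) (hk : ∀ c, χ (c + 1) = χ c + k) : LD :=
  sh2 (fun c _ => χ c) (hχ.comp contDiff_fst) (fun m n => ⟨m * k, fun c y => by
    show χ (c + m) = χ c + _
    have key : ∀ m : ℕ, ∀ c, χ (c + m) = χ c + m * k := by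
      intro m
      induction m with
      | zero => intro c; simp
      | succ m ih => intro c; rw [Nat.cast_succ, ← add_assoc, hk, ih]; ring
    obtain ⟨j, rfl | rfl⟩ := m.eq_nat_or_neg
    · have := key j c
      push_cast; exact this
    · have := key j (c + ((-(j : ℤ) : ℤ) : ℝ))
      push_cast at this ⊢
      rw [neg_add_cancel_right] at this
      linarith⟩)

theorem vLD_F (χ : ℝ → ℝ) (hχ : ContDiff ℝ ∞ χ) (k : ℤ) (hk : ∀ c, χ (c + 1) = χ c + k) (x : E3) :
    (vLD χ hχ k hk).F x = ![x 0, x 1, x 2 + χ (x 0)] := sh2_F _ _ _ x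

theorem vLD_H (χ : ℝ → ℝ) (hχ : ContDiff ℝ ∞ χ) (k : ℤ) (hk : ∀ c, χ (c + 1) = χ c + k) (x : E3) :
    (vLD χ hχ k hk).H x = ![x 0, x 1, x 2 - χ (x 0)] := sh2_H _ _ _ x

theorem mp_vLD (χ : ℝ → ℝ) (hχ : ContDiff ℝ ∞ χ) (k : ℤ) (hk : ∀ c, χ (c + 1) = χ c + k) :
    MP (vLD χ hχ k hk) := mp_sh2 _ _ _

/-! ### words -/

/-- one shear of the `(y1, y2)` plane as a lifted diffeomorphism of the 3-torus -/
noncomputable def Sh1.ld (q : ℕ) (s : Sh1) : LD :=
  bif s.dir then
    sh2 (fun _ y => s.f (q * y)) (s.smooth.comp (contDiff_const.mul contDiff_snd))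
      (fun m n => ⟨0, fun c y => by
        have : (q : ℝ) * (y + n) = q * y + ((q * n : ℤ) : ℝ) := by push_cast; ring
        rw [this, per_int s.per]; simp⟩)
  else
    sh1 (fun _ y => s.f y) (s.smooth.comp contDiff_snd)
      (fun m n => ⟨0, fun c y => by rw [per_int s.per]; simp⟩)

theorem Sh1.ld_F (q : ℕ) (s : Sh1) (x : E3) :
    (s.ld q).F x = ![x 0, (s.act q (x 1, x 2)).1, (s.act q (x 1, x 2)).2] := by
  cases h : s.dir
  · simp only [Sh1.ld, Sh1.act, h, cond_false]
    rw [sh1_F]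
  · simp only [Sh1.ld, Sh1.act, h, cond_true]
    rw [sh2_F]


theorem Sh1.mp_ld (q : ℕ) (s : Sh1) : MP (s.ld q) := by
  cases h : s.dir
  · simp only [Sh1.ld, h, cond_false]; exact mp_sh1 _ _ _
  · simp only [Sh1.ld, h, cond_true]; exact mp_sh2 _ _ _

/-- `id × A` for a shear word `A` -/
noncomputable def Word.ld (q : ℕ) : List Sh1 → LD
  | [] => LD.one
  | s :: w => (s.ld q).comp (Word.ld q w)

theorem Word.ld_F (q : ℕ) (w : Word) (x : E3) :
    (Word.ld q w).F x = ![x 0, (Word.act q w (x 1, x 2)).1, (Word.act q w (x 1, x 2)).2] := by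
  induction w with
  | nil =>
    funext i
    fin_cases i <;> simp [Word.ld, LD.one]
  | cons s w ih =>
    show (s.ld q).F ((Word.ld q w).F x) = _
    rw [ih, Sh1.ld_F]
    simp


theorem Word.mp_ld (q : ℕ) (w : Word) : MP (Word.ld q w) := by
  induction w with
  | nil => exact mp_one
  | cons s w ih => exact (s.mp_ld q).comp ih

end Crest.Agent.R081.Tw
private theorem rz_f226e17350 : type_of% @_root_.Crest.Agent.R081.Tw.Word.ld.eq_def := @_root_.Crest.Agent.R081.Tw.Word.ld.eq_def -- L216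
private theorem rz_c93d184060 : type_of% @_root_.Crest.Agent.R081.Tw.Word.ld.eq_1 := @_root_.Crest.Agent.R081.Tw.Word.ld.eq_1 -- L216
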