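import Crest.Agent.R081.StSkel
import Crest.Agent.R081.TwLD
import Crest.Agent.R081.TwGam
import Crest.Agent.R081.StDefs

-- ▼ part R081/StAsm
section

/-! # Row 81, route B, node STEP: assembly of `StepStmt` (helper9) -/

set_option autoImplicit false
set_option linter.unusedVariables false

namespace Crest.Agent.R081.St

open MeasureTheory Crest.AnalysisR.Torus3 Crest.Agent.R075 Crest.Agent.R081.Fm
  Crest.Agent.R081.Sm Crest.Agent.R081.Tw
open scoped ContDiff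

theorem perm_comp_apply (A B : LD) (y : T3) : (A.comp B).perm y = A.perm (B.perm y) := by
  rw [LD.perm_comp]; rfl




theorem stepStmt (hD : DesStmt) (hS : SmoothStmt) (hM : ModesStmt) (h3 : T3Stmt) (h2 : T2Stmt)
    (h1 : T1Stmt) (h0 : T0Stmt) (hGA : GAStmt) (hGP : GPStmt) (hHE : HEStmt)
    (hfc : ∀ u : T3 → ℂ, MemLp u 2 volume → Integrable (fun x => ‖fcX u x‖ ^ 2) muX) : StepStmt := by
  intro s Fs hFs r e he
  -- functions in the coordinates of the twist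
  have hmp : MeasurePreserving s.H.perm (volume : Measure T3) volume := s.mpH
  let U : (T3 → ℂ) → (T3 → ℂ) := fun f y => f (s.H.perm y)
  have hU : ∀ f ∈ Fs, MemLp (U f) 2 volume := fun f hf => (hFs f hf).1.comp_measurePreserving hmp
  have hU0 : ∀ f ∈ Fs, ∫ y, U f y = 0 := by
    intro f hf
    have : ∫ y, f (s.H.perm y) = ∫ y, f y :=
      hmp.integral_comp (by
        exact (Homeomorph.measurableEmbedding
          (⟨s.H.perm, s.H.continuous_perm, s.H.continuous_perm_symm⟩ : T3 ≃ₜ T3))) f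
    show ∫ y, f (s.H.perm y) = 0
    rw [this]; exact (hFs f hf).2
  obtain ⟨e1, he1, GP⟩ := hGP s e he
  have E3 := Ev.all Fs (fun f _ _ d _ _ G => ms {x | x.2 ∉ Set.Icc d.del (1 - d.del)}
    (fun y => U f (G.perm y)) ≤ e) fun f hf => h3 s.t (U f) (hU f hf) e he
  have E2 := Ev.all Fs (fun f _ _ d _ _ G => ms {x | x.1 = 0 ∨ x.2 ∉ Set.Icc d.del (1 - d.del)}
    (fun y => U f (G.perm y)) ≤ ms (offJ s.t) (U f) + e) fun f hf => h2 s.t (U f) (hU f hf) (hU0 f hf) e he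
  have E1 := Ev.all Fs (fun f _ _ d _ P' G => ms (overE d P')ᶜ (fun y => U f (G.perm y))
    ≤ ms (offZ s.t) (U f) + e) fun f hf => h1 s.t (U f) (hU f hf) e he
  have E0 := Ev.all Fs (fun f _ _ d h P' G => ms (stepS s.M d h P')ᶜ (fun y => U f (G.perm y))
    ≤ ms s.M.Salᶜ (U f) + e) fun f hf => h0 s.t s.M (U f) (hU f hf) e he
  have EG := hGA s e1 he1
  obtain ⟨K0, eps0, heps0, EV⟩ := E3.and (E2.and (E1.and (E0.and EG)))
  obtain ⟨d⟩ := hD s.t.q s.t.q_pos K0 eps0 heps0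
  obtain ⟨hh0, EV⟩ := EV K0 eps0 (Finset.Subset.refl _) heps0 le_rfl d
  obtain ⟨hh1, SM⟩ := hS s.t s.H s.T s.hT K0 eps0 d r e he
  obtain ⟨h, P', hpos, hge, hP⟩ := hHE s.t K0 eps0 d (max hh0 hh1)
  obtain ⟨G, T', hG, hGF, hT', hb1, hb2⟩ := SM h hpos ((le_max_right _ _).trans hge) P' hP
  obtain ⟨M', hM1, hM2, hM3⟩ := hM s.t s.M K0 eps0 d h hpos P' hP
  obtain ⟨F3, F2, F1, F0, a, ha1, ha2, ha3, ha4⟩ :=
    EV h hpos ((le_max_left _ _).trans hge) P' hP G hG hGF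
  obtain ⟨g', hg1, hg2, hg3⟩ := GP K0 eps0 d h hpos P' hP G hG M' hM1 hM2 a ha1 ha2 ha3 ha4
  have hGm : MeasurePreserving G.perm (volume : Measure T3) volume := hG
  let s' : Stage :=
    { t := d.tw h hpos P' hP
      H := s.H.comp G
      mpH := s.mpH.comp hG
      T := T'
      hT := hT'
      M := M'
      g := g'
      g_lp := hg1
      flat := hg2 }
  have hcomp : ∀ f : T3 → ℂ, (fun y => f (s'.H.perm y)) = fun y => U f (G.perm y) := by
    intro f; funext y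
    show f ((s.H.comp G).perm y) = f (s.H.perm (G.perm y))
    rw [perm_comp_apply]
  refine ⟨s', hb1, hb2, ?_, fun f hf => ?_⟩
  · -- closeness of g
    have hmp' : MeasurePreserving s'.H.perm (volume : Measure T3) volume := s'.mpH
    have hme : MeasurableEmbedding s'.H.perm :=
      (⟨s'.H.perm, s'.H.continuous_perm, s'.H.continuous_perm_symm⟩ : T3 ≃ₜ T3).measurableEmbedding
    have := hmp'.integral_comp hme (fun x => (s'.gT x - s.gT x) ^ 2)
    rw [← this]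
    refine le_trans (le_of_eq ?_) hg3
    refine integral_congr_ae (Filter.Eventually.of_forall fun y => ?_)
    show (g' (s'.H.perm.symm (s'.H.perm y)) - s.g (s.H.perm.symm (s'.H.perm y))) ^ 2
      = (g' y - s.g (G.perm y)) ^ 2
    have e1 : s'.H.perm.symm (s'.H.perm y) = y := Equiv.symm_apply_apply _ _
    have e2 : s.H.perm.symm (s'.H.perm y) = G.perm y := by
      have : s'.H.perm y = s.H.perm (G.perm y) := perm_comp_apply s.H G y
      rw [this, Equiv.symm_apply_apply]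
    rw [e1, e2]
  · have hint : Integrable (fun x => ‖fcX (fun y => U f (G.perm y)) x‖ ^ 2) muX :=
      hfc _ ((hU f hf).comp_measurePreserving hGm)
    have hmS : MeasurableSet (stepS s.M d h P')ᶜ ∨ True := Or.inr trivial
    refine ⟨?_, ?_, ?_, ?_⟩
    · show ms M'.Sᶜ (fun y => f (s'.H.perm y)) ≤ s.D1 f + e
      rw [hcomp]
      refine le_trans ?_ (F0 f hf)
      apply Real.sqrt_le_sqrt
      apply setIntegral_mono_set hint.integrableOn
      · exact Filter.Eventually.of_forall fun x => by positivity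
      · exact Filter.Eventually.of_forall fun x hx => fun h' => hx (hM1 h')
    · show ms M'.Salᶜ (fun y => f (s'.H.perm y)) ≤ s.D2 f + e
      rw [hcomp]
      refine le_trans ?_ (F1 f hf)
      apply Real.sqrt_le_sqrt
      apply setIntegral_mono_set hint.integrableOn
      · exact Filter.Eventually.of_forall fun x => by positivity
      · filter_upwards [hM3] with x hx hx' h'
        exact hx' (hx h')
    · show ms _ (fun y => f (s'.H.perm y)) ≤ s.D3 f + e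
      rw [hcomp]
      exact F2 f hf
    · show ms _ (fun y => f (s'.H.perm y)) ≤ e
      rw [hcomp]
      exact F3 f hf

end Crest.Agent.R081.St
end

-- ▼ part R081/TwLin
section

/-! Row 81, node EXPLICIT STEP: the linear involution `(c', θ1, θ2) ↦ (N θ1 - c', θ1, θ2)`. -/

set_option autoImplicit false

namespace Crest.Agent.R081.Tw

open scoped ContDiff
open MeasureTheory Crest.AnalysisR.Torus3 Crest.Agent.R081.Sm Crest.Agent.R081.Shear

theorem lin_smooth (N : ℕ) : ContDiff ℝ ∞ (fun x : E3 => (![N * x 1 - x 0, x 1, x 2] : E3)) := by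
  rw [contDiff_pi]
  intro i
  fin_cases i
  · exact (contDiff_const.mul (contDiff_apply ℝ ℝ (1 : Fin 3))).sub (contDiff_apply ℝ ℝ (0 : Fin 3))
  · exact contDiff_apply ℝ ℝ (1 : Fin 3)
  · exact contDiff_apply ℝ ℝ (2 : Fin 3)

theorem lin_per (N : ℕ) : Per (fun x : E3 => (![N * x 1 - x 0, x 1, x 2] : E3)) := by
  intro k
  refine ⟨![N * k 1 - k 0, k 1, k 2], fun x => ?_⟩
  funext i
  fin_cases i
  · simp; ring
  · simp
  · simp

theorem lin_lin (N : ℕ) (x : E3) :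
    (![N * (![N * x 1 - x 0, x 1, x 2] : E3) 1 - (![N * x 1 - x 0, x 1, x 2] : E3) 0,
      (![N * x 1 - x 0, x 1, x 2] : E3) 1, (![N * x 1 - x 0, x 1, x 2] : E3) 2] : E3) = x := by
  funext i
  fin_cases i <;> simp

/-- the involution `(c', θ1, θ2) ↦ (N θ1 - c', θ1, θ2)` -/
noncomputable def linLD (N : ℕ) : LD where
  F := fun x => ![N * x 1 - x 0, x 1, x 2]
  H := fun x => ![N * x 1 - x 0, x 1, x 2]
  hF := lin_smooth N
  hH := lin_smooth N
  pF := lin_per N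
  pH := lin_per N
  FH := lin_lin N
  HF := lin_lin N

theorem linLD_F (N : ℕ) (x : E3) : (linLD N).F x = ![N * x 1 - x 0, x 1, x 2] := rfl


/-- sign change of the first coordinate -/
noncomputable def negLD : LD where
  F := fun x => ![- x 0, x 1, x 2]
  H := fun x => ![- x 0, x 1, x 2]
  hF := by
    rw [contDiff_pi]
    intro i
    fin_cases i
    · exact (contDiff_apply ℝ ℝ (0 : Fin 3)).neg
    · exact contDiff_apply ℝ ℝ (1 : Fin 3)
    · exact contDiff_apply ℝ ℝ (2 : Fin 3)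
  hH := by
    rw [contDiff_pi]
    intro i
    fin_cases i
    · exact (contDiff_apply ℝ ℝ (0 : Fin 3)).neg
    · exact contDiff_apply ℝ ℝ (1 : Fin 3)
    · exact contDiff_apply ℝ ℝ (2 : Fin 3)
  pF := by
    intro k
    refine ⟨![- k 0, k 1, k 2], fun x => ?_⟩
    funext i
    fin_cases i
    · simp; ring
    · simp
    · simp
  pH := by
    intro k
    refine ⟨![- k 0, k 1, k 2], fun x => ?_⟩
    funext i
    fin_cases i
    · simp; ring
    · simp
    · simp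
  FH := fun x => by funext i; fin_cases i <;> simp
  HF := fun x => by funext i; fin_cases i <;> simp

theorem mp_negLD : MP negLD := by
  unfold MP
  have e : (⇑negLD.perm) = fun (y : T3) (i : Fin 3) =>
      (if i = 0 then (fun t : UnitAddCircle => - t) else id) (y i) := by
    funext y
    obtain ⟨x, rfl⟩ := proj_surj y
    rw [LD.perm_proj]
    funext i
    fin_cases i <;> simp [negLD, proj]
  rw [e]
  refine measurePreserving_pi (fun _ : Fin 3 => (volume : Measure UnitAddCircle))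
    (fun _ : Fin 3 => (volume : Measure UnitAddCircle))
    (f := fun i : Fin 3 => (if i = 0 then (fun t : UnitAddCircle => - t) else id)) ?_
  intro i
  by_cases hi : i = 0
  · simp only [hi, if_true]
    exact Measure.measurePreserving_neg _
  · simp only [hi, if_false]
    exact MeasurePreserving.id _

/-- `c += N θ1` -/
noncomputable def addLD (N : ℕ) : LD :=
  shLD { w := ![1, 0, 0]
         b := fun x => N * x 1
         smooth := contDiff_const.mul (contDiff_apply ℝ ℝ (1 : Fin 3))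
         per := fun m x => ⟨N * m 1, by push_cast; ring⟩
         inv := fun x s => by simp }
    (fun m => ⟨N * m 1, fun x => by push_cast; ring⟩)

theorem linLD_perm (N : ℕ) : (linLD N).perm = ((addLD N).comp negLD).perm := by
  ext1 y
  obtain ⟨x, rfl⟩ := proj_surj y
  rw [LD.perm_proj, LD.perm_proj]
  congr 1
  funext i
  fin_cases i
  · simp [linLD, LD.comp, addLD, negLD, shLD, ShearData.lift]; ring
  · simp [linLD, LD.comp, addLD, negLD, shLD, ShearData.lift]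
  · simp [linLD, LD.comp, addLD, negLD, shLD, ShearData.lift]

theorem mp_linLD (N : ℕ) : MP (linLD N) := by
  have h : MP ((addLD N).comp negLD) := (mp_shLD _ _).comp mp_negLD
  unfold MP at h ⊢
  rw [linLD_perm]
  exact h

end Crest.Agent.R081.Tw
end

-- ▼ part R081/TwStep
section

/-! Row 81, node EXPLICIT STEP: smoothness of `Γ`, the perm identity and the closeness statement. -/

set_option autoImplicit false

namespace Crest.Agent.R081.Tw

open scoped ContDiff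
open MeasureTheory Crest.AnalysisR.Torus3 Crest.Agent.R081.Sm Crest.Agent.R081.Shear

theorem contDiff_vec3 {E : Type} [NormedAddCommGroup E] [NormedSpace ℝ E] {f g k : E → ℝ}
    (hf : ContDiff ℝ ∞ f) (hg : ContDiff ℝ ∞ g) (hk : ContDiff ℝ ∞ k) :
    ContDiff ℝ ∞ (fun x => (![f x, g x, k x] : E3)) := by
  refine contDiff_pi.2 fun i => ?_
  fin_cases i
  · exact hf
  · exact hg
  · exact hk

namespace Dat

variable (D : Dat)

theorem contDiff_Bf : ContDiff ℝ ∞ (fun p : ℝ × (ℝ × ℝ) => D.Bf p.1 p.2) := by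
  unfold Bf
  refine (Word.contDiff_act D.q D.w).comp ?_
  have h1 : ContDiff ℝ ∞ (fun p : ℝ × (ℝ × ℝ) => D.β p.1) := D.β_smooth.comp contDiff_fst
  have h2 : ContDiff ℝ ∞ (fun p : ℝ × (ℝ × ℝ) => p.2.1) := contDiff_fst.comp contDiff_snd
  have h3 : ContDiff ℝ ∞ (fun p : ℝ × (ℝ × ℝ) => p.2.2) := contDiff_snd.comp contDiff_snd
  exact (h2.sub (h1.div_const _)).prodMk
    (h3.sub (h1.mul (D.hF.comp ((contDiff_const.mul h2).sub contDiff_fst))))

theorem contDiff_Bi : ContDiff ℝ ∞ (fun p : ℝ × (ℝ × ℝ) => D.Bi p.1 p.2) := by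
  unfold Bi
  have h0 : ContDiff ℝ ∞ (fun p : ℝ × (ℝ × ℝ) => Word.act D.q (Word.inv D.w) p.2) :=
    (Word.contDiff_act D.q _).comp contDiff_snd
  have h1 : ContDiff ℝ ∞ (fun p : ℝ × (ℝ × ℝ) => D.β p.1) := D.β_smooth.comp contDiff_fst
  have h2 : ContDiff ℝ ∞ (fun p : ℝ × (ℝ × ℝ) => (Word.act D.q (Word.inv D.w) p.2).1) :=
    contDiff_fst.comp h0
  have h3 : ContDiff ℝ ∞ (fun p : ℝ × (ℝ × ℝ) => (Word.act D.q (Word.inv D.w) p.2).2) :=
    contDiff_snd.comp h0
  have h4 := h2.add (h1.div_const (D.N : ℝ))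
  exact h4.prodMk (h3.add (h1.mul (D.hF.comp ((contDiff_const.mul h4).sub contDiff_fst))))

theorem contDiff_lf (P : ℤ) : ContDiff ℝ ∞ (fun p : (ℝ × ℝ) × (ℝ × ℝ) => D.lf P p.1.1 p.1.2 p.2) := by
  unfold lf
  have h1 : ContDiff ℝ ∞ (fun p : (ℝ × ℝ) × (ℝ × ℝ) => p.1.1) := contDiff_fst.comp contDiff_fst
  have h2 : ContDiff ℝ ∞ (fun p : (ℝ × ℝ) × (ℝ × ℝ) => p.1.2) := contDiff_snd.comp contDiff_fst
  have h3 : ContDiff ℝ ∞ (fun p : (ℝ × ℝ) × (ℝ × ℝ) => p.2.1) := contDiff_fst.comp contDiff_snd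
  have h4 : ContDiff ℝ ∞ (fun p : (ℝ × ℝ) × (ℝ × ℝ) => p.2.2) := contDiff_snd.comp contDiff_snd
  exact ((h3.add contDiff_const).add (h1.div_const _)).prodMk
    (h4.add (h1.mul (D.hF.comp ((contDiff_const.mul h3).sub h2))))

theorem contDiff_G (P : ℤ) : ContDiff ℝ ∞ (fun p : (ℝ × ℝ) × (ℝ × ℝ) => D.G P p.1.1 p.1.2 p.2) := by
  unfold G
  have h1 : ContDiff ℝ ∞ (fun p : (ℝ × ℝ) × (ℝ × ℝ) => p.1.1) := contDiff_fst.comp contDiff_fst
  have h2 : ContDiff ℝ ∞ (fun p : (ℝ × ℝ) × (ℝ × ℝ) => p.1.2) := contDiff_snd.comp contDiff_fst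
  have h3 : ContDiff ℝ ∞ (fun p : (ℝ × ℝ) × (ℝ × ℝ) => D.Bi p.1.2 p.2) :=
    D.contDiff_Bi.comp (h2.prodMk contDiff_snd)
  have h4 : ContDiff ℝ ∞ (fun p : (ℝ × ℝ) × (ℝ × ℝ) => D.lf P p.1.1 p.1.2 (D.Bi p.1.2 p.2)) :=
    (D.contDiff_lf P).comp (contDiff_fst.prodMk h3)
  exact D.contDiff_Bf.comp ((h2.add h1).prodMk h4)

theorem contDiff_Gam (σ : ℝ) (P : ℤ) :
    ContDiff ℝ ∞ (fun p : ℝ × ℝ × E3 => D.Gam σ P p.1 p.2.1 p.2.2) := by
  unfold Gam
  have hs : ContDiff ℝ ∞ (fun p : ℝ × ℝ × E3 => p.1) := contDiff_fst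
  have hb : ContDiff ℝ ∞ (fun p : ℝ × ℝ × E3 => p.2.1) := contDiff_fst.comp contDiff_snd
  have hx : ∀ i : Fin 3, ContDiff ℝ ∞ (fun p : ℝ × ℝ × E3 => p.2.2 i) := fun i =>
    (contDiff_apply ℝ ℝ i).comp (contDiff_snd.comp contDiff_snd)
  have hz : ContDiff ℝ ∞ (fun p : ℝ × ℝ × E3 => D.pr.z (p.2.2 0)) := D.pr.z_smooth.comp (hx 0)
  have hzt : ContDiff ℝ ∞ (fun p : ℝ × ℝ × E3 => D.pr.zt (p.2.2 0)) := D.pr.zt_smooth.comp (hx 0)
  have hzt2 : ContDiff ℝ ∞ (fun p : ℝ × ℝ × E3 => D.pr.zt (p.2.2 0 + p.1)) :=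
    D.pr.zt_smooth.comp ((hx 0).add hs)
  have hav : ContDiff ℝ ∞ (fun p : ℝ × ℝ × E3 => av D.ψ p.1 (p.2.2 0)) :=
    (av_smooth D.hψ).comp (hs.prodMk (hx 0))
  have hG : ContDiff ℝ ∞ (fun p : ℝ × ℝ × E3 =>
      D.G P p.1 (p.2.2 0) (p.2.2 1, p.2.2 2 + p.2.1 * D.pr.z (p.2.2 0))) :=
    (D.contDiff_G P).comp ((hs.prodMk (hx 0)).prodMk ((hx 1).prodMk ((hx 2).add (hb.mul hz))))
  exact contDiff_vec3 ((hx 0).add hs) (contDiff_fst.comp hG)
    ((contDiff_snd.comp hG).add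
      (((contDiff_const.mul hav).sub (hb.mul (hzt2.sub hzt))).sub (hb.mul hz)))

/-- `L = L_{P, 1/h}` -/
noncomputable def L (h : ℕ) : LD := D.LL D.P (1 / h)


/-- `K L K⁻¹` -/
noncomputable def C (h : ℕ) : LD := (D.K h).comp ((D.L h).comp (D.K h).inv)

theorem C_F (h : ℕ) (x : E3) : (D.C h).F x = (D.K h).F ((D.L h).F ((D.K h).H x)) := rfl
theorem C_H (h : ℕ) (x : E3) : (D.C h).H x = (D.K h).F ((D.L h).H ((D.K h).H x)) := rfl


theorem C_F_eq {h : ℕ} (hh : 0 < h) (h1 : 1 / (h : ℝ) < D.δ / 16) (x : E3) :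
    (D.C h).F x = D.Gam 1 D.P (1 / h) (D.Bh h) x := by
  have h0 : (0 : ℝ) < h := by exact_mod_cast hh
  rw [C_F, L]
  refine D.K_L_K h 1 D.P (1 / h) (by field_simp) ?_ x
  rw [abs_of_pos (by positivity)]
  exact h1

theorem C_H_eq {h : ℕ} (hh : 0 < h) (h1 : 1 / (h : ℝ) < D.δ / 16) (x : E3) :
    (D.C h).H x = D.Gam (-1) (-D.P) (-(1 / h)) (D.Bh h) x := by
  have h0 : (0 : ℝ) < h := by exact_mod_cast hh
  rw [C_H, L, LL_H]
  refine D.K_L_K h (-1) (-D.P) (-(1 / h)) (by field_simp) ?_ x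
  rw [abs_neg, abs_of_pos (by positivity)]
  exact h1

/-- **closeness of `K L K⁻¹` to `R_t`**, conjugated by a fixed `H` -/
theorem close (H : LD) (r : ℕ) {ε : ℝ} (hε : 0 < ε) :
    ∃ h0 : ℕ, 0 < h0 ∧ ∀ h : ℕ, h0 ≤ h →
      Bd r ε (fun x => (H.comp ((D.C h).comp H.inv)).F x - (H.comp (D.R.comp H.inv)).F x) ∧
      Bd r ε (fun x => (H.comp ((D.C h).comp H.inv)).H x - (H.comp (D.R.comp H.inv)).H x) := by
  obtain ⟨s1, hs1, h1⟩ := TwSoft.soft_conj' H (fun s b x => D.Gam 1 D.P s b x) D.R.F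
    (D.contDiff_Gam 1 D.P) D.R.hF (fun b x => D.Gam_one b x) (fun s b => D.Gam_equi _ _ s b)
    (by
      have : D.R.F = D.Gam 1 D.P 0 0 := funext fun x => (D.Gam_one 0 x).symm
      rw [this]; exact D.Gam_equi _ _ _ _) r hε
  obtain ⟨s2, hs2, h2⟩ := TwSoft.soft_conj' H (fun s b x => D.Gam (-1) (-D.P) s b x) D.R.H
    (D.contDiff_Gam (-1) (-D.P)) D.R.hH (fun b x => D.Gam_neg_one b x)
    (fun s b => D.Gam_equi _ _ s b)
    (by
      have : D.R.H = D.Gam (-1) (-D.P) 0 0 := funext fun x => (D.Gam_neg_one 0 x).symm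
      rw [this]; exact D.Gam_equi _ _ _ _) r hε
  obtain ⟨n, hn⟩ := exists_nat_gt (1 / (min (min s1 s2) (D.δ / 16)))
  have hm : 0 < min (min s1 s2) (D.δ / 16) := by
    have := D.hδ0
    positivity
  refine ⟨n + 1, Nat.succ_pos _, fun h hh => ?_⟩
  have hpos : (0 : ℝ) < h := by
    have : 0 < h := by omega
    exact_mod_cast this
  have hlt : 1 / (h : ℝ) < min (min s1 s2) (D.δ / 16) := by
    rw [div_lt_iff₀ hpos]
    have h3 : (n : ℝ) < h := by exact_mod_cast (by omega : n < h)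
    have h4 : 1 / (min (min s1 s2) (D.δ / 16)) < h := hn.trans h3
    rw [div_lt_iff₀ hm] at h4
    linarith
  have a1 : 1 / (h : ℝ) < s1 := hlt.trans_le ((min_le_left _ _).trans (min_le_left _ _))
  have a2 : 1 / (h : ℝ) < s2 := hlt.trans_le ((min_le_left _ _).trans (min_le_right _ _))
  have a3 : 1 / (h : ℝ) < D.δ / 16 := hlt.trans_le (min_le_right _ _)
  have hh0 : 0 < h := by omega
  constructor
  · have e : (fun x => (H.comp ((D.C h).comp H.inv)).F x - (H.comp (D.R.comp H.inv)).F x)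
        = fun x => H.F (D.Gam 1 D.P (1 / h) (D.Bh h) (H.H x)) - H.F (D.R.F (H.H x)) := by
      funext x
      show H.F ((D.C h).F (H.H x)) - H.F (D.R.F (H.H x)) = _
      rw [D.C_F_eq hh0 a3]
    rw [e]
    exact h1 (1 / h) (by rw [abs_of_pos (by positivity)]; exact a1.le) _ (D.Bh_mem h)
  · have e : (fun x => (H.comp ((D.C h).comp H.inv)).H x - (H.comp (D.R.comp H.inv)).H x)
        = fun x => H.F (D.Gam (-1) (-D.P) (-(1 / h)) (D.Bh h) (H.H x)) - H.F (D.R.H (H.H x)) := by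
      funext x
      show H.F ((D.C h).H (H.H x)) - H.F (D.R.H (H.H x)) = _
      rw [D.C_H_eq hh0 a3]
    rw [e]
    exact h2 (-(1 / h)) (by rw [abs_neg, abs_of_pos (by positivity)]; exact a2.le) _ (D.Bh_mem h)

/-! ### the new twist -/

/-- `R_{t+}`, `q_+ = h q''`, `ψ_+ = F/h` -/
noncomputable def Rp (h : ℕ) (Pp : ℤ) : LD :=
  twLD ((Pp : ℝ) / ((h * D.q2 : ℕ) : ℝ)) (fun c => D.F c / h) (D.hF.div_const _)
    (fun c => by rw [D.pF])

/-- `H_+ = H K Lin` -/
noncomputable def Hp (H : LD) (h : ℕ) : LD := H.comp ((D.K h).comp (linLD D.N))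


theorem lin_L_lin {h : ℕ} (hh : 0 < h) {Pp : ℤ} (hP : (D.q : ℤ) * Pp = D.P * h * D.q2 + 1) (x : E3) :
    (linLD D.N).F ((D.L h).F ((linLD D.N).F x)) = (D.Rp h Pp).F x + zv ![D.q2 * D.P, 0, 0] := by
  have h0 : (h : ℝ) ≠ 0 := by exact_mod_cast hh.ne'
  have hN := D.hN0
  have hq := D.hq0
  have hq2 : (D.q2 : ℝ) ≠ 0 := by exact_mod_cast D.hq2.ne'
  have hNe : (D.N : ℝ) = D.q * D.q2 := by unfold N; push_cast; ring
  have hP' : (D.q : ℝ) * Pp = D.P * h * D.q2 + 1 := by exact_mod_cast hP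
  rw [linLD_F, linLD_F, L, LL_F, Rp, twLD_F]
  funext i
  fin_cases i
  · simp [lf]
    rw [hNe]
    field_simp
    ring
  · simp [lf]
    rw [hNe]
    field_simp
    linear_combination (-1 : ℝ) * hP'
  · simp [lf]
    field_simp

theorem perm_lin_L_lin {h : ℕ} (hh : 0 < h) {Pp : ℤ} (hP : (D.q : ℤ) * Pp = D.P * h * D.q2 + 1) :
    (linLD D.N).perm * (D.L h).perm * (linLD D.N).perm = (D.Rp h Pp).perm := by
  ext1 y
  obtain ⟨x, rfl⟩ := proj_surj y
  rw [Equiv.Perm.mul_apply, Equiv.Perm.mul_apply, LD.perm_proj, LD.perm_proj, LD.perm_proj,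
    LD.perm_proj, D.lin_L_lin hh hP, proj_add_zv]

theorem lin_lin : (linLD D.N).perm * (linLD D.N).perm = 1 := by
  ext1 y
  obtain ⟨x, rfl⟩ := proj_surj y
  rw [Equiv.Perm.mul_apply, LD.perm_proj, LD.perm_proj, linLD_F, linLD_F]
  simp only [Equiv.Perm.one_apply]
  congr 1
  funext i
  fin_cases i <;> simp

/-- **the perm identity** `H_+ R_{t+} H_+⁻¹ = H (K L K⁻¹) H⁻¹` -/
theorem perm_eq (H : LD) {h : ℕ} (hh : 0 < h) {Pp : ℤ} (hP : (D.q : ℤ) * Pp = D.P * h * D.q2 + 1) :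
    ((D.Hp H h).comp ((D.Rp h Pp).comp (D.Hp H h).inv)).perm
      = (H.comp ((D.C h).comp H.inv)).perm := by
  have h1 := D.perm_lin_L_lin hh hP
  have h2 := D.lin_lin
  unfold Hp C
  simp only [LD.perm_comp, LD.perm_inv]
  rw [← h1]
  have h3 : (linLD D.N).perm⁻¹ = (linLD D.N).perm := by
    rw [inv_eq_iff_mul_eq_one]; exact h2
  simp only [mul_inv_rev, h3]
  have h4 : ∀ a b : Equiv.Perm T3, a * ((linLD D.N).perm * ((linLD D.N).perm * b)) = a * b := by
    intro a b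
    rw [← mul_assoc (linLD D.N).perm, h2, one_mul]
  simp only [mul_assoc, h4]

/-- **the explicit smooth step**: `T` any lift of `H R_t H⁻¹`; `T'` a lift of `H_+ R_{t+} H_+⁻¹` -/
theorem step (H T : LD) (hT : T.perm = (H.comp (D.R.comp H.inv)).perm) (r : ℕ) {ε : ℝ}
    (hε : 0 < ε) :
    ∃ h0 : ℕ, 0 < h0 ∧ ∀ h : ℕ, h0 ≤ h → ∀ Pp : ℤ, (D.q : ℤ) * Pp = D.P * h * D.q2 + 1 →
      ∃ T' : LD, T'.perm = ((D.Hp H h).comp ((D.Rp h Pp).comp (D.Hp H h).inv)).perm ∧
        Bd r ε (fun x => T'.F x - T.F x) ∧ Bd r ε (fun x => T'.H x - T.H x) := by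
  obtain ⟨h0, h0p, hh⟩ := D.close H r hε
  refine ⟨h0, h0p, fun h hle Pp hP => ?_⟩
  obtain ⟨b1, b2⟩ := hh h hle
  obtain ⟨T', e1, e2, e3⟩ := TwSoft.transfer T _ _ hT b1 b2
  exact ⟨T', by rw [e1, D.perm_eq H (by omega) hP], e2, e3⟩

/-! ### pointwise formulas for the coefficient computation -/

theorem K_lin_F (h : ℕ) (x : E3) :
    ((D.K h).comp (linLD D.N)).F x = ![D.N * x 1 - x 0,
      (Word.act D.q D.w (x 1 - D.β (D.N * x 1 - x 0) / D.N,
        x 2 - D.β (D.N * x 1 - x 0) * D.F (x 0))).1,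
      (Word.act D.q D.w (x 1 - D.β (D.N * x 1 - x 0) / D.N,
        x 2 - D.β (D.N * x 1 - x 0) * D.F (x 0))).2 + D.χ h (D.N * x 1 - x 0)] := by
  rw [comp_F, linLD_F, K_F]
  simp only [Matrix.cons_val_zero, Matrix.cons_val_one, Matrix.cons_val, Bf]
  rw [sub_sub_cancel]

end Dat

end Crest.Agent.R081.Tw
end

-- ▼ part R081/TwArith
section

/-! Row 81, node EXPLICIT STEP: arithmetic of the step and the explicit form of `χ` on the interval `J`. -/

set_option autoImplicit false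

namespace Crest.Agent.R081.Tw

open scoped ContDiff
open MeasureTheory Crest.AnalysisR.Torus3 Crest.Agent.R081.Sm Crest.Agent.R081.Shear

/-- arbitrarily large admissible `h` -/
theorem exists_h {q q2 : ℕ} {P : ℤ} (hq : 0 < q) (h1 : IsCoprime P (q : ℤ)) (h2 : Nat.Coprime q q2)
    (h0 : ℕ) : ∃ h : ℕ, h0 ≤ h ∧ 0 < h ∧ ∃ Pp : ℤ, (q : ℤ) * Pp = P * h * q2 + 1 := by
  have h3 : IsCoprime (P * q2) (q : ℤ) :=
    IsCoprime.mul_left h1 (Nat.Coprime.isCoprime h2).symm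
  obtain ⟨a, b, hab⟩ := h3
  -- a * (P q2) + b q = 1
  -- `h = - a + q k` with `k` large
  obtain ⟨k, hk⟩ : ∃ k : ℕ, (h0 : ℤ) + 1 ≤ - a + q * k := by
    refine ⟨(h0 : ℤ).toNat + 1 + a.natAbs, ?_⟩
    have hq1 : (1 : ℤ) ≤ q := by exact_mod_cast hq
    have ha : a ≤ (a.natAbs : ℤ) := Int.le_natAbs
    push_cast
    have h5 : (0 : ℤ) ≤ |a| := abs_nonneg a
    have h6 : a ≤ |a| := le_abs_self a
    have h7 : ((h0 : ℤ) + 1 + |a|) ≤ q * ((h0 : ℤ) + 1 + |a|) := by
      nlinarith [(Nat.cast_nonneg h0 : (0:ℤ) ≤ (h0 : ℤ))]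
    simp only [Int.toNat_natCast]
    linarith
  obtain ⟨h, hh⟩ : ∃ h : ℕ, (h : ℤ) = - a + q * k :=
    ⟨(- a + q * k).toNat, Int.toNat_of_nonneg (by linarith [(Nat.cast_nonneg h0 : (0:ℤ) ≤ (h0 : ℤ))])⟩
  refine ⟨h, ?_, ?_, b + P * q2 * k, ?_⟩
  · have : (h0 : ℤ) ≤ h := by rw [hh]; linarith
    exact_mod_cast this
  · have : (0 : ℤ) < h := by rw [hh]; linarith [(Nat.cast_nonneg h0 : (0:ℤ) ≤ (h0 : ℤ))]
    exact_mod_cast this
  · rw [hh]
    linear_combination hab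



namespace Dat

variable (D : Dat)

/-- the primitive of an affine function on `J` -/
theorem Psi_affine {α d : ℝ} (hψ : ∀ c, d ≤ c → c ≤ 1 - d → D.ψ c = α * (c - d)) {c : ℝ}
    (h1 : d ≤ c) (h2 : c ≤ 1 - d) :
    Psi D.ψ c = Psi D.ψ d + α * (c - d) ^ 2 / 2 := by
  have h3 := Psi_sub D.hψ.continuous d c
  have h4 : ∫ t in d..c, D.ψ t = ∫ t in d..c, α * (t - d) := by
    refine intervalIntegral.integral_congr fun t ht => ?_
    rw [Set.uIcc_of_le h1] at ht
    exact hψ t ht.1 (ht.2.trans h2)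
  have h5 : ∫ t in d..c, α * (t - d) = α * (c - d) ^ 2 / 2 := by
    rw [intervalIntegral.integral_const_mul,
      intervalIntegral.integral_comp_sub_right (fun t => t) d, integral_id]
    ring
  rw [h4, h5] at h3
  linarith

/-- **`χ_h` is quadratic on `J = [δ, 1-δ]`** -/
theorem χ_affine {α : ℝ} (hψ : ∀ c, D.δ ≤ c → c ≤ 1 - D.δ → D.ψ c = α * (c - D.δ)) (h : ℕ) {c : ℝ}
    (h1 : D.δ ≤ c) (h2 : c ≤ 1 - D.δ) :
    D.χ h c = (h * Psi D.ψ D.δ - D.Bh h) + h * α * (c - D.δ) ^ 2 / 2 := by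
  have h0 := D.hδ0
  rw [D.χ_eq h (by linarith) (by linarith), D.Psi_affine hψ h1 h2]
  ring

end Dat

end Crest.Agent.R081.Tw
end

-- ▼ part R081/TwStmt

/-! Row 81, node EXPLICIT STEP: the smooth step in the form of `StDefs`. -/

set_option autoImplicit false

namespace Crest.Agent.R081.Tw

open scoped ContDiff
open MeasureTheory Crest.AnalysisR.Torus3 Crest.Agent.R081.Sm Crest.Agent.R081.Shear
open Crest.Agent.R081.Fm

theorem perm_congr {A B : LD} (h : ∀ x, A.F x = B.F x) : A.perm = B.perm := by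
  ext1 y
  obtain ⟨x, rfl⟩ := proj_surj y
  rw [LD.perm_proj, LD.perm_proj, h]

/-- the data of the step from the design -/
noncomputable def datOf (t : St.TwD) {K : Finset (ℤ × ℤ)} {eps : ℝ} (d : St.Des t.q K eps) : Dat where
  q := t.q
  q2 := d.q2
  P := t.P
  w := d.w
  F := Fp d.v d.del
  ψ := t.psi
  δ := t.del
  hq := t.q_pos
  hq2 := d.q2_pos
  hF := Fp_smooth d.v d.del_pos
  pF := fun c => Fp_per d.v d.del c
  hψ := t.smooth
  pψ := t.per
  hδ0 := t.del_pos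
  hδ1 := t.del_lt
  zψ := t.zero

section
variable (t : St.TwD) {K : Finset (ℤ × ℤ)} {eps : ℝ} (d : St.Des t.q K eps)

/-- the step map `G = K ∘ Lin` -/
noncomputable def Gst (h : ℕ) : LD := ((datOf t d).K h).comp (linLD (datOf t d).N)

theorem mp_Gst (h : ℕ) : MP (Gst t d h) := ((datOf t d).mp_K h).comp (mp_linLD _)

theorem R_perm : (datOf t d).R.perm = t.R.perm :=
  perm_congr fun x => by rw [Dat.R_F]; rfl

theorem Rp_perm (h : ℕ) (hh : 0 < h) (P' : ℤ) (hP : t.q * P' = t.P * h * d.q2 + 1) :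
    ((datOf t d).Rp h P').perm = (d.tw h hh P' hP).R.perm :=
  perm_congr fun x => by rw [Dat.Rp, twLD_F]; rfl

noncomputable def gform (h : ℕ) : St.GForm d h (Gst t d h) where
  chi := (datOf t d).χ h
  bet := (datOf t d).β
  chi0 := h * Psi t.psi t.del - (datOf t d).Bh h
  chi_cont := ((datOf t d).χ_smooth h).continuous
  bet_cont := (datOf t d).β_smooth.continuous
  chi_per := fun c => ⟨_, (datOf t d).χ_per h c⟩
  bet_per := (datOf t d).β_per
  chi_J := fun c hc => (datOf t d).χ_affine (α := t.al) (fun c h1 h2 => t.lin c ⟨h1, h2⟩) h hc.1 hc.2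
  bet_J := fun c hc => by
    have h0 := t.del_pos
    have := (datOf t d).β_eq (c := c) (m := 0) (by
      push_cast; show t.del / 8 ≤ c - 0; linarith [hc.1]) (by
      push_cast; show c - 0 ≤ 1 - t.del / 8; linarith [hc.2])
    rw [this]; simp
  form := fun c' t1 t2 => by
    unfold P3 Gst
    rw [LD.perm_proj, Dat.K_lin_F]
    have hN : ((datOf t d).N : ℝ) = t.q * d.q2 := by
      unfold Dat.N; push_cast; rfl
    simp only [Matrix.cons_val_zero, Matrix.cons_val_one, Matrix.cons_val]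
    rw [hN]
    congr 2
    rw [add_comm ((datOf t d).χ h _)]
    rfl

theorem perm_TT (t : St.TwD) (H : LD) : (St.TT t H).perm = H.perm * (t.R.perm * H.perm⁻¹) := by
  unfold St.TT
  rw [LD.perm_comp, LD.perm_comp, LD.perm_inv, mul_assoc]

/-- **the smooth step** -/
theorem smooth_step (H T : LD) (hT : T.perm = (St.TT t H).perm) (r : ℕ) {e : ℝ} (he : 0 < e) :
    ∃ h0 : ℕ, ∀ (h : ℕ) (hh : 0 < h), h0 ≤ h → ∀ (P' : ℤ) (hP : t.q * P' = t.P * h * d.q2 + 1),
      ∃ G T' : LD, MP G ∧ Nonempty (St.GForm d h G) ∧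
        T'.perm = (St.TT (d.tw h hh P' hP) (H.comp G)).perm ∧
        Bd r e (fun x => T'.F x - T.F x) ∧ Bd r e (fun x => T'.H x - T.H x) := by
  obtain ⟨h0, h0p, hstep⟩ := (datOf t d).step H T (by
    rw [hT, perm_TT, LD.perm_comp, LD.perm_comp, LD.perm_inv, R_perm]) r he
  refine ⟨h0, fun h hh hle P' hP => ?_⟩
  obtain ⟨T', e1, e2, e3⟩ := hstep h hle P' hP
  refine ⟨Gst t d h, T', mp_Gst t d h, ⟨gform t d h⟩, ?_, e2, e3⟩
  rw [e1, perm_TT, LD.perm_comp, LD.perm_comp, LD.perm_inv, Rp_perm t d h hh P' hP]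
  rfl

end

/-- **SmoothStmt** -/
theorem smoothStmt : St.SmoothStmt :=
  fun t H T hT _ _ d r _ he => smooth_step t d H T hT r he

end Crest.Agent.R081.Tw
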